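import Mathlib

set_option linter.all false

section

/-!
# P244-ST : the conformal gauge system (interface definitions)

Base sphere `S^{p+1}` (height function `x ∈ [-1,1]`), fibre sphere `S^p`; the metric is
`e^{2ω} g_{S^{p+1}} + e^{2F} g_{S^p}`, with `ω, F` functions of `(t,x)`, even in `x`.
-/

open Set
open scoped ContDiff

namespace Vale.Agent.P244.ST

/-- `x`-derivative of a function on `[-1,1]`. -/
noncomputable def dx (h : ℝ → ℝ) (x : ℝ) : ℝ := derivWithin h (Icc (-1) 1) x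

/-- Laplacian of `S^{p+1}` on functions of the height `x`. -/
noncomputable def lap (p : ℕ) (h : ℝ → ℝ) (x : ℝ) : ℝ :=
  (1 - x ^ 2) * dx (dx h) x - ((p : ℝ) + 1) * x * dx h x

/-- The integrand of the nonlocal gauge term. -/
noncomputable def Jd (p : ℕ) (w f : ℝ → ℝ) (y : ℝ) : ℝ :=
  Real.exp (-2 * w y) * (((p : ℝ) - 1) * (dx w y) ^ 2 + (p : ℝ) * (dx f y) ^ 2)

/-- The nonlocal gauge term `J`. -/
noncomputable def Jf (p : ℕ) (w f : ℝ → ℝ) (x : ℝ) : ℝ := ∫ y in (0 : ℝ)..x, Jd p w f y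

/-- Right-hand side of the equation for `ω`. -/
noncomputable def rhsW (p : ℕ) (w f : ℝ → ℝ) (x : ℝ) : ℝ :=
  Real.exp (-2 * w x) * (lap p w x - p) + (x - (1 - x ^ 2) * dx w x) * Jf p w f x

/-- Right-hand side of the equation for `F`. -/
noncomputable def rhsF (p : ℕ) (w f : ℝ → ℝ) (x : ℝ) : ℝ :=
  Real.exp (-2 * w x) * lap p f x - ((p : ℝ) - 1) * Real.exp (-2 * f x)
    - (1 - x ^ 2) * dx f x * Jf p w f x

/-- Smooth even initial data on `[-1,1]`. -/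
structure ConfData (w f : ℝ → ℝ) : Prop where
  smooth_w : ContDiffOn ℝ ∞ w (Icc (-1) 1)
  smooth_f : ContDiffOn ℝ ∞ f (Icc (-1) 1)
  even_w : ∀ x ∈ Icc (-1 : ℝ) 1, w (-x) = w x
  even_f : ∀ x ∈ Icc (-1 : ℝ) 1, f (-x) = f x

/-- Smooth solution of the conformal gauge system on `[0,T) × [-1,1]` (time first). -/
structure ConfSol (p : ℕ) (w f : ℝ → ℝ → ℝ) (T : ℝ) : Prop where
  smooth_w : ContDiffOn ℝ ∞ (fun z : ℝ × ℝ => w z.1 z.2) (Ico 0 T ×ˢ Icc (-1) 1)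
  smooth_f : ContDiffOn ℝ ∞ (fun z : ℝ × ℝ => f z.1 z.2) (Ico 0 T ×ˢ Icc (-1) 1)
  even_w : ∀ t ∈ Ico 0 T, ∀ x ∈ Icc (-1 : ℝ) 1, w t (-x) = w t x
  even_f : ∀ t ∈ Ico 0 T, ∀ x ∈ Icc (-1 : ℝ) 1, f t (-x) = f t x
  eq_w : ∀ t ∈ Ico 0 T, ∀ x ∈ Icc (-1 : ℝ) 1,
    HasDerivWithinAt (fun s => w s x) (rhsW p (w t) (f t) x) (Ico 0 T) t
  eq_f : ∀ t ∈ Ico 0 T, ∀ x ∈ Icc (-1 : ℝ) 1,
    HasDerivWithinAt (fun s => f s x) (rhsF p (w t) (f t) x) (Ico 0 T) t

/-- The `C^1` size of `(w,f)` at the point `x`. -/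
noncomputable def size1 (w f : ℝ → ℝ) (x : ℝ) : ℝ :=
  |w x| + |f x| + |dx w x| + |dx f x|

/-- INTERFACE L1 (existence and continuation). -/
def L1Statement : Prop :=
  ∀ p : ℕ, 2 ≤ p → ∀ w₀ f₀ : ℝ → ℝ, ConfData w₀ f₀ →
    ∃ T ∈ Ioc (0 : ℝ) 1, ∃ w f : ℝ → ℝ → ℝ, ConfSol p w f T ∧
      (∀ x ∈ Icc (-1 : ℝ) 1, w 0 x = w₀ x ∧ f 0 x = f₀ x) ∧
      (T = 1 ∨ ∀ A : ℝ, ∃ t ∈ Ico 0 T, ∃ x ∈ Icc (-1 : ℝ) 1, A < size1 (w t) (f t) x)

/-- INTERFACE L2 (uniqueness). -/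
def L2Statement : Prop :=
  ∀ p : ℕ, 2 ≤ p → ∀ T > 0, ∀ w f w' f' : ℝ → ℝ → ℝ, ConfSol p w f T → ConfSol p w' f' T →
    (∀ x ∈ Icc (-1 : ℝ) 1, w 0 x = w' 0 x ∧ f 0 x = f' 0 x) →
    ∀ t ∈ Ico 0 T, ∀ x ∈ Icc (-1 : ℝ) 1, w t x = w' t x ∧ f t x = f' t x

/-- INTERFACE L3 (continuous dependence on parameters, in `C^1`): `Tm b` is the life time of
the solution with data `b`, as produced by L1. -/
def L3Statement : Prop :=
  ∀ p : ℕ, 2 ≤ p → ∀ (B : Set (Fin 3 → ℝ)), IsCompact B →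
    ∀ w₀ f₀ : (Fin 3 → ℝ) → ℝ → ℝ,
    ContDiffOn ℝ ∞ (fun z : (Fin 3 → ℝ) × ℝ => w₀ z.1 z.2) (univ ×ˢ Icc (-1) 1) →
    ContDiffOn ℝ ∞ (fun z : (Fin 3 → ℝ) × ℝ => f₀ z.1 z.2) (univ ×ˢ Icc (-1) 1) →
    ∀ (Tm : (Fin 3 → ℝ) → ℝ) (w f : (Fin 3 → ℝ) → ℝ → ℝ → ℝ),
    (∀ b ∈ B, ConfData (w₀ b) (f₀ b) ∧ Tm b ∈ Ioc (0 : ℝ) 1 ∧ ConfSol p (w b) (f b) (Tm b) ∧
      (∀ x ∈ Icc (-1 : ℝ) 1, w b 0 x = w₀ b x ∧ f b 0 x = f₀ b x) ∧
      (Tm b = 1 ∨ ∀ A : ℝ, ∃ t ∈ Ico 0 (Tm b), ∃ x ∈ Icc (-1 : ℝ) 1,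
        A < size1 (w b t) (f b t) x)) →
    ∀ b ∈ B, ∀ T₁ ∈ Ico 0 (Tm b), ∀ ε > 0, ∀ᶠ b' in nhdsWithin b B, T₁ < Tm b' ∧
      ∀ t ∈ Icc 0 T₁, ∀ x ∈ Icc (-1 : ℝ) 1,
        |w b' t x - w b t x| ≤ ε ∧ |f b' t x - f b t x| ≤ ε ∧
        |dx (w b' t) x - dx (w b t) x| ≤ ε ∧ |dx (f b' t) x - dx (f b t) x| ≤ ε

/-! ### Curvature of the conformal gauge metric -/

/-- `a = (p-1) ω_x + p F_x`. -/
noncomputable def gx (p : ℕ) (w f : ℝ → ℝ) (x : ℝ) : ℝ :=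
  ((p : ℝ) - 1) * dx w x + (p : ℝ) * dx f x

/-- Ricci curvature (eigenvalue) in the direction of the fibre `S^p`. -/
noncomputable def ric1 (p : ℕ) (w f : ℝ → ℝ) (x : ℝ) : ℝ :=
  -(Real.exp (-2 * w x) * (lap p f x + (1 - x ^ 2) * dx f x * gx p w f x))
    + ((p : ℝ) - 1) * Real.exp (-2 * f x)

/-- Ricci curvature (eigenvalue) tangent to the latitude spheres `S^p` of the base. -/
noncomputable def ric2 (p : ℕ) (w f : ℝ → ℝ) (x : ℝ) : ℝ :=
  -(Real.exp (-2 * w x) * (lap p w x - p - x * gx p w f x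
      + (1 - x ^ 2) * dx w x * gx p w f x))

/-- Ricci curvature (eigenvalue) in the meridian direction. -/
noncomputable def ric0 (p : ℕ) (w f : ℝ → ℝ) (x : ℝ) : ℝ :=
  ric2 p w f x - Real.exp (-2 * w x) * (1 - x ^ 2) *
    (((p : ℝ) - 1) * (dx (dx w) x - (dx w x) ^ 2)
      + (p : ℝ) * (dx (dx f) x + (dx f x) ^ 2 - 2 * dx w x * dx f x))

/-- Scalar curvature. -/
noncomputable def scal (p : ℕ) (w f : ℝ → ℝ) (x : ℝ) : ℝ :=
  ric0 p w f x + (p : ℝ) * ric1 p w f x + (p : ℝ) * ric2 p w f x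

end Vale.Agent.P244.ST
end

section

/-!
# P244-L : basic calculus on `[-1,1]`
-/

open Set Filter Topology
open scoped ContDiff

namespace Vale.Agent.P244.LW
open Vale.Agent.P244.ST

/-- smooth on `[-1,1]` -/
def Sm (u : ℝ → ℝ) : Prop := ContDiffOn ℝ ∞ u (Icc (-1) 1)

/-- `j`-th derivative on `[-1,1]` -/
noncomputable def dn (j : ℕ) (u : ℝ → ℝ) : ℝ → ℝ := dx^[j] u

/-- `|D^i u| ≤ K` on `[-1,1]` for all `i ≤ j` -/
def Bd (j : ℕ) (K : ℝ) (u : ℝ → ℝ) : Prop :=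
  ∀ i ≤ j, ∀ x ∈ Icc (-1 : ℝ) 1, |dn i u x| ≤ K

/-- `L_d u = (1-x²) u'' - d x u'` -/
noncomputable def Ld (d : ℝ) (u : ℝ → ℝ) (x : ℝ) : ℝ :=
  (1 - x ^ 2) * dx (dx u) x - d * x * dx u x

theorem lap_eq (p : ℕ) (u : ℝ → ℝ) : lap p u = Ld ((p : ℝ) + 1) u := rfl

theorem uI : UniqueDiffOn ℝ (Icc (-1 : ℝ) 1) := uniqueDiffOn_Icc (by norm_num)

@[simp] theorem dn_zero (u : ℝ → ℝ) : dn 0 u = u := rfl
theorem dn_one (u : ℝ → ℝ) : dn 1 u = dx u := rfl
theorem dn_succ (j : ℕ) (u : ℝ → ℝ) : dn (j + 1) u = dn j (dx u) := rfl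
theorem dn_succ' (j : ℕ) (u : ℝ → ℝ) : dn (j + 1) u = dx (dn j u) :=
  Function.iterate_succ_apply' _ _ _
theorem Sm.dx {u : ℝ → ℝ} (h : Sm u) : Sm (dx u) :=
  ContDiffOn.derivWithin h uI (by simp)

theorem Sm.dn {u : ℝ → ℝ} (h : Sm u) (j : ℕ) : Sm (dn j u) := by
  induction j with
  | zero => exact h
  | succ j ih => rw [dn_succ']; exact ih.dx

theorem Sm.cont {u : ℝ → ℝ} (h : Sm u) : ContinuousOn u (Icc (-1) 1) := h.continuousOn

theorem Sm.diffOn {u : ℝ → ℝ} (h : Sm u) : DifferentiableOn ℝ u (Icc (-1) 1) :=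
  h.differentiableOn (by simp)

theorem Sm.hd {u : ℝ → ℝ} (h : Sm u) {x : ℝ} (hx : x ∈ Icc (-1 : ℝ) 1) :
    HasDerivWithinAt u (ST.dx u x) (Icc (-1) 1) x :=
  (h.diffOn x hx).hasDerivWithinAt

theorem dx_of_hd {u : ℝ → ℝ} {u' x : ℝ} (hx : x ∈ Icc (-1 : ℝ) 1)
    (h : HasDerivWithinAt u u' (Icc (-1) 1) x) : ST.dx u x = u' :=
  h.derivWithin (uI x hx)

theorem dx_congr {u v : ℝ → ℝ} (h : ∀ x ∈ Icc (-1 : ℝ) 1, u x = v x) {x : ℝ}
    (hx : x ∈ Icc (-1 : ℝ) 1) : dx u x = dx v x :=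
  derivWithin_congr (fun y hy => h y hy) (h x hx)

theorem dn_congr {u v : ℝ → ℝ} (h : ∀ x ∈ Icc (-1 : ℝ) 1, u x = v x) (j : ℕ) :
    ∀ x ∈ Icc (-1 : ℝ) 1, dn j u x = dn j v x := by
  induction j with
  | zero => exact h
  | succ j ih => intro x hx; rw [dn_succ', dn_succ']; exact dx_congr ih hx

theorem Sm.congr {u v : ℝ → ℝ} (hu : Sm u) (h : ∀ x ∈ Icc (-1 : ℝ) 1, v x = u x) : Sm v :=
  ContDiffOn.congr hu h

theorem Ld_congr {d : ℝ} {u v : ℝ → ℝ} (h : ∀ x ∈ Icc (-1 : ℝ) 1, u x = v x) {x : ℝ}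
    (hx : x ∈ Icc (-1 : ℝ) 1) : Ld d u x = Ld d v x := by
  unfold Ld
  rw [dx_congr h hx, dx_congr (fun y hy => dx_congr h hy) hx]

/-! ### closure -/

theorem Sm.const (c : ℝ) : Sm (fun _ => c) := contDiffOn_const
theorem Sm.id : Sm (fun x => x) := contDiffOn_id
theorem Sm.add {u v : ℝ → ℝ} (hu : Sm u) (hv : Sm v) : Sm (fun x => u x + v x) :=
  ContDiffOn.add hu hv
theorem Sm.sub {u v : ℝ → ℝ} (hu : Sm u) (hv : Sm v) : Sm (fun x => u x - v x) :=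
  ContDiffOn.sub hu hv
theorem Sm.mul {u v : ℝ → ℝ} (hu : Sm u) (hv : Sm v) : Sm (fun x => u x * v x) :=
  ContDiffOn.mul hu hv
theorem Sm.neg {u : ℝ → ℝ} (hu : Sm u) : Sm (fun x => -u x) := ContDiffOn.neg hu
theorem Sm.cmul {u : ℝ → ℝ} (c : ℝ) (hu : Sm u) : Sm (fun x => c * u x) := (Sm.const c).mul hu
theorem Sm.pow {u : ℝ → ℝ} (hu : Sm u) (n : ℕ) : Sm (fun x => u x ^ n) := ContDiffOn.pow hu n
theorem Sm.exp {u : ℝ → ℝ} (hu : Sm u) : Sm (fun x => Real.exp (u x)) := ContDiffOn.exp hu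
theorem Sm.sxx : Sm (fun x => 1 - x ^ 2) := (Sm.const 1).sub (Sm.id.pow 2)

theorem Sm.Ld {u : ℝ → ℝ} (hu : Sm u) (d : ℝ) : Sm (Ld d u) :=
  (Sm.sxx.mul hu.dx.dx).sub (((Sm.const d).mul Sm.id).mul hu.dx)

/-! ### derivative rules on `[-1,1]` -/

section rules
variable {u v : ℝ → ℝ} {x : ℝ}

theorem dx_const (c : ℝ) (x : ℝ) : dx (fun _ => c) x = 0 := by
  unfold ST.dx; simp

theorem dx_id (hx : x ∈ Icc (-1 : ℝ) 1) : dx (fun y => y) x = 1 :=
  dx_of_hd hx (hasDerivWithinAt_id x _)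

theorem dx_add (hu : Sm u) (hv : Sm v) (hx : x ∈ Icc (-1 : ℝ) 1) :
    dx (fun y => u y + v y) x = dx u x + dx v x :=
  dx_of_hd hx ((hu.hd hx).add (hv.hd hx))

theorem dx_sub (hu : Sm u) (hv : Sm v) (hx : x ∈ Icc (-1 : ℝ) 1) :
    dx (fun y => u y - v y) x = dx u x - dx v x :=
  dx_of_hd hx ((hu.hd hx).sub (hv.hd hx))

theorem dx_mul (hu : Sm u) (hv : Sm v) (hx : x ∈ Icc (-1 : ℝ) 1) :
    dx (fun y => u y * v y) x = dx u x * v x + u x * dx v x :=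
  dx_of_hd hx ((hu.hd hx).mul (hv.hd hx))

theorem dx_neg (hu : Sm u) (hx : x ∈ Icc (-1 : ℝ) 1) :
    dx (fun y => -u y) x = -dx u x :=
  dx_of_hd hx (hu.hd hx).neg

theorem dx_cmul (c : ℝ) (hu : Sm u) (hx : x ∈ Icc (-1 : ℝ) 1) :
    dx (fun y => c * u y) x = c * dx u x :=
  dx_of_hd hx ((hu.hd hx).const_mul c)

theorem dx_exp (hu : Sm u) (hx : x ∈ Icc (-1 : ℝ) 1) :
    dx (fun y => Real.exp (u y)) x = Real.exp (u x) * dx u x :=
  dx_of_hd hx (hu.hd hx).exp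

theorem dx_sq (hu : Sm u) (hx : x ∈ Icc (-1 : ℝ) 1) :
    dx (fun y => u y ^ 2) x = 2 * u x * dx u x := by
  have h := dx_mul hu hu hx
  rw [dx_congr (fun y _ => (sq (u y))) hx, h]; ring

theorem dx_sxx (hx : x ∈ Icc (-1 : ℝ) 1) : dx (fun y => 1 - y ^ 2) x = -2 * x := by
  have := dx_sub (Sm.const 1) (Sm.id.pow 2) hx
  rw [this, dx_const, dx_sq Sm.id hx, dx_id hx]; ring

theorem dn_add (hu : Sm u) (hv : Sm v) (j : ℕ) :
    ∀ x ∈ Icc (-1 : ℝ) 1, dn j (fun y => u y + v y) x = dn j u x + dn j v x := by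
  induction j with
  | zero => intro x _; rfl
  | succ j ih =>
    intro x hx
    rw [dn_succ', dn_succ', dn_succ', dx_congr ih hx, dx_add (hu.dn j) (hv.dn j) hx]

theorem dn_cmul (c : ℝ) (hu : Sm u) (j : ℕ) :
    ∀ x ∈ Icc (-1 : ℝ) 1, dn j (fun y => c * u y) x = c * dn j u x := by
  induction j with
  | zero => intro x _; rfl
  | succ j ih =>
    intro x hx
    rw [dn_succ', dn_succ', dx_congr ih hx, dx_cmul c (hu.dn j) hx]

/-- Leibniz formula. -/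
theorem dn_mul (hu : Sm u) (hv : Sm v) (j : ℕ) :
    ∀ x ∈ Icc (-1 : ℝ) 1, dn j (fun y => u y * v y) x =
      ∑ i ∈ Finset.range (j + 1), (j.choose i : ℝ) * dn i u x * dn (j - i) v x := by
  intro x hx
  have e : ∀ (k : ℕ) (w : ℝ → ℝ), dn k w x = iteratedDerivWithin k w (Icc (-1) 1) x := by
    intro k w
    rw [iteratedDerivWithin_eq_iterate]; rfl
  rw [e]
  have := iteratedDerivWithin_mul (n := j) hx uI
    ((hu.of_le (by exact_mod_cast le_top) : ContDiffOn ℝ j u _) x hx)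
    ((hv.of_le (by exact_mod_cast le_top) : ContDiffOn ℝ j v _) x hx)
  rw [show (fun y => u y * v y) = u * v from rfl, this]
  simp only [e]

end rules

/-- intertwining `D L_d = (L_{d+2} - d) D` -/
theorem dx_Ld {u : ℝ → ℝ} (hu : Sm u) (d : ℝ) {x : ℝ} (hx : x ∈ Icc (-1 : ℝ) 1) :
    dx (Ld d u) x = Ld (d + 2) (dx u) x - d * dx u x := by
  have h1 : dx (Ld d u) x = dx (fun y => (1 - y ^ 2) * dx (dx u) y - d * (y * dx u y)) x := by
    apply dx_congr _ hx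
    intro y _; unfold Ld; ring
  rw [h1, dx_sub (Sm.sxx.mul hu.dx.dx) ((Sm.id.mul hu.dx).cmul d) hx,
    dx_mul Sm.sxx hu.dx.dx hx, dx_cmul d (Sm.id.mul hu.dx) hx, dx_mul Sm.id hu.dx hx,
    dx_sxx hx, dx_id hx]
  unfold Ld; ring

/-! ### maximum points -/

theorem Sm.exists_bd {u : ℝ → ℝ} (hu : Sm u) :
    ∃ K : ℝ, 0 ≤ K ∧ ∀ x ∈ Icc (-1 : ℝ) 1, |u x| ≤ K := by
  obtain ⟨x₀, h, h'⟩ := isCompact_Icc.exists_isMaxOn (nonempty_Icc.2 (by norm_num)) hu.cont.abs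
  exact ⟨|u x₀|, abs_nonneg _, fun x hx => h' hx⟩

theorem Sm.exists_Bd {u : ℝ → ℝ} (hu : Sm u) (j : ℕ) : ∃ K : ℝ, 0 ≤ K ∧ Bd j K u := by
  induction j with
  | zero =>
    obtain ⟨K, h0, hK⟩ := hu.exists_bd
    exact ⟨K, h0, fun i hi x hx => by rw [Nat.le_zero.1 hi]; exact hK x hx⟩
  | succ j ih =>
    obtain ⟨K, h0, hK⟩ := ih
    obtain ⟨K', h0', hK'⟩ := (hu.dn (j + 1)).exists_bd
    refine ⟨max K K', le_max_of_le_left h0, fun i hi x hx => ?_⟩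
    rcases Nat.le_succ_iff.1 hi with h | h
    · exact (hK i h x hx).trans (le_max_left _ _)
    · rw [h]; exact (hK' x hx).trans (le_max_right _ _)

theorem Bd.mono {j : ℕ} {K K' : ℝ} {u : ℝ → ℝ} (h : Bd j K u) (hK : K ≤ K') : Bd j K' u :=
  fun i hi x hx => (h i hi x hx).trans hK

theorem Bd.le_idx {i j : ℕ} {K : ℝ} {u : ℝ → ℝ} (h : Bd j K u) (hij : i ≤ j) : Bd i K u :=
  fun k hk x hx => h k (hk.trans hij) x hx

theorem Bd.nonneg {j : ℕ} {K : ℝ} {u : ℝ → ℝ} (h : Bd j K u) : 0 ≤ K :=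
  (abs_nonneg _).trans (h 0 (Nat.zero_le _) 0 ⟨by norm_num, by norm_num⟩)

theorem Bd.congr {j : ℕ} {K : ℝ} {u v : ℝ → ℝ} (h : Bd j K u)
    (huv : ∀ x ∈ Icc (-1 : ℝ) 1, v x = u x) : Bd j K v :=
  fun i hi x hx => by rw [dn_congr huv i x hx]; exact h i hi x hx

/-- At a maximum point: `(1-x²) V' = 0` and `L_d V ≤ 0`. -/
theorem max_pt {V : ℝ → ℝ} (hV : Sm V) {x₀ : ℝ} (hx₀ : x₀ ∈ Icc (-1 : ℝ) 1)
    (hm : ∀ x ∈ Icc (-1 : ℝ) 1, V x ≤ V x₀) :
    (1 - x₀ ^ 2) * dx V x₀ = 0 ∧ ∀ d : ℝ, 0 ≤ d → Ld d V x₀ ≤ 0 := by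
  have hI : Convex ℝ (Icc (-1 : ℝ) 1) := convex_Icc _ _
  rcases eq_or_lt_of_le hx₀.1 with h1 | h1
  · -- left endpoint
    subst h1
    refine ⟨by norm_num, fun d hd => ?_⟩
    have : dx V (-1) ≤ 0 := by
      have h := hV.hd (x := -1) ⟨le_rfl, by norm_num⟩
      have h2 : Tendsto (slope V (-1)) (𝓝[Icc (-1) 1 \ {-1}] (-1)) (𝓝 (dx V (-1))) :=
        hasDerivWithinAt_iff_tendsto_slope.1 h
      have hne : (𝓝[Icc (-1 : ℝ) 1 \ {-1}] (-1)).NeBot := by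
        have : Icc (-1 : ℝ) 1 \ {-1} = Ioc (-1) 1 := by
          ext y; simp only [Set.mem_sdiff, mem_Icc, mem_singleton_iff, mem_Ioc]
          constructor
          · rintro ⟨⟨a, b⟩, c⟩; exact ⟨lt_of_le_of_ne a (Ne.symm c), b⟩
          · rintro ⟨a, b⟩; exact ⟨⟨a.le, b⟩, a.ne'⟩
        rw [this]
        exact left_nhdsWithin_Ioc_neBot (by norm_num)
      refine le_of_tendsto h2 ?_
      filter_upwards [self_mem_nhdsWithin] with y hy
      rw [slope_def_field]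
      have hy1 : -1 < y := lt_of_le_of_ne hy.1.1 (fun h => hy.2 h.symm)
      exact div_nonpos_of_nonpos_of_nonneg (by linarith only [hm, hy, hm y hy.1]) (by linarith only [hy1])
    unfold Ld
    norm_num
    exact mul_nonpos_of_nonneg_of_nonpos hd this
  rcases eq_or_lt_of_le hx₀.2 with h2 | h2
  · subst h2
    refine ⟨by norm_num, fun d hd => ?_⟩
    have : 0 ≤ dx V 1 := by
      have h := hV.hd (x := 1) ⟨by norm_num, le_rfl⟩
      have h2 : Tendsto (slope V 1) (𝓝[Icc (-1) 1 \ {1}] 1) (𝓝 (dx V 1)) :=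
        hasDerivWithinAt_iff_tendsto_slope.1 h
      have hne : (𝓝[Icc (-1 : ℝ) 1 \ {1}] 1).NeBot := by
        have : Icc (-1 : ℝ) 1 \ {1} = Ico (-1) 1 := by
          ext y; simp only [Set.mem_sdiff, mem_Icc, mem_singleton_iff, mem_Ico]
          constructor
          · rintro ⟨⟨a, b⟩, c⟩; exact ⟨a, lt_of_le_of_ne b c⟩
          · rintro ⟨a, b⟩; exact ⟨⟨a, b.le⟩, b.ne⟩
        rw [this]
        exact right_nhdsWithin_Ico_neBot (by norm_num)
      refine ge_of_tendsto h2 ?_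
      filter_upwards [self_mem_nhdsWithin] with y hy
      rw [slope_def_field]
      have hy1 : y < 1 := lt_of_le_of_ne hy.1.2 hy.2
      exact div_nonneg_of_nonpos (by linarith only [hm, hy, hm y hy.1]) (by linarith only [hy1])
    unfold Ld
    norm_num
    exact mul_nonneg hd this
  · -- interior
    have hnhds : Icc (-1 : ℝ) 1 ∈ 𝓝 x₀ := Icc_mem_nhds h1 h2
    have hloc : IsLocalMax V x₀ := by
      filter_upwards [hnhds] with y hy using hm y hy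
    have hd0 : HasDerivAt V (dx V x₀) x₀ := (hV.hd hx₀).hasDerivAt hnhds
    have h0 : dx V x₀ = 0 := hloc.hasDerivAt_eq_zero hd0
    have hd1 : HasDerivAt (dx V) (dx (dx V) x₀) x₀ := (hV.dx.hd hx₀).hasDerivAt hnhds
    have h3 : dx (dx V) x₀ ≤ 0 := by
      by_contra hpos
      push Not at hpos
      -- second derivative test
      have hev : ∀ᶠ y in 𝓝[>] x₀, 0 < dx V y := by
        have h4 := hasDerivAt_iff_tendsto_slope.1 hd1
        have h5 : ∀ᶠ y in 𝓝[≠] x₀, 0 < slope (dx V) x₀ y := h4.eventually (lt_mem_nhds hpos)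
        have h6 : ∀ᶠ y in 𝓝[>] x₀, 0 < slope (dx V) x₀ y :=
          h5.filter_mono (nhdsWithin_mono _ (fun y hy => ne_of_gt hy))
        filter_upwards [h6, self_mem_nhdsWithin] with y hy hy'
        rw [slope_def_field, h0] at hy
        have h7 : (0 : ℝ) < y - x₀ := sub_pos.2 hy'
        have := (div_pos_iff_of_pos_right h7).1 hy
        linarith only [this]
      obtain ⟨z, hz, hz'⟩ := (mem_nhdsGT_iff_exists_Ioc_subset).1
        (inter_mem hev (Ioo_mem_nhdsGT h2))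
      have hz0 : x₀ < z := hz
      obtain ⟨c, hc, hc'⟩ := exists_deriv_eq_slope V hz0 (by
          refine hV.cont.mono (fun y hy => ?_)
          refine ⟨h1.le.trans hy.1, hy.2.trans ?_⟩
          exact (hz' ⟨hz0, le_rfl⟩).2.2.le) (by
          intro y hy
          have hy1 : y ∈ Ioo (-1 : ℝ) 1 :=
            ⟨h1.trans hy.1, hy.2.trans (hz' ⟨hz0, le_rfl⟩).2.2⟩
          exact ((hV.hd (Ioo_subset_Icc_self hy1)).hasDerivAt
            (Icc_mem_nhds hy1.1 hy1.2)).differentiableAt.differentiableWithinAt)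
      have hc1 : c ∈ Ioo (-1 : ℝ) 1 := ⟨h1.trans hc.1, hc.2.trans (hz' ⟨hz0, le_rfl⟩).2.2⟩
      have hc2 : deriv V c = dx V c := ((hV.hd (Ioo_subset_Icc_self hc1)).hasDerivAt
            (Icc_mem_nhds hc1.1 hc1.2)).deriv
      have hc3 : 0 < dx V c := (hz' ⟨hc.1, hc.2.le⟩).1
      rw [hc2] at hc'
      have hc4 : 0 < (V z - V x₀) / (z - x₀) := hc' ▸ hc3
      have := (div_pos_iff_of_pos_right (sub_pos.2 hz0)).1 hc4
      have hzI : z ∈ Icc (-1 : ℝ) 1 := ⟨h1.le.trans hz0.le, (hz' ⟨hz0, le_rfl⟩).2.2.le⟩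
      linarith only [hm, this, hzI, hm z hzI]
    refine ⟨by rw [h0]; ring, fun d hd => ?_⟩
    unfold Ld
    rw [h0]
    have h8 : 0 ≤ 1 - x₀ ^ 2 := by (by_contra nlg; linarith only [nlg, mul_pos (sub_pos.2 h1) (sub_pos.2 h2), mul_pos (sub_pos.2 (not_le.1 nlg)) (sub_pos.2 h2), mul_pos (sub_pos.2 (not_le.1 nlg)) (sub_pos.2 h1)])
    linarith only [mul_nonneg h8 (neg_nonneg.2 h3)]

/-! ### Taylor bound, limits, antiderivatives -/

theorem lip_of_bd {u : ℝ → ℝ} (hu : Sm u) {K : ℝ}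
    (hK : ∀ x ∈ Icc (-1 : ℝ) 1, |dx u x| ≤ K) {x y : ℝ}
    (hx : x ∈ Icc (-1 : ℝ) 1) (hy : y ∈ Icc (-1 : ℝ) 1) : |u y - u x| ≤ K * |y - x| := by
  have := (convex_Icc (-1 : ℝ) 1).norm_image_sub_le_of_norm_hasDerivWithin_le
    (f := u) (f' := dx u) (C := K) (fun z hz => hu.hd hz) (fun z hz => hK z hz) hx hy
  simpa using this

theorem taylor_bd {u : ℝ → ℝ} (hu : Sm u) {K : ℝ}
    (hK : ∀ x ∈ Icc (-1 : ℝ) 1, |dx (dx u) x| ≤ K) {x y : ℝ}
    (hx : x ∈ Icc (-1 : ℝ) 1) (hy : y ∈ Icc (-1 : ℝ) 1) :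
    |u y - u x - (y - x) * dx u x| ≤ K * (y - x) ^ 2 := by
  have hK0 : 0 ≤ K := (abs_nonneg _).trans (hK x hx)
  -- apply the mean value inequality on the segment between x and y
  have hseg : uIcc x y ⊆ Icc (-1 : ℝ) 1 := by
    intro z hz
    rcases le_total x y with h | h
    · rw [uIcc_of_le h] at hz; exact ⟨hx.1.trans hz.1, hz.2.trans hy.2⟩
    · rw [uIcc_of_ge h] at hz; exact ⟨hy.1.trans hz.1, hz.2.trans hx.2⟩
  have hconv : Convex ℝ (uIcc x y) := convex_uIcc x y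
  have h1 : ∀ z ∈ uIcc x y, HasDerivWithinAt (fun z => u z - z * dx u x)
      (dx u z - 1 * dx u x) (uIcc x y) z := by
    intro z hz
    exact ((hu.hd (hseg hz)).mono hseg).sub ((hasDerivWithinAt_id z _).mul_const _)
  have h2 : ∀ z ∈ uIcc x y, ‖dx u z - 1 * dx u x‖ ≤ K * |y - x| := by
    intro z hz
    rw [one_mul, Real.norm_eq_abs]
    refine (lip_of_bd hu.dx hK hx (hseg hz)).trans ?_
    apply mul_le_mul_of_nonneg_left _ hK0
    rcases le_total x y with h | h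
    · rw [uIcc_of_le h] at hz
      rw [abs_of_nonneg (by linarith only [hz, hz.1]), abs_of_nonneg (by linarith only [h])]; linarith only [hz, hz.2]
    · rw [uIcc_of_ge h] at hz
      rw [abs_of_nonpos (by linarith only [hz, hz.2]), abs_of_nonpos (by linarith only [h])]; linarith only [hz, hz.1]
  have h3 := hconv.norm_image_sub_le_of_norm_hasDerivWithin_le h1 h2 left_mem_uIcc right_mem_uIcc
  rw [Real.norm_eq_abs, Real.norm_eq_abs] at h3
  have e1 : u y - y * dx u x - (u x - x * dx u x) = u y - u x - (y - x) * dx u x := by ring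
  rw [e1] at h3
  calc _ ≤ _ := h3
    _ = K * (|y - x| * |y - x|) := by ring
    _ = K * (y - x) ^ 2 := by rw [abs_mul_abs_self]; ring

/-- A function with a quadratic Taylor bound has the given derivative. -/
theorem hd_of_quad {u : ℝ → ℝ} {u' K x : ℝ}
    (h : ∀ y ∈ Icc (-1 : ℝ) 1, |u y - u x - (y - x) * u'| ≤ K * (y - x) ^ 2) :
    HasDerivWithinAt u u' (Icc (-1) 1) x := by
  rw [hasDerivWithinAt_iff_isLittleO]
  refine Asymptotics.IsBigO.trans_isLittleO (g := fun y => (y - x) ^ 2) ?_ ?_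
  · refine Asymptotics.IsBigO.of_bound K ?_
    filter_upwards [self_mem_nhdsWithin] with y hy
    rw [Real.norm_eq_abs, Real.norm_eq_abs, abs_of_nonneg (sq_nonneg (y - x)), smul_eq_mul]
    exact h y hy
  · have : (fun y : ℝ => (y - x) ^ 2) =o[𝓝 x] fun y => y - x := by
      have h1 : (fun y : ℝ => (y - x) ^ 2) = fun y => (y - x) * (y - x) := by
        ext y; ring
      rw [h1]
      have h2 : (fun y : ℝ => y - x) =o[𝓝 x] fun _ => (1 : ℝ) := by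
        rw [Asymptotics.isLittleO_one_iff]
        have : Tendsto (fun y : ℝ => y - x) (𝓝 x) (𝓝 (x - x)) :=
          (continuous_id.sub continuous_const).tendsto x
        simpa using this
      simpa using (Asymptotics.isBigO_refl (fun y : ℝ => y - x) (𝓝 x)).mul_isLittleO h2
    exact this.mono nhdsWithin_le_nhds

/-- smoothness from a chain of derivatives -/
theorem sm_of_chain {U : ℕ → ℝ → ℝ}
    (h : ∀ j, ∀ x ∈ Icc (-1 : ℝ) 1, HasDerivWithinAt (U j) (U (j + 1) x) (Icc (-1) 1) x) :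
    Sm (U 0) ∧ ∀ j, ∀ x ∈ Icc (-1 : ℝ) 1, dn j (U 0) x = U j x := by
  have key : ∀ n : ℕ, ∀ j, ContDiffOn ℝ n (U j) (Icc (-1) 1) := by
    intro n
    induction n with
    | zero =>
      intro j
      exact contDiffOn_zero.2 (fun x hx => (h j x hx).continuousWithinAt)
    | succ n ih =>
      intro j
      rw [show ((n + 1 : ℕ) : WithTop ℕ∞) = (n : WithTop ℕ∞) + 1 by push_cast; rfl,
        contDiffOn_succ_iff_derivWithin uI]
      refine ⟨fun x hx => (h j x hx).differentiableWithinAt, by simp, ?_⟩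
      exact (ih (j + 1)).congr (fun x hx => (h j x hx).derivWithin (uI x hx))
  refine ⟨contDiffOn_infty.2 (fun n => key n 0), ?_⟩
  intro j
  induction j with
  | zero => intro x _; rfl
  | succ j ih =>
    intro x hx
    rw [dn_succ', dx_congr ih hx]
    exact dx_of_hd hx (h j x hx)

/-- LIMIT LEMMA: pointwise limits along any nontrivial filter, with locally uniform bounds. -/
theorem lim_sm {ι : Type*} {l : Filter ι} [l.NeBot] {u : ι → ℝ → ℝ} (K : ℕ → ℝ)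
    (hs : ∀ᶠ n in l, Sm (u n))
    (hK : ∀ j, ∀ᶠ n in l, ∀ x ∈ Icc (-1 : ℝ) 1, |dn j (u n) x| ≤ K j)
    (U : ℕ → ℝ → ℝ)
    (hU : ∀ j, ∀ x ∈ Icc (-1 : ℝ) 1, Tendsto (fun n => dn j (u n) x) l (𝓝 (U j x))) :
    Sm (U 0) ∧ (∀ j, ∀ x ∈ Icc (-1 : ℝ) 1, dn j (U 0) x = U j x) ∧
      ∀ j, ∀ x ∈ Icc (-1 : ℝ) 1, |dn j (U 0) x| ≤ K j := by
  have hd : ∀ j, ∀ x ∈ Icc (-1 : ℝ) 1,
      HasDerivWithinAt (U j) (U (j + 1) x) (Icc (-1) 1) x := by
    intro j x hx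
    apply hd_of_quad (K := K (j + 2))
    intro y hy
    refine le_of_tendsto ((((hU j y hy).sub (hU j x hx)).sub
      ((hU (j + 1) x hx).const_mul (y - x))).abs) ?_
    filter_upwards [hs, hK (j + 2)] with n hn hKn
    have h1 := taylor_bd (hn.dn j) (K := K (j + 2)) (fun z hz => by
      have := hKn z hz
      rwa [dn_succ', dn_succ'] at this) hx hy
    rw [dn_succ']
    exact h1
  obtain ⟨h1, h2⟩ := sm_of_chain hd
  refine ⟨h1, h2, fun j x hx => ?_⟩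
  rw [h2 j x hx]
  exact le_of_tendsto (hU j x hx).abs ((hK j).mono fun n hn => hn x hx)

theorem intOn {v : ℝ → ℝ} (hv : ContinuousOn v (Icc (-1) 1)) {x y : ℝ}
    (hx : x ∈ Icc (-1 : ℝ) 1) (hy : y ∈ Icc (-1 : ℝ) 1) :
    IntervalIntegrable v MeasureTheory.volume x y := by
  apply ContinuousOn.intervalIntegrable
  apply hv.mono
  intro z hz
  rcases le_total x y with h | h
  · rw [uIcc_of_le h] at hz; exact ⟨hx.1.trans hz.1, hz.2.trans hy.2⟩
  · rw [uIcc_of_ge h] at hz; exact ⟨hy.1.trans hz.1, hz.2.trans hx.2⟩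

theorem zero_mem_I : (0 : ℝ) ∈ Icc (-1 : ℝ) 1 := ⟨by norm_num, by norm_num⟩

/-- antiderivative -/
theorem hd_integral {v : ℝ → ℝ} (hv : ContinuousOn v (Icc (-1) 1)) {x : ℝ}
    (hx : x ∈ Icc (-1 : ℝ) 1) :
    HasDerivWithinAt (fun y => ∫ z in (0 : ℝ)..y, v z) (v x) (Icc (-1) 1) x := by
  -- replace v by its continuous extension
  set w : ℝ → ℝ := IccExtend (show (-1 : ℝ) ≤ 1 by norm_num) ((Icc (-1 : ℝ) 1).domRestrict v) with hw
  have hwc : Continuous w := (continuousOn_iff_continuous_domRestrict.1 hv).Icc_extend'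
  have hwv : ∀ y ∈ Icc (-1 : ℝ) 1, w y = v y := fun y hy => by
    rw [hw, IccExtend_of_mem _ _ hy]; rfl
  have h1 : HasDerivAt (fun y => ∫ z in (0 : ℝ)..y, w z) (w x) x :=
    intervalIntegral.integral_hasDerivAt_right (hwc.intervalIntegrable _ _)
      (hwc.stronglyMeasurableAtFilter _ _) hwc.continuousAt
  rw [hwv x hx] at h1
  refine h1.hasDerivWithinAt.congr (fun y hy => ?_) ?_
  · apply intervalIntegral.integral_congr
    intro z hz
    have : z ∈ Icc (-1 : ℝ) 1 := by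
      rcases le_total 0 y with h | h
      · rw [uIcc_of_le h] at hz; exact ⟨by linarith only [hz, hz.1], hz.2.trans hy.2⟩
      · rw [uIcc_of_ge h] at hz; exact ⟨hy.1.trans hz.1, by linarith only [hz, hz.2]⟩
    exact (hwv z this).symm
  · apply intervalIntegral.integral_congr
    intro z hz
    have : z ∈ Icc (-1 : ℝ) 1 := by
      rcases le_total 0 x with h | h
      · rw [uIcc_of_le h] at hz; exact ⟨by linarith only [hz, hz.1], hz.2.trans hx.2⟩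
      · rw [uIcc_of_ge h] at hz; exact ⟨hx.1.trans hz.1, by linarith only [hz, hz.2]⟩
    exact (hwv z this).symm

theorem Sm.integral {v : ℝ → ℝ} (hv : Sm v) : Sm (fun y => ∫ z in (0 : ℝ)..y, v z) := by
  unfold Sm
  rw [contDiffOn_infty_iff_derivWithin uI]
  refine ⟨fun x hx => (hd_integral hv.cont hx).differentiableWithinAt, ?_⟩
  exact ContDiffOn.congr hv (fun x hx => (hd_integral hv.cont hx).derivWithin (uI x hx))

theorem dx_integral {v : ℝ → ℝ} (hv : Sm v) {x : ℝ} (hx : x ∈ Icc (-1 : ℝ) 1) :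
    dx (fun y => ∫ z in (0 : ℝ)..y, v z) x = v x :=
  dx_of_hd hx (hd_integral hv.cont hx)

/-- two smooth functions with the same derivative and the same value at `0` agree -/
theorem eq_of_dx_eq {u v : ℝ → ℝ} (hu : Sm u) (hv : Sm v)
    (h : ∀ x ∈ Icc (-1 : ℝ) 1, dx u x = dx v x) (h0 : u 0 = v 0) :
    ∀ x ∈ Icc (-1 : ℝ) 1, u x = v x := by
  intro x hx
  have h1 : ∀ z ∈ Icc (-1 : ℝ) 1, |dx (fun y => u y - v y) z| ≤ 0 := by
    intro z hz
    rw [dx_sub hu hv hz, h z hz, sub_self, abs_zero]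
  have h2 := lip_of_bd (hu.sub hv) h1 zero_mem_I hx
  rw [zero_mul] at h2
  have h3 := abs_eq_zero.1 (le_antisymm h2 (abs_nonneg _))
  linarith only [h0, h3]

theorem Sm.Jd {w f : ℝ → ℝ} (p : ℕ) (hw : Sm w) (hf : Sm f) : Sm (ST.Jd p w f) :=
  ((hw.cmul (-2)).exp).mul (((hw.dx.pow 2).cmul ((p : ℝ) - 1)).add ((hf.dx.pow 2).cmul (p : ℝ)))

theorem Sm.Jf {w f : ℝ → ℝ} (p : ℕ) (hw : Sm w) (hf : Sm f) : Sm (ST.Jf p w f) :=
  (hw.Jd p hf).integral

theorem dx_Jf {w f : ℝ → ℝ} (p : ℕ) (hw : Sm w) (hf : Sm f) {x : ℝ}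
    (hx : x ∈ Icc (-1 : ℝ) 1) : dx (ST.Jf p w f) x = ST.Jd p w f x :=
  dx_integral (hw.Jd p hf) hx

end Vale.Agent.P244.LW
end

section

/-!
# P244-L : calculus on `[-1,1]` with `dx`
-/

open Set
open scoped ContDiff

namespace Vale.Agent.P244.L

open Vale.Agent.P244.ST

/-- The interval `[-1,1]`. -/
abbrev I : Set ℝ := Icc (-1 : ℝ) 1

/-- Smooth functions on `[-1,1]`. -/
def Sm (h : ℝ → ℝ) : Prop := ContDiffOn ℝ ∞ h I

theorem uI : UniqueDiffOn ℝ I := uniqueDiffOn_Icc (by norm_num)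

theorem Sm.cont {h : ℝ → ℝ} (hh : Sm h) : ContinuousOn h I := hh.continuousOn

theorem Sm.dx {h : ℝ → ℝ} (hh : Sm h) : Sm (dx h) :=
  hh.derivWithin uI (by simp)

theorem dx_eq {h : ℝ → ℝ} {x d : ℝ} (hx : x ∈ I) (hd : HasDerivWithinAt h d I x) :
    dx h x = d := hd.derivWithin (uI x hx)

theorem dx_congr {h k : ℝ → ℝ} (e : ∀ x ∈ I, h x = k x) {x : ℝ} (hx : x ∈ I) :
    dx h x = dx k x := derivWithin_congr e (e x hx)

theorem Sm.congr {h k : ℝ → ℝ} (hh : Sm h) (e : ∀ x ∈ I, k x = h x) : Sm k :=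
  ContDiffOn.congr hh e

theorem Sm.const (c : ℝ) : Sm (fun _ => c) := contDiffOn_const
theorem Sm.id : Sm (fun x => x) := contDiffOn_id
theorem Sm.sub {h k : ℝ → ℝ} (hh : Sm h) (hk : Sm k) : Sm (fun x => h x - k x) :=
  ContDiffOn.sub hh hk
theorem Sm.mul {h k : ℝ → ℝ} (hh : Sm h) (hk : Sm k) : Sm (fun x => h x * k x) :=
  ContDiffOn.mul hh hk
theorem Sm.neg {h : ℝ → ℝ} (hh : Sm h) : Sm (fun x => - h x) := ContDiffOn.neg hh
theorem Sm.pow {h : ℝ → ℝ} (hh : Sm h) (n : ℕ) : Sm (fun x => h x ^ n) := ContDiffOn.pow hh n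
theorem Sm.exp {h : ℝ → ℝ} (hh : Sm h) : Sm (fun x => Real.exp (h x)) := ContDiffOn.exp hh

/-- The operator `(1-x²)h'' - N x h'`. -/
noncomputable def Lp (N : ℝ) (h : ℝ → ℝ) (x : ℝ) : ℝ :=
  (1 - x ^ 2) * dx (dx h) x - N * x * dx h x

theorem lap_eq (p : ℕ) (h : ℝ → ℝ) (x : ℝ) : lap p h x = Lp ((p : ℝ) + 1) h x := rfl

theorem Sm.Lp {h : ℝ → ℝ} (hh : Sm h) (N : ℝ) : Sm (Lp N h) := by
  unfold L.Lp
  exact ((((Sm.const 1).sub (Sm.id.pow 2)).mul hh.dx.dx).sub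
    (((Sm.const N).mul Sm.id).mul hh.dx))

theorem Sm.lap {h : ℝ → ℝ} (hh : Sm h) (p : ℕ) : Sm (lap p h) := hh.Lp _

end Vale.Agent.P244.L
end

section

/-!
# P244-L : maximum principles
-/

open Set Filter Topology
open scoped ContDiff

namespace Vale.Agent.P244.L

open Vale.Agent.P244.ST

/-- One-sided derivative at the right end point of a function which is maximal there. -/
theorem deriv_nonneg_left {f : ℝ → ℝ} {a b d : ℝ} (hab : a < b)
    (hd : HasDerivWithinAt f d (Icc a b) b) (hm : ∀ s ∈ Ico a b, f s ≤ f b) : 0 ≤ d := by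
  have h1 := hasDerivWithinAt_iff_tendsto_slope.1 hd
  have e : Icc a b \ {b} = Ico a b := by
    ext y; simp only [Set.mem_sdiff, mem_Icc, mem_singleton_iff, mem_Ico]
    constructor
    · rintro ⟨⟨h1, h2⟩, h3⟩; exact ⟨h1, lt_of_le_of_ne h2 h3⟩
    · rintro ⟨h1, h2⟩; exact ⟨⟨h1, h2.le⟩, h2.ne⟩
  rw [e] at h1
  have : NeBot (𝓝[Ico a b] b) := by
    have := right_nhdsWithin_Ico_neBot hab
    exact this
  refine ge_of_tendsto h1 ?_
  filter_upwards [self_mem_nhdsWithin] with s hs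
  rw [slope_def_field]
  exact div_nonneg_of_nonpos (by linarith only [hm, hs, hm s hs]) (by linarith only [hs, hs.2])

/-- Parabolic comparison: if at every positive joint maximum the time derivative is at most
`C` times the value, then the maximum grows at most like `e^{Ct}`. -/
theorem gron {ι : Type*} [Finite ι] {T : ℝ} (u ut : ι → ℝ → ℝ → ℝ)
    (hc : ∀ i, ContinuousOn (fun z : ℝ × ℝ => u i z.1 z.2) (Icc 0 T ×ˢ I))
    (hd : ∀ i, ∀ t ∈ Icc 0 T, ∀ x ∈ I, HasDerivWithinAt (fun s => u i s x) (ut i t x) (Icc 0 T) t)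
    {C B : ℝ} (hC : 0 ≤ C) (hB : 0 ≤ B) (h0 : ∀ i, ∀ x ∈ I, u i 0 x ≤ B)
    (key : ∀ i, ∀ t ∈ Ioc 0 T, ∀ x ∈ I, 0 < u i t x → (∀ j, ∀ y ∈ I, u j t y ≤ u i t x) →
      (∀ s ∈ Icc 0 t, ∀ j, ∀ y ∈ I, u j s y ≤ u i t x) →
      ut i t x ≤ C * u i t x) :
    ∀ i, ∀ t ∈ Icc 0 T, ∀ x ∈ I, u i t x ≤ B * Real.exp (C * t) := by
  classical
  intro i₁ t₁ ht₁ x₁ hx₁
  have hmain : ∀ ε > 0, u i₁ t₁ x₁ < (B + ε) * Real.exp ((C + ε) * t₁) := by
    intro ε hε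
    by_contra hcon
    push Not at hcon
    set b : ℝ → ℝ := fun t => (B + ε) * Real.exp ((C + ε) * t) with hb
    have hbc : Continuous b := by rw [hb]; fun_prop
    have hbpos : ∀ t, 0 < b t := fun t => mul_pos (by linarith only [hB, hε]) (Real.exp_pos _)
    have hbmono : ∀ s t, s ≤ t → b s ≤ b t := by
      intro s t hst
      apply mul_le_mul_of_nonneg_left _ (by linarith only [hB, hε])
      exact Real.exp_le_exp.2 (mul_le_mul_of_nonneg_left hst (by linarith only [hC, hε]))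
    set K : Set (ℝ × ℝ) := {z ∈ Icc 0 T ×ˢ I | ∃ i, b z.1 ≤ u i z.1 z.2} with hK
    have hKc : IsCompact K := by
      have hcomp : IsCompact (Icc 0 T ×ˢ I) := isCompact_Icc.prod isCompact_Icc
      have : K = ⋃ i, {z ∈ Icc 0 T ×ˢ I | b z.1 ≤ u i z.1 z.2} := by
        ext z; simp only [hK, mem_ofPred_eq, mem_iUnion]
        constructor
        · rintro ⟨h1, i, h2⟩; exact ⟨i, h1, h2⟩
        · rintro ⟨i, h1, h2⟩; exact ⟨h1, i, h2⟩
      rw [this]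
      refine isCompact_iUnion fun i => ?_
      have hcl : IsClosed {z ∈ Icc 0 T ×ˢ I | b z.1 ≤ u i z.1 z.2} :=
        (hcomp.isClosed).isClosed_le (hbc.comp continuous_fst).continuousOn (hc i)
      exact hcomp.of_isClosed_subset hcl (fun z hz => hz.1)
    have hKne : K.Nonempty := ⟨(t₁, x₁), ⟨ht₁, hx₁⟩, i₁, hcon⟩
    obtain ⟨⟨t₀, x₀⟩, hz₀, hmin⟩ := hKc.exists_isMinOn hKne continuous_fst.continuousOn
    obtain ⟨⟨ht₀, hx₀⟩, i₀, hi₀⟩ := hz₀
    simp only at ht₀ hx₀ hi₀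
    have hbefore : ∀ s ∈ Icc 0 T, s < t₀ → ∀ j, ∀ y ∈ I, u j s y < b s := by
      intro s hs hst j y hy
      by_contra hcon2
      push Not at hcon2
      have := hmin (⟨⟨hs, hy⟩, j, hcon2⟩ : ((s, y) : ℝ × ℝ) ∈ K)
      simp only [mem_ofPred_eq] at this
      linarith only [hst, this]
    have ht₀pos : 0 < t₀ := by
      rcases eq_or_lt_of_le ht₀.1 with h | h
      · exfalso
        rw [← h] at hi₀
        have := h0 i₀ x₀ hx₀
        simp only [hb, mul_zero, Real.exp_zero, mul_one] at hi₀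
        linarith only [hε, this, hi₀]
      · exact h
    have hle : ∀ j, ∀ y ∈ I, u j t₀ y ≤ b t₀ := by
      intro j y hy
      have hct : ContinuousWithinAt (fun s => u j s y) (Icc 0 T) t₀ :=
        (hd j t₀ ht₀ y hy).continuousWithinAt
      have : NeBot (𝓝[Ico 0 t₀] t₀) := right_nhdsWithin_Ico_neBot ht₀pos
      have hsub : Ico 0 t₀ ⊆ Icc 0 T := fun s hs => ⟨hs.1, hs.2.le.trans ht₀.2⟩
      have h1 := (hct.mono hsub)
      have h2 : Tendsto b (𝓝[Ico 0 t₀] t₀) (𝓝 (b t₀)) := hbc.continuousAt.tendsto.mono_left inf_le_left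
      refine le_of_tendsto_of_tendsto h1 h2 ?_
      filter_upwards [self_mem_nhdsWithin] with s hs
      exact (hbefore s (hsub hs) hs.2 j y hy).le
    have heq : u i₀ t₀ x₀ = b t₀ := le_antisymm (hle i₀ x₀ hx₀) hi₀
    have hkey := key i₀ t₀ ⟨ht₀pos, ht₀.2⟩ x₀ hx₀ (by rw [heq]; exact hbpos _)
      (fun j y hy => by rw [heq]; exact hle j y hy)
      (fun s hs j y hy => by
        rw [heq]
        rcases eq_or_lt_of_le hs.2 with h | h
        · rw [h]; exact hle j y hy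
        · exact ((hbefore s ⟨hs.1, hs.2.trans ht₀.2⟩ h j y hy).le).trans (hbmono _ _ hs.2))
    have hbd : HasDerivAt b ((C + ε) * b t₀) t₀ := by
      have h1 : HasDerivAt (fun t : ℝ => (C + ε) * t) (C + ε) t₀ := by
        simpa using (hasDerivAt_id t₀).const_mul (C + ε)
      have h2 := (h1.exp).const_mul (B + ε)
      refine h2.congr_deriv ?_
      show _ = (C + ε) * ((B + ε) * Real.exp ((C + ε) * t₀))
      ring
    have hdd : HasDerivWithinAt (fun s => u i₀ s x₀ - b s) (ut i₀ t₀ x₀ - (C + ε) * b t₀)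
        (Icc 0 t₀) t₀ :=
      ((hd i₀ t₀ ht₀ x₀ hx₀).mono (Icc_subset_Icc_right ht₀.2)).sub hbd.hasDerivWithinAt
    have := deriv_nonneg_left ht₀pos hdd (fun s hs => by
      have := hbefore s ⟨hs.1, hs.2.le.trans ht₀.2⟩ hs.2 i₀ x₀ hx₀
      rw [heq]; linarith only [this])
    rw [heq] at hkey
    linarith only [mul_pos (sub_pos.2 hε) (sub_pos.2 (hbpos t₀)), this, hkey]
  have hcont : Tendsto (fun ε : ℝ => (B + ε) * Real.exp ((C + ε) * t₁)) (𝓝[>] 0)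
      (𝓝 ((B + 0) * Real.exp ((C + 0) * t₁))) := by
    apply Tendsto.mono_left _ inf_le_left
    have : Continuous (fun ε : ℝ => (B + ε) * Real.exp ((C + ε) * t₁)) := by fun_prop
    exact this.tendsto 0
  rw [add_zero, add_zero] at hcont
  refine ge_of_tendsto hcont ?_
  filter_upwards [self_mem_nhdsWithin] with ε hε
  exact (hmain ε hε).le

end Vale.Agent.P244.L
end

section

/-!
# P244-ST : geometric quantities of a solution of the conformal gauge system (definitions)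

All functions are functions of `(t,x)`, time first.  They are used for `|x| < 1`.
`x = 1` is the tip, `x = 0` the equator.  `p = 20`, `m = 40`.
-/

open Set
open scoped ContDiff

namespace Vale.Agent.P244.ST

noncomputable section

/-- functions of `(t,x)` -/
abbrev Fn := ℝ → ℝ → ℝ

/-- `κ = (39 - √1209)/2`. -/
def kap : ℝ := (39 - Real.sqrt 1209) / 2

/-- `D = m + 1 - 2κ`. -/
def DD : ℝ := 41 - 2 * kap

/-- `λ_i = i - κ/2`. -/
def lam (i : ℕ) : ℝ := i - kap / 2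

/-- `ζ₀ = (p-1)/(m-1)`. -/
def zeta0 : ℝ := 19 / 39

/-- the exponent `a = 1/20` -/
def aa : ℝ := 1 / 20

/-- the exponent `b = 6 - κ` -/
def bb : ℝ := 6 - kap

/-- the exponent `γ = 2 + 2 a λ₃` -/
def gam : ℝ := 2 + 2 * aa * lam 3

/-- `∂_x` -/
def Dx (H : Fn) : Fn := fun t x => deriv (H t) x

/-- `∂_t` -/
def Dt (H : Fn) : Fn := fun t x => deriv (fun s => H s x) t

/-- `sqrt (1-x^2)` -/
def sx (x : ℝ) : ℝ := Real.sqrt (1 - x ^ 2)

section

variable (w f : Fn)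

/-- `u = log (φ/ψ)` -/
def uu : Fn := fun t x => f t x - w t x - Real.log (1 - x ^ 2) / 2

/-- `ρ = log r` -/
def rho : Fn := fun t x =>
  (f t x + w t x + Real.log (1 - x ^ 2) / 2 - Real.log zeta0) / 2

/-- `r` -/
def rr : Fn := fun t x => Real.exp (rho w f t x)

/-- arclength derivative (from the tip towards the equator) -/
def Ds (H : Fn) : Fn := fun t x => -(sx x * Real.exp (-w t x)) * Dx H t x

/-- the gauge field `X` -/
def Xg : Fn := fun t x =>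
  -(Real.exp (-2 * w t x) * (19 * Dx w t x + 20 * Dx f t x)) - Jf 20 (w t) (f t) x

/-- material time derivative -/
def DT (H : Fn) : Fn := fun t x => Dt H t x - (1 - x ^ 2) * Xg w f t x * Dx H t x

/-- Laplacian of the metric on invariant functions -/
def Lp (H : Fn) : Fn := fun t x =>
  Ds w (Ds w H) t x + 40 * Ds w (rho w f) t x * Ds w H t x

/-- `P = u_s` -/
def PP : Fn := Ds w (uu w f)

/-- `ρ_s` -/
def rs : Fn := Ds w (rho w f)

/-- `V = D_t u` (spatial expression) -/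
def VV : Fn := fun t x =>
  Lp w f (uu w f) t x + 78 * Real.sinh (uu w f t x) / (rr w f t x) ^ 2

/-- `D_t ρ` (spatial expression) -/
def yy : Fn := fun t x =>
  Lp w f (rho w f) t x - 39 * Real.cosh (uu w f t x) / (rr w f t x) ^ 2

/-- Ricci curvature in the direction of `∂_s` -/
def E0 : Fn := fun t x =>
  -(40 * Ds w (rs w f) t x) - 40 * (rs w f t x) ^ 2 - 10 * (PP w f t x) ^ 2

/-- scalar curvature -/
def RR : Fn := fun t x => E0 w f t x - 40 * yy w f t x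

/-- `Z = r_s^2` -/
def ZZ : Fn := fun t x => (rr w f t x) ^ 2 * (rs w f t x) ^ 2

/-- `G = - P/ρ_s` -/
def GG : Fn := fun t x => -(PP w f t x / rs w f t x)

/-- the derivation `r ∂_r` at fixed time -/
def Dr (H : Fn) : Fn := fun t x => Ds w H t x / rs w f t x

/-- the time derivative at fixed `r` -/
def Tr (H : Fn) : Fn := fun t x => DT w f H t x - yy w f t x * Dr w f H t x

end

/-- Properties of the bubble function `g` (P244-B1), extended by `g 0 = 0`, used for `u > 0`. -/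
structure IsBub (g : ℝ → ℝ) : Prop where
  smooth : ContDiffOn ℝ ∞ g (Ioi 0)
  ode : ∀ u > 0, HasDerivAt g ((39 - g u ^ 2 / 4) * (g u - 2 * Real.tanh u) / g u) u
  lower : ∀ u > 0, 2 * Real.tanh u < g u
  upper : ∀ u > 0, g u < kap * Real.tanh u
  lt_two : ∀ u > 0, g u < 2
  deriv_pos : ∀ u > 0, 0 < deriv g u
  ratio : ∀ u > 0, deriv g u * Real.tanh u ≤ g u * (1 - Real.tanh u ^ 2)
  at_zero : ∃ C : ℝ, ∀ u > 0, kap * Real.tanh u - g u ≤ C * Real.tanh u ^ 3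
  at_tip : ∃ C : ℝ, ∀ u > 0, g u - 2 * Real.tanh u ≤ C * (1 - Real.tanh u ^ 2)
  tip_smooth : ∃ h : ℝ → ℝ, ContDiffOn ℝ ∞ h (Ioo (-1) 1) ∧ ∀ u > 0, g u = h (Real.exp (-2 * u))

section

variable (g : ℝ → ℝ) (w f : Fn)

/-- `q(u) = 39 - g^2/4` -/
def qb (u : ℝ) : ℝ := 39 - g u ^ 2 / 4

/-- `Z_s(u)` -/
def Zs (u : ℝ) : ℝ := 39 * Real.cosh u / qb g u

/-- `A_s(u)` -/
def As (u : ℝ) : ℝ := 39 * (4 * Real.sinh u / g u - Real.cosh u)

/-- `e = 1 - G/g(u)` -/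
def ee : Fn := fun t x => 1 - GG w f t x / g (uu w f t x)

/-- `f = e/r^2` (called `ff`) -/
def ff : Fn := fun t x => ee g w f t x / (rr w f t x) ^ 2

/-- `θ = Z/Z_s(u) - 1` -/
def th : Fn := fun t x => ZZ w f t x / Zs g (uu w f t x) - 1

end

/-- `τ = 1 - t` -/
def tau (t : ℝ) : ℝ := 1 - t

/-- `y = r / sqrt τ` -/
def yv (w f : Fn) : Fn := fun t x => rr w f t x / Real.sqrt (tau t)

/-- The parameters of the construction (see P244-M); chosen in this order. -/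
structure Par where
  B : ℝ
  rho0 : ℝ
  BV : ℝ
  MU : ℝ
  MP : ℝ
  MV : ℝ
  CU : ℝ
  CP : ℝ
  CV : ℝ
  GR : ℝ
  sg : ℝ
  d0 : ℝ
  rb : ℝ
  N : ℝ
  eps : ℝ

namespace Par

variable (q : Par)

/-- amplitude `A(t) = ε τ^{λ₃}` -/
def A (t : ℝ) : ℝ := q.eps * (tau t) ^ (lam 3)

/-- `T₀(t) = A(t) ρ₀^{-κ}` -/
def T0 (t : ℝ) : ℝ := q.A t * q.rho0 ^ (-kap)

/-- `η = 10^4/N^2` -/
def eta : ℝ := 10 ^ 4 / q.N ^ 2

/-- barrier for `f` in region I -/
def fb (t u : ℝ) : ℝ :=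
  q.B / tau t * (Real.tanh u / q.T0 t) ^ aa * (Real.cosh u) ^ (-(1 - aa))

/-- barrier for `V` in region I -/
def Vb (t u : ℝ) : ℝ :=
  q.BV / tau t * (Real.tanh u / q.T0 t) ^ aa * Real.tanh u * (Real.cosh u) ^ aa

/-- barrier for `R` -/
def RB (t r u : ℝ) : ℝ :=
  q.eta * (1 + t) + q.GR * r ^ 2 * (Real.cosh u - 1) * q.eps ^ (-(2 * aa))
    * (tau t + r ^ 2 / 100) ^ (-gam)

/-- barriers in region III -/
def UB (t r : ℝ) : ℝ := q.CU * q.eps * (r ^ bb - 300 * tau t * r ^ (bb - 2))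
def PB (t r : ℝ) : ℝ := q.CP * q.eps * (r ^ (bb - 1) - 300 * tau t * r ^ (bb - 3))
def VB (t r : ℝ) : ℝ :=
  q.CV * q.eps * Real.exp t * (r ^ (bb - 2) - 300 * tau t * r ^ (bb - 4))

end Par

/-- The pointwise bootstrap (b1)-(b5) at the point `(t,x)`, `0 ≤ x < 1`. -/
structure BootAt (q : Par) (g : ℝ → ℝ) (w f : Fn) (t x : ℝ) : Prop where
  b1 : 0 < x → yv w f t x ≤ q.rho0 →
    0 < uu w f t x ∧ |ff g w f t x| ≤ q.fb t (uu w f t x)
  b2 : 0 < x → yv w f t x ≤ q.rho0 → |VV w f t x| ≤ q.Vb t (uu w f t x)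
  b3 : RR w f t x ≤ q.RB t (rr w f t x) (uu w f t x)
  b4 : q.rho0 ≤ yv w f t x → yv w f t x ≤ 25 →
    |uu w f t x| ≤ q.MU * q.A t ∧ |PP w f t x| ≤ q.MP * q.A t / Real.sqrt (tau t) ∧
      |VV w f t x| ≤ q.MV * q.A t / tau t
  b5 : 25 ≤ yv w f t x →
    |uu w f t x| ≤ q.UB t (rr w f t x) ∧ |PP w f t x| ≤ q.PB t (rr w f t x) ∧
      |VV w f t x| ≤ q.VB t (rr w f t x)

/-- (b1)-(b5) on `[0,t₁]`. -/
def Boot5 (q : Par) (g : ℝ → ℝ) (w f : Fn) (t₁ : ℝ) : Prop :=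
  ∀ t ∈ Icc 0 t₁, ∀ x ∈ Ico (0 : ℝ) 1, BootAt q g w f t x

/-- Qualitative facts (Q1), (Q2) on `[0,T)`. -/
structure Qual (w f : Fn) (T : ℝ) : Prop where
  R_nonneg : ∀ t ∈ Ico 0 T, ∀ x ∈ Ico (0 : ℝ) 1, 0 ≤ RR w f t x
  rs_pos : ∀ t ∈ Ico 0 T, ∀ x ∈ Ioo (0 : ℝ) 1, 0 < rs w f t x
  G_le : ∀ t ∈ Ico 0 T, ∀ x ∈ Ioo (0 : ℝ) 1, |GG w f t x| ≤ 2
  r_le : ∀ t ∈ Ico 0 T, ∀ x ∈ Ico (0 : ℝ) 1, rr w f t x ≤ rr w f 0 0

/-! ### The modes -/

/-- `l_i(z) = M(-i, D/2, z)` for `i ≤ 3` (defined for all `i`). -/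
def ll (i : ℕ) (z : ℝ) : ℝ :=
  ∑ j ∈ Finset.range (i + 1),
    (-1) ^ j * (i.choose j : ℝ) / (∏ l ∈ Finset.range j, (DD / 2 + l)) * z ^ j

/-- `φ_i(y) = y^{-κ} l_i(y²/4)` -/
def ph (i : ℕ) (y : ℝ) : ℝ := y ^ (-kap) * ll i (y ^ 2 / 4)

/-- `Φ_i(r,t) = τ^{λ_i} φ_i(r/√τ)` -/
def Ph (i : ℕ) (t r : ℝ) : ℝ := (tau t) ^ (lam i) * ph i (r / Real.sqrt (tau t))

/-- the weight `W(y) = y^{40} e^{-y²/4}` -/
def Wt (y : ℝ) : ℝ := y ^ 40 * Real.exp (-y ^ 2 / 4)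

/-- smooth step: `0` for `z ≤ 1`, `1` for `z ≥ 2`. -/
def stp (z : ℝ) : ℝ := Real.smoothTransition (z - 1)

/-- the cut-off `χ(t,y)` -/
def chi (q : Par) (t y : ℝ) : ℝ :=
  stp (y / (q.d0 * (tau t) ^ ((1 : ℝ) / 10))) *
    (1 - stp (Real.sqrt (tau t) * y / Real.sqrt q.N))

/-- squared norm of `φ_i` -/
def nph (i : ℕ) : ℝ := ∫ y in Ioi (0 : ℝ), ph i y ^ 2 * Wt y

/-- `c_i(t) = ⟨χ u, φ_i⟩ / ‖φ_i‖²` divided by `A`: this is `γ_i(t)`. -/
def gami (q : Par) (w f : Fn) (i : ℕ) (t : ℝ) : ℝ :=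
  (∫ x in (0 : ℝ)..1, chi q t (yv w f t x) * uu w f t x * ph i (yv w f t x) *
    Wt (yv w f t x) * (-(deriv (yv w f t) x))) / (q.A t * nph i)

/-- `‖χ u‖²/A²` -/
def nrmU (q : Par) (w f : Fn) (t : ℝ) : ℝ :=
  (∫ x in (0 : ℝ)..1, (chi q t (yv w f t x) * uu w f t x) ^ 2 *
    Wt (yv w f t x) * (-(deriv (yv w f t) x))) / (q.A t) ^ 2

/-- `E_x/A² = ‖χ u‖²/A² - Σ_{i≤3} γ_i² ‖φ_i‖²` -/
def enU (q : Par) (w f : Fn) (t : ℝ) : ℝ :=
  nrmU q w f t - ∑ i ∈ Finset.range 4, gami q w f i t ^ 2 * nph i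

/-- (b6) at time `t` -/
structure Boot6At (q : Par) (w f : Fn) (t : ℝ) : Prop where
  main : |gami q w f 3 t - 1| ≤ q.sg
  low : ∀ i < 3, |gami q w f i t| ≤ q.sg
  en : enU q w f t ≤ q.sg ^ 2

/-- the full bootstrap on `[0,t₁]`; the last condition is (b0): the equator stays far away -/
structure Boot (q : Par) (g : ℝ → ℝ) (w f : Fn) (t₁ : ℝ) : Prop where
  b5 : Boot5 q g w f t₁
  b6 : ∀ t ∈ Icc 0 t₁, Boot6At q w f t
  b0 : ∀ t ∈ Icc 0 t₁, q.N / 4 ≤ rr w f t 0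

end

end Vale.Agent.P244.ST
end

section

/-!
# P244-ST : interfaces between the blocks

`Ev C` : for all parameters chosen in the order of `Par`, each sufficiently large or small
depending on the previous ones, `C` holds.
-/

open Set Filter
open scoped ContDiff Topology

namespace Vale.Agent.P244.ST

noncomputable section

/-- Nested quantifier: for all sufficiently large or small parameters. -/
def Ev (C : Par → Prop) : Prop :=
  ∃ B₀ : ℝ, ∀ B ≥ B₀,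
  ∃ r₁ > (0 : ℝ), ∀ rho0 ∈ Ioc 0 r₁,
  ∃ BV₀ : ℝ, ∀ BV ≥ BV₀,
  ∃ MU₀ : ℝ, ∀ MU ≥ MU₀,
  ∃ MP₀ : ℝ, ∀ MP ≥ MP₀,
  ∃ MV₀ : ℝ, ∀ MV ≥ MV₀,
  ∃ CU₀ : ℝ, ∀ CU ≥ CU₀,
  ∃ CP₀ : ℝ, ∀ CP ≥ CP₀,
  ∃ CV₀ : ℝ, ∀ CV ≥ CV₀,
  ∃ GR₀ : ℝ, ∀ GR ≥ GR₀,
  ∃ s₁ > (0 : ℝ), ∀ sg ∈ Ioc 0 s₁,
  ∃ d₁ > (0 : ℝ), ∀ d0 ∈ Ioc 0 d₁,
  ∃ b₁ > (0 : ℝ), ∀ rb ∈ Ioc 0 b₁,
  ∃ N₀ : ℝ, ∀ N ≥ N₀,
  ∃ e₁ > (0 : ℝ), ∀ eps ∈ Ioc 0 e₁,
  C ⟨B, rho0, BV, MU, MP, MV, CU, CP, CV, GR, sg, d0, rb, N, eps⟩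

/-- Strict version of `BootAt` (what the closures give). -/
structure BootAtS (q : Par) (g : ℝ → ℝ) (w f : Fn) (t x : ℝ) : Prop where
  b1 : 0 < x → yv w f t x ≤ q.rho0 →
    0 < uu w f t x ∧ |ff g w f t x| < q.fb t (uu w f t x)
  b2 : 0 < x → yv w f t x ≤ q.rho0 → |VV w f t x| < q.Vb t (uu w f t x)
  b3 : RR w f t x < q.RB t (rr w f t x) (uu w f t x)
  b4 : q.rho0 ≤ yv w f t x → yv w f t x ≤ 25 →
    |uu w f t x| < q.MU * q.A t ∧ |PP w f t x| < q.MP * q.A t / Real.sqrt (tau t) ∧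
      |VV w f t x| < q.MV * q.A t / tau t
  b5 : 25 ≤ yv w f t x →
    |uu w f t x| < q.UB t (rr w f t x) ∧ |PP w f t x| < q.PB t (rr w f t x) ∧
      |VV w f t x| < q.VB t (rr w f t x)

/-- The cube `[-2,2]^3` of parameters `b`. -/
def Bx : Set (Fin 3 → ℝ) := Icc (fun _ => -2) (fun _ => 2)

/-- Conditions at `t = 0` (the data are the functions at time `0`). -/
structure InitOK (q : Par) (g : ℝ → ℝ) (b : Fin 3 → ℝ) (w f : Fn) : Prop where
  R_nonneg : ∀ x ∈ Ico (0 : ℝ) 1, 0 ≤ RR w f 0 x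
  rs_lower : ∃ δ > 0, ∀ x ∈ Ioo (0 : ℝ) 1, δ * x ≤ rs w f 0 x
  G_lt : ∀ x ∈ Ioo (0 : ℝ) 1, |GG w f 0 x| < 2
  boot : ∀ x ∈ Ico (0 : ℝ) 1, BootAtS q g w f 0 x
  equator : q.N / 2 ≤ rr w f 0 0
  equator_le : rr w f 0 0 ≤ q.N
  close_u : ∀ x ∈ Ioo (0 : ℝ) 1, q.rho0 / 16 ≤ rr w f 0 x → rr w f 0 x ≤ 400 →
    |uu w f 0 x - q.eps * Ph 3 0 (rr w f 0 x)| ≤ Real.sqrt q.sg * q.eps
  close_P : ∀ x ∈ Ioo (0 : ℝ) 1, q.rho0 / 16 ≤ rr w f 0 x → rr w f 0 x ≤ 400 →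
    |PP w f 0 x - q.eps * Ds w (fun t x => Ph 3 t (rr w f t x)) 0 x| ≤ Real.sqrt q.sg * q.eps
  bound_V : ∀ x ∈ Ioo (0 : ℝ) 1, q.rho0 / 16 ≤ rr w f 0 x → rr w f 0 x ≤ 400 →
    |VV w f 0 x| ≤ q.BV / 2 * q.eps
  mode_main : |gami q w f 3 0 - 1| ≤ q.sg / 10
  mode_low : ∀ i : Fin 3, |gami q w f i 0 - q.sg * b i| ≤ q.sg / 10
  en : enU q w f 0 ≤ (q.sg / 10) ^ 2

/-- BLOCK B1. -/
def B1Statement : Prop := ∃ g : ℝ → ℝ, IsBub g

/-- BLOCK B2 (initial data). -/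
def B2Statement : Prop := ∀ g : ℝ → ℝ, IsBub g → Ev fun q =>
  ∃ w₀ f₀ : (Fin 3 → ℝ) → ℝ → ℝ,
    ContDiffOn ℝ ∞ (fun z : (Fin 3 → ℝ) × ℝ => w₀ z.1 z.2) (univ ×ˢ Icc (-1) 1) ∧
    ContDiffOn ℝ ∞ (fun z : (Fin 3 → ℝ) × ℝ => f₀ z.1 z.2) (univ ×ˢ Icc (-1) 1) ∧
    ∀ b ∈ Bx, ConfData (w₀ b) (f₀ b) ∧ InitOK q g b (fun _ => w₀ b) (fun _ => f₀ b)

/-- BLOCK M, part Q: qualitative facts. -/
def QStatement : Prop := ∀ g : ℝ → ℝ, IsBub g → ∀ q b, ∀ w f : Fn, ∀ T > 0, ConfSol 20 w f T →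
  InitOK q g b w f → Qual w f T

/-- BLOCK S, pointwise closeness in the parabolic region. -/
def S7Statement : Prop := ∀ g : ℝ → ℝ, IsBub g → Ev fun q => ∀ w f : Fn, ∀ T > 0, T ≤ 1 →
  ConfSol 20 w f T → Qual w f T → ∀ t₁ ∈ Ico 0 T, Boot q g w f t₁ →
  ∀ t ∈ Icc 0 t₁, ∀ x ∈ Ico (0 : ℝ) 1, q.rho0 / 16 ≤ yv w f t x → yv w f t x ≤ 400 →
    |uu w f t x - q.A t * ph 3 (yv w f t x)| ≤ Real.sqrt q.sg * q.A t

/-- BLOCK M, closure of (b1)-(b5). -/
def MStatement : Prop := ∀ g : ℝ → ℝ, IsBub g → Ev fun q => ∀ b, ∀ w f : Fn, ∀ T > 0, T ≤ 1 →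
  ConfSol 20 w f T → Qual w f T → InitOK q g b w f → ∀ t₁ ∈ Ico 0 T, Boot q g w f t₁ →
  (∀ t ∈ Icc 0 t₁, ∀ x ∈ Ico (0 : ℝ) 1, q.rho0 / 16 ≤ yv w f t x → yv w f t x ≤ 400 →
    |uu w f t x - q.A t * ph 3 (yv w f t x)| ≤ Real.sqrt q.sg * q.A t) →
  (∀ t ∈ Icc 0 t₁, ∀ x ∈ Ico (0 : ℝ) 1, BootAtS q g w f t x) ∧
    ∀ t ∈ Icc 0 t₁, q.N / 4 < rr w f t 0

/-- BLOCK S, closure of (b6) and strict exit. -/
def S6Statement : Prop := ∀ g : ℝ → ℝ, IsBub g → Ev fun q => ∀ b, ∀ w f : Fn, ∀ T > 0, T ≤ 1 →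
  ConfSol 20 w f T → Qual w f T → InitOK q g b w f → ∀ t₁ ∈ Ico 0 T, Boot q g w f t₁ →
  |gami q w f 3 t₁ - 1| < q.sg ∧ enU q w f t₁ < q.sg ^ 2 ∧
  (∀ i < 3, |gami q w f i t₁| = q.sg →
    ∀ᶠ t in 𝓝[>] t₁, q.sg < |gami q w f i t|)

/-- BLOCK C1: under the bootstrap the solution does not blow up before `t = 1`. -/
def C1Statement : Prop := ∀ g : ℝ → ℝ, IsBub g → Ev fun q => ∀ w f : Fn, ∀ T > 0, T < 1 →
  ConfSol 20 w f T → Qual w f T → rr w f 0 0 ≤ q.N → (∀ t₁ ∈ Ico 0 T, Boot q g w f t₁) →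
  (∀ t ∈ Ico 0 T, ∀ x ∈ Ico (0 : ℝ) 1, q.rho0 / 16 ≤ yv w f t x → yv w f t x ≤ 400 →
    |uu w f t x - q.A t * ph 3 (yv w f t x)| ≤ Real.sqrt q.sg * q.A t) →
  ∃ A : ℝ, ∀ t ∈ Ico 0 T, ∀ x ∈ Icc (-1 : ℝ) 1, size1 (w t) (f t) x ≤ A

/-- BLOCK C2: conclusion for solutions trapped up to `t = 1`. -/
def C2Statement : Prop := ∀ g : ℝ → ℝ, IsBub g → Ev fun q => ∀ w f : Fn,
  ConfSol 20 w f 1 → Qual w f 1 → rr w f 0 0 ≤ q.N →
  (∀ t₁ ∈ Ico (0 : ℝ) 1, Boot q g w f t₁) →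
  (∀ t ∈ Ico (0 : ℝ) 1, ∀ x ∈ Ico (0 : ℝ) 1, q.rho0 / 16 ≤ yv w f t x → yv w f t x ≤ 400 →
    |uu w f t x - q.A t * ph 3 (yv w f t x)| ≤ Real.sqrt q.sg * q.A t) →
  (∃ C : ℝ, ∀ t ∈ Ico (0 : ℝ) 1, ∀ x ∈ Icc (-1 : ℝ) 1, |scal 20 (w t) (f t) x| ≤ C) ∧
  (∀ A : ℝ, ∃ t ∈ Ico (0 : ℝ) 1, f t 1 < A)

end

end Vale.Agent.P244.ST
end

section

/-! P244, assembly A: explicit formulas (jets) for the geometric quantities and their continuity
in `(t,x)` for one solution (helper155). -/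

open Set Filter
open scoped ContDiff Topology

namespace Vale.Agent.P244.ST

namespace JA

/-- the domain `[0,T) × [-1,1]` -/
def Dm (T : ℝ) : Set (ℝ × ℝ) := Ico 0 T ×ˢ Icc (-1) 1

theorem uniqueDiff_Dm (T : ℝ) : UniqueDiffOn ℝ (Dm T) :=
  (uniqueDiffOn_Ico _ _).prod (uniqueDiffOn_Icc (by norm_num))

/-- the `x`-derivative of a smooth function of `(t,x)` -/
theorem smooth_dx {T : ℝ} {H : Fn}
    (hH : ContDiffOn ℝ ∞ (fun z : ℝ × ℝ => H z.1 z.2) (Dm T)) :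
    ContDiffOn ℝ ∞ (fun z : ℝ × ℝ => dx (H z.1) z.2) (Dm T) := by
  have h1 : ContDiffOn ℝ ∞ (fun z : ℝ × ℝ =>
      fderivWithin ℝ (fun z : ℝ × ℝ => H z.1 z.2) (Dm T) z ((0 : ℝ), (1 : ℝ))) (Dm T) :=
    (hH.fderivWithin (uniqueDiff_Dm T) le_rfl).clm_apply contDiffOn_const
  refine h1.congr fun z hz => ?_
  have h2 : HasFDerivWithinAt (fun z : ℝ × ℝ => H z.1 z.2)
      (fderivWithin ℝ (fun z : ℝ × ℝ => H z.1 z.2) (Dm T) z) (Dm T) z :=
    (hH.differentiableOn (by simp) z hz).hasFDerivWithinAt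
  have h3 : HasDerivWithinAt (fun x : ℝ => ((z.1, x) : ℝ × ℝ)) ((0 : ℝ), (1 : ℝ)) (Icc (-1) 1)
      z.2 := (hasDerivWithinAt_const _ _ _).prodMk (hasDerivWithinAt_id _ _)
  have h4 : HasDerivWithinAt (fun x : ℝ => H z.1 x)
      (fderivWithin ℝ (fun z : ℝ × ℝ => H z.1 z.2) (Dm T) z ((0 : ℝ), (1 : ℝ))) (Icc (-1) 1)
      z.2 :=
    HasFDerivWithinAt.comp_hasDerivWithinAt (f := fun x : ℝ => ((z.1, x) : ℝ × ℝ))
      (l := fun z : ℝ × ℝ => H z.1 z.2) (t := Dm T) z.2 h2 h3 fun x hx => ⟨hz.1, hx⟩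
  exact h4.derivWithin (uniqueDiffOn_Icc (by norm_num) _ hz.2)

/-- slices are smooth -/
theorem smooth_slice {T : ℝ} {H : Fn}
    (hH : ContDiffOn ℝ ∞ (fun z : ℝ × ℝ => H z.1 z.2) (Dm T)) {t : ℝ} (ht : t ∈ Ico 0 T) :
    ContDiffOn ℝ ∞ (H t) (Icc (-1) 1) :=
  hH.comp (f := fun x : ℝ => ((t, x) : ℝ × ℝ)) (by fun_prop) fun x hx => ⟨ht, hx⟩

theorem smooth_dx_slice {h : ℝ → ℝ} (hh : ContDiffOn ℝ ∞ h (Icc (-1) 1)) :
    ContDiffOn ℝ ∞ (dx h) (Icc (-1) 1) :=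
  hh.derivWithin (uniqueDiffOn_Icc (by norm_num)) le_rfl

theorem Icc_nhds {x : ℝ} (hx : x ∈ Ioo (-1 : ℝ) 1) : Icc (-1 : ℝ) 1 ∈ 𝓝 x :=
  Icc_mem_nhds hx.1 hx.2

theorem hasDerivAt_dx {h : ℝ → ℝ} (hh : ContDiffOn ℝ ∞ h (Icc (-1) 1)) {x : ℝ}
    (hx : x ∈ Ioo (-1 : ℝ) 1) : HasDerivAt h (dx h x) x := by
  have h1 : DifferentiableWithinAt ℝ h (Icc (-1) 1) x :=
    hh.differentiableOn (by simp) x (Ioo_subset_Icc_self hx)
  exact h1.hasDerivWithinAt.hasDerivAt (Icc_nhds hx)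

/-! ### formulas at one time -/

theorem hasDerivAt_xS {x : ℝ} (hx : x ∈ Ioo (-1 : ℝ) 1) :
    HasDerivAt (fun x : ℝ => x / (1 - x ^ 2)) ((1 + x ^ 2) / (1 - x ^ 2) ^ 2) x := by
  have hS : (1 - x ^ 2) ≠ 0 := by nlinarith only [hx, hx.1, hx.2]
  have h1 : HasDerivAt (fun x : ℝ => 1 - x ^ 2) (-(2 * x)) x := by
    simpa using (hasDerivAt_pow 2 x).const_sub 1
  refine ((hasDerivAt_id x).div h1 hS).congr_deriv ?_
  simp only [id]
  field_simp
  ring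


section Slice

variable {w f : Fn} {t x : ℝ} (hw : ContDiffOn ℝ ∞ (w t) (Icc (-1) 1))
  (hf : ContDiffOn ℝ ∞ (f t) (Icc (-1) 1))
include hw hf

/-- `u_x` -/
theorem hasDerivAt_uu (hx : x ∈ Ioo (-1 : ℝ) 1) :
    HasDerivAt (uu w f t) (dx (f t) x - dx (w t) x + x / (1 - x ^ 2)) x := by
  have hS : (1 - x ^ 2) ≠ 0 := by nlinarith only [hx, hx.1, hx.2]
  have h1 : HasDerivAt (fun x : ℝ => 1 - x ^ 2) (-(2 * x)) x := by
    simpa using (hasDerivAt_pow 2 x).const_sub 1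
  have h2 := (((hasDerivAt_dx hf hx).sub (hasDerivAt_dx hw hx)).sub
    ((h1.log hS).div_const 2))
  refine h2.congr_deriv ?_
  field_simp
  ring

/-- `ρ_x` -/
theorem hasDerivAt_rho (hx : x ∈ Ioo (-1 : ℝ) 1) :
    HasDerivAt (rho w f t) ((dx (f t) x + dx (w t) x - x / (1 - x ^ 2)) / 2) x := by
  have hS : (1 - x ^ 2) ≠ 0 := by nlinarith only [hx, hx.1, hx.2]
  have h1 : HasDerivAt (fun x : ℝ => 1 - x ^ 2) (-(2 * x)) x := by
    simpa using (hasDerivAt_pow 2 x).const_sub 1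
  have h2 := ((((hasDerivAt_dx hf hx).add (hasDerivAt_dx hw hx)).add
    ((h1.log hS).div_const 2)).sub_const (Real.log zeta0)).div_const 2
  refine h2.congr_deriv ?_
  field_simp
  ring

theorem PP_eq (hx : x ∈ Ioo (-1 : ℝ) 1) : PP w f t x =
    -(sx x * Real.exp (-w t x)) * (dx (f t) x - dx (w t) x + x / (1 - x ^ 2)) := by
  unfold PP Ds Dx
  rw [(hasDerivAt_uu hw hf hx).deriv]

theorem rs_eq (hx : x ∈ Ioo (-1 : ℝ) 1) : rs w f t x =
    -(sx x * Real.exp (-w t x)) * ((dx (f t) x + dx (w t) x - x / (1 - x ^ 2)) / 2) := by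
  unfold rs Ds Dx
  rw [(hasDerivAt_rho hw hf hx).deriv]

omit hf in
/-- the second arclength derivative -/
theorem Ds2_eq {H : Fn} {h1 : ℝ → ℝ} {h2 : ℝ} (hx : x ∈ Ioo (-1 : ℝ) 1)
    (hH : ∀ y ∈ Ioo (-1 : ℝ) 1, HasDerivAt (H t) (h1 y) y) (hh : HasDerivAt h1 h2 x) :
    Ds w (Ds w H) t x = Real.exp (-2 * w t x) *
      ((1 - x ^ 2) * h2 - x * h1 x - (1 - x ^ 2) * dx (w t) x * h1 x) := by
  have hS : 0 < 1 - x ^ 2 := by nlinarith only [hx, hx.1, hx.2]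
  have e1 : Ds w H t =ᶠ[𝓝 x] fun y => -(sx y * Real.exp (-w t y)) * h1 y := by
    filter_upwards [Ioo_mem_nhds hx.1 hx.2] with y hy
    unfold Ds Dx
    rw [(hH y hy).deriv]
  have e2 : HasDerivAt (fun y : ℝ => 1 - y ^ 2) (-(2 * x)) x := by
    simpa using (hasDerivAt_pow 2 x).const_sub 1
  have e3 : HasDerivAt sx (-(2 * x) / (2 * Real.sqrt (1 - x ^ 2))) x := e2.sqrt hS.ne'
  have e4 := (((e3.mul (hasDerivAt_dx hw hx).neg.exp).neg).mul hh)
  have e5 : Dx (Ds w H) t x = -((-(2 * x) / (2 * Real.sqrt (1 - x ^ 2))) * Real.exp (-w t x)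
      + sx x * (Real.exp (-w t x) * -dx (w t) x)) * h1 x + -(sx x * Real.exp (-w t x)) * h2 := by
    unfold Dx
    rw [e1.deriv_eq]
    exact e4.deriv
  change -(sx x * Real.exp (-w t x)) * Dx (Ds w H) t x = _
  rw [e5]
  have e6 : Real.exp (-2 * w t x) = Real.exp (-w t x) * Real.exp (-w t x) := by
    rw [← Real.exp_add]; congr 1; ring
  have e9 : Real.sqrt (1 - x ^ 2) ≠ 0 := (Real.sqrt_pos.2 hS).ne'
  have e7 : Real.sqrt (1 - x ^ 2) ^ 2 = 1 - x ^ 2 := Real.sq_sqrt hS.le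
  have e8 : sx x = Real.sqrt (1 - x ^ 2) := rfl
  rw [e6, e8]
  generalize Real.sqrt (1 - x ^ 2) = σ at *
  rw [← e7]
  field_simp
  ring

theorem Ds2_uu (hx : x ∈ Ioo (-1 : ℝ) 1) :
    Ds w (Ds w (uu w f)) t x = Real.exp (-2 * w t x) *
      ((1 - x ^ 2) * (dx (dx (f t)) x - dx (dx (w t)) x + (1 + x ^ 2) / (1 - x ^ 2) ^ 2)
        - x * (dx (f t) x - dx (w t) x + x / (1 - x ^ 2))
        - (1 - x ^ 2) * dx (w t) x * (dx (f t) x - dx (w t) x + x / (1 - x ^ 2))) :=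
  Ds2_eq hw (h1 := fun x => dx (f t) x - dx (w t) x + x / (1 - x ^ 2)) hx
    (fun _ hy => hasDerivAt_uu hw hf hy)
    (((hasDerivAt_dx (smooth_dx_slice hf) hx).sub (hasDerivAt_dx (smooth_dx_slice hw) hx)).add
      (hasDerivAt_xS hx))

theorem Ds2_rho (hx : x ∈ Ioo (-1 : ℝ) 1) :
    Ds w (Ds w (rho w f)) t x = Real.exp (-2 * w t x) *
      ((1 - x ^ 2) * ((dx (dx (f t)) x + dx (dx (w t)) x - (1 + x ^ 2) / (1 - x ^ 2) ^ 2) / 2)
        - x * ((dx (f t) x + dx (w t) x - x / (1 - x ^ 2)) / 2)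
        - (1 - x ^ 2) * dx (w t) x * ((dx (f t) x + dx (w t) x - x / (1 - x ^ 2)) / 2)) :=
  Ds2_eq hw (h1 := fun x => (dx (f t) x + dx (w t) x - x / (1 - x ^ 2)) / 2) hx
    (fun _ hy => hasDerivAt_rho hw hf hy)
    ((((hasDerivAt_dx (smooth_dx_slice hf) hx).add (hasDerivAt_dx (smooth_dx_slice hw) hx)).sub
      (hasDerivAt_xS hx)).div_const 2)

end Slice

/-! ### continuity in `(t,x)` -/

/-- the open slab `[0,T) × (-1,1)` -/
def Di (T : ℝ) : Set (ℝ × ℝ) := Ico 0 T ×ˢ Ioo (-1) 1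

theorem Di_sub (T : ℝ) : Di T ⊆ Dm T := Set.prod_mono le_rfl Ioo_subset_Icc_self

section Cont

variable {w f : Fn} {T : ℝ} (h : ConfSol 20 w f T)
include h

theorem cw : ContinuousOn (fun z : ℝ × ℝ => w z.1 z.2) (Di T) :=
  h.smooth_w.continuousOn.mono (Di_sub T)

theorem cf : ContinuousOn (fun z : ℝ × ℝ => f z.1 z.2) (Di T) :=
  h.smooth_f.continuousOn.mono (Di_sub T)

theorem cw1 : ContinuousOn (fun z : ℝ × ℝ => dx (w z.1) z.2) (Di T) :=
  (smooth_dx h.smooth_w).continuousOn.mono (Di_sub T)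

theorem cf1 : ContinuousOn (fun z : ℝ × ℝ => dx (f z.1) z.2) (Di T) :=
  (smooth_dx h.smooth_f).continuousOn.mono (Di_sub T)

theorem cw2 : ContinuousOn (fun z : ℝ × ℝ => dx (dx (w z.1)) z.2) (Di T) :=
  (smooth_dx (H := fun t => dx (w t)) (smooth_dx h.smooth_w)).continuousOn.mono (Di_sub T)

theorem cf2 : ContinuousOn (fun z : ℝ × ℝ => dx (dx (f z.1)) z.2) (Di T) :=
  (smooth_dx (H := fun t => dx (f t)) (smooth_dx h.smooth_f)).continuousOn.mono (Di_sub T)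

omit h in
theorem pos_S {z : ℝ × ℝ} (hz : z ∈ Di T) : 0 < 1 - z.2 ^ 2 := by
  have := hz.2
  nlinarith only [this, this.1, this.2]

omit h in
theorem cS : ContinuousOn (fun z : ℝ × ℝ => 1 - z.2 ^ 2) (Di T) := by fun_prop

omit h in
theorem cxS : ContinuousOn (fun z : ℝ × ℝ => z.2 / (1 - z.2 ^ 2)) (Di T) :=
  continuousOn_snd.div cS fun z hz => (pos_S hz).ne'

omit h in
theorem cxS2 : ContinuousOn (fun z : ℝ × ℝ => (1 + z.2 ^ 2) / (1 - z.2 ^ 2) ^ 2) (Di T) :=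
  ContinuousOn.div (by fun_prop) (cS.pow 2) fun _ hz => (pow_pos (pos_S hz) 2).ne'

theorem cont_uu : ContinuousOn (fun z : ℝ × ℝ => uu w f z.1 z.2) (Di T) :=
  ((cf h).sub (cw h)).sub ((cS.log fun z hz => (pos_S hz).ne').div_const 2)

theorem cont_rho : ContinuousOn (fun z : ℝ × ℝ => rho w f z.1 z.2) (Di T) :=
  ((((cf h).add (cw h)).add ((cS.log fun z hz => (pos_S hz).ne').div_const 2)).sub
    continuousOn_const).div_const 2

theorem cont_rr : ContinuousOn (fun z : ℝ × ℝ => rr w f z.1 z.2) (Di T) := (cont_rho h).rexp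

omit h in
theorem cont_tau {s : Set (ℝ × ℝ)} : ContinuousOn (fun z : ℝ × ℝ => tau z.1) s := by
  unfold tau; fun_prop

omit h in
theorem tau_pos {t : ℝ} (hT : T ≤ 1) (ht : t ∈ Ico 0 T) : 0 < tau t := by
  unfold tau; linarith only [hT, ht, ht.2]

theorem cont_yv (hT : T ≤ 1) : ContinuousOn (fun z : ℝ × ℝ => yv w f z.1 z.2) (Di T) :=
  (cont_rr h).div (cont_tau.sqrt) fun z hz => (Real.sqrt_pos.2 (tau_pos hT hz.1)).ne'

theorem cont_fac : ContinuousOn (fun z : ℝ × ℝ => -(sx z.2 * Real.exp (-w z.1 z.2))) (Di T) := by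
  have h1 : ContinuousOn (fun z : ℝ × ℝ => sx z.2) (Di T) := cS.sqrt
  exact (h1.mul (cw h).neg.rexp).neg

theorem cont_PP : ContinuousOn (fun z : ℝ × ℝ => PP w f z.1 z.2) (Di T) := by
  refine ((cont_fac h).mul (((cf1 h).sub (cw1 h)).add cxS)).congr fun z hz => ?_
  exact PP_eq (smooth_slice h.smooth_w hz.1) (smooth_slice h.smooth_f hz.1) hz.2

theorem cont_rs : ContinuousOn (fun z : ℝ × ℝ => rs w f z.1 z.2) (Di T) := by
  refine ((cont_fac h).mul ((((cf1 h).add (cw1 h)).sub cxS).div_const 2)).congr fun z hz => ?_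
  exact rs_eq (smooth_slice h.smooth_w hz.1) (smooth_slice h.smooth_f hz.1) hz.2

theorem cont_Ds2u : ContinuousOn (fun z : ℝ × ℝ => Ds w (Ds w (uu w f)) z.1 z.2) (Di T) := by
  have hx : ContinuousOn (fun z : ℝ × ℝ => z.2) (Di T) := continuousOn_snd
  have he : ContinuousOn (fun z : ℝ × ℝ => Real.exp (-2 * w z.1 z.2)) (Di T) :=
    (continuousOn_const.mul (cw h)).rexp
  have hu := ((cf1 h).sub (cw1 h)).add (cxS (T := T))
  refine (he.mul (((cS.mul (((cf2 h).sub (cw2 h)).add cxS2)).sub (hx.mul hu)).sub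
    ((cS.mul (cw1 h)).mul hu))).congr fun z hz => ?_
  exact Ds2_uu (smooth_slice h.smooth_w hz.1) (smooth_slice h.smooth_f hz.1) hz.2

theorem cont_Ds2r : ContinuousOn (fun z : ℝ × ℝ => Ds w (Ds w (rho w f)) z.1 z.2) (Di T) := by
  have hx : ContinuousOn (fun z : ℝ × ℝ => z.2) (Di T) := continuousOn_snd
  have he : ContinuousOn (fun z : ℝ × ℝ => Real.exp (-2 * w z.1 z.2)) (Di T) :=
    (continuousOn_const.mul (cw h)).rexp
  have hu := (((cf1 h).add (cw1 h)).sub (cxS (T := T))).div_const 2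
  refine (he.mul (((cS.mul ((((cf2 h).add (cw2 h)).sub cxS2).div_const 2)).sub (hx.mul hu)).sub
    ((cS.mul (cw1 h)).mul hu))).congr fun z hz => ?_
  exact Ds2_rho (smooth_slice h.smooth_w hz.1) (smooth_slice h.smooth_f hz.1) hz.2

theorem cont_VV : ContinuousOn (fun z : ℝ × ℝ => VV w f z.1 z.2) (Di T) := by
  have h1 : ContinuousOn (fun z : ℝ × ℝ => 78 * Real.sinh (uu w f z.1 z.2) /
      (rr w f z.1 z.2) ^ 2) (Di T) :=
    (continuousOn_const.mul (Real.continuous_sinh.comp_continuousOn (cont_uu h))).div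
      ((cont_rr h).pow 2) fun _ _ => (pow_pos (Real.exp_pos _) 2).ne'
  exact ((cont_Ds2u h).add ((continuousOn_const.mul (cont_rs h)).mul (cont_PP h))).add h1

theorem cont_yy : ContinuousOn (fun z : ℝ × ℝ => yy w f z.1 z.2) (Di T) := by
  have h1 : ContinuousOn (fun z : ℝ × ℝ => 39 * Real.cosh (uu w f z.1 z.2) /
      (rr w f z.1 z.2) ^ 2) (Di T) :=
    (continuousOn_const.mul (Real.continuous_cosh.comp_continuousOn (cont_uu h))).div
      ((cont_rr h).pow 2) fun _ _ => (pow_pos (Real.exp_pos _) 2).ne'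
  exact ((cont_Ds2r h).add ((continuousOn_const.mul (cont_rs h)).mul (cont_rs h))).sub h1

theorem cont_E0 : ContinuousOn (fun z : ℝ × ℝ => E0 w f z.1 z.2) (Di T) :=
  ((continuousOn_const.mul (cont_Ds2r h)).neg.sub
    (continuousOn_const.mul ((cont_rs h).pow 2))).sub (continuousOn_const.mul ((cont_PP h).pow 2))

theorem cont_RR : ContinuousOn (fun z : ℝ × ℝ => RR w f z.1 z.2) (Di T) :=
  (cont_E0 h).sub (continuousOn_const.mul (cont_yy h))

end Cont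

end JA

end Vale.Agent.P244.ST
end

section

/-! P244, assembly A: the nested quantifier `Ev` (helper460). -/

open Set Filter
open scoped ContDiff Topology

namespace Vale.Agent.P244.ST

theorem Ev.mono {C D : Par → Prop} (h : Ev C) (hCD : ∀ q, C q → D q) : Ev D := by
  obtain ⟨B₀, h⟩ := h
  refine ⟨B₀, fun B hB => ?_⟩
  obtain ⟨x, hx, h⟩ := h B hB
  refine ⟨x, hx, fun rho0 h1 => ?_⟩
  obtain ⟨x, h⟩ := h rho0 h1
  refine ⟨x, fun BV h1 => ?_⟩
  obtain ⟨x, h⟩ := h BV h1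
  refine ⟨x, fun MU h1 => ?_⟩
  obtain ⟨x, h⟩ := h MU h1
  refine ⟨x, fun MP h1 => ?_⟩
  obtain ⟨x, h⟩ := h MP h1
  refine ⟨x, fun MV h1 => ?_⟩
  obtain ⟨x, h⟩ := h MV h1
  refine ⟨x, fun CU h1 => ?_⟩
  obtain ⟨x, h⟩ := h CU h1
  refine ⟨x, fun CP h1 => ?_⟩
  obtain ⟨x, h⟩ := h CP h1
  refine ⟨x, fun CV h1 => ?_⟩
  obtain ⟨x, h⟩ := h CV h1
  refine ⟨x, fun GR h1 => ?_⟩
  obtain ⟨x, hx, h⟩ := h GR h1
  refine ⟨x, hx, fun sg h1 => ?_⟩
  obtain ⟨x, hx, h⟩ := h sg h1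
  refine ⟨x, hx, fun d0 h1 => ?_⟩
  obtain ⟨x, hx, h⟩ := h d0 h1
  refine ⟨x, hx, fun rb h1 => ?_⟩
  obtain ⟨x, h⟩ := h rb h1
  refine ⟨x, fun N h1 => ?_⟩
  obtain ⟨x, hx, h⟩ := h N h1
  refine ⟨x, hx, fun eps h1 => ?_⟩
  exact hCD _ (h eps h1)

/-- one step of large type -/
theorem large_and {P Q : ℝ → Prop} (hP : ∃ B₀ : ℝ, ∀ B ≥ B₀, P B) (hQ : ∃ B₀ : ℝ, ∀ B ≥ B₀, Q B) :
    ∃ B₀ : ℝ, ∀ B ≥ B₀, P B ∧ Q B := by
  obtain ⟨a, ha⟩ := hP
  obtain ⟨b, hb⟩ := hQ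
  exact ⟨max a b, fun B hB => ⟨ha B ((le_max_left _ _).trans hB), hb B ((le_max_right _ _).trans hB)⟩⟩

/-- one step of small type -/
theorem small_and {P Q : ℝ → Prop} (hP : ∃ B₀ > (0 : ℝ), ∀ B ∈ Ioc 0 B₀, P B)
    (hQ : ∃ B₀ > (0 : ℝ), ∀ B ∈ Ioc 0 B₀, Q B) :
    ∃ B₀ > (0 : ℝ), ∀ B ∈ Ioc 0 B₀, P B ∧ Q B := by
  obtain ⟨a, ha0, ha⟩ := hP
  obtain ⟨b, hb0, hb⟩ := hQ
  exact ⟨min a b, lt_min ha0 hb0, fun B hB => ⟨ha B ⟨hB.1, hB.2.trans (min_le_left _ _)⟩,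
    hb B ⟨hB.1, hB.2.trans (min_le_right _ _)⟩⟩⟩

theorem large_mono {P Q : ℝ → Prop} (hP : ∃ B₀ : ℝ, ∀ B ≥ B₀, P B) (h : ∀ B, P B → Q B) :
    ∃ B₀ : ℝ, ∀ B ≥ B₀, Q B := by
  obtain ⟨a, ha⟩ := hP
  exact ⟨a, fun B hB => h B (ha B hB)⟩

theorem small_mono {P Q : ℝ → Prop} (hP : ∃ B₀ > (0 : ℝ), ∀ B ∈ Ioc 0 B₀, P B)
    (h : ∀ B, P B → Q B) : ∃ B₀ > (0 : ℝ), ∀ B ∈ Ioc 0 B₀, Q B := by
  obtain ⟨a, ha0, ha⟩ := hP
  exact ⟨a, ha0, fun B hB => h B (ha B hB)⟩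

theorem Ev.and {C D : Par → Prop} (hC : Ev C) (hD : Ev D) : Ev fun q => C q ∧ D q := by
  unfold Ev at *
  refine large_mono (large_and hC hD) fun B h => ?_
  refine small_mono (small_and h.1 h.2) fun rho0 h => ?_
  refine large_mono (large_and h.1 h.2) fun BV h => ?_
  refine large_mono (large_and h.1 h.2) fun MU h => ?_
  refine large_mono (large_and h.1 h.2) fun MP h => ?_
  refine large_mono (large_and h.1 h.2) fun MV h => ?_
  refine large_mono (large_and h.1 h.2) fun CU h => ?_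
  refine large_mono (large_and h.1 h.2) fun CP h => ?_
  refine large_mono (large_and h.1 h.2) fun CV h => ?_
  refine large_mono (large_and h.1 h.2) fun GR h => ?_
  refine small_mono (small_and h.1 h.2) fun sg h => ?_
  refine small_mono (small_and h.1 h.2) fun d0 h => ?_
  refine small_mono (small_and h.1 h.2) fun rb h => ?_
  refine large_mono (large_and h.1 h.2) fun N h => ?_
  exact small_and h.1 h.2

theorem large_ex {P : ℝ → Prop} (hP : ∃ B₀ : ℝ, ∀ B ≥ B₀, P B) : ∃ B, P B := by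
  obtain ⟨a, ha⟩ := hP
  exact ⟨a, ha a le_rfl⟩

theorem small_ex {P : ℝ → Prop} (hP : ∃ B₀ > (0 : ℝ), ∀ B ∈ Ioc 0 B₀, P B) : ∃ B, P B := by
  obtain ⟨a, ha0, ha⟩ := hP
  exact ⟨a, ha a ⟨ha0, le_rfl⟩⟩

/-- parameters exist -/
theorem Ev.exists {C : Par → Prop} (h : Ev C) : ∃ q, C q := by
  unfold Ev at h
  obtain ⟨B, h⟩ := large_ex h
  obtain ⟨rho0, h⟩ := small_ex h
  obtain ⟨BV, h⟩ := large_ex h
  obtain ⟨MU, h⟩ := large_ex h
  obtain ⟨MP, h⟩ := large_ex h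
  obtain ⟨MV, h⟩ := large_ex h
  obtain ⟨CU, h⟩ := large_ex h
  obtain ⟨CP, h⟩ := large_ex h
  obtain ⟨CV, h⟩ := large_ex h
  obtain ⟨GR, h⟩ := large_ex h
  obtain ⟨sg, h⟩ := small_ex h
  obtain ⟨d0, h⟩ := small_ex h
  obtain ⟨rb, h⟩ := small_ex h
  obtain ⟨N, h⟩ := large_ex h
  obtain ⟨eps, h⟩ := small_ex h
  exact ⟨_, h⟩

/-- parameters may be assumed large/small in absolute terms -/
structure ParPos (K : ℝ) (q : Par) : Prop where
  B : K ≤ q.B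
  rho0 : 0 < q.rho0
  rho0' : q.rho0 ≤ 1 / K
  BV : K ≤ q.BV
  MU : K ≤ q.MU
  MP : K ≤ q.MP
  MV : K ≤ q.MV
  CU : K ≤ q.CU
  CP : K ≤ q.CP
  CV : K ≤ q.CV
  GR : K ≤ q.GR
  sg : 0 < q.sg
  sg' : q.sg ≤ 1 / K
  d0 : 0 < q.d0
  d0' : q.d0 ≤ 1 / K
  rb : 0 < q.rb
  rb' : q.rb ≤ 1 / K
  N : K ≤ q.N
  eps : 0 < q.eps
  eps' : q.eps ≤ 1 / K

theorem ev_pos {K : ℝ} (hK : 0 < K) : Ev (ParPos K) := by
  have h : 0 < 1 / K := by positivity
  refine ⟨K, fun B hB => ?_⟩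
  refine ⟨1 / K, h, fun rho0 h1 => ?_⟩
  refine ⟨K, fun BV h2 => ?_⟩
  refine ⟨K, fun MU h3 => ?_⟩
  refine ⟨K, fun MP h4 => ?_⟩
  refine ⟨K, fun MV h5 => ?_⟩
  refine ⟨K, fun CU h6 => ?_⟩
  refine ⟨K, fun CP h7 => ?_⟩
  refine ⟨K, fun CV h8 => ?_⟩
  refine ⟨K, fun GR h9 => ?_⟩
  refine ⟨1 / K, h, fun sg h10 => ?_⟩
  refine ⟨1 / K, h, fun d0 h11 => ?_⟩
  refine ⟨1 / K, h, fun rb h12 => ?_⟩
  refine ⟨K, fun N h13 => ?_⟩
  refine ⟨1 / K, h, fun eps h14 => ?_⟩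
  exact ⟨hB, h1.1, h1.2, h2, h3, h4, h5, h6, h7, h8, h9, h10.1, h10.2, h11.1, h11.2, h12.1, h12.2,
    h13, h14.1, h14.2⟩

end Vale.Agent.P244.ST
end

section

/-! P244, block S: the Laguerre measure `z^a e^{-z} dz` on `(0,∞)`, `a > -1`, its moments, and
the Laguerre polynomials (helper460). -/

open MeasureTheory Set Filter Polynomial
open scoped Topology ENNReal

namespace Vale.Agent.P244.ST.Lag

/-- the measure `z^a e^{-z} dz` on `(0,∞)` -/
noncomputable def mu (a : ℝ) : Measure ℝ :=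
  (volume.restrict (Ioi 0)).withDensity (fun z => ENNReal.ofReal (z ^ a * Real.exp (-z)))

theorem wt_nonneg {a z : ℝ} (hz : z ∈ Ioi (0 : ℝ)) : 0 ≤ z ^ a * Real.exp (-z) :=
  mul_nonneg (Real.rpow_nonneg (le_of_lt hz) _) (Real.exp_nonneg _)

theorem integral_mu (a : ℝ) (f : ℝ → ℝ) :
    ∫ z, f z ∂(mu a) = ∫ z in Ioi 0, f z * (z ^ a * Real.exp (-z)) := by
  unfold mu
  rw [integral_withDensity_eq_integral_toReal_smul (by fun_prop)
    (Eventually.of_forall fun _ => ENNReal.ofReal_lt_top)]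
  apply setIntegral_congr_fun measurableSet_Ioi
  intro z hz
  simp only [smul_eq_mul]
  rw [ENNReal.toReal_ofReal (wt_nonneg hz), mul_comm]

theorem integrable_mu (a : ℝ) (f : ℝ → ℝ) :
    Integrable f (mu a) ↔ IntegrableOn (fun z => f z * (z ^ a * Real.exp (-z))) (Ioi 0) := by
  unfold mu
  rw [integrable_withDensity_iff_integrable_smul' (by fun_prop)
    (Eventually.of_forall fun _ => ENNReal.ofReal_lt_top)]
  unfold IntegrableOn
  apply integrable_congr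
  filter_upwards [ae_restrict_mem measurableSet_Ioi] with z hz
  rw [ENNReal.toReal_ofReal (wt_nonneg hz), smul_eq_mul, mul_comm]

theorem ae_mu (a : ℝ) : ∀ᵐ z ∂(mu a), 0 < z := by
  unfold mu
  exact (withDensity_absolutelyContinuous _ _).ae_le (ae_restrict_mem measurableSet_Ioi)

theorem pow_wt {a z : ℝ} (k : ℕ) (hz : z ∈ Ioi (0 : ℝ)) :
    Real.exp (-z) * z ^ (a + k + 1 - 1) = z ^ k * (z ^ a * Real.exp (-z)) := by
  have h : a + k + 1 - 1 = a + k := by ring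
  rw [h, Real.rpow_add_natCast (ne_of_gt hz)]
  ring

theorem pos_of {a : ℝ} (ha : -1 < a) (k : ℕ) : 0 < a + k + 1 := by
  have : (0 : ℝ) ≤ k := Nat.cast_nonneg k
  linarith only [ha]

theorem pow_integrable {a : ℝ} (ha : -1 < a) (k : ℕ) :
    Integrable (fun z : ℝ => z ^ k) (mu a) := by
  rw [integrable_mu]
  refine (Real.GammaIntegral_convergent (pos_of ha k)).congr_fun ?_ measurableSet_Ioi
  intro z hz
  exact pow_wt k hz

/-- the moments -/
theorem moment {a : ℝ} (ha : -1 < a) (k : ℕ) :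
    ∫ z, z ^ k ∂(mu a) = Real.Gamma (a + k + 1) := by
  rw [integral_mu, Real.Gamma_eq_integral (pos_of ha k)]
  apply setIntegral_congr_fun measurableSet_Ioi
  intro z hz
  exact (pow_wt k hz).symm

theorem moment_succ {a : ℝ} (ha : -1 < a) (k : ℕ) :
    Real.Gamma (a + (k + 1 : ℕ) + 1) = (a + k + 1) * Real.Gamma (a + k + 1) := by
  rw [← Real.Gamma_add_one (pos_of ha k).ne']
  congr 1
  push_cast
  ring

theorem poly_integrable {a : ℝ} (ha : -1 < a) (p : ℝ[X]) :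
    Integrable (fun z => p.eval z) (mu a) := by
  induction p using Polynomial.induction_on' with
  | add p q hp hq =>
    simp only [eval_add]
    exact hp.add hq
  | monomial n c =>
    simp only [eval_monomial]
    exact (pow_integrable ha n).const_mul c

theorem poly_memLp {a : ℝ} (ha : -1 < a) (p : ℝ[X]) : MemLp (fun z => p.eval z) 2 (mu a) := by
  rw [memLp_two_iff_integrable_sq (by exact Continuous.aestronglyMeasurable (by fun_prop))]
  have := poly_integrable ha (p ^ 2)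
  simpa using this

theorem finite_mu {a : ℝ} (ha : -1 < a) : IsFiniteMeasure (mu a) := by
  have h := pow_integrable ha 0
  simp only [pow_zero] at h
  rwa [integrable_const_iff_isFiniteMeasure one_ne_zero] at h

/-! ### Laguerre polynomials -/

/-- coefficients of the Laguerre polynomial with constant term `1` -/
noncomputable def cf (a : ℝ) (n k : ℕ) : ℝ :=
  (-1) ^ k * (n.choose k : ℝ) / ∏ i ∈ Finset.range k, (a + 1 + i)

theorem prod_pos {a : ℝ} (ha : -1 < a) (k : ℕ) : 0 < ∏ i ∈ Finset.range k, (a + 1 + i) := by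
  apply Finset.prod_pos
  intro i _
  have : (0 : ℝ) ≤ i := Nat.cast_nonneg i
  linarith only [ha]

theorem choose_cast (n k : ℕ) :
    ((n.choose (k + 1) : ℕ) : ℝ) * (k + 1) = (n.choose k : ℝ) * (n - k) := by
  rcases le_or_gt k n with h | h
  · have h1 := Nat.choose_succ_right_eq n k
    have h2 : ((n.choose (k + 1) * (k + 1) : ℕ) : ℝ) = ((n.choose k * (n - k) : ℕ) : ℝ) := by
      exact_mod_cast h1
    rw [Nat.cast_mul, Nat.cast_mul, Nat.cast_sub h] at h2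
    push_cast at h2
    exact h2
  · rw [Nat.choose_eq_zero_of_lt h, Nat.choose_eq_zero_of_lt (by omega)]
    simp

theorem cf_succ {a : ℝ} (ha : -1 < a) (n k : ℕ) :
    ((k : ℝ) + 1) * (a + k + 1) * cf a n (k + 1) = -((n : ℝ) - k) * cf a n k := by
  unfold cf
  rw [Finset.prod_range_succ]
  have h1 := (prod_pos ha k).ne'
  have h2 : a + 1 + (k : ℝ) ≠ 0 := by
    have := pos_of ha k
    intro h
    linarith only [ha, h]
  have h3 := choose_cast n k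
  rw [pow_succ]
  have e1 : ((k : ℝ) + 1) * (a + k + 1) * ((-1) ^ k * -1 * ((n.choose (k + 1) : ℕ) : ℝ) /
      ((∏ i ∈ Finset.range k, (a + 1 + i)) * (a + 1 + k))) =
      -((-1) ^ k * (((n.choose (k + 1) : ℕ) : ℝ) * (k + 1)) /
        (∏ i ∈ Finset.range k, (a + 1 + i))) := by
    field_simp
    ring
  rw [e1, h3]
  ring

/-- Laguerre polynomial, normalized by `ell 0 = 1` -/
noncomputable def ell (a : ℝ) (n : ℕ) : ℝ[X] :=
  ∑ k ∈ Finset.range (n + 1), monomial k (cf a n k)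

theorem coeff_ell (a : ℝ) (n k : ℕ) : (ell a n).coeff k = cf a n k := by
  unfold ell
  rw [finsetSum_coeff]
  simp_rw [coeff_monomial]
  rw [Finset.sum_ite_eq' (Finset.range (n + 1)) k]
  split_ifs with h
  · rfl
  · rw [Finset.mem_range, not_lt] at h
    unfold cf
    rw [Nat.choose_eq_zero_of_lt (by omega)]
    simp

/-- the Laguerre operator on polynomials -/
noncomputable def Lp (a : ℝ) (p : ℝ[X]) : ℝ[X] :=
  X * derivative (derivative p) + (C (a + 1) - X) * derivative p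

theorem coeff_Lp (a : ℝ) (p : ℝ[X]) (k : ℕ) :
    (Lp a p).coeff k = ((k : ℝ) + 1) * (a + k + 1) * p.coeff (k + 1) - k * p.coeff k := by
  unfold Lp
  rw [sub_mul, coeff_add, coeff_sub, coeff_C_mul]
  cases k with
  | zero =>
    simp only [mul_coeff_zero, coeff_X_zero, zero_mul, coeff_derivative]
    push_cast
    ring
  | succ j =>
    rw [coeff_X_mul, coeff_X_mul, coeff_derivative, coeff_derivative, coeff_derivative]
    push_cast
    ring

theorem Lp_ell {a : ℝ} (ha : -1 < a) (n : ℕ) : Lp a (ell a n) = C (-(n : ℝ)) * ell a n := by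
  ext k
  rw [coeff_Lp, coeff_C_mul, coeff_ell, coeff_ell, cf_succ ha]
  ring

theorem Lp_C_mul (a c : ℝ) (p : ℝ[X]) : Lp a (C c * p) = C c * Lp a p := by
  unfold Lp
  simp only [derivative_C_mul]
  ring

/-! ### integration by parts for polynomials -/

theorem ibp_poly {a : ℝ} (ha : -1 < a) (g : ℝ[X]) :
    ∫ z, (X * derivative g + (C (a + 1) - X) * g).eval z ∂(mu a) = 0 := by
  induction g using Polynomial.induction_on' with
  | add p q hp hq =>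
    have h : (X * derivative (p + q) + (C (a + 1) - X) * (p + q)) =
        (X * derivative p + (C (a + 1) - X) * p) + (X * derivative q + (C (a + 1) - X) * q) := by
      rw [derivative_add]
      ring
    rw [h]
    simp only [eval_add (p := X * derivative p + (C (a + 1) - X) * p)]
    rw [integral_add (poly_integrable ha _) (poly_integrable ha _), hp, hq, add_zero]
  | monomial k c =>
    have h : ∀ z : ℝ, (X * derivative (monomial k c) + (C (a + 1) - X) * monomial k c).eval z =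
        c * ((a + k + 1) * z ^ k - z ^ (k + 1)) := by
      intro z
      rw [derivative_monomial]
      simp only [eval_add, eval_mul, eval_X, eval_monomial, eval_sub, eval_C]
      cases k with
      | zero => simp; ring
      | succ j =>
        rw [Nat.add_sub_cancel]
        push_cast
        ring
    simp_rw [h]
    rw [integral_const_mul, integral_sub ((pow_integrable ha k).const_mul _)
      (pow_integrable ha (k + 1)), integral_const_mul, moment ha, moment ha, moment_succ ha,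
      sub_self, mul_zero]

theorem Lp_symm {a : ℝ} (ha : -1 < a) (p q : ℝ[X]) :
    ∫ z, (Lp a p * q).eval z ∂(mu a) = -∫ z, (X * (derivative p * derivative q)).eval z ∂(mu a) := by
  have h := ibp_poly ha (derivative p * q)
  have e : X * derivative (derivative p * q) + (C (a + 1) - X) * (derivative p * q) =
      Lp a p * q + X * (derivative p * derivative q) := by
    unfold Lp
    rw [derivative_mul]
    ring
  rw [e] at h
  simp only [eval_add (p := Lp a p * q)] at h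
  rw [integral_add (poly_integrable ha _) (poly_integrable ha _)] at h
  linarith only [h]

theorem orth {a : ℝ} (ha : -1 < a) {m n : ℕ} (hmn : m ≠ n) :
    ∫ z, (ell a m).eval z * (ell a n).eval z ∂(mu a) = 0 := by
  have h1 := Lp_symm ha (ell a m) (ell a n)
  have h2 := Lp_symm ha (ell a n) (ell a m)
  rw [mul_comm (derivative (ell a n))] at h2
  rw [← h2, Lp_ell ha, Lp_ell ha] at h1
  simp only [eval_mul, eval_C, mul_assoc] at h1
  rw [integral_const_mul, integral_const_mul] at h1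
  have h3 : ∫ z, (ell a n).eval z * (ell a m).eval z ∂(mu a) =
      ∫ z, (ell a m).eval z * (ell a n).eval z ∂(mu a) := by
    congr 1
    funext z
    ring
  rw [h3] at h1
  have h4 : ((n : ℝ) - m) * ∫ z, (ell a m).eval z * (ell a n).eval z ∂(mu a) = 0 := by linarith only [h1]
  rcases mul_eq_zero.1 h4 with h5 | h5
  · exact absurd (by exact_mod_cast (sub_eq_zero.1 h5).symm) hmn
  · exact h5

theorem sq_pos {a : ℝ} (ha : -1 < a) {p : ℝ[X]} (hp : p ≠ 0) : 0 < ∫ z, p.eval z ^ 2 ∂(mu a) := by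
  have hi : Integrable (fun z => p.eval z ^ 2) (mu a) := (poly_memLp ha p).integrable_sq
  have h0 : 0 ≤ ∫ z, p.eval z ^ 2 ∂(mu a) := integral_nonneg fun z => sq_nonneg _
  refine lt_of_le_of_ne h0 fun h => ?_
  rw [eq_comm, integral_eq_zero_iff_of_nonneg (fun z => sq_nonneg _) hi] at h
  have h1 : ∀ᵐ z ∂(mu a), p.eval z = 0 := by
    filter_upwards [h] with z hz
    exact pow_eq_zero_iff (two_ne_zero) |>.1 hz
  unfold mu at h1
  rw [ae_withDensity_iff (by fun_prop)] at h1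
  rw [ae_restrict_iff' measurableSet_Ioi] at h1
  have h2 : ∀ᵐ z : ℝ, z ∉ Ioi (0 : ℝ) := by
    have hfin : ∀ᵐ z : ℝ, z ∉ (p.roots.toFinset : Set ℝ) := by
      have := (p.roots.toFinset : Set ℝ).toFinite.measure_zero (volume : Measure ℝ)
      exact measure_eq_zero_iff_ae_notMem.1 this
    filter_upwards [h1, hfin] with z hz hz'
    intro hz0
    apply hz'
    rw [Finset.mem_coe, Multiset.mem_toFinset, mem_roots hp]
    apply hz hz0
    rw [Ne, ENNReal.ofReal_eq_zero, not_le]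
    exact mul_pos (Real.rpow_pos_of_pos hz0 _) (Real.exp_pos _)
  have h3 := measure_eq_zero_iff_ae_notMem.2 h2
  rw [Real.volume_Ioi] at h3
  exact ENNReal.top_ne_zero h3

theorem cf_ne {a : ℝ} (ha : -1 < a) (n : ℕ) : cf a n n ≠ 0 := by
  unfold cf
  rw [Nat.choose_self]
  have := (prod_pos ha n).ne'
  simp [this]

theorem ell_ne {a : ℝ} (ha : -1 < a) (n : ℕ) : ell a n ≠ 0 := by
  intro h
  have := coeff_ell a n n
  rw [h, coeff_zero] at this
  exact cf_ne ha n this.symm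

/-- squared norm of `ell n` -/
noncomputable def nrm (a : ℝ) (n : ℕ) : ℝ := ∫ z, (ell a n).eval z ^ 2 ∂(mu a)

theorem nrm_pos {a : ℝ} (ha : -1 < a) (n : ℕ) : 0 < nrm a n := sq_pos ha (ell_ne ha n)

/-- normalized Laguerre polynomials -/
noncomputable def en (a : ℝ) (n : ℕ) : ℝ[X] := C (1 / √(nrm a n)) * ell a n

theorem Lp_en {a : ℝ} (ha : -1 < a) (n : ℕ) : Lp a (en a n) = C (-(n : ℝ)) * en a n := by
  unfold en
  rw [Lp_C_mul, Lp_ell ha]
  ring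

theorem en_orth {a : ℝ} (ha : -1 < a) (m n : ℕ) :
    ∫ z, (en a m).eval z * (en a n).eval z ∂(mu a) = if m = n then 1 else 0 := by
  unfold en
  simp only [eval_mul, eval_C]
  have e : ∀ z, 1 / √(nrm a m) * (ell a m).eval z * (1 / √(nrm a n) * (ell a n).eval z) =
      (1 / √(nrm a m) * (1 / √(nrm a n))) * ((ell a m).eval z * (ell a n).eval z) := by
    intro z; ring
  simp_rw [e]
  rw [integral_const_mul]
  split_ifs with h
  · subst h
    have h1 : ∫ z, (ell a m).eval z * (ell a m).eval z ∂(mu a) = nrm a m := by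
      unfold nrm
      congr 1
      funext z
      ring
    rw [h1]
    have h2 := Real.mul_self_sqrt (nrm_pos ha m).le
    have h3 : √(nrm a m) ≠ 0 := (Real.sqrt_pos.2 (nrm_pos ha m)).ne'
    field_simp
    rw [sq, h2]
  · rw [orth ha h, mul_zero]

end Vale.Agent.P244.ST.Lag
end

section

/-!
# P244-ST, block B : the solutions `Φ_i(r,τ) = r^{-κ} τ^i l_i(r²/4τ)` of the linear equation
-/

open Set Filter Topology
open scoped ContDiff

namespace Vale.Agent.P244.ST.BD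

/-- `PhiD κ a i j = (r ∂_r)^j Φ_i`, where `Φ_i = r^{-κ} τ^i l_i(r²/4τ)`. -/
noncomputable def PhiD (κ a : ℝ) (i j : ℕ) (r τ : ℝ) : ℝ :=
  r ^ (-κ) * ∑ k ∈ Finset.range (i + 1),
    (2 * (k : ℝ) - κ) ^ j * Lag.cf a i k * (r ^ 2 / 4) ^ k * τ ^ (i - k)

/-- The `τ`-derivative of `PhiD`. -/
noncomputable def PhiDt (κ a : ℝ) (i j : ℕ) (r τ : ℝ) : ℝ :=
  r ^ (-κ) * ∑ k ∈ Finset.range (i + 1),
    (2 * (k : ℝ) - κ) ^ j * Lag.cf a i k * (r ^ 2 / 4) ^ k * (((i - k : ℕ) : ℝ) * τ ^ (i - k - 1))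

/-- `r ∂_r` raises the index `j`. -/
theorem hasDerivAt_PhiD (κ a : ℝ) (i j : ℕ) {r : ℝ} (hr : 0 < r) (τ : ℝ) :
    HasDerivAt (fun r => PhiD κ a i j r τ) (PhiD κ a i (j + 1) r τ / r) r := by
  have h1 : HasDerivAt (fun r : ℝ => r ^ (-κ)) (-κ * r ^ (-κ - 1)) r :=
    Real.hasDerivAt_rpow_const (Or.inl hr.ne')
  have h2 : HasDerivAt (fun r : ℝ => ∑ k ∈ Finset.range (i + 1),
      (2 * (k : ℝ) - κ) ^ j * Lag.cf a i k * (r ^ 2 / 4) ^ k * τ ^ (i - k))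
      (∑ k ∈ Finset.range (i + 1),
      (2 * (k : ℝ) - κ) ^ j * Lag.cf a i k * ((k : ℝ) * (r ^ 2 / 4) ^ (k - 1) * (2 * r / 4)) *
        τ ^ (i - k)) r := by
    refine HasDerivAt.fun_sum fun k _ => ?_
    have h3 : HasDerivAt (fun r : ℝ => r ^ 2 / 4) (2 * r / 4) r := by
      have := (hasDerivAt_pow 2 r).div_const 4
      simpa using this
    exact ((h3.pow k).const_mul _).mul_const _
  refine (h1.mul h2).congr_deriv ?_
  unfold PhiD
  rw [Finset.mul_sum, Finset.mul_sum, Finset.mul_sum, ← Finset.sum_add_distrib, Finset.sum_div]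
  refine Finset.sum_congr rfl fun k _ => ?_
  have h4 : r ^ (-κ - 1) = r ^ (-κ) / r := Real.rpow_sub_one hr.ne' _
  have h5 : (k : ℝ) * (r ^ 2 / 4) ^ (k - 1) * (2 * r / 4) = 2 * k * (r ^ 2 / 4) ^ k / r := by
    rcases Nat.eq_zero_or_pos k with h | h
    · subst h
      simp
    · have h6 : (r ^ 2 / 4) ^ k = (r ^ 2 / 4) ^ (k - 1) * (r ^ 2 / 4) := by
        rw [← pow_succ, Nat.sub_add_cancel h]
      rw [h6]
      field_simp
  rw [h4, h5, pow_succ]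
  field_simp
  ring

theorem hasDerivAt_PhiD_tau (κ a : ℝ) (i j : ℕ) (r τ : ℝ) :
    HasDerivAt (fun τ => PhiD κ a i j r τ) (PhiDt κ a i j r τ) τ := by
  unfold PhiD PhiDt
  refine HasDerivAt.const_mul _ (HasDerivAt.fun_sum fun k _ => ?_)
  exact (hasDerivAt_pow (i - k) τ).const_mul _

/-- The linear equation: `-r² ∂_τ Φ_i = (r∂_r)² Φ_i + (m-1) r∂_r Φ_i + 2 (m-1) Φ_i`. -/
theorem Phi_linear_aux {m κ a : ℝ} (hk : κ ^ 2 - (m - 1) * κ + 2 * (m - 1) = 0)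
    (ha : m - 1 = 2 * a + 2 * κ) (ha1 : -1 < a) (i : ℕ) (r τ : ℝ) :
    -(r ^ 2 * PhiDt κ a i 0 r τ) = PhiD κ a i 2 r τ +
      (m - 1) * PhiD κ a i 1 r τ + 2 * (m - 1) * PhiD κ a i 0 r τ := by
  unfold PhiD PhiDt
  have e0 : ∀ S T U V : ℝ, -(r ^ 2 * S) = T + (m - 1) * U + 2 * (m - 1) * V →
      -(r ^ 2 * (r ^ (-κ) * S)) = r ^ (-κ) * T + (m - 1) * (r ^ (-κ) * U) +
        2 * (m - 1) * (r ^ (-κ) * V) := by
    intro S T U V h
    have : -(r ^ 2 * (r ^ (-κ) * S)) = r ^ (-κ) * (-(r ^ 2 * S)) := by ring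
    rw [this, h]
    ring
  apply e0
  -- the coefficients
  have e1 : (∑ k ∈ Finset.range (i + 1), (2 * (k : ℝ) - κ) ^ 2 * Lag.cf a i k *
      (r ^ 2 / 4) ^ k * τ ^ (i - k)) + (m - 1) * (∑ k ∈ Finset.range (i + 1),
      (2 * (k : ℝ) - κ) ^ 1 * Lag.cf a i k * (r ^ 2 / 4) ^ k * τ ^ (i - k)) +
      2 * (m - 1) * (∑ k ∈ Finset.range (i + 1), (2 * (k : ℝ) - κ) ^ 0 * Lag.cf a i k *
      (r ^ 2 / 4) ^ k * τ ^ (i - k)) = ∑ k ∈ Finset.range (i + 1),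
      (4 * ((k : ℝ) * (a + k)) * Lag.cf a i k) * (r ^ 2 / 4) ^ k * τ ^ (i - k) := by
    rw [Finset.mul_sum, Finset.mul_sum, ← Finset.sum_add_distrib, ← Finset.sum_add_distrib]
    refine Finset.sum_congr rfl fun k _ => ?_
    have e2 : (2 * (k : ℝ) - κ) ^ 2 + (m - 1) * (2 * (k : ℝ) - κ) + 2 * (m - 1) =
        4 * ((k : ℝ) * (a + k)) := by
      have e3 : (2 * (k : ℝ) - κ) ^ 2 + (m - 1) * (2 * (k : ℝ) - κ) + 2 * (m - 1) =
        4 * (k : ℝ) ^ 2 + 2 * k * (m - 1 - 2 * κ) + (κ ^ 2 - (m - 1) * κ + 2 * (m - 1)) := by ring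
      rw [e3, hk, ha]
      ring
    rw [← e2]
    ring
  have e8 : ∑ k ∈ Finset.range (i + 1), (2 * (k : ℝ) - κ) ^ 0 * Lag.cf a i k * (r ^ 2 / 4) ^ k *
      (((i - k : ℕ) : ℝ) * τ ^ (i - k - 1)) = ∑ k ∈ Finset.range i, (2 * (k : ℝ) - κ) ^ 0 *
      Lag.cf a i k * (r ^ 2 / 4) ^ k * (((i - k : ℕ) : ℝ) * τ ^ (i - k - 1)) := by
    rw [Finset.sum_range_succ]
    simp
  have e9 : ∑ k ∈ Finset.range (i + 1), (4 * ((k : ℝ) * (a + k)) * Lag.cf a i k) *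
      (r ^ 2 / 4) ^ k * τ ^ (i - k) = ∑ k ∈ Finset.range i, (4 * (((k + 1 : ℕ) : ℝ) *
      (a + ((k + 1 : ℕ) : ℝ))) * Lag.cf a i (k + 1)) * (r ^ 2 / 4) ^ (k + 1) *
      τ ^ (i - (k + 1)) := by
    rw [Finset.sum_range_succ']
    simp
  rw [e1, e8, e9, Finset.mul_sum, ← Finset.sum_neg_distrib]
  refine Finset.sum_congr rfl fun k hk' => ?_
  have hki : k < i := Finset.mem_range.1 hk'
  have e4 := Lag.cf_succ ha1 i k
  have e5 : ((i - k : ℕ) : ℝ) = (i : ℝ) - k := by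
    rw [Nat.cast_sub hki.le]
  have e6 : i - (k + 1) = i - k - 1 := by omega
  rw [e5, e6, pow_succ (r ^ 2 / 4) k]
  have e7 : 4 * (((k + 1 : ℕ) : ℝ) * (a + ((k + 1 : ℕ) : ℝ))) * Lag.cf a i (k + 1) =
      -(4 * ((i : ℝ) - k) * Lag.cf a i k) := by
    push_cast
    linarith only [e4]
  rw [e7, pow_zero, one_mul]
  ring

/-- Bound of the derivatives of `Φ_i`. -/
theorem exists_PhiD_bound (κ a : ℝ) (i j : ℕ) : ∃ C : ℝ, 0 ≤ C ∧ ∀ r τ : ℝ, 0 < r → 0 ≤ τ →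
    |PhiD κ a i j r τ| ≤ C * (r ^ (-κ) * (r ^ 2 + τ) ^ i) := by
  refine ⟨∑ k ∈ Finset.range (i + 1), |(2 * (k : ℝ) - κ) ^ j * Lag.cf a i k|,
    Finset.sum_nonneg fun _ _ => abs_nonneg _, fun r τ hr hτ => ?_⟩
  unfold PhiD
  have h0 : 0 < r ^ (-κ) := Real.rpow_pos_of_pos hr _
  rw [abs_mul, abs_of_pos h0]
  have h1 : |∑ k ∈ Finset.range (i + 1), (2 * (k : ℝ) - κ) ^ j * Lag.cf a i k *
      (r ^ 2 / 4) ^ k * τ ^ (i - k)| ≤ ∑ k ∈ Finset.range (i + 1),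
      |(2 * (k : ℝ) - κ) ^ j * Lag.cf a i k| * (r ^ 2 + τ) ^ i := by
    refine (Finset.abs_sum_le_sum_abs _ _).trans (Finset.sum_le_sum fun k hk => ?_)
    rw [mul_assoc _ ((r ^ 2 / 4) ^ k), abs_mul]
    refine mul_le_mul_of_nonneg_left ?_ (abs_nonneg _)
    rw [abs_of_nonneg (by positivity)]
    have hk' : k ≤ i := Nat.lt_succ_iff.1 (Finset.mem_range.1 hk)
    have h2 : (r ^ 2 + τ) ^ i = (r ^ 2 + τ) ^ k * (r ^ 2 + τ) ^ (i - k) := by
      rw [← pow_add, Nat.add_sub_cancel' hk']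
    rw [h2]
    refine mul_le_mul (pow_le_pow_left₀ (by positivity) (by linarith only [hτ, sq_nonneg r]) k)
      (pow_le_pow_left₀ hτ (by linarith only [sq_nonneg r]) _) (by positivity) (by positivity)
  rw [← Finset.sum_mul] at h1
  calc r ^ (-κ) * |∑ k ∈ Finset.range (i + 1), (2 * (k : ℝ) - κ) ^ j * Lag.cf a i k *
      (r ^ 2 / 4) ^ k * τ ^ (i - k)|
      ≤ r ^ (-κ) * ((∑ k ∈ Finset.range (i + 1), |(2 * (k : ℝ) - κ) ^ j * Lag.cf a i k|) *
        (r ^ 2 + τ) ^ i) := mul_le_mul_of_nonneg_left h1 h0.le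
    _ = _ := by ring

end Vale.Agent.P244.ST.BD
end

section

/-!
# P244-ST, block M : exact statements of the modules M2-M7 (skeleton)

`FI` : facts in region I (`0 < x`, `y ≤ ρ₀`);  `FO` : facts in the outer region (`ρ₀ ≤ y`).
`xi q r = K₁ ε r^b` is the size of `u` in the outer region.
-/

open Set Filter
open scoped ContDiff Topology

namespace Vale.Agent.P244.ST.M

open Vale.Agent.P244.ST

noncomputable section

/-- `K₁`, the constant of the outer region -/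
def K1 (q : Par) : ℝ :=
  (q.MU + 25 * q.MP + 625 * q.MV + q.CU + q.CP + 3 * q.CV) / q.rho0 ^ 4

/-- `ξ(r) = K₁ ε r^b` -/
def xi (q : Par) (r : ℝ) : ℝ := K1 q * q.eps * r ^ bb

/-- `κ' = κ (1 + 10⁻⁴)` -/
def kapp : ℝ := kap * (1 + 1 / 10 ^ 4)

/-- `eb = r² fb`, the bound for `|e|` in region I -/
def eb (q : Par) (w f : Fn) (t x : ℝ) : ℝ := (rr w f t x) ^ 2 * q.fb t (uu w f t x)

/-- The situation at a fixed time `t` (input of the derived facts D1-D8). -/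
structure FT (q : Par) (g : ℝ → ℝ) (w f : Fn) (T t : ℝ) : Prop where
  T_le : T ≤ 1
  sol : ConfSol 20 w f T
  qual : Qual w f T
  mem : t ∈ Ico 0 T
  boot : ∀ x ∈ Ico (0 : ℝ) 1, BootAt q g w f t x
  eq_ge : q.N / 4 ≤ rr w f t 0
  bd : ∀ x ∈ Ioo (0 : ℝ) 1, yv w f t x = q.rho0 →
    9 / 10 * q.T0 t ≤ Real.tanh (uu w f t x) ∧ Real.tanh (uu w f t x) ≤ 11 / 10 * q.T0 t

/-- Facts in region I. -/
structure FI (q : Par) (g : ℝ → ℝ) (w f : Fn) (t x : ℝ) : Prop where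
  u_pos : 0 < uu w f t x
  rs_pos : 0 < rs w f t x
  T_ge : 9 / 10 * q.T0 t ≤ Real.tanh (uu w f t x)
  sinh_le : Real.sinh (uu w f t x) ≤ 6 / 5 * q.T0 t * (q.rho0 / yv w f t x) ^ kapp
  e_le : |ee g w f t x| ≤ eb q w f t x
  eb_le : eb q w f t x * Real.cosh (uu w f t x) ≤ 1 / 10 ^ 4
  r2cosh : (rr w f t x) ^ 2 * Real.cosh (uu w f t x) ≤ 11 / 10 * q.rho0 ^ 2 * tau t
  RB_le : q.RB t (rr w f t x) (uu w f t x) ≤ 3 * q.eta
  R_nonneg : 0 ≤ RR w f t x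
  R_le : RR w f t x ≤ 3 * q.eta
  th_le : th g w f t x ≤ 0
  th_ge : -th g w f t x ≤ g (uu w f t x) ^ 2 * eb q w f t x ^ 2 / 148 +
    (rr w f t x) ^ 2 * (3 * q.eta) / (1640 * Zs g (uu w f t x))
  E0_le : |E0 w f t x| ≤ 11 / 10 * (3 * q.eta) +
    11 * Zs g (uu w f t x) * g (uu w f t x) ^ 2 * q.fb t (uu w f t x)

/-- Facts in the outer region `ρ₀ ≤ y` (`x ∈ [0,1)`, `r ≤ N`). -/
structure FO (q : Par) (w f : Fn) (t x : ℝ) : Prop where
  xi_le : xi q (rr w f t x) ≤ 1 / 10 ^ 6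
  u_le : |uu w f t x| ≤ xi q (rr w f t x)
  P_le : rr w f t x * |PP w f t x| ≤ xi q (rr w f t x)
  V_le : (rr w f t x) ^ 2 * |VV w f t x| ≤ xi q (rr w f t x)
  Z_le : ZZ w f t x - 1 ≤ 2 * xi q (rr w f t x) ^ 2
  Z_ge : -(2 * xi q (rr w f t x) ^ 2 + (rr w f t x) ^ 2 * (3 * q.eta) / 1640) ≤ ZZ w f t x - 1
  RB_le : q.RB t (rr w f t x) (uu w f t x) ≤ 3 * q.eta
  R_nonneg : 0 ≤ RR w f t x
  R_le : RR w f t x ≤ 3 * q.eta
  E0_le : |E0 w f t x| ≤ 3 / 2 * q.eta + 3000 * xi q (rr w f t x) ^ 2 / (rr w f t x) ^ 2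

/-- MODULE M2 (D1-D8). -/
def M2Statement : Prop := ∀ g : ℝ → ℝ, IsBub g → Ev fun q => ∀ w f : Fn, ∀ T t : ℝ,
  FT q g w f T t →
  (∀ x ∈ Ioo (0 : ℝ) 1, yv w f t x ≤ q.rho0 → FI q g w f t x) ∧
  (∀ x ∈ Ico (0 : ℝ) 1, q.rho0 ≤ yv w f t x → rr w f t x ≤ q.N → FO q w f t x)

/-- The history on `[0,t₁]` (input of the closures). -/
structure Hist (q : Par) (g : ℝ → ℝ) (w f : Fn) (T t₁ : ℝ) : Prop where
  T_le : T ≤ 1
  sol : ConfSol 20 w f T
  qual : Qual w f T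
  mem : t₁ ∈ Ico 0 T
  boot : Boot q g w f t₁
  close : ∀ t ∈ Icc 0 t₁, ∀ x ∈ Ico (0 : ℝ) 1, q.rho0 / 16 ≤ yv w f t x → yv w f t x ≤ 400 →
    |uu w f t x - q.A t * ph 3 (yv w f t x)| ≤ Real.sqrt q.sg * q.A t
  r_le : ∀ t ∈ Icc 0 t₁, ∀ x ∈ Ico (0 : ℝ) 1, rr w f t x ≤ q.N
  fI : ∀ t ∈ Icc 0 t₁, ∀ x ∈ Ioo (0 : ℝ) 1, yv w f t x ≤ q.rho0 → FI q g w f t x
  fO : ∀ t ∈ Icc 0 t₁, ∀ x ∈ Ico (0 : ℝ) 1, q.rho0 ≤ yv w f t x → FO q w f t x

/-- MODULE M3, closure of (b1) in the interior of region I. -/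
def M3Statement : Prop := ∀ g : ℝ → ℝ, IsBub g → Ev fun q => ∀ w f : Fn, ∀ T t₁ : ℝ,
  Hist q g w f T t₁ → ∀ t ∈ Ioc 0 t₁, ∀ x ∈ Ioo (0 : ℝ) 1, yv w f t x < q.rho0 →
    |ff g w f t x| < q.fb t (uu w f t x)

/-- MODULE M4, closure of (b2) in the interior of region I. -/
def M4Statement : Prop := ∀ g : ℝ → ℝ, IsBub g → Ev fun q => ∀ w f : Fn, ∀ T t₁ : ℝ,
  Hist q g w f T t₁ → ∀ t ∈ Ioc 0 t₁, ∀ x ∈ Ioo (0 : ℝ) 1, yv w f t x < q.rho0 →
    |VV w f t x| < q.Vb t (uu w f t x)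

/-- MODULE M5, closure of (b3). -/
def M5Statement : Prop := ∀ g : ℝ → ℝ, IsBub g → Ev fun q => ∀ w f : Fn, ∀ T t₁ : ℝ,
  Hist q g w f T t₁ → ∀ t ∈ Ioc 0 t₁, ∀ x ∈ Ico (0 : ℝ) 1,
    RR w f t x < q.RB t (rr w f t x) (uu w f t x)

/-- MODULE M6, closure of (b5) in the interior of region III. -/
def M6Statement : Prop := ∀ g : ℝ → ℝ, IsBub g → Ev fun q => ∀ w f : Fn, ∀ T t₁ : ℝ,
  Hist q g w f T t₁ → ∀ t ∈ Ioc 0 t₁, ∀ x ∈ Ico (0 : ℝ) 1, 25 < yv w f t x →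
    |uu w f t x| < q.UB t (rr w f t x) ∧ |PP w f t x| < q.PB t (rr w f t x) ∧
      |VV w f t x| < q.VB t (rr w f t x)

/-- MODULE M7, closure of (b4) and boundary values for (b1), (b2), (b5) (Bernstein estimates). -/
def M7Statement : Prop := ∀ g : ℝ → ℝ, IsBub g → Ev fun q => ∀ b, ∀ w f : Fn, ∀ T t₁ : ℝ,
  Hist q g w f T t₁ → InitOK q g b w f →
  ∀ t ∈ Ioc 0 t₁, ∀ x ∈ Ioo (0 : ℝ) 1, q.rho0 ≤ yv w f t x → yv w f t x ≤ 25 →
    (|uu w f t x| < q.MU * q.A t ∧ |PP w f t x| < q.MP * q.A t / Real.sqrt (tau t) ∧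
      |VV w f t x| < q.MV * q.A t / tau t) ∧
    (yv w f t x = q.rho0 → |ff g w f t x| < q.fb t (uu w f t x) ∧
      |VV w f t x| < q.Vb t (uu w f t x)) ∧
    (yv w f t x = 25 → |uu w f t x| < q.UB t (rr w f t x) ∧
      |PP w f t x| < q.PB t (rr w f t x) ∧ |VV w f t x| < q.VB t (rr w f t x))

/-- MODULE MB: the boundary value of `tanh u` at `y = ρ₀` from the closeness. -/
def MBStatement : Prop := Ev fun q => ∀ w f : Fn, ∀ t ∈ Ico (0 : ℝ) 1,
  (∀ x ∈ Ico (0 : ℝ) 1, q.rho0 / 16 ≤ yv w f t x → yv w f t x ≤ 400 →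
    |uu w f t x - q.A t * ph 3 (yv w f t x)| ≤ Real.sqrt q.sg * q.A t) →
  ∀ x ∈ Ioo (0 : ℝ) 1, yv w f t x = q.rho0 →
    9 / 10 * q.T0 t ≤ Real.tanh (uu w f t x) ∧ Real.tanh (uu w f t x) ≤ 11 / 10 * q.T0 t

end

end Vale.Agent.P244.ST.M
end

section

/-!
# P244-ST, block M : interface between the closures M2 ... M7 and `MStatement`
-/

open Set Filter
open scoped ContDiff Topology

namespace Vale.Agent.P244.ST

noncomputable section

/-- All hypotheses of `MStatement`. -/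
structure MHyp (q : Par) (g : ℝ → ℝ) (b : Fin 3 → ℝ) (w f : Fn) (T t₁ : ℝ) : Prop where
  bub : IsBub g
  hT0 : 0 < T
  hT1 : T ≤ 1
  sol : ConfSol 20 w f T
  qual : Qual w f T
  init : InitOK q g b w f
  ht₁ : t₁ ∈ Ico 0 T
  boot : Boot q g w f t₁
  close : ∀ t ∈ Icc 0 t₁, ∀ x ∈ Ico (0 : ℝ) 1, q.rho0 / 16 ≤ yv w f t x → yv w f t x ≤ 400 →
    |uu w f t x - q.A t * ph 3 (yv w f t x)| ≤ Real.sqrt q.sg * q.A t

/-- `EvM C`: for all bubble functions, for all parameters in order, `C` holds under `MHyp`. -/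
def EvM (C : Par → (ℝ → ℝ) → Fn → Fn → ℝ → Prop) : Prop :=
  ∀ g : ℝ → ℝ, IsBub g → Ev fun q => ∀ b w f T t₁, MHyp q g b w f T t₁ → C q g w f t₁

/-- (b0) strict: the equator stays away. -/
def MEq : Prop := EvM fun q _ w f t₁ => ∀ t ∈ Icc 0 t₁, q.N / 4 < rr w f t 0

end

end Vale.Agent.P244.ST
end

section

/-!
# P244-ST, block M : elementary facts on `κ` and on the bubble function `IsBub g` (Geo.lean)
-/

open Set
open scoped ContDiff

namespace Vale.Agent.P244.ST.M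

open Vale.Agent.P244.ST

lemma sqrt1209_lt : Real.sqrt 1209 < 34.7708 := by
  rw [Real.sqrt_lt' (by norm_num)]; norm_num

lemma sqrt1209_gt : 34.7706 < Real.sqrt 1209 := by
  rw [Real.lt_sqrt (by norm_num)]; norm_num

lemma kap_lt : kap < 2.1147 := by
  unfold kap; linarith only [sqrt1209_gt]

lemma kap_gt : 2.1146 < kap := by
  unfold kap; linarith only [sqrt1209_lt]

lemma kap_pos : 0 < kap := by linarith only [kap_gt]

lemma tanh_pos' {u : ℝ} (hu : 0 < u) : 0 < Real.tanh u := by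
  rw [Real.tanh_eq_sinh_div_cosh]
  exact div_pos (Real.sinh_pos_iff.mpr hu) (Real.cosh_pos u)

section

variable {g : ℝ → ℝ} (hg : IsBub g)

include hg

end

end Vale.Agent.P244.ST.M
end

section

/-!
# P244-ST, block M2 : identities at fixed time (`x`-derivatives of `ρ`, `u`, `Z`, `θ`)

Everything is at a fixed time `t`; `(E3)`, `(E4)`, `(TH)` of note P244-0.
-/

open Set Filter Topology
open scoped ContDiff

namespace Vale.Agent.P244.ST.M2

noncomputable section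

/-- the space slices are smooth on `[-1,1]` -/
structure Slice (w f : Fn) (t : ℝ) : Prop where
  hw : ContDiffOn ℝ ∞ (w t) (Icc (-1) 1)
  hf : ContDiffOn ℝ ∞ (f t) (Icc (-1) 1)

theorem slice_of_confSol {p : ℕ} {w f : Fn} {T t : ℝ} (h : ConfSol p w f T) (ht : t ∈ Ico 0 T) :
    Slice w f t where
  hw := by
    have h1 : ContDiffOn ℝ ∞ (fun x : ℝ => (t, x)) (Icc (-1) 1) :=
      (contDiff_const.prodMk contDiff_id).contDiffOn
    exact h.smooth_w.comp h1 fun x hx => ⟨ht, hx⟩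
  hf := by
    have h1 : ContDiffOn ℝ ∞ (fun x : ℝ => (t, x)) (Icc (-1) 1) :=
      (contDiff_const.prodMk contDiff_id).contDiffOn
    exact h.smooth_f.comp h1 fun x hx => ⟨ht, hx⟩

/-- the coefficient of `Ds` -/
def kk (w : Fn) (t x : ℝ) : ℝ := -(sx x * Real.exp (-w t x))

variable {w f : Fn} {t : ℝ}

theorem one_sub_sq_pos {x : ℝ} (hx : x ∈ Ioo (-1 : ℝ) 1) : 0 < 1 - x ^ 2 := by
  nlinarith only [hx, hx.1, hx.2]

theorem sx_pos {x : ℝ} (hx : x ∈ Ioo (-1 : ℝ) 1) : 0 < sx x :=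
  Real.sqrt_pos.2 (one_sub_sq_pos hx)

theorem kk_neg {x : ℝ} (hx : x ∈ Ioo (-1 : ℝ) 1) : kk w t x < 0 := by
  have := mul_pos (sx_pos hx) (Real.exp_pos (-w t x))
  unfold kk
  linarith only [this]

theorem smooth_log : ContDiffOn ℝ ∞ (fun x : ℝ => Real.log (1 - x ^ 2)) (Ioo (-1) 1) :=
  ((contDiff_const.sub (contDiff_id.pow 2)).contDiffOn).log fun _ hx => (one_sub_sq_pos hx).ne'

theorem smooth_sx : ContDiffOn ℝ ∞ sx (Ioo (-1) 1) :=
  ((contDiff_const.sub (contDiff_id.pow 2)).contDiffOn).sqrt fun _ hx => (one_sub_sq_pos hx).ne'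

section

variable (h : Slice w f t)
include h

theorem Slice.w' : ContDiffOn ℝ ∞ (w t) (Ioo (-1) 1) := h.hw.mono Ioo_subset_Icc_self
theorem Slice.f' : ContDiffOn ℝ ∞ (f t) (Ioo (-1) 1) := h.hf.mono Ioo_subset_Icc_self

theorem smooth_uu : ContDiffOn ℝ ∞ (uu w f t) (Ioo (-1) 1) :=
  (h.f'.sub h.w').sub (smooth_log.div_const 2)

theorem smooth_rho : ContDiffOn ℝ ∞ (rho w f t) (Ioo (-1) 1) :=
  (((h.f'.add h.w').add (smooth_log.div_const 2)).sub contDiffOn_const).div_const 2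

theorem smooth_kk : ContDiffOn ℝ ∞ (kk w t) (Ioo (-1) 1) :=
  (smooth_sx.mul h.w'.neg.exp).neg

theorem smooth_Ds {H : Fn} (hH : ContDiffOn ℝ ∞ (H t) (Ioo (-1) 1)) :
    ContDiffOn ℝ ∞ (Ds w H t) (Ioo (-1) 1) :=
  (smooth_kk h).mul (hH.deriv_of_isOpen isOpen_Ioo (by simp))

theorem smooth_rs : ContDiffOn ℝ ∞ (rs w f t) (Ioo (-1) 1) := smooth_Ds h (smooth_rho h)

theorem smooth_rr : ContDiffOn ℝ ∞ (rr w f t) (Ioo (-1) 1) := (smooth_rho h).exp

theorem smooth_ZZ : ContDiffOn ℝ ∞ (ZZ w f t) (Ioo (-1) 1) :=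
  ((smooth_rr h).pow 2).mul ((smooth_rs h).pow 2)

end

theorem hasDerivAt_of_smooth {H : ℝ → ℝ} (hH : ContDiffOn ℝ ∞ H (Ioo (-1) 1)) {x : ℝ}
    (hx : x ∈ Ioo (-1 : ℝ) 1) : HasDerivAt H (deriv H x) x :=
  ((hH.contDiffAt (isOpen_Ioo.mem_nhds hx)).differentiableAt (by simp)).hasDerivAt

/-- `ρ'` -/
def r1 (w f : Fn) (t x : ℝ) : ℝ := deriv (rho w f t) x

theorem rs_eq (x : ℝ) : rs w f t x = kk w t x * r1 w f t x := rfl

theorem r1_neg {x : ℝ} (hx : x ∈ Ioo (-1 : ℝ) 1) (hr : 0 < rs w f t x) : r1 w f t x < 0 := by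
  rw [rs_eq] at hr
  have := kk_neg (w := w) (t := t) hx
  by_contra h
  push Not at h
  linarith only [mul_nonpos_of_nonpos_of_nonneg this.le h, hr]

theorem rr_pos (x : ℝ) : 0 < rr w f t x := Real.exp_pos _

section

variable (h : Slice w f t)
include h

theorem hasDerivAt_rho {x : ℝ} (hx : x ∈ Ioo (-1 : ℝ) 1) :
    HasDerivAt (rho w f t) (r1 w f t x) x :=
  hasDerivAt_of_smooth (smooth_rho h) hx

theorem hasDerivAt_rr {x : ℝ} (hx : x ∈ Ioo (-1 : ℝ) 1) :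
    HasDerivAt (rr w f t) (r1 w f t x * rr w f t x) x := by
  have h1 := (hasDerivAt_rho h hx).exp
  rw [mul_comm]
  exact h1

theorem hasDerivAt_uu {x : ℝ} (hx : x ∈ Ioo (-1 : ℝ) 1) (hr : rs w f t x ≠ 0) :
    HasDerivAt (uu w f t) (r1 w f t x * -(GG w f t x)) x := by
  have h1 := hasDerivAt_of_smooth (smooth_uu h) hx
  convert h1 using 1
  have hk := (kk_neg (w := w) (t := t) hx).ne
  have h2 : PP w f t x = kk w t x * deriv (uu w f t) x := rfl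
  have h3 := rs_eq (w := w) (f := f) (t := t) x
  have hr1 : r1 w f t x ≠ 0 := by
    intro h4
    rw [h4, mul_zero] at h3
    exact hr h3
  unfold GG
  rw [h2, h3]
  field_simp

/-- `(E3)`: `Dr Z = 39 (cosh u - Z) - r² P²/4 - r² R/40` -/
theorem hasDerivAt_ZZ {x : ℝ} (hx : x ∈ Ioo (-1 : ℝ) 1) :
    HasDerivAt (ZZ w f t) (r1 w f t x * (39 * (Real.cosh (uu w f t x) - ZZ w f t x)
      - (rr w f t x) ^ 2 * (PP w f t x) ^ 2 / 4 - (rr w f t x) ^ 2 * RR w f t x / 40)) x := by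
  have h1 := ((hasDerivAt_rr h hx).pow 2).mul
    ((hasDerivAt_of_smooth (smooth_rs h) hx).pow 2)
  refine h1.congr_deriv ?_
  have h2 : RR w f t x = -80 * (kk w t x * deriv (rs w f t) x) - 1640 * (rs w f t x) ^ 2
      - 10 * (PP w f t x) ^ 2 + 1560 * Real.cosh (uu w f t x) / (rr w f t x) ^ 2 := by
    simp only [RR, E0, yy, Lp]
    have h3 : Ds w (Ds w (rho w f)) t x = kk w t x * deriv (rs w f t) x := rfl
    have h4 : Ds w (rs w f) t x = kk w t x * deriv (rs w f t) x := rfl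
    have h5 : Ds w (rho w f) t x = rs w f t x := rfl
    rw [h3, h4, h5]
    ring
  have hrr := (rr_pos (w := w) (f := f) (t := t) x).ne'
  have h3 := rs_eq (w := w) (f := f) (t := t) x
  simp only [Pi.pow_apply]
  rw [h2]
  unfold ZZ
  rw [h3]
  field_simp
  ring

end

/-- `(E3)`, second part, `(E4)` without the bubble -/
theorem E3' (x : ℝ) : (rr w f t x) ^ 2 * (2 * E0 w f t x - RR w f t x) =
    1560 * (ZZ w f t x - Real.cosh (uu w f t x)) - 10 * ((rr w f t x) ^ 2 * (PP w f t x) ^ 2) := by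
  have hrr := (rr_pos (w := w) (f := f) (t := t) x).ne'
  have h3 : Ds w (Ds w (rho w f)) t x = Ds w (rs w f) t x := rfl
  have h5 : Ds w (rho w f) t x = rs w f t x := rfl
  simp only [RR, E0, yy, Lp, ZZ, h3, h5]
  field_simp
  ring

theorem ZG (x : ℝ) (hr : rs w f t x ≠ 0) :
    (rr w f t x) ^ 2 * (PP w f t x) ^ 2 = ZZ w f t x * (GG w f t x) ^ 2 := by
  unfold ZZ GG
  field_simp

theorem ZZ_nonneg (x : ℝ) : 0 ≤ ZZ w f t x := by unfold ZZ; positivity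

/-! ### the bubble -/

theorem tanh_pos {u : ℝ} (hu : 0 < u) : 0 < Real.tanh u := by
  rw [Real.tanh_eq_sinh_div_cosh]
  exact div_pos (Real.sinh_pos_iff.2 hu) (Real.cosh_pos u)

theorem kap_lt : kap < 2.1147 := by
  have h : (34.7706 : ℝ) < Real.sqrt 1209 := by rw [Real.lt_sqrt (by norm_num)]; norm_num
  unfold kap; linarith only [h]

theorem kap_gt : 2.1146 < kap := by
  have h : Real.sqrt 1209 < (34.7708 : ℝ) := by rw [Real.sqrt_lt' (by norm_num)]; norm_num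
  unfold kap; linarith only [h]

section

variable {g : ℝ → ℝ} (hg : IsBub g)
include hg

theorem g_pos {u : ℝ} (hu : 0 < u) : 0 < g u := by
  have h1 := hg.lower u hu
  have h2 : 0 < Real.tanh u := tanh_pos hu
  linarith only [h1, h2]

theorem q_lo {u : ℝ} (hu : 0 < u) : 38 < qb g u := by
  have h1 := g_pos hg hu
  have h2 := hg.lt_two u hu
  unfold qb
  nlinarith only [h1, h2]

omit hg in
theorem q_hi (u : ℝ) : qb g u ≤ 39 := by
  unfold qb
  linarith only [sq_nonneg (g u)]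

theorem Zs_pos {u : ℝ} (hu : 0 < u) : 0 < Zs g u := by
  have := q_lo hg hu
  have := Real.cosh_pos u
  unfold Zs
  positivity

theorem cosh_le_Zs {u : ℝ} (hu : 0 < u) : Real.cosh u ≤ Zs g u := by
  have h1 := q_lo hg hu
  have h2 := q_hi (g := g) u
  have h3 := Real.cosh_pos u
  unfold Zs
  rw [le_div_iff₀ (by linarith only [h1])]
  linarith only [mul_nonneg (sub_nonneg.2 h2) (le_of_lt (sub_pos.2 h3))]

theorem Zs_le {u : ℝ} (hu : 0 < u) : Zs g u ≤ 39 / 38 * Real.cosh u := by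
  have h1 := q_lo hg hu
  have h3 := Real.cosh_pos u
  unfold Zs
  rw [div_le_iff₀ (by linarith only [h1])]
  linarith only [mul_pos (sub_pos.2 h1) (sub_pos.2 h3)]

theorem Zs_q {u : ℝ} (hu : 0 < u) : Zs g u * qb g u = 39 * Real.cosh u := by
  have h1 := q_lo hg hu
  unfold Zs
  field_simp

theorem hasDerivAt_Zs {u : ℝ} (hu : 0 < u) : HasDerivAt (Zs g) (Zs g u * g u / 2) u := by
  have h1 := hg.ode u hu
  have hq := q_lo hg hu
  have hgp := g_pos hg hu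
  have h2 : HasDerivAt (qb g) (-(g u * ((39 - g u ^ 2 / 4) * (g u - 2 * Real.tanh u) / g u)) / 2)
      u := by
    have h3 := ((h1.pow 2).div_const 4).const_sub 39
    refine h3.congr_deriv ?_
    ring
  have h4 := ((Real.hasDerivAt_cosh u).const_mul 39).div h2 (by linarith only [hq])
  refine h4.congr_deriv ?_
  have hc := (Real.cosh_pos u).ne'
  have hq' : 39 - g u ^ 2 / 4 = qb g u := rfl
  rw [hq', Real.tanh_eq_sinh_div_cosh]
  unfold Zs
  field_simp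
  ring

end

/-- `(TH)` -/
theorem hasDerivAt_th {g : ℝ → ℝ} (hg : IsBub g) (h : Slice w f t) {x : ℝ}
    (hx : x ∈ Ioo (-1 : ℝ) 1) (hr : rs w f t x ≠ 0) (hu : 0 < uu w f t x) :
    HasDerivAt (th g w f t) (r1 w f t x * (-(th g w f t x) * (qb g (uu w f t x) +
      (GG w f t x - g (uu w f t x)) ^ 2 / 4) - (GG w f t x - g (uu w f t x)) ^ 2 / 4
      - (rr w f t x) ^ 2 * RR w f t x / (40 * Zs g (uu w f t x)))) x := by
  have h1 := hasDerivAt_ZZ h hx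
  have h2 := (hasDerivAt_Zs hg hu).comp x (hasDerivAt_uu h hx hr)
  have hZs := (Zs_pos hg hu).ne'
  have h3 := (h1.div h2 hZs).sub_const 1
  refine h3.congr_deriv ?_
  have hq := Zs_q hg hu
  rw [ZG x hr]
  have hch : Real.cosh (uu w f t x) = Zs g (uu w f t x) * qb g (uu w f t x) / 39 := by
    rw [hq]; ring
  have hth : th g w f t x = ZZ w f t x / Zs g (uu w f t x) - 1 := rfl
  have hqb : g (uu w f t x) ^ 2 = 4 * (39 - qb g (uu w f t x)) := by unfold qb; ring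
  rw [hch, hth]
  simp only [Function.comp_apply]
  field_simp
  ring_nf
  rw [hqb]
  ring

/-- `(E4)` -/
theorem E4 {g : ℝ → ℝ} (hg : IsBub g) {x : ℝ} (hr : rs w f t x ≠ 0) (hu : 0 < uu w f t x) :
    (rr w f t x) ^ 2 * (2 * E0 w f t x - RR w f t x) = Zs g (uu w f t x) *
      (th g w f t x * (1560 - 10 * (GG w f t x) ^ 2) -
        10 * ((GG w f t x) ^ 2 - g (uu w f t x) ^ 2)) := by
  have hq := Zs_q hg hu
  have hZs := (Zs_pos hg hu).ne'
  have hZ : ZZ w f t x = Zs g (uu w f t x) * (th g w f t x + 1) := by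
    unfold th; field_simp; ring
  have hqb : g (uu w f t x) ^ 2 = 4 * (39 - qb g (uu w f t x)) := by unfold qb; ring
  rw [E3', ZG x hr, hZ, hqb]
  linear_combination 40 * hq

end

end Vale.Agent.P244.ST.M2
end

section

/-!
# P244-ST : smooth functions of `(t,x)` on an open set

`Sm Ω H` : `H : Fn` is `C^∞` on the open set `Ω ⊆ ℝ × ℝ` (time first).  Calculus rules for
the operators `Dx`, `Dt` of Geo.lean on such functions; smoothness of the geometric quantities.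
-/

open Set Filter
open scoped ContDiff Topology

namespace Vale.Agent.P244.ST

noncomputable section

/-- `H` is smooth on `Ω` -/
def Sm (Ω : Set (ℝ × ℝ)) (H : Fn) : Prop := ContDiffOn ℝ ∞ (fun z : ℝ × ℝ => H z.1 z.2) Ω

section

variable {Ω : Set (ℝ × ℝ)} (hΩ : IsOpen Ω) {H K : Fn}

lemma Sm.mono {Ω' : Set (ℝ × ℝ)} (h : Sm Ω H) (hs : Ω' ⊆ Ω) : Sm Ω' H := ContDiffOn.mono h hs

lemma Sm.congr (h : Sm Ω H) (he : ∀ z ∈ Ω, K z.1 z.2 = H z.1 z.2) : Sm Ω K :=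
  ContDiffOn.congr h he

include hΩ

lemma Sm.at (h : Sm Ω H) {t x : ℝ} (hz : (t, x) ∈ Ω) :
    ContDiffAt ℝ ∞ (fun z : ℝ × ℝ => H z.1 z.2) (t, x) :=
  ContDiffOn.contDiffAt h (hΩ.mem_nhds hz)

lemma Sm.at_x (h : Sm Ω H) {t x : ℝ} (hz : (t, x) ∈ Ω) : ContDiffAt ℝ ∞ (H t) x := by
  have h1 : ContDiffAt ℝ ∞ (fun y : ℝ => ((t, y) : ℝ × ℝ)) x :=
    contDiffAt_const.prodMk contDiffAt_id
  exact ContDiffAt.comp x (f := fun y : ℝ => ((t, y) : ℝ × ℝ))
    (g := fun z : ℝ × ℝ => H z.1 z.2) (h.at hΩ hz) h1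

lemma Sm.at_t (h : Sm Ω H) {t x : ℝ} (hz : (t, x) ∈ Ω) :
    ContDiffAt ℝ ∞ (fun s => H s x) t := by
  have h1 : ContDiffAt ℝ ∞ (fun s : ℝ => ((s, x) : ℝ × ℝ)) t :=
    contDiffAt_id.prodMk contDiffAt_const
  exact ContDiffAt.comp t (f := fun s : ℝ => ((s, x) : ℝ × ℝ))
    (g := fun z : ℝ × ℝ => H z.1 z.2) (h.at hΩ hz) h1

lemma Sm.hasDeriv_x (h : Sm Ω H) {t x : ℝ} (hz : (t, x) ∈ Ω) :
    HasDerivAt (H t) (Dx H t x) x :=
  ((h.at_x hΩ hz).differentiableAt (by norm_num)).hasDerivAt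

lemma Sm.hasDeriv_t (h : Sm Ω H) {t x : ℝ} (hz : (t, x) ∈ Ω) :
    HasDerivAt (fun s => H s x) (Dt H t x) t :=
  ((h.at_t hΩ hz).differentiableAt (by norm_num)).hasDerivAt

lemma Sm.Dx_eq (h : Sm Ω H) {t x : ℝ} (hz : (t, x) ∈ Ω) :
    Dx H t x = fderiv ℝ (fun z : ℝ × ℝ => H z.1 z.2) (t, x) (0, 1) := by
  have h1 : HasDerivAt (fun y : ℝ => ((t, y) : ℝ × ℝ)) (0, 1) x :=
    (hasDerivAt_const x t).prodMk (hasDerivAt_id x)
  have h2 := ((h.at hΩ hz).differentiableAt (by norm_num)).hasFDerivAt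
  exact (HasFDerivAt.comp_hasDerivAt x (f := fun y : ℝ => ((t, y) : ℝ × ℝ)) h2 h1).deriv

lemma Sm.Dt_eq (h : Sm Ω H) {t x : ℝ} (hz : (t, x) ∈ Ω) :
    Dt H t x = fderiv ℝ (fun z : ℝ × ℝ => H z.1 z.2) (t, x) (1, 0) := by
  have h1 : HasDerivAt (fun s : ℝ => ((s, x) : ℝ × ℝ)) (1, 0) t :=
    (hasDerivAt_id t).prodMk (hasDerivAt_const t x)
  have h2 := ((h.at hΩ hz).differentiableAt (by norm_num)).hasFDerivAt
  exact (HasFDerivAt.comp_hasDerivAt t (f := fun s : ℝ => ((s, x) : ℝ × ℝ)) h2 h1).deriv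

lemma Sm.dx (h : Sm Ω H) : Sm Ω (Dx H) := by
  have h1 : ContDiffOn ℝ ∞ (fun z => fderiv ℝ (fun z : ℝ × ℝ => H z.1 z.2) z (0, 1)) Ω :=
    (ContDiffOn.fderiv_of_isOpen h hΩ (m := ∞) (by simp)).clm_apply contDiffOn_const
  refine ContDiffOn.congr h1 ?_
  rintro ⟨t, x⟩ hz
  exact h.Dx_eq hΩ hz

lemma Sm.dt (h : Sm Ω H) : Sm Ω (Dt H) := by
  have h1 : ContDiffOn ℝ ∞ (fun z => fderiv ℝ (fun z : ℝ × ℝ => H z.1 z.2) z (1, 0)) Ω :=
    (ContDiffOn.fderiv_of_isOpen h hΩ (m := ∞) (by simp)).clm_apply contDiffOn_const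
  refine ContDiffOn.congr h1 ?_
  rintro ⟨t, x⟩ hz
  exact h.Dt_eq hΩ hz

/-- `∂_t ∂_x = ∂_x ∂_t` -/
lemma Sm.comm (h : Sm Ω H) {t x : ℝ} (hz : (t, x) ∈ Ω) :
    Dt (Dx H) t x = Dx (Dt H) t x := by
  have hF := h.at hΩ hz
  set F : ℝ × ℝ → ℝ := fun z => H z.1 z.2 with hFdef
  have hsym : IsSymmSndFDerivAt ℝ F (t, x) := by
    refine ContDiffAt.isSymmSndFDerivAt hF ?_
    rw [minSmoothness_of_isRCLikeNormedField]
    norm_cast
  have hd : DifferentiableAt ℝ (fderiv ℝ F) (t, x) :=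
    (hF.fderiv_right (m := 1) (by norm_cast)).differentiableAt (by norm_num)
  rw [h.dx hΩ |>.Dt_eq hΩ hz, h.dt hΩ |>.Dx_eq hΩ hz]
  have e1 : (fun z : ℝ × ℝ => Dx H z.1 z.2) =ᶠ[𝓝 (t, x)] fun z => fderiv ℝ F z (0, 1) := by
    filter_upwards [hΩ.mem_nhds hz] with z hz'
    exact h.Dx_eq hΩ (t := z.1) (x := z.2) hz'
  have e2 : (fun z : ℝ × ℝ => Dt H z.1 z.2) =ᶠ[𝓝 (t, x)] fun z => fderiv ℝ F z (1, 0) := by
    filter_upwards [hΩ.mem_nhds hz] with z hz'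
    exact h.Dt_eq hΩ (t := z.1) (x := z.2) hz'
  rw [e1.fderiv_eq, e2.fderiv_eq]
  have e3 : ∀ v : ℝ × ℝ, fderiv ℝ (fun z => fderiv ℝ F z v) (t, x) =
      (fderiv ℝ (fderiv ℝ F) (t, x)).flip v := by
    intro v
    have h4 : HasFDerivAt (fun z => fderiv ℝ F z v)
        ((fderiv ℝ (fderiv ℝ F) (t, x)).flip v) (t, x) := by
      have := hd.hasFDerivAt.clm_apply (hasFDerivAt_const v (t, x))
      simpa using this
    exact h4.fderiv
  rw [e3, e3]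
  exact hsym.eq (1, 0) (0, 1)

/-- locality of `Dx` and `Dt` on open sets -/
lemma Dx_congr (he : ∀ z ∈ Ω, H z.1 z.2 = K z.1 z.2) {t x : ℝ} (hz : (t, x) ∈ Ω) :
    Dx H t x = Dx K t x := by
  have hc : ContinuousAt (fun y : ℝ => ((t, y) : ℝ × ℝ)) x := by fun_prop
  have h1 : ∀ᶠ y in 𝓝 x, H t y = K t y := by
    filter_upwards [hc.eventually (hΩ.mem_nhds hz)] with y hy
    exact he (t, y) hy
  exact Filter.EventuallyEq.deriv_eq h1

lemma Dt_congr (he : ∀ z ∈ Ω, H z.1 z.2 = K z.1 z.2) {t x : ℝ} (hz : (t, x) ∈ Ω) :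
    Dt H t x = Dt K t x := by
  have hc : ContinuousAt (fun s : ℝ => ((s, x) : ℝ × ℝ)) t := by fun_prop
  have h1 : ∀ᶠ s in 𝓝 t, H s x = K s x := by
    filter_upwards [hc.eventually (hΩ.mem_nhds hz)] with y hy
    exact he (y, x) hy
  exact Filter.EventuallyEq.deriv_eq h1

end

/-! ### algebraic operations -/

section

variable {Ω : Set (ℝ × ℝ)} {H K : Fn}

lemma Sm.const (c : ℝ) : Sm Ω (fun _ _ => c) := contDiffOn_const

lemma Sm.tvar : Sm Ω (fun t _ => t) := contDiffOn_fst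

lemma Sm.xvar : Sm Ω (fun _ x => x) := contDiffOn_snd

lemma Sm.add (h : Sm Ω H) (k : Sm Ω K) : Sm Ω (fun t x => H t x + K t x) := ContDiffOn.add h k

lemma Sm.sub (h : Sm Ω H) (k : Sm Ω K) : Sm Ω (fun t x => H t x - K t x) := ContDiffOn.sub h k

lemma Sm.neg (h : Sm Ω H) : Sm Ω (fun t x => -H t x) := ContDiffOn.neg h

lemma Sm.mul (h : Sm Ω H) (k : Sm Ω K) : Sm Ω (fun t x => H t x * K t x) := ContDiffOn.mul h k

lemma Sm.pow (h : Sm Ω H) (n : ℕ) : Sm Ω (fun t x => H t x ^ n) := ContDiffOn.pow h n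

lemma Sm.exp (h : Sm Ω H) : Sm Ω (fun t x => Real.exp (H t x)) := ContDiffOn.exp h

lemma Sm.div (h : Sm Ω H) (k : Sm Ω K) (h0 : ∀ z ∈ Ω, K z.1 z.2 ≠ 0) :
    Sm Ω (fun t x => H t x / K t x) := ContDiffOn.div h k h0

lemma Sm.inv (k : Sm Ω K) (h0 : ∀ z ∈ Ω, K z.1 z.2 ≠ 0) :
    Sm Ω (fun t x => (K t x)⁻¹) := ContDiffOn.inv k h0

lemma Sm.log (k : Sm Ω K) (h0 : ∀ z ∈ Ω, K z.1 z.2 ≠ 0) :
    Sm Ω (fun t x => Real.log (K t x)) := ContDiffOn.log k h0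

lemma Sm.sqrt (k : Sm Ω K) (h0 : ∀ z ∈ Ω, K z.1 z.2 ≠ 0) :
    Sm Ω (fun t x => Real.sqrt (K t x)) := ContDiffOn.sqrt k h0

/-- composition with a function smooth on a set `S` -/
lemma Sm.comp {h : ℝ → ℝ} {S : Set ℝ} (hh : ContDiffOn ℝ ∞ h S) (k : Sm Ω K)
    (hS : ∀ z ∈ Ω, K z.1 z.2 ∈ S) : Sm Ω (fun t x => h (K t x)) := by
  have : ContDiffOn ℝ ∞ (h ∘ fun z : ℝ × ℝ => K z.1 z.2) Ω := hh.comp k hS
  exact this

lemma Sm.comp' {h : ℝ → ℝ} (hh : ContDiff ℝ ∞ h) (k : Sm Ω K) :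
    Sm Ω (fun t x => h (K t x)) := by
  have : ContDiffOn ℝ ∞ (h ∘ fun z : ℝ × ℝ => K z.1 z.2) Ω := hh.comp_contDiffOn k
  exact this

lemma Sm.rpow_const (k : Sm Ω K) (c : ℝ) (h0 : ∀ z ∈ Ω, K z.1 z.2 ≠ 0) :
    Sm Ω (fun t x => (K t x) ^ c) := ContDiffOn.rpow_const_of_ne k h0

lemma Sm.cosh (k : Sm Ω K) : Sm Ω (fun t x => Real.cosh (K t x)) := Sm.comp' Real.contDiff_cosh k

lemma Sm.sinh (k : Sm Ω K) : Sm Ω (fun t x => Real.sinh (K t x)) := Sm.comp' Real.contDiff_sinh k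

end

end

end Vale.Agent.P244.ST
end

section

/-!
# P244-ST, block M6 : calculus of powers of `r` and the touching principle for the barriers
`C exp(ct) (r^β - 300 τ r^(β-2))` (helper568)
-/

open Set Filter
open scoped ContDiff Topology

namespace Vale.Agent.P244.ST.M6

open Vale.Agent.P244.ST

noncomputable section

/-- the open domain -/
def Om (T : ℝ) : Set (ℝ × ℝ) := Ioo 0 T ×ˢ Ioo (-1) 1

lemma isOpen_Om (T : ℝ) : IsOpen (Om T) := isOpen_Ioo.prod isOpen_Ioo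

variable {w f H K : Fn} {T t x : ℝ}

lemma sm_w (h : ConfSol 20 w f T) : Sm (Om T) w :=
  h.smooth_w.mono (prod_mono Ioo_subset_Ico_self Ioo_subset_Icc_self)

lemma sm_f (h : ConfSol 20 w f T) : Sm (Om T) f :=
  h.smooth_f.mono (prod_mono Ioo_subset_Ico_self Ioo_subset_Icc_self)

lemma sq_ne {z : ℝ × ℝ} (hz : z ∈ Om T) : 1 - z.2 ^ 2 ≠ 0 := by
  have := hz.2
  nlinarith only [this, this.1, this.2]

lemma sm_one_sub : Sm (Om T) (fun _ x => 1 - x ^ 2) := (Sm.const 1).sub (Sm.xvar.pow 2)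

lemma sm_log : Sm (Om T) (fun _ x => Real.log (1 - x ^ 2)) :=
  sm_one_sub.log fun _ hz => sq_ne hz

lemma sm_sx : Sm (Om T) (fun _ x => sx x) := sm_one_sub.sqrt fun _ hz => sq_ne hz

lemma sm_uu (h : ConfSol 20 w f T) : Sm (Om T) (uu w f) :=
  ((sm_f h).sub (sm_w h)).sub (sm_log.div (Sm.const 2) fun _ _ => two_ne_zero)

lemma sm_rho (h : ConfSol 20 w f T) : Sm (Om T) (rho w f) :=
  ((((sm_f h).add (sm_w h)).add (sm_log.div (Sm.const 2) fun _ _ => two_ne_zero)).sub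
    (Sm.const _)).div (Sm.const 2) fun _ _ => two_ne_zero

lemma sm_rr (h : ConfSol 20 w f T) : Sm (Om T) (rr w f) := (sm_rho h).exp

lemma sm_Ds (h : ConfSol 20 w f T) (hH : Sm (Om T) H) : Sm (Om T) (Ds w H) :=
  ((sm_sx.mul (sm_w h).neg.exp).neg).mul (hH.dx (isOpen_Om T))

lemma sm_rs (h : ConfSol 20 w f T) : Sm (Om T) (rs w f) := sm_Ds h (sm_rho h)

lemma sm_PP (h : ConfSol 20 w f T) : Sm (Om T) (PP w f) := sm_Ds h (sm_uu h)

lemma sm_Lp (h : ConfSol 20 w f T) (hH : Sm (Om T) H) : Sm (Om T) (Lp w f H) :=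
  (sm_Ds h (sm_Ds h hH)).add (((Sm.const 40).mul (sm_Ds h (sm_rho h))).mul (sm_Ds h hH))

lemma sm_VV (h : ConfSol 20 w f T) : Sm (Om T) (VV w f) :=
  (sm_Lp h (sm_uu h)).add ((((Sm.const 78).mul (sm_uu h).sinh)).div ((sm_rr h).pow 2)
    fun _ _ => pow_ne_zero 2 (Real.exp_pos _).ne')

/-! ### linear rules -/

lemma Ds_congr (he : ∀ z ∈ Om T, H z.1 z.2 = K z.1 z.2) (hz : (t, x) ∈ Om T) :
    Ds w H t x = Ds w K t x := by
  simp only [Ds, Dx_congr (isOpen_Om T) he hz]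

lemma Ds_sub (hH : Sm (Om T) H) (hK : Sm (Om T) K) (hz : (t, x) ∈ Om T) :
    Ds w (fun t x => H t x - K t x) t x = Ds w H t x - Ds w K t x := by
  have h1 : HasDerivAt (fun y => H t y - K t y) (Dx H t x - Dx K t x) x :=
    (hH.hasDeriv_x (isOpen_Om T) hz).sub (hK.hasDeriv_x (isOpen_Om T) hz)
  have h2 : Dx (fun t x => H t x - K t x) t x = Dx H t x - Dx K t x := h1.deriv
  simp only [Ds, h2]
  ring

lemma Ds_smul (c : ℝ) (hH : Sm (Om T) H) (hz : (t, x) ∈ Om T) :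
    Ds w (fun t x => c * H t x) t x = c * Ds w H t x := by
  have h1 : HasDerivAt (fun y => c * H t y) (c * Dx H t x) x :=
    (hH.hasDeriv_x (isOpen_Om T) hz).const_mul c
  have h2 : Dx (fun t x => c * H t x) t x = c * Dx H t x := h1.deriv
  simp only [Ds, h2]
  ring

lemma DT_sub (hH : Sm (Om T) H) (hK : Sm (Om T) K) (hz : (t, x) ∈ Om T) :
    DT w f (fun t x => H t x - K t x) t x = DT w f H t x - DT w f K t x := by
  have h1 : HasDerivAt (fun y => H t y - K t y) (Dx H t x - Dx K t x) x :=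
    (hH.hasDeriv_x (isOpen_Om T) hz).sub (hK.hasDeriv_x (isOpen_Om T) hz)
  have h2 : Dx (fun t x => H t x - K t x) t x = Dx H t x - Dx K t x := h1.deriv
  have h3 : HasDerivAt (fun s => H s x - K s x) (Dt H t x - Dt K t x) t :=
    (hH.hasDeriv_t (isOpen_Om T) hz).sub (hK.hasDeriv_t (isOpen_Om T) hz)
  have h4 : Dt (fun t x => H t x - K t x) t x = Dt H t x - Dt K t x := h3.deriv
  simp only [DT, h2, h4]
  ring

lemma DT_smul (c : ℝ) (hH : Sm (Om T) H) (hz : (t, x) ∈ Om T) :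
    DT w f (fun t x => c * H t x) t x = c * DT w f H t x := by
  have h1 : HasDerivAt (fun y => c * H t y) (c * Dx H t x) x :=
    (hH.hasDeriv_x (isOpen_Om T) hz).const_mul c
  have h2 : Dx (fun t x => c * H t x) t x = c * Dx H t x := h1.deriv
  have h3 : HasDerivAt (fun s => c * H s x) (c * Dt H t x) t :=
    (hH.hasDeriv_t (isOpen_Om T) hz).const_mul c
  have h4 : Dt (fun t x => c * H t x) t x = c * Dt H t x := h3.deriv
  simp only [DT, h2, h4]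
  ring

lemma Lp_sub (h : ConfSol 20 w f T) (hH : Sm (Om T) H) (hK : Sm (Om T) K) (hz : (t, x) ∈ Om T) :
    Lp w f (fun t x => H t x - K t x) t x = Lp w f H t x - Lp w f K t x := by
  have h1 : Ds w (Ds w fun t x => H t x - K t x) t x =
      Ds w (fun t x => Ds w H t x - Ds w K t x) t x :=
    Ds_congr (fun z hz' => Ds_sub (t := z.1) (x := z.2) hH hK hz') hz
  rw [Lp, h1, Ds_sub (sm_Ds h hH) (sm_Ds h hK) hz, Ds_sub hH hK hz, Lp, Lp]
  ring

lemma Lp_smul (h : ConfSol 20 w f T) (c : ℝ) (hH : Sm (Om T) H) (hz : (t, x) ∈ Om T) :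
    Lp w f (fun t x => c * H t x) t x = c * Lp w f H t x := by
  have h1 : Ds w (Ds w fun t x => c * H t x) t x =
      Ds w (fun t x => c * Ds w H t x) t x :=
    Ds_congr (fun z hz' => Ds_smul (t := z.1) (x := z.2) c hH hz') hz
  rw [Lp, h1, Ds_smul c (sm_Ds h hH) hz, Ds_smul c hH hz, Lp]
  ring

/-! ### powers of `r` -/

/-- `φ(t) r^β` -/
def pw (w f : Fn) (φ : ℝ → ℝ) (β : ℝ) : Fn := fun t x => φ t * Real.exp (β * rho w f t x)

lemma rr_rpow (β : ℝ) : rr w f t x ^ β = Real.exp (β * rho w f t x) := by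
  rw [rr, ← Real.exp_mul, mul_comm]

lemma sm_pw (h : ConfSol 20 w f T) {φ : ℝ → ℝ} (hφ : ContDiff ℝ ∞ φ) (β : ℝ) :
    Sm (Om T) (pw w f φ β) :=
  (Sm.comp' hφ Sm.tvar).mul ((Sm.const β).mul (sm_rho h)).exp

lemma Ds_pw (h : ConfSol 20 w f T) (φ : ℝ → ℝ) (β : ℝ) (hz : (t, x) ∈ Om T) :
    Ds w (pw w f φ β) t x = β * pw w f φ β t x * rs w f t x := by
  have h0 := (sm_rho h).hasDeriv_x (isOpen_Om T) hz
  have h1 : HasDerivAt (fun y => φ t * Real.exp (β * rho w f t y))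
      (φ t * (Real.exp (β * rho w f t x) * (β * Dx (rho w f) t x))) x :=
    ((h0.const_mul β).exp).const_mul (φ t)
  have h2 : Dx (pw w f φ β) t x = _ := h1.deriv
  rw [Ds, h2, rs, Ds, pw]
  ring

lemma DsDs_pw (h : ConfSol 20 w f T) (φ : ℝ → ℝ) (β : ℝ) (hz : (t, x) ∈ Om T) :
    Ds w (Ds w (pw w f φ β)) t x =
      β * pw w f φ β t x * (β * rs w f t x ^ 2 + Ds w (rs w f) t x) := by
  rw [Ds_congr (K := fun t x => β * pw w f φ β t x * rs w f t x)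
    (fun z hz' => Ds_pw (t := z.1) (x := z.2) h φ β hz') hz]
  have h0 := (sm_rho h).hasDeriv_x (isOpen_Om T) hz
  have h1 : HasDerivAt (fun y => φ t * Real.exp (β * rho w f t y))
      (φ t * (Real.exp (β * rho w f t x) * (β * Dx (rho w f) t x))) x :=
    ((h0.const_mul β).exp).const_mul (φ t)
  have h3 := (sm_rs h).hasDeriv_x (isOpen_Om T) hz
  have h4 : HasDerivAt (fun y => β * (φ t * Real.exp (β * rho w f t y)) * rs w f t y) _ x :=
    (h1.const_mul β).mul h3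
  have h5 : Dx (fun t x => β * pw w f φ β t x * rs w f t x) t x = _ := h4.deriv
  have h6 : Ds w (rs w f) t x = -(sx x * Real.exp (-w t x)) * Dx (rs w f) t x := rfl
  have h7 : rs w f t x = -(sx x * Real.exp (-w t x)) * Dx (rho w f) t x := rfl
  rw [Ds, h5, h6, pw]
  simp only [h7]
  ring

lemma Lp_pw (h : ConfSol 20 w f T) (φ : ℝ → ℝ) (β : ℝ) (hz : (t, x) ∈ Om T) :
    Lp w f (pw w f φ β) t x = β * pw w f φ β t x *
      (β * rs w f t x ^ 2 + Ds w (rs w f) t x + 40 * rs w f t x ^ 2) := by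
  have h7 : Ds w (rho w f) t x = rs w f t x := rfl
  rw [Lp, DsDs_pw h φ β hz, Ds_pw h φ β hz, h7]
  ring

lemma DT_pw (h : ConfSol 20 w f T) {φ : ℝ → ℝ} {φ' : ℝ} (hφ : HasDerivAt φ φ' t) (β : ℝ)
    (hz : (t, x) ∈ Om T) :
    DT w f (pw w f φ β) t x = φ' * Real.exp (β * rho w f t x) +
      β * pw w f φ β t x * DT w f (rho w f) t x := by
  have h0 := (sm_rho h).hasDeriv_x (isOpen_Om T) hz
  have h0t := (sm_rho h).hasDeriv_t (isOpen_Om T) hz
  have h1 : HasDerivAt (fun y => φ t * Real.exp (β * rho w f t y))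
      (φ t * (Real.exp (β * rho w f t x) * (β * Dx (rho w f) t x))) x :=
    ((h0.const_mul β).exp).const_mul (φ t)
  have h2 : Dx (pw w f φ β) t x = _ := h1.deriv
  have h3 : HasDerivAt (fun s => φ s * Real.exp (β * rho w f s x))
      (φ' * Real.exp (β * rho w f t x) +
        φ t * (Real.exp (β * rho w f t x) * (β * Dt (rho w f) t x))) t :=
    hφ.mul ((h0t.const_mul β).exp)
  have h4 : Dt (pw w f φ β) t x = _ := h3.deriv
  rw [DT, h2, h4, DT, pw]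
  ring

/-- `(F7)` for powers of `r` -/
lemma op_pw (h : ConfSol 20 w f T) (hρ : DT w f (rho w f) t x = yy w f t x) {φ : ℝ → ℝ} {φ' : ℝ}
    (hφ : HasDerivAt φ φ' t) (β : ℝ) (hz : (t, x) ∈ Om T) :
    DT w f (pw w f φ β) t x - Lp w f (pw w f φ β) t x =
      φ' * Real.exp (β * rho w f t x) - pw w f φ β t x *
        (39 * β * Real.cosh (uu w f t x) / rr w f t x ^ 2 + β ^ 2 * rs w f t x ^ 2) := by
  have h7 : Ds w (rho w f) t x = rs w f t x := rfl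
  have h8 : Ds w (Ds w (rho w f)) t x = Ds w (rs w f) t x := rfl
  rw [DT_pw h hφ β hz, Lp_pw h φ β hz, hρ, yy, Lp, h7, h8]
  ring

/-! ### the barrier -/

/-- `C exp(ct) (r^β - 300 τ r^(β-2))` -/
def bar (w f : Fn) (C c β : ℝ) : Fn := fun t x =>
  pw w f (fun t => C * Real.exp (c * t)) β t x -
    pw w f (fun t => C * Real.exp (c * t) * (300 * (1 - t))) (β - 2) t x

lemma sm_bar (h : ConfSol 20 w f T) (C c β : ℝ) : Sm (Om T) (bar w f C c β) :=
  (sm_pw h (by fun_prop) β).sub (sm_pw h (by fun_prop) (β - 2))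

lemma bar_eq (C c β : ℝ) : bar w f C c β t x =
    C * Real.exp (c * t) * (rr w f t x ^ β - 300 * tau t * rr w f t x ^ (β - 2)) := by
  rw [bar, pw, pw, rr_rpow, rr_rpow, tau]
  ring

lemma op_bar (h : ConfSol 20 w f T) (hρ : DT w f (rho w f) t x = yy w f t x) (C c β : ℝ)
    (hz : (t, x) ∈ Om T) :
    DT w f (bar w f C c β) t x - Lp w f (bar w f C c β) t x =
      c * bar w f C c β t x + C * Real.exp (c * t) *
      (-(rr w f t x ^ 2 * rr w f t x ^ (β - 2)) * (39 * β * Real.cosh (uu w f t x) /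
          rr w f t x ^ 2 + β ^ 2 * rs w f t x ^ 2) -
        300 * (-(rr w f t x ^ (β - 2)) - tau t * rr w f t x ^ (β - 2) *
          (39 * (β - 2) * Real.cosh (uu w f t x) / rr w f t x ^ 2 +
            (β - 2) ^ 2 * rs w f t x ^ 2))) := by
  have s1 : Sm (Om T) (pw w f (fun t => C * Real.exp (c * t)) β) := sm_pw h (by fun_prop) β
  have s2 : Sm (Om T) (pw w f (fun t => C * Real.exp (c * t) * (300 * (1 - t))) (β - 2)) :=
    sm_pw h (by fun_prop) (β - 2)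
  have d1 : HasDerivAt (fun t => C * Real.exp (c * t)) (C * (Real.exp (c * t) * c)) t := by
    have := (((hasDerivAt_id t).const_mul c).exp).const_mul C
    simpa using this
  have d2 : HasDerivAt (fun t => C * Real.exp (c * t) * (300 * (1 - t)))
      (C * (Real.exp (c * t) * c) * (300 * (1 - t)) + C * Real.exp (c * t) * (300 * (-1))) t :=
    d1.mul (((hasDerivAt_id t).const_sub 1).const_mul 300)
  have e1 := op_pw h hρ d1 β hz
  have e2 := op_pw h hρ d2 (β - 2) hz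
  have e3 : DT w f (bar w f C c β) t x = _ := DT_sub s1 s2 hz
  have e4 : Lp w f (bar w f C c β) t x = _ := Lp_sub h s1 s2 hz
  have e5 : Real.exp (β * rho w f t x) = rr w f t x ^ 2 * rr w f t x ^ (β - 2) := by
    rw [rr_rpow, rr, ← Real.exp_nat_mul, ← Real.exp_add]
    congr 1
    push_cast
    ring
  have e6 : Real.exp ((β - 2) * rho w f t x) = rr w f t x ^ (β - 2) := by
    rw [rr_rpow]
  have e7 : DT w f (bar w f C c β) t x - Lp w f (bar w f C c β) t x =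
      (DT w f (pw w f (fun t => C * Real.exp (c * t)) β) t x -
        Lp w f (pw w f (fun t => C * Real.exp (c * t)) β) t x) -
      (DT w f (pw w f (fun t => C * Real.exp (c * t) * (300 * (1 - t))) (β - 2)) t x -
        Lp w f (pw w f (fun t => C * Real.exp (c * t) * (300 * (1 - t))) (β - 2)) t x) := by
    rw [e3, e4]; ring
  rw [e7, e1, e2, bar, pw, pw, e5, e6, tau]
  ring

end

end Vale.Agent.P244.ST.M6
end

section

/-!
# P244 / ST / S : choosing the late parameters depending on the early ones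
-/

open Set

namespace Vale.Agent.P244.ST

/-- agreement of the parameters `B, …, GR` -/
structure HeadEq (q q' : Par) : Prop where
  B : q.B = q'.B
  rho0 : q.rho0 = q'.rho0
  BV : q.BV = q'.BV
  MU : q.MU = q'.MU
  MP : q.MP = q'.MP
  MV : q.MV = q'.MV
  CU : q.CU = q'.CU
  CP : q.CP = q'.CP
  CV : q.CV = q'.CV
  GR : q.GR = q'.GR

theorem ev_sg {F : Par → ℝ} (hF : ∀ q q', HeadEq q q' → F q = F q')
    (hpos : ∀ q, 0 < q.rho0 → 0 < F q) : Ev fun q => q.sg ≤ F q := by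
  refine ⟨0, fun B _ => ?_⟩
  refine ⟨1, one_pos, fun rho0 h0 => ?_⟩
  refine ⟨0, fun BV _ => ?_⟩
  refine ⟨0, fun MU _ => ?_⟩
  refine ⟨0, fun MP _ => ?_⟩
  refine ⟨0, fun MV _ => ?_⟩
  refine ⟨0, fun CU _ => ?_⟩
  refine ⟨0, fun CP _ => ?_⟩
  refine ⟨0, fun CV _ => ?_⟩
  refine ⟨0, fun GR _ => ?_⟩
  refine ⟨F ⟨B, rho0, BV, MU, MP, MV, CU, CP, CV, GR, 0, 0, 0, 0, 0⟩, hpos _ h0.1, fun sg h1 => ?_⟩
  refine ⟨1, one_pos, fun d0 _ => ?_⟩
  refine ⟨1, one_pos, fun rb _ => ?_⟩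
  refine ⟨0, fun N _ => ?_⟩
  refine ⟨1, one_pos, fun eps _ => ?_⟩
  show sg ≤ F _
  rw [hF ⟨B, rho0, BV, MU, MP, MV, CU, CP, CV, GR, sg, d0, rb, N, eps⟩
    ⟨B, rho0, BV, MU, MP, MV, CU, CP, CV, GR, 0, 0, 0, 0, 0⟩
    ⟨rfl, rfl, rfl, rfl, rfl, rfl, rfl, rfl, rfl, rfl⟩]
  exact h1.2

theorem ev_d0 {F : Par → ℝ} (hF : ∀ q q', HeadEq q q' → q.sg = q'.sg → F q = F q')
    (hpos : ∀ q, 0 < q.rho0 → 0 < q.sg → 0 < F q) : Ev fun q => q.d0 ≤ F q := by
  refine ⟨0, fun B _ => ?_⟩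
  refine ⟨1, one_pos, fun rho0 h0 => ?_⟩
  refine ⟨0, fun BV _ => ?_⟩
  refine ⟨0, fun MU _ => ?_⟩
  refine ⟨0, fun MP _ => ?_⟩
  refine ⟨0, fun MV _ => ?_⟩
  refine ⟨0, fun CU _ => ?_⟩
  refine ⟨0, fun CP _ => ?_⟩
  refine ⟨0, fun CV _ => ?_⟩
  refine ⟨0, fun GR _ => ?_⟩
  refine ⟨1, one_pos, fun sg hs => ?_⟩
  refine ⟨F ⟨B, rho0, BV, MU, MP, MV, CU, CP, CV, GR, sg, 0, 0, 0, 0⟩, hpos _ h0.1 hs.1,
    fun d0 h1 => ?_⟩
  refine ⟨1, one_pos, fun rb _ => ?_⟩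
  refine ⟨0, fun N _ => ?_⟩
  refine ⟨1, one_pos, fun eps _ => ?_⟩
  show d0 ≤ F _
  rw [hF ⟨B, rho0, BV, MU, MP, MV, CU, CP, CV, GR, sg, d0, rb, N, eps⟩
    ⟨B, rho0, BV, MU, MP, MV, CU, CP, CV, GR, sg, 0, 0, 0, 0⟩
    ⟨rfl, rfl, rfl, rfl, rfl, rfl, rfl, rfl, rfl, rfl⟩ rfl]
  exact h1.2

theorem ev_N {F : Par → ℝ}
    (hF : ∀ q q', HeadEq q q' → q.sg = q'.sg → q.d0 = q'.d0 → F q = F q') :
    Ev fun q => F q ≤ q.N := by
  refine ⟨0, fun B _ => ?_⟩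
  refine ⟨1, one_pos, fun rho0 h0 => ?_⟩
  refine ⟨0, fun BV _ => ?_⟩
  refine ⟨0, fun MU _ => ?_⟩
  refine ⟨0, fun MP _ => ?_⟩
  refine ⟨0, fun MV _ => ?_⟩
  refine ⟨0, fun CU _ => ?_⟩
  refine ⟨0, fun CP _ => ?_⟩
  refine ⟨0, fun CV _ => ?_⟩
  refine ⟨0, fun GR _ => ?_⟩
  refine ⟨1, one_pos, fun sg hs => ?_⟩
  refine ⟨1, one_pos, fun d0 hd => ?_⟩
  refine ⟨1, one_pos, fun rb _ => ?_⟩
  refine ⟨F ⟨B, rho0, BV, MU, MP, MV, CU, CP, CV, GR, sg, d0, 0, 0, 0⟩, fun N h1 => ?_⟩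
  refine ⟨1, one_pos, fun eps _ => ?_⟩
  show F _ ≤ N
  rw [hF ⟨B, rho0, BV, MU, MP, MV, CU, CP, CV, GR, sg, d0, rb, N, eps⟩
    ⟨B, rho0, BV, MU, MP, MV, CU, CP, CV, GR, sg, d0, 0, 0, 0⟩
    ⟨rfl, rfl, rfl, rfl, rfl, rfl, rfl, rfl, rfl, rfl⟩ rfl rfl]
  exact h1

theorem ev_eps {F : Par → ℝ}
    (hF : ∀ q q', HeadEq q q' → q.sg = q'.sg → q.d0 = q'.d0 → q.N = q'.N → F q = F q')
    (hpos : ∀ q, 0 < q.rho0 → 0 < q.sg → 0 < q.d0 → 0 < q.N → 0 < F q) :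
    Ev fun q => q.eps ≤ F q := by
  refine ⟨0, fun B _ => ?_⟩
  refine ⟨1, one_pos, fun rho0 h0 => ?_⟩
  refine ⟨0, fun BV _ => ?_⟩
  refine ⟨0, fun MU _ => ?_⟩
  refine ⟨0, fun MP _ => ?_⟩
  refine ⟨0, fun MV _ => ?_⟩
  refine ⟨0, fun CU _ => ?_⟩
  refine ⟨0, fun CP _ => ?_⟩
  refine ⟨0, fun CV _ => ?_⟩
  refine ⟨0, fun GR _ => ?_⟩
  refine ⟨1, one_pos, fun sg hs => ?_⟩
  refine ⟨1, one_pos, fun d0 hd => ?_⟩
  refine ⟨1, one_pos, fun rb _ => ?_⟩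
  refine ⟨1, fun N hN => ?_⟩
  refine ⟨F ⟨B, rho0, BV, MU, MP, MV, CU, CP, CV, GR, sg, d0, 0, N, 0⟩,
    hpos _ h0.1 hs.1 hd.1 (lt_of_lt_of_le one_pos hN), fun eps h1 => ?_⟩
  show eps ≤ F _
  rw [hF ⟨B, rho0, BV, MU, MP, MV, CU, CP, CV, GR, sg, d0, rb, N, eps⟩
    ⟨B, rho0, BV, MU, MP, MV, CU, CP, CV, GR, sg, d0, 0, N, 0⟩
    ⟨rfl, rfl, rfl, rfl, rfl, rfl, rfl, rfl, rfl, rfl⟩ rfl rfl rfl]
  exact h1.2

end Vale.Agent.P244.ST
end

section

/-!
# P244-ST, block M4 (pure part): the barrier for `V` in region I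

`hV u = (tanh u)^(21/20) (cosh u)^(1/20)`; `closV_main` is the unperturbed inequality,
`closV` the complete pointwise inequality of CLOSURE V.
-/

open Real Set

namespace Vale.Agent.P244.ST.M4

open Vale.Agent.P244.ST Vale.Agent.P244.ST.M

lemma hasDerivAt_tanh (u : ℝ) : HasDerivAt tanh (1 - tanh u ^ 2) u := by
  have hc : cosh u ≠ 0 := (cosh_pos u).ne'
  have h := (hasDerivAt_sinh u).div (hasDerivAt_cosh u) hc
  have e : (fun v => sinh v / cosh v) = tanh := by funext v; rw [tanh_eq_sinh_div_cosh]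
  have h2 : HasDerivAt tanh ((cosh u * cosh u - sinh u * sinh u) / cosh u ^ 2) u := by
    rw [← e]; exact h
  convert h2 using 1
  rw [tanh_eq_sinh_div_cosh]; field_simp

end Vale.Agent.P244.ST.M4
end

section

/-!
# P244 / ST / S : the r-gauge package (definitions and statement)

`rh = log r`, `uu = log (phi/psi)`; `ze r^2 = phi psi`, `phi = e^f`, `psi = e^w sqrt(1-x^2)`.
All functions of `(t, ρ)`, `ρ = log r`, on the region `ρ < ρ_max(t) = rh (w t) (f t) 0`.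
-/

open Set
open scoped ContDiff

namespace Vale.Agent.P244.ST.RG

noncomputable def ze (p : ℕ) : ℝ := ((p : ℝ) - 1) / (2 * (p : ℝ) - 1)

/-- `u = log (phi/psi)`. -/
noncomputable def uu (w f : ℝ → ℝ) (x : ℝ) : ℝ := f x - w x - Real.log (1 - x ^ 2) / 2

/-- `ρ = log r`. -/
noncomputable def rh (p : ℕ) (w f : ℝ → ℝ) (x : ℝ) : ℝ :=
  (f x + w x + Real.log (1 - x ^ 2) / 2 - Real.log (ze p)) / 2

/-- `u_x`. -/
noncomputable def ux (w f : ℝ → ℝ) (x : ℝ) : ℝ := dx f x - dx w x + x / (1 - x ^ 2)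

/-- `ρ_x`. -/
noncomputable def rhx (w f : ℝ → ℝ) (x : ℝ) : ℝ := (dx f x + dx w x - x / (1 - x ^ 2)) / 2

/-- `Z = r_s^2`. -/
noncomputable def ZZ (p : ℕ) (w f : ℝ → ℝ) (x : ℝ) : ℝ :=
  Real.exp (f x - w x) * (Real.sqrt (1 - x ^ 2)) ^ 3 * (rhx w f x) ^ 2 / ze p

/-- the region of the r-gauge, `I` is the set of times -/
def reg (p : ℕ) (w f : ℝ → ℝ → ℝ) (I : Set ℝ) : Set (ℝ × ℝ) :=
  {q | q.1 ∈ I ∧ q.2 < rh p (w q.1) (f q.1) 0}

/-- `(X, U, Z, R)` is the r-gauge form of the solution `(w, f)` on `[0,T)`; `U1 = D_ρ U`,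
`U2 = D_ρ^2 U`. -/
structure RSol (p : ℕ) (w f : ℝ → ℝ → ℝ) (T : ℝ) (X U U1 U2 Z R : ℝ → ℝ → ℝ) : Prop where
  X_mem : ∀ q ∈ reg p w f (Ico 0 T), X q.1 q.2 ∈ Ioo (0 : ℝ) 1 ∧
    rh p (w q.1) (f q.1) (X q.1 q.2) = q.2
  X_inv : ∀ t ∈ Ico 0 T, ∀ x ∈ Ioo (0 : ℝ) 1,
    rh p (w t) (f t) x < rh p (w t) (f t) 0 ∧ X t (rh p (w t) (f t) x) = x
  U_eq : ∀ q ∈ reg p w f (Ico 0 T), U q.1 q.2 = uu (w q.1) (f q.1) (X q.1 q.2)
  U1_eq : ∀ q ∈ reg p w f (Ico 0 T),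
    U1 q.1 q.2 = ux (w q.1) (f q.1) (X q.1 q.2) / rhx (w q.1) (f q.1) (X q.1 q.2)
  Z_eq : ∀ q ∈ reg p w f (Ico 0 T), Z q.1 q.2 = ZZ p (w q.1) (f q.1) (X q.1 q.2)
  R_eq : ∀ q ∈ reg p w f (Ico 0 T), R q.1 q.2 = scal p (w q.1) (f q.1) (X q.1 q.2)
  -- regularity
  isOpen_reg : IsOpen (reg p w f (Ioo 0 T))
  smooth_X : ContDiffOn ℝ ∞ (fun q : ℝ × ℝ => X q.1 q.2) (reg p w f (Ioo 0 T))
  smooth_U : ContDiffOn ℝ ∞ (fun q : ℝ × ℝ => U q.1 q.2) (reg p w f (Ioo 0 T))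
  smooth_U1 : ContDiffOn ℝ ∞ (fun q : ℝ × ℝ => U1 q.1 q.2) (reg p w f (Ioo 0 T))
  smooth_U2 : ContDiffOn ℝ ∞ (fun q : ℝ × ℝ => U2 q.1 q.2) (reg p w f (Ioo 0 T))
  smooth_Z : ContDiffOn ℝ ∞ (fun q : ℝ × ℝ => Z q.1 q.2) (reg p w f (Ioo 0 T))
  smooth_R : ContDiffOn ℝ ∞ (fun q : ℝ × ℝ => R q.1 q.2) (reg p w f (Ioo 0 T))
  cont_X : ContinuousOn (fun q : ℝ × ℝ => X q.1 q.2) (reg p w f (Ico 0 T))
  cont_U : ContinuousOn (fun q : ℝ × ℝ => U q.1 q.2) (reg p w f (Ico 0 T))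
  cont_U1 : ContinuousOn (fun q : ℝ × ℝ => U1 q.1 q.2) (reg p w f (Ico 0 T))
  cont_U2 : ContinuousOn (fun q : ℝ × ℝ => U2 q.1 q.2) (reg p w f (Ico 0 T))
  cont_Z : ContinuousOn (fun q : ℝ × ℝ => Z q.1 q.2) (reg p w f (Ico 0 T))
  cont_R : ContinuousOn (fun q : ℝ × ℝ => R q.1 q.2) (reg p w f (Ico 0 T))
  -- equations
  d1 : ∀ q ∈ reg p w f (Ico 0 T), HasDerivAt (U q.1) (U1 q.1 q.2) q.2
  d2 : ∀ q ∈ reg p w f (Ico 0 T), HasDerivAt (U1 q.1) (U2 q.1 q.2) q.2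
  dZ : ∀ q ∈ reg p w f (Ico 0 T), HasDerivAt (Z q.1)
    ((2 * (p : ℝ) - 1) * (Real.cosh (U q.1 q.2) - Z q.1 q.2) - Z q.1 q.2 * (U1 q.1 q.2) ^ 2 / 4
      - Real.exp (2 * q.2) * R q.1 q.2 / (2 * p)) q.2
  dt : ∀ q ∈ reg p w f (Ioo 0 T), HasDerivAt (fun t => U t q.2)
    (Real.exp (-2 * q.2) * (Z q.1 q.2 * U2 q.1 q.2
      + (2 * (p : ℝ) - 1) * Real.cosh (U q.1 q.2) * U1 q.1 q.2
      + 2 * (2 * (p : ℝ) - 1) * Real.sinh (U q.1 q.2))) q.1
  Z_pos : ∀ q ∈ reg p w f (Ico 0 T), 0 < Z q.1 q.2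
  -- bounds near the tip
  tip : ∀ t₁ ∈ Ico 0 T, ∀ ρ₁ : ℝ, (∀ t ∈ Icc 0 t₁, ρ₁ < rh p (w t) (f t) 0) →
    ∃ K : ℝ, ∀ t ∈ Icc 0 t₁, ∀ ρ ≤ ρ₁, |U t ρ + 2 * ρ| ≤ K ∧ |U1 t ρ| ≤ K ∧ |U2 t ρ| ≤ K ∧
      |Z t ρ| ≤ K * Real.exp (-2 * ρ) ∧ |R t ρ| ≤ K

/-- STATEMENT S8 (r-gauge package). -/
def S8Statement : Prop :=
  ∀ p : ℕ, 2 ≤ p → ∀ T > 0, ∀ w f : ℝ → ℝ → ℝ, ConfSol p w f T →
    (∀ t ∈ Ico 0 T, ∀ x ∈ Ioo (0 : ℝ) 1, rhx (w t) (f t) x < 0) →
    ∃ X U U1 U2 Z R : ℝ → ℝ → ℝ, RSol p w f T X U U1 U2 Z R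

end Vale.Agent.P244.ST.RG
end

section

/-!
# P244 / ST / S : interface of the weighted `L²` analysis (block S)

`k = κ` (a root of `κ² - 39 κ + 78 = 0`, `2 < κ < 2.2`), `a = D/2 - 1 = 39/2 - κ`,
`s = -log (1-t)`, `τ = e^{-s}`, `y = r/√τ`, `z = y²/4`, so `r² = 4 z e^{-s}`,
`log r = (log (4z) - s)/2`.  `A(s) = ε e^{-(3-κ/2)s}`.
The normalised function is `H(s,z) = χ (4z)^{κ/2} u / A(s)` (so `H ≈ l₃(z)`), and
`H_s = z H_zz + (a+1-z) H_z + 3 H + N`.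
-/

open Set MeasureTheory
open scoped ContDiff

namespace Vale.Agent.P244.ST.SS

/-- standing assumption on `κ` -/
structure KK (k : ℝ) : Prop where
  eq : k ^ 2 - 39 * k + 78 = 0
  lo : 2.1 < k
  hi : k < 2.12

/-- the Laguerre parameter -/
noncomputable def aa (k : ℝ) : ℝ := 39 / 2 - k

/-- smooth step: `0` for `x ≤ 1`, `1` for `4 ≤ x` -/
noncomputable def xi (x : ℝ) : ℝ := Real.smoothTransition (Real.sqrt x - 1)

noncomputable def xi1 (x : ℝ) : ℝ := deriv xi x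
noncomputable def xi2 (x : ℝ) : ℝ := deriv xi1 x

/-- inner cut-off radius: `z0(s) = y0(s)²/4`, `y0 = d₀ e^{-s/10}` -/
noncomputable def z0 (d s : ℝ) : ℝ := d ^ 2 / 4 * Real.exp (-s / 5)

/-- argument of the outer cut-off `r²/N` -/
noncomputable def be (N s z : ℝ) : ℝ := 4 * z * Real.exp (-s) / N

/-- the cut-off `χ(s,z)` -/
noncomputable def ch (d N s z : ℝ) : ℝ := xi (z / z0 d s) * (1 - xi (be N s z))

/-- `2 z ∂_z χ` -/
noncomputable def ch1 (d N s z : ℝ) : ℝ :=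
  2 * (z / z0 d s) * xi1 (z / z0 d s) * (1 - xi (be N s z))
    - xi (z / z0 d s) * (2 * be N s z * xi1 (be N s z))

/-- `(2 z ∂_z)² χ` -/
noncomputable def ch2 (d N s z : ℝ) : ℝ :=
  (4 * (z / z0 d s) ^ 2 * xi2 (z / z0 d s) + 4 * (z / z0 d s) * xi1 (z / z0 d s)) *
      (1 - xi (be N s z))
    - 2 * (2 * (z / z0 d s) * xi1 (z / z0 d s)) * (2 * be N s z * xi1 (be N s z))
    - xi (z / z0 d s) * (4 * be N s z ^ 2 * xi2 (be N s z) + 4 * be N s z * xi1 (be N s z))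

/-- `∂_s χ` -/
noncomputable def chs (d N s z : ℝ) : ℝ :=
  (z / z0 d s) * xi1 (z / z0 d s) / 5 * (1 - xi (be N s z))
    + xi (z / z0 d s) * (be N s z * xi1 (be N s z))

/-- amplitude -/
noncomputable def Am (k ε s : ℝ) : ℝ := ε * Real.exp (-(3 - k / 2) * s)

/-- `t = 1 - e^{-s}` -/
noncomputable def tt (s : ℝ) : ℝ := 1 - Real.exp (-s)

/-- `log r` -/
noncomputable def lr (s z : ℝ) : ℝ := (Real.log (4 * z) - s) / 2

/-- `(4z)^{κ/2}` -/
noncomputable def wk (k z : ℝ) : ℝ := (4 * z) ^ (k / 2)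

/-- the normalised cut-off function `H` -/
noncomputable def HH (k ε d N : ℝ) (U : ℝ → ℝ → ℝ) (s z : ℝ) : ℝ :=
  ch d N s z * wk k z * U (tt s) (lr s z) / Am k ε s

/-- `2 z ∂_z` of `χ (4z)^{κ/2} u / A` -/
noncomputable def HD (k ε d N : ℝ) (U U1 : ℝ → ℝ → ℝ) (s z : ℝ) : ℝ :=
  wk k z / Am k ε s * (ch1 d N s z * U (tt s) (lr s z)
    + ch d N s z * (k * U (tt s) (lr s z) + U1 (tt s) (lr s z)))

/-- `(2 z ∂_z)²` of `χ (4z)^{κ/2} u / A` -/
noncomputable def HDD (k ε d N : ℝ) (U U1 U2 : ℝ → ℝ → ℝ) (s z : ℝ) : ℝ :=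
  wk k z / Am k ε s * (ch2 d N s z * U (tt s) (lr s z)
    + 2 * ch1 d N s z * (k * U (tt s) (lr s z) + U1 (tt s) (lr s z))
    + ch d N s z * (k ^ 2 * U (tt s) (lr s z) + 2 * k * U1 (tt s) (lr s z) + U2 (tt s) (lr s z)))

/-- `∂_z H` -/
noncomputable def H1 (k ε d N : ℝ) (U U1 : ℝ → ℝ → ℝ) (s z : ℝ) : ℝ :=
  HD k ε d N U U1 s z / (2 * z)

/-- `∂_z² H` -/
noncomputable def H2 (k ε d N : ℝ) (U U1 U2 : ℝ → ℝ → ℝ) (s z : ℝ) : ℝ :=
  (HDD k ε d N U U1 U2 s z - 2 * HD k ε d N U U1 s z) / (4 * z ^ 2)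

/-- the nonlinearity `(Z-1) D²u + (m-1)(cosh u - 1) D u + 2(m-1)(sinh u - u)` -/
noncomputable def nl (U U1 U2 Z : ℝ) : ℝ :=
  (Z - 1) * U2 + 39 * (Real.cosh U - 1) * U1 + 78 * (Real.sinh U - U)

/-- the forcing `N(s,z)` -/
noncomputable def FN (k ε d N : ℝ) (U U1 U2 Z : ℝ → ℝ → ℝ) (s z : ℝ) : ℝ :=
  wk k z / Am k ε s *
    (ch d N s z / (4 * z) *
        nl (U (tt s) (lr s z)) (U1 (tt s) (lr s z)) (U2 (tt s) (lr s z)) (Z (tt s) (lr s z))
      - 1 / (4 * z) * (2 * ch1 d N s z * U1 (tt s) (lr s z)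
          + (ch2 d N s z + 39 * ch1 d N s z) * U (tt s) (lr s z))
      + (ch1 d N s z / 2 + chs d N s z) * U (tt s) (lr s z))

/-- A smooth family `H(s,z)`, `s ∈ [0,s₁]`, with compact support in `z > 0`, solving
`H_s = z H'' + (a+1-z) H' + c H + F`. -/
structure Fam (a c s₁ : ℝ) (H H1 H2 F : ℝ → ℝ → ℝ) : Prop where
  d1 : ∀ s ∈ Icc 0 s₁, ∀ z > 0, HasDerivAt (H s) (H1 s z) z
  d2 : ∀ s ∈ Icc 0 s₁, ∀ z > 0, HasDerivAt (H1 s) (H2 s z) z
  dt : ∀ s ∈ Ioo 0 s₁, ∀ z > 0, HasDerivAt (fun s => H s z)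
    (z * H2 s z + (a + 1 - z) * H1 s z + c * H s z + F s z) s
  cH : ContinuousOn (fun q : ℝ × ℝ => H q.1 q.2) (Icc 0 s₁ ×ˢ Ioi 0)
  cH1 : ContinuousOn (fun q : ℝ × ℝ => H1 q.1 q.2) (Icc 0 s₁ ×ˢ Ioi 0)
  cH2 : ContinuousOn (fun q : ℝ × ℝ => H2 q.1 q.2) (Icc 0 s₁ ×ˢ Ioi 0)
  cF : ContinuousOn (fun q : ℝ × ℝ => F q.1 q.2) (Icc 0 s₁ ×ˢ Ioi 0)
  supp : ∃ z₁ > 0, ∃ z₂ : ℝ, z₁ < z₂ ∧ ∀ s ∈ Icc 0 s₁, ∀ z > 0, z ∉ Icc z₁ z₂ →
    H s z = 0 ∧ H1 s z = 0 ∧ H2 s z = 0 ∧ F s z = 0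

/-- **S3** (equation of `H`).  `RSol` for `p = 20`, region `r ≤ 2√N < r_e(t)`. -/
def S3Statement : Prop :=
  ∀ k ε d N : ℝ, KK k → 0 < ε → 0 < d → 1 ≤ N →
  ∀ T > 0, ∀ w f X U U1 U2 Z R : ℝ → ℝ → ℝ, RG.RSol 20 w f T X U U1 U2 Z R →
  ∀ s₁ > 0, tt s₁ < T →
  (∀ t ∈ Icc 0 (tt s₁), Real.log (4 * N) / 2 < RG.rh 20 (w t) (f t) 0) →
  Fam (aa k) 3 s₁ (HH k ε d N U) (H1 k ε d N U U1) (H2 k ε d N U U1 U2)
    (FN k ε d N U U1 U2 Z)

/-- the envelope `z^{-1.1} + z³` -/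
noncomputable def en (z : ℝ) : ℝ := z ^ (-(11 / 10 : ℝ)) + z ^ 3

/-- the size of the forcing -/
noncomputable def om (k ε d N Rs s : ℝ) : ℝ :=
  d ^ 16 * Real.exp (-(8 / 5 : ℝ) * s) + Am k ε s ^ 2 + Rs * Real.exp (-s)
    + Real.exp (-N / 16) * Real.exp (-s)

/-- pointwise input at the time `s` (from BOOT): bounds of `u, Du, nl` for
`z0(s) ≤ z`, `r² ≤ 4N`. -/
def PtIn (k ε d N C1 Rs : ℝ) (U U1 U2 Z : ℝ → ℝ → ℝ) (s : ℝ) : Prop :=
  ∀ z, z0 d s ≤ z → be N s z ≤ 4 →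
    |U (tt s) (lr s z)| ≤ C1 * Am k ε s * en z ∧
    |U1 (tt s) (lr s z)| ≤ C1 * Am k ε s * en z ∧
    |nl (U (tt s) (lr s z)) (U1 (tt s) (lr s z)) (U2 (tt s) (lr s z)) (Z (tt s) (lr s z))| ≤
      C1 * Am k ε s * en z * (Am k ε s ^ 2 * en z ^ 2 + z * Real.exp (-s) * Rs)

/-- **S4** (size of the forcing). -/
def S4Statement : Prop :=
  ∀ k : ℝ, KK k → ∀ C1 : ℝ, 0 ≤ C1 → ∃ C2 : ℝ, 0 ≤ C2 ∧
    ∀ ε d N Rs s : ℝ, 0 < ε → ε ≤ 1 → 0 < d → d ≤ 1 → 16 ≤ N → 0 ≤ Rs → 0 ≤ s →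
    ∀ U U1 U2 Z : ℝ → ℝ → ℝ,
      ContinuousOn (FN k ε d N U U1 U2 Z s) (Ioi 0) → PtIn k ε d N C1 Rs U U1 U2 Z s →
      Integrable (fun z => FN k ε d N U U1 U2 Z s z ^ 2) (Lag.mu (aa k)) ∧
      ∫ z, FN k ε d N U U1 U2 Z s z ^ 2 ∂(Lag.mu (aa k)) ≤ (C2 * om k ε d N Rs s) ^ 2

/-- norm of `ell i` -/
noncomputable def nu (k : ℝ) (i : ℕ) : ℝ := Real.sqrt (Lag.nrm (aa k) i)

/-- normalised mode: `γ_i = ⟨H, e_i⟩ / |l_i|` -/
noncomputable def gam (k : ℝ) (i : ℕ) (h : ℝ → ℝ) : ℝ :=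
  (∫ z, h z * (Lag.en (aa k) i).eval z ∂(Lag.mu (aa k))) / nu k i

/-- squared distance from the span of the first four Laguerre polynomials -/
noncomputable def Ex (k : ℝ) (h : ℝ → ℝ) : ℝ :=
  ∫ z, h z ^ 2 ∂(Lag.mu (aa k)) - ∑ i ∈ Finset.range 4,
    (∫ z, h z * (Lag.en (aa k) i).eval z ∂(Lag.mu (aa k))) ^ 2

/-- **S5a** (evolution of the modes). -/
def S5aStatement : Prop :=
  ∀ k : ℝ, KK k → ∀ s₁ > 0, ∀ H H1 H2 F : ℝ → ℝ → ℝ, Fam (aa k) 3 s₁ H H1 H2 F →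
  ∀ i : ℕ, ContinuousOn (fun s => gam k i (H s)) (Icc 0 s₁) ∧
    ContinuousOn (fun s => gam k i (F s)) (Icc 0 s₁) ∧
    (∀ s ∈ Ioo 0 s₁, HasDerivAt (fun s => gam k i (H s))
      ((3 - i) * gam k i (H s) + gam k i (F s)) s) ∧
    (∀ s ∈ Icc 0 s₁, Integrable (fun z => F s z ^ 2) (Lag.mu (aa k)) ∧
      |gam k i (F s)| ≤ Real.sqrt (∫ z, F s z ^ 2 ∂(Lag.mu (aa k))) / nu k i)

/-- **S5b** (evolution of the distance). -/
def S5bStatement : Prop :=
  ∀ k : ℝ, KK k → ∀ s₁ > 0, ∀ H H1 H2 F : ℝ → ℝ → ℝ, Fam (aa k) 3 s₁ H H1 H2 F →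
  ContinuousOn (fun s => Ex k (H s)) (Icc 0 s₁) ∧ (∀ s ∈ Icc 0 s₁, 0 ≤ Ex k (H s)) ∧
  ∀ o : ℝ → ℝ, ContinuousOn o (Icc 0 s₁) → (∀ s ∈ Icc 0 s₁, 0 ≤ o s) →
  (∀ s ∈ Icc 0 s₁, ∫ z, F s z ^ 2 ∂(Lag.mu (aa k)) ≤ o s ^ 2) →
  (∀ s ∈ Icc 0 s₁, |gam k 3 (H s) - gam k 3 (H 0)| ≤ (∫ x in (0 : ℝ)..s, o x) / nu k 3) ∧
  (∀ s ∈ Icc 0 s₁, Real.sqrt (Ex k (H s)) ≤ Real.sqrt (Ex k (H 0)) + ∫ x in (0 : ℝ)..s, o x)

end Vale.Agent.P244.ST.SS
end

section

/-!
# P244 / ST / S : the smooth step `xi`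
-/

open Set Filter Topology
open scoped ContDiff

namespace Vale.Agent.P244.ST.SS

theorem xi_zero {x : ℝ} (hx : x ≤ 1) : xi x = 0 := by
  unfold xi
  refine Real.smoothTransition.zero_of_nonpos ?_
  have : Real.sqrt x ≤ 1 := by
    rw [Real.sqrt_le_left (by norm_num)]
    linarith only [hx]
  linarith only [this]

theorem xi_one {x : ℝ} (hx : 4 ≤ x) : xi x = 1 := by
  unfold xi
  refine Real.smoothTransition.one_of_one_le ?_
  have : 2 ≤ Real.sqrt x := by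
    refine Real.le_sqrt_of_sq_le ?_
    linarith only [hx]
  linarith only [this]

theorem xi_mem (x : ℝ) : xi x ∈ Icc (0 : ℝ) 1 :=
  ⟨Real.smoothTransition.nonneg _, Real.smoothTransition.le_one _⟩

theorem xi_smooth : ContDiff ℝ ∞ xi := by
  rw [contDiff_iff_contDiffAt]
  intro x
  rcases lt_or_ge x 1 with hx | hx
  · have h1 : xi =ᶠ[𝓝 x] fun _ => 0 := by
      filter_upwards [Iio_mem_nhds hx] with y hy
      exact xi_zero (le_of_lt hy)
    exact contDiffAt_const.congr_of_eventuallyEq h1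
  · have h1 : ContDiffAt ℝ ∞ (fun x => Real.sqrt x - 1) x :=
      (Real.contDiffAt_sqrt (by linarith only [hx] : x ≠ 0)).sub contDiffAt_const
    exact (Real.smoothTransition.contDiffAt (n := ⊤) (x := Real.sqrt x - 1)).comp x h1

theorem xi1_smooth : ContDiff ℝ ∞ xi1 := by
  have h := (contDiff_infty_iff_deriv.1 xi_smooth).2
  exact h

theorem xi2_smooth : ContDiff ℝ ∞ xi2 := by
  have h := (contDiff_infty_iff_deriv.1 xi1_smooth).2
  exact h

theorem xi_hasDerivAt (x : ℝ) : HasDerivAt xi (xi1 x) x :=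
  ((xi_smooth.differentiable (by simp)).differentiableAt).hasDerivAt

theorem xi1_hasDerivAt (x : ℝ) : HasDerivAt xi1 (xi2 x) x :=
  ((xi1_smooth.differentiable (by simp)).differentiableAt).hasDerivAt

theorem xi1_zero {x : ℝ} (hx : x ≤ 1 ∨ 4 ≤ x) : xi1 x = 0 := by
  have key : ∀ s : Set ℝ, IsOpen s → (∀ x ∈ s, xi1 x = 0) → ∀ x ∈ closure s, xi1 x = 0 := by
    intro s _ hs x hx
    have hc : IsClosed {x | xi1 x = 0} := isClosed_eq xi1_smooth.continuous continuous_const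
    exact closure_minimal (fun y hy => hs y hy) hc hx
  rcases hx with h | h
  · refine key (Iio 1) isOpen_Iio (fun y hy => ?_) x (by rw [closure_Iio]; exact h)
    have h1 : xi =ᶠ[𝓝 y] fun _ => 0 := by
      filter_upwards [Iio_mem_nhds hy] with z hz
      exact xi_zero (le_of_lt hz)
    unfold xi1
    rw [h1.deriv_eq, deriv_const]
  · refine key (Ioi 4) isOpen_Ioi (fun y hy => ?_) x (by rw [closure_Ioi]; exact h)
    have h1 : xi =ᶠ[𝓝 y] fun _ => 1 := by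
      filter_upwards [Ioi_mem_nhds hy] with z hz
      exact xi_one (le_of_lt hz)
    unfold xi1
    rw [h1.deriv_eq, deriv_const]

theorem xi2_zero {x : ℝ} (hx : x ≤ 1 ∨ 4 ≤ x) : xi2 x = 0 := by
  have key : ∀ s : Set ℝ, IsOpen s → (∀ x ∈ s, xi2 x = 0) → ∀ x ∈ closure s, xi2 x = 0 := by
    intro s _ hs x hx
    have hc : IsClosed {x | xi2 x = 0} := isClosed_eq xi2_smooth.continuous continuous_const
    exact closure_minimal (fun y hy => hs y hy) hc hx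
  rcases hx with h | h
  · refine key (Iio 1) isOpen_Iio (fun y hy => ?_) x (by rw [closure_Iio]; exact h)
    have h1 : xi1 =ᶠ[𝓝 y] fun _ => 0 := by
      filter_upwards [Iio_mem_nhds hy] with z hz
      exact xi1_zero (Or.inl (le_of_lt hz))
    unfold xi2
    rw [h1.deriv_eq, deriv_const]
  · refine key (Ioi 4) isOpen_Ioi (fun y hy => ?_) x (by rw [closure_Ioi]; exact h)
    have h1 : xi1 =ᶠ[𝓝 y] fun _ => 0 := by
      filter_upwards [Ioi_mem_nhds hy] with z hz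
      exact xi1_zero (Or.inr (le_of_lt hz))
    unfold xi2
    rw [h1.deriv_eq, deriv_const]

end Vale.Agent.P244.ST.SS
end

section

/-! P244, block S: pointwise bounds from `L^2` bounds (helper551). -/

open MeasureTheory Set Filter
open scoped Topology

namespace Vale.Agent.P244.ST.Lag

/-- `H^1` bound -/
theorem sup_of_h1 {w w1 : ℝ → ℝ} {z0 z1 : ℝ} (h01 : z0 < z1)
    (hw : ∀ z ∈ Icc z0 z1, HasDerivWithinAt w (w1 z) (Icc z0 z1) z)
    (hw1 : ContinuousOn w1 (Icc z0 z1)) {z : ℝ} (hz : z ∈ Icc z0 z1) :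
    w z ^ 2 ≤ 2 / (z1 - z0) * (∫ y in z0..z1, w y ^ 2)
      + 2 * (z1 - z0) * ∫ y in z0..z1, w1 y ^ 2 := by
  have hd : 0 < z1 - z0 := by linarith only [h01]
  have hwc : ContinuousOn w (Icc z0 z1) := fun z hz => (hw z hz).continuousWithinAt
  have hwi : IntervalIntegrable (fun y => w y ^ 2) volume z0 z1 := by
    apply ContinuousOn.intervalIntegrable
    rw [uIcc_of_le h01.le]; exact hwc.pow 2
  have hw1i : IntervalIntegrable (fun y => w1 y ^ 2) volume z0 z1 := by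
    apply ContinuousOn.intervalIntegrable
    rw [uIcc_of_le h01.le]; exact hw1.pow 2
  set Q := ∫ y in z0..z1, w1 y ^ 2 with hQ
  -- the increments
  have hinc : ∀ s t, s ∈ Icc z0 z1 → t ∈ Icc z0 z1 → s ≤ t → (w t - w s) ^ 2 ≤ (z1 - z0) * Q := by
    intro s t hs ht hst
    have hsub : Icc s t ⊆ Icc z0 z1 := Icc_subset_Icc hs.1 ht.2
    have h1 : ∫ y in s..t, w1 y = w t - w s := by
      apply intervalIntegral.integral_eq_sub_of_hasDerivAt_of_le hst (hwc.mono hsub)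
      · intro y hy
        have hy' : y ∈ Ioo z0 z1 := ⟨lt_of_le_of_lt hs.1 hy.1, lt_of_lt_of_le hy.2 ht.2⟩
        exact (hw y (Ioo_subset_Icc_self hy')).hasDerivAt (Icc_mem_nhds hy'.1 hy'.2)
      · apply ContinuousOn.intervalIntegrable
        rw [uIcc_of_le hst]; exact hw1.mono hsub
    have hI1 : IntervalIntegrable w1 volume s t := by
      apply ContinuousOn.intervalIntegrable
      rw [uIcc_of_le hst]; exact hw1.mono hsub
    have hI2 : IntervalIntegrable (fun y => w1 y ^ 2) volume s t := by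
      apply ContinuousOn.intervalIntegrable
      rw [uIcc_of_le hst]; exact (hw1.mono hsub).pow 2
    -- Cauchy-Schwarz through a square
    have h2 : ∀ c : ℝ, 0 ≤ (∫ y in s..t, w1 y ^ 2) - 2 * c * (w t - w s) + c ^ 2 * (t - s) := by
      intro c
      have h3 : 0 ≤ ∫ y in s..t, (w1 y - c) ^ 2 :=
        intervalIntegral.integral_nonneg hst fun y _ => sq_nonneg _
      have h4 : ∫ y in s..t, (w1 y - c) ^ 2
          = (∫ y in s..t, w1 y ^ 2) - 2 * c * (w t - w s) + c ^ 2 * (t - s) := by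
        have h5 : ∀ y, (w1 y - c) ^ 2 = w1 y ^ 2 - 2 * c * w1 y + c ^ 2 := fun y => by ring
        simp only [h5]
        rw [intervalIntegral.integral_add (hI2.sub (hI1.const_mul (2 * c)))
          intervalIntegrable_const, intervalIntegral.integral_sub hI2 (hI1.const_mul (2 * c)),
          intervalIntegral.integral_const_mul, h1, intervalIntegral.integral_const, smul_eq_mul]
        ring
      rw [← h4]; exact h3
    have h6 : ∫ y in s..t, w1 y ^ 2 ≤ Q := by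
      apply intervalIntegral.integral_mono_interval hs.1 hst ht.2
      · exact Eventually.of_forall fun y => sq_nonneg _
      · exact hw1i
    have h7 := h2 ((w t - w s) / (z1 - z0))
    have h8 : t - s ≤ z1 - z0 := by linarith only [hs, ht, hs.1, ht.2]
    have h9 : ((w t - w s) / (z1 - z0)) ^ 2 * (t - s)
        ≤ ((w t - w s) / (z1 - z0)) ^ 2 * (z1 - z0) :=
      mul_le_mul_of_nonneg_left h8 (sq_nonneg _)
    have h10 : ((w t - w s) / (z1 - z0)) ^ 2 * (z1 - z0) = (w t - w s) ^ 2 / (z1 - z0) := by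
      field_simp
    have h11 : 2 * ((w t - w s) / (z1 - z0)) * (w t - w s) = 2 * ((w t - w s) ^ 2 / (z1 - z0)) := by
      ring
    rw [h10] at h9
    rw [h11] at h7
    have h12 : (w t - w s) ^ 2 / (z1 - z0) ≤ Q := by linarith only [h6, h7, h9]
    rwa [div_le_iff₀ hd, mul_comm] at h12
  have hinc' : ∀ y ∈ Icc z0 z1, (w z - w y) ^ 2 ≤ (z1 - z0) * Q := by
    intro y hy
    rcases le_total y z with h | h
    · exact hinc y z hy hz h
    · have := hinc z y hz hy h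
      rwa [show (w z - w y) ^ 2 = (w y - w z) ^ 2 by ring]
  have hpt : ∀ y ∈ Icc z0 z1, w z ^ 2 ≤ 2 * w y ^ 2 + 2 * ((z1 - z0) * Q) := by
    intro y hy
    have := hinc' y hy
    linarith only [sq_nonneg (w z - 2 * w y), this]
  have hmono : ∫ _y in z0..z1, w z ^ 2 ≤ ∫ y in z0..z1, (2 * w y ^ 2 + 2 * ((z1 - z0) * Q)) :=
    intervalIntegral.integral_mono_on h01.le intervalIntegrable_const
      ((hwi.const_mul 2).add intervalIntegrable_const) hpt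
  rw [intervalIntegral.integral_const, intervalIntegral.integral_add (hwi.const_mul 2)
    intervalIntegrable_const, intervalIntegral.integral_const_mul, intervalIntegral.integral_const,
    smul_eq_mul, smul_eq_mul] at hmono
  have h13 : w z ^ 2 ≤ (2 * (∫ y in z0..z1, w y ^ 2) + (z1 - z0) * (2 * ((z1 - z0) * Q)))
      / (z1 - z0) := by
    rw [le_div_iff₀ hd]; linarith only [hmono]
  refine h13.trans (le_of_eq ?_)
  field_simp

/-! ### with the Laguerre weight -/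

/-- lower bound of the weight on `[z0, z1]` -/
noncomputable def wlow (a z0 z1 : ℝ) : ℝ := min (z0 ^ a) (z1 ^ a) * Real.exp (-z1)

theorem wlow_pos {a z0 z1 : ℝ} (h0 : 0 < z0) (h01 : z0 ≤ z1) : 0 < wlow a z0 z1 := by
  unfold wlow
  have h1 : 0 < z1 := lt_of_lt_of_le h0 h01
  exact mul_pos (lt_min (Real.rpow_pos_of_pos h0 _) (Real.rpow_pos_of_pos h1 _)) (Real.exp_pos _)

theorem wlow_le {a z0 z1 z : ℝ} (h0 : 0 < z0) (hz : z ∈ Icc z0 z1) :
    wlow a z0 z1 ≤ z ^ a * Real.exp (-z) := by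
  unfold wlow
  have hz0 : 0 < z := lt_of_lt_of_le h0 hz.1
  have h1 : min (z0 ^ a) (z1 ^ a) ≤ z ^ a := by
    rcases le_total 0 a with ha | ha
    · exact (min_le_left _ _).trans (Real.rpow_le_rpow h0.le hz.1 ha)
    · exact (min_le_right _ _).trans (Real.rpow_le_rpow_of_nonpos hz0 hz.2 ha)
  have h2 : Real.exp (-z1) ≤ Real.exp (-z) := Real.exp_le_exp.2 (by linarith only [hz, hz.2])
  exact mul_le_mul h1 h2 (Real.exp_pos _).le (Real.rpow_pos_of_pos hz0 _).le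

/-- local integrals are bounded by weighted integrals -/
theorem integral_le_mu {a z0 z1 : ℝ} (h0 : 0 < z0) (h01 : z0 ≤ z1) {g : ℝ → ℝ}
    (hg : ContinuousOn g (Icc z0 z1)) (hg0 : ∀ z, 0 < z → 0 ≤ g z) (hi : Integrable g (mu a)) :
    ∫ z in z0..z1, g z ≤ (wlow a z0 z1)⁻¹ * ∫ z, g z ∂(mu a) := by
  have hp := wlow_pos (a := a) h0 h01
  rw [inv_mul_eq_div, le_div_iff₀ hp, integral_mu]
  have hi' := (integrable_mu a g).1 hi
  have hsub : Ioc z0 z1 ⊆ Ioi (0 : ℝ) := fun z hz => lt_trans h0 hz.1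
  calc (∫ z in z0..z1, g z) * wlow a z0 z1 = ∫ z in z0..z1, g z * wlow a z0 z1 := by
        rw [intervalIntegral.integral_mul_const]
    _ = ∫ z in Ioc z0 z1, g z * wlow a z0 z1 := intervalIntegral.integral_of_le h01
    _ ≤ ∫ z in Ioc z0 z1, g z * (z ^ a * Real.exp (-z)) := by
        apply setIntegral_mono_on
        · have h1 : IntervalIntegrable (fun z => g z * wlow a z0 z1) volume z0 z1 := by
            apply ContinuousOn.intervalIntegrable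
            rw [uIcc_of_le h01]
            exact hg.mul continuousOn_const
          exact (intervalIntegrable_iff_integrableOn_Ioc_of_le h01).1 h1
        · exact hi'.mono_set hsub
        · exact measurableSet_Ioc
        · intro z hz
          exact mul_le_mul_of_nonneg_left (wlow_le h0 ⟨hz.1.le, hz.2⟩) (hg0 z (lt_trans h0 hz.1))
    _ ≤ ∫ z in Ioi 0, g z * (z ^ a * Real.exp (-z)) := by
        apply setIntegral_mono_set hi'
        · filter_upwards [ae_restrict_mem measurableSet_Ioi] with z hz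
          exact mul_nonneg (hg0 z hz) (wt_nonneg hz)
        · exact LE.le.eventuallyLE hsub

end Vale.Agent.P244.ST.Lag
end

section

/-! P244 team S (helper558): polynomials are dense in `L²(μ)` for a finite measure on `ℝ` with an
exponential moment, and Parseval for orthonormal polynomials. -/

open MeasureTheory ProbabilityTheory Filter Topology Set
open scoped ENNReal Polynomial

namespace Vale.Agent.P244.ST

/-- two finite measures with exponential moments and the same moments are equal -/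
theorem ext_of_moments {μ ν : Measure ℝ} [IsFiniteMeasure μ] [IsFiniteMeasure ν] {δ : ℝ}
    (hδ : 0 < δ) (hμ : Integrable (fun z => Real.exp (δ * |z|)) μ)
    (hν : Integrable (fun z => Real.exp (δ * |z|)) ν)
    (h : ∀ k : ℕ, ∫ z, z ^ k ∂μ = ∫ z, z ^ k ∂ν) : μ = ν := by
  have hset : ∀ (μ : Measure ℝ), Integrable (fun z => Real.exp (δ * |z|)) μ →
      Ioo (-δ) δ ⊆ integrableExpSet id μ := by
    intro μ hμ t ht
    refine hμ.mono (by fun_prop) (Eventually.of_forall fun z => ?_)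
    rw [Real.norm_eq_abs, Real.norm_eq_abs, abs_of_pos (Real.exp_pos _),
      abs_of_pos (Real.exp_pos _)]
    apply Real.exp_le_exp.2
    have h1 : |t| ≤ δ := abs_le.2 ⟨ht.1.le, ht.2.le⟩
    calc t * id z ≤ |t * z| := le_abs_self _
      _ = |t| * |z| := abs_mul _ _
      _ ≤ δ * |z| := mul_le_mul_of_nonneg_right h1 (abs_nonneg _)
  have hint : ∀ (μ : Measure ℝ), Integrable (fun z => Real.exp (δ * |z|)) μ →
      Ioo (-δ) δ ⊆ interior (integrableExpSet id μ) := fun μ hμ =>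
    interior_maximal (hset μ hμ) isOpen_Ioo
  have h0 : (0 : ℝ) ∈ Ioo (-δ) δ := ⟨by linarith only [hδ], hδ⟩
  -- the mgf's agree near 0
  have h1 : ∀ᶠ t in 𝓝 (0 : ℝ), mgf id μ t = mgf id ν t := by
    have p1 := hasFPowerSeriesAt_mgf (hint μ hμ h0)
    have p2 := hasFPowerSeriesAt_mgf (hint ν hν h0)
    have e : ∀ n : ℕ, (∫ x, id x ^ n * Real.exp (0 * id x) ∂μ) = ∫ x, id x ^ n * Real.exp (0 * id x) ∂ν := by
      intro n
      simpa using h n
    simp_rw [e] at p1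
    have p3 := p1.sub p2
    rw [sub_self] at p3
    filter_upwards [p3.eventually_eq_zero] with t ht
    exact sub_eq_zero.1 ht
  -- analytic continuation to the strip
  have hstrip : Set.EqOn (complexMGF id μ) (complexMGF id ν)
      {z : ℂ | z.re ∈ Ioo (-δ) δ} := by
    have hX : AnalyticOnNhd ℂ (complexMGF id μ) {z : ℂ | z.re ∈ Ioo (-δ) δ} := fun z hz =>
      analyticAt_complexMGF (hint μ hμ hz)
    have hY : AnalyticOnNhd ℂ (complexMGF id ν) {z : ℂ | z.re ∈ Ioo (-δ) δ} := fun z hz =>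
      analyticAt_complexMGF (hint ν hν hz)
    refine AnalyticOnNhd.eqOn_of_preconnected_of_frequently_eq hX hY
      (((convex_Ioo (-δ) δ).linear_preimage Complex.reLm).isPreconnected)
      (z₀ := (0 : ℂ)) (by simpa using hδ) ?_
    have h_real : ∃ᶠ (x : ℝ) in 𝓝[≠] 0, complexMGF id μ x = complexMGF id ν x := by
      refine Eventually.frequently ?_
      filter_upwards [mem_nhdsWithin_of_mem_nhds h1] with x hx
      rw [complexMGF_ofReal, complexMGF_ofReal, hx]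
    rw [frequently_iff_seq_forall] at h_real ⊢
    obtain ⟨xs, hx_tendsto, hx_eq⟩ := h_real
    refine ⟨fun n ↦ xs n, ?_, fun n ↦ ?_⟩
    · rw [tendsto_nhdsWithin_iff] at hx_tendsto ⊢
      constructor
      · have := (Complex.continuous_ofReal.tendsto 0).comp hx_tendsto.1
        simpa [Function.comp_def] using this
      · simpa using hx_tendsto.2
    · simp [hx_eq]
  refine Measure.ext_of_charFun (funext fun t => ?_)
  rw [← complexMGF_id_mul_I, ← complexMGF_id_mul_I]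
  exact hstrip (by simpa using hδ)

section L2

variable {μ : Measure ℝ} {δ : ℝ}

/-- functions bounded by `C exp(δ|z|/2)` are in `L²` -/
theorem memLp_of_exp (hμ : Integrable (fun z => Real.exp (δ * |z|)) μ) {f : ℝ → ℝ}
    (hf : AEStronglyMeasurable f μ) {C : ℝ} (hb : ∀ z, |f z| ≤ C * Real.exp (δ / 2 * |z|)) :
    MemLp f 2 μ := by
  rw [memLp_two_iff_integrable_sq hf]
  refine (hμ.const_mul (C ^ 2)).mono (hf.pow 2) (Eventually.of_forall fun z => ?_)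
  rw [Real.norm_eq_abs, Real.norm_eq_abs, abs_pow]
  have h1 := hb z
  have e : Real.exp (δ * |z|) = Real.exp (δ / 2 * |z|) ^ 2 := by
    rw [← Real.exp_nat_mul]
    congr 1
    push_cast
    ring
  rw [abs_of_nonneg (by positivity : 0 ≤ C ^ 2 * Real.exp (δ * |z|)), e, ← mul_pow]
  exact pow_le_pow_left₀ (abs_nonneg _) h1 2

theorem memLp_pow (hδ : 0 < δ) (hμ : Integrable (fun z => Real.exp (δ * |z|)) μ) (k : ℕ) :
    MemLp (fun z : ℝ => z ^ k) 2 μ := by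
  refine memLp_of_exp hμ (by fun_prop) (C := k.factorial / (δ / 2) ^ k) fun z => ?_
  have h1 := Real.pow_div_factorial_le_exp (δ / 2 * |z|) (by positivity) k
  rw [div_le_iff₀ (by positivity), mul_pow] at h1
  rw [abs_pow, div_mul_eq_mul_div, le_div_iff₀ (by positivity)]
  linarith only [h1]

theorem memLp_poly (hδ : 0 < δ) (hμ : Integrable (fun z => Real.exp (δ * |z|)) μ)
    (p : ℝ[X]) : MemLp (fun z : ℝ => p.eval z) 2 μ := by
  have e : (fun z : ℝ => p.eval z) = fun z => ∑ i ∈ Finset.range (p.natDegree + 1),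
      p.coeff i * z ^ i := by
    funext z
    exact Polynomial.eval_eq_sum_range z
  rw [e]
  exact memLp_finsetSum _ fun i _ => (memLp_pow hδ hμ i).const_mul _

/-- **completeness**: an `L²` function with vanishing moments is zero -/
theorem ae_zero_of_moments [IsFiniteMeasure μ] (hδ : 0 < δ) (hμ : Integrable (fun z => Real.exp (δ * |z|)) μ)
    {h : ℝ → ℝ} (hh : MemLp h 2 μ) (h0 : ∀ k : ℕ, ∫ z, h z * z ^ k ∂μ = 0) : h =ᵐ[μ] 0 := by
  have hi : Integrable h μ := hh.integrable one_le_two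
  have hexp : MemLp (fun z : ℝ => Real.exp (δ / 2 * |z|)) 2 μ := by
    refine memLp_of_exp hμ (by exact Continuous.aestronglyMeasurable (by fun_prop)) (C := 1) fun z => ?_
    rw [abs_of_pos (Real.exp_pos _), one_mul]
  have fin1 : IsFiniteMeasure (μ.withDensity fun z => ENNReal.ofReal (h z)) :=
    isFiniteMeasure_withDensity_ofReal hi.2
  have fin2 : IsFiniteMeasure (μ.withDensity fun z => ENNReal.ofReal (-h z)) :=
    isFiniteMeasure_withDensity_ofReal hi.neg.2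
  have m1 : AEMeasurable (fun z => ENNReal.ofReal (h z)) μ :=
    hi.aestronglyMeasurable.aemeasurable.ennreal_ofReal
  have m2 : AEMeasurable (fun z => ENNReal.ofReal (-h z)) μ :=
    hi.neg.aestronglyMeasurable.aemeasurable.ennreal_ofReal
  have key : ∀ g : ℝ → ℝ, MemLp g 2 μ → Integrable (fun z => h z * g z) μ := fun g hg =>
    hh.integrable_mul hg
  have keyp : ∀ g : ℝ → ℝ, MemLp g 2 μ → Integrable (fun z => max (h z) 0 * g z) μ := by
    intro g hg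
    refine (key g hg).mono ((hi.pos_part.aestronglyMeasurable).mul hg.1)
      (Eventually.of_forall fun z => ?_)
    rw [norm_mul, norm_mul]
    refine mul_le_mul_of_nonneg_right ?_ (norm_nonneg _)
    rw [Real.norm_eq_abs, Real.norm_eq_abs, abs_of_nonneg (le_max_right _ _)]
    exact max_le (le_abs_self _) (abs_nonneg _)
  have keym : ∀ g : ℝ → ℝ, MemLp g 2 μ → Integrable (fun z => max (-h z) 0 * g z) μ := by
    intro g hg
    refine (key g hg).mono ((hi.neg.pos_part.aestronglyMeasurable).mul hg.1)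
      (Eventually.of_forall fun z => ?_)
    rw [norm_mul, norm_mul]
    refine mul_le_mul_of_nonneg_right ?_ (norm_nonneg _)
    rw [Real.norm_eq_abs, Real.norm_eq_abs, abs_of_nonneg (le_max_right _ _)]
    exact max_le (neg_le_abs _) (abs_nonneg _)
  have heq : μ.withDensity (fun z => ENNReal.ofReal (h z))
      = μ.withDensity fun z => ENNReal.ofReal (-h z) := by
    refine ext_of_moments (δ := δ / 2) (by linarith only [hδ]) ?_ ?_ fun k => ?_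
    · rw [integrable_withDensity_iff_integrable_smul₀' m1
        (Eventually.of_forall fun z => ENNReal.ofReal_lt_top)]
      simpa [ENNReal.toReal_ofReal'] using keyp _ hexp
    · rw [integrable_withDensity_iff_integrable_smul₀' m2
        (Eventually.of_forall fun z => ENNReal.ofReal_lt_top)]
      simpa [ENNReal.toReal_ofReal'] using keym _ hexp
    · rw [integral_withDensity_eq_integral_toReal_smul₀ m1
        (Eventually.of_forall fun z => ENNReal.ofReal_lt_top),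
        integral_withDensity_eq_integral_toReal_smul₀ m2
        (Eventually.of_forall fun z => ENNReal.ofReal_lt_top)]
      simp only [ENNReal.toReal_ofReal', smul_eq_mul]
      rw [← sub_eq_zero, ← integral_sub (keyp _ (memLp_pow hδ hμ k))
        (keym _ (memLp_pow hδ hμ k))]
      refine Eq.trans ?_ (h0 k)
      refine integral_congr_ae (Eventually.of_forall fun z => ?_)
      change max (h z) 0 * z ^ k - max (-h z) 0 * z ^ k = h z * z ^ k
      rw [← sub_mul]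
      congr 1
      rcases le_total 0 (h z) with hz | hz
      · rw [max_eq_left hz, max_eq_right (by linarith only [hz])]; ring
      · rw [max_eq_right hz, max_eq_left (by linarith only [hz])]; ring
  have hne : ∫⁻ z, ENNReal.ofReal (h z) ∂μ ≠ ∞ := by
    have := measure_lt_top (μ.withDensity fun z => ENNReal.ofReal (h z)) univ
    rw [withDensity_apply _ MeasurableSet.univ, setLIntegral_univ] at this
    exact this.ne
  have hae := (withDensity_eq_iff m1 m2 hne).1 heq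
  filter_upwards [hae] with z hz
  change h z = 0
  rcases lt_trichotomy (h z) 0 with h1 | h1 | h1
  · rw [ENNReal.ofReal_of_nonpos h1.le] at hz
    have := ENNReal.ofReal_eq_zero.1 hz.symm
    linarith only [h1, this]
  · exact h1
  · rw [ENNReal.ofReal_of_nonpos (p := -h z) (by linarith only [h1])] at hz
    have := ENNReal.ofReal_eq_zero.1 hz
    linarith only [h1, this]

theorem inner_toLp {f g : ℝ → ℝ} (hf : MemLp f 2 μ) (hg : MemLp g 2 μ) :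
    inner ℝ (hf.toLp f) (hg.toLp g) = ∫ z, f z * g z ∂μ := by
  rw [L2.inner_def]
  refine integral_congr_ae ?_
  filter_upwards [hf.coeFn_toLp, hg.coeFn_toLp] with z h1 h2
  rw [h1, h2]
  simp [mul_comm]

/-- **Parseval** for orthonormal polynomials -/
theorem parseval [IsFiniteMeasure μ] (hδ : 0 < δ) (hμ : Integrable (fun z => Real.exp (δ * |z|)) μ)
    {e : ℕ → ℝ[X]} (hdeg : ∀ i, (e i).natDegree = i)
    (horth : ∀ i j, ∫ z, (e i).eval z * (e j).eval z ∂μ = if i = j then 1 else 0)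
    {f g : ℝ → ℝ} (hf : MemLp f 2 μ) (hg : MemLp g 2 μ) :
    HasSum (fun i => (∫ z, f z * (e i).eval z ∂μ) * ∫ z, g z * (e i).eval z ∂μ)
      (∫ z, f z * g z ∂μ) := by
  have hm : ∀ i, MemLp (fun z : ℝ => (e i).eval z) 2 μ := fun i => memLp_poly hδ hμ (e i)
  set E : ℕ → MeasureTheory.Lp ℝ 2 μ := fun i => (hm i).toLp _ with hE
  have hon : Orthonormal ℝ E := by
    rw [orthonormal_iff_ite]
    intro i j
    rw [hE]
    change inner ℝ ((hm i).toLp _) ((hm j).toLp _) = _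
    rw [inner_toLp, horth]
  have hne : ∀ i, e i ≠ 0 := by
    intro i hi
    have := horth i i
    rw [hi] at this
    simp at this
  have hsp : (Submodule.span ℝ (Set.range E))ᗮ = ⊥ := by
    rw [Submodule.eq_bot_iff]
    intro x hx
    have hx' : ∀ i, ∫ z, x z * (e i).eval z ∂μ = 0 := by
      intro i
      have h1 := (Submodule.mem_orthogonal _ _).1 hx (E i) (Submodule.subset_span ⟨i, rfl⟩)
      rw [hE] at h1
      change inner ℝ ((hm i).toLp _) x = 0 at h1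
      have h2 : x = (MeasureTheory.Lp.memLp x).toLp x := (MeasureTheory.Lp.toLp_coeFn x (MeasureTheory.Lp.memLp x)).symm
      rw [h2, inner_toLp] at h1
      rw [← h1]
      refine integral_congr_ae (Eventually.of_forall fun z => ?_)
      exact mul_comm _ _
    have hpoly : ∀ n : ℕ, ∀ p : ℝ[X], p.natDegree < n → ∫ z, x z * p.eval z ∂μ = 0 := by
      intro n
      induction n with
      | zero => intro p hp; omega
      | succ n ih =>
        intro p hp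
        set k := p.natDegree with hk
        set c : ℝ := p.leadingCoeff / (e k).leadingCoeff with hc
        have hl : (e k).leadingCoeff ≠ 0 := Polynomial.leadingCoeff_ne_zero.2 (hne k)
        set q : ℝ[X] := p - Polynomial.C c * e k with hq
        have hpq : p = q + Polynomial.C c * e k := by rw [hq]; ring
        have hq0 : ∫ z, x z * q.eval z ∂μ = 0 := by
          by_cases hk0 : k = 0
          · -- constants
            have h1 : q = 0 := by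
              have h2 : p = Polynomial.C (p.coeff 0) :=
                Polynomial.eq_C_of_natDegree_eq_zero (by rw [← hk, hk0])
              have h3 : e 0 = Polynomial.C ((e 0).coeff 0) :=
                Polynomial.eq_C_of_natDegree_eq_zero (hdeg 0)
              have h4 : p.leadingCoeff = p.coeff 0 := by
                rw [Polynomial.leadingCoeff, ← hk, hk0]
              have h5 : (e k).leadingCoeff = (e 0).coeff 0 := by
                rw [hk0, Polynomial.leadingCoeff, hdeg 0]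
              rw [h5] at hl
              rw [hq, hc, h4, h5, hk0, h3, ← Polynomial.C_mul, Polynomial.coeff_C_zero,
                div_mul_cancel₀ _ hl, ← h2, sub_self]
            rw [h1]
            simp
          · apply ih
            have hdl : q.degree < p.degree := by
              apply Polynomial.degree_sub_lt_left
              · have hc0 : c ≠ 0 := by
                  rw [hc]
                  refine div_ne_zero (Polynomial.leadingCoeff_ne_zero.2 ?_) hl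
                  intro hp0
                  rw [hp0] at hk
                  simp at hk
                  exact hk0 hk
                rw [Polynomial.degree_C_mul hc0]
                rw [Polynomial.degree_eq_natDegree (hne k), hdeg k, hk]
                refine Polynomial.degree_eq_natDegree ?_
                intro hp0
                rw [hp0] at hk
                simp at hk
                exact hk0 hk
              · intro hp0
                rw [hp0] at hk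
                simp at hk
                exact hk0 hk
              · rw [Polynomial.leadingCoeff_mul, Polynomial.leadingCoeff_C, hc,
                  div_mul_cancel₀ _ hl]
            by_cases hq1 : q = 0
            · rw [hq1]; simp; omega
            · have := Polynomial.natDegree_lt_natDegree hq1 hdl
              omega
        have hint : ∀ r : ℝ[X], Integrable (fun z => x z * r.eval z) μ := fun r =>
          (MeasureTheory.Lp.memLp x).integrable_mul (memLp_poly hδ hμ r)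
        have e1 : ∀ z, x z * p.eval z = x z * q.eval z + c * (x z * (e k).eval z) := by
          intro z
          conv_lhs => rw [hpq]
          rw [Polynomial.eval_add, Polynomial.eval_mul, Polynomial.eval_C]
          ring
        simp_rw [e1]
        rw [integral_add (hint q) ((hint (e k)).const_mul c), integral_const_mul, hq0, hx' k,
          mul_zero, add_zero]
    have h0 : ∀ k : ℕ, ∫ z, x z * z ^ k ∂μ = 0 := by
      intro k
      have := hpoly (k + 1) (Polynomial.X ^ k) (by rw [Polynomial.natDegree_X_pow]; omega)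
      simpa using this
    have h1 := ae_zero_of_moments hδ hμ (MeasureTheory.Lp.memLp x) h0
    exact MeasureTheory.Lp.eq_zero_iff_ae_eq_zero.2 h1
  set b := HilbertBasis.mkOfOrthogonalEqBot hon hsp with hb
  have h1 := b.hasSum_inner_mul_inner (hf.toLp f) (hg.toLp g)
  rw [inner_toLp hf hg] at h1
  have h2 : ∀ i, inner ℝ (hf.toLp f) (b i) * inner ℝ (b i) (hg.toLp g)
      = (∫ z, f z * (e i).eval z ∂μ) * ∫ z, g z * (e i).eval z ∂μ := by
    intro i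
    have e1 : b i = (hm i).toLp _ := by
      rw [hb, HilbertBasis.coe_mkOfOrthogonalEqBot]
    rw [e1, inner_toLp hf (hm i), inner_toLp (hm i) hg]
    congr 1
    refine integral_congr_ae (Eventually.of_forall fun z => ?_)
    exact mul_comm _ _
  simp_rw [h2] at h1
  exact h1

end L2

end Vale.Agent.P244.ST
end

section

/-! P244, block S: completeness of the Laguerre polynomials and Parseval (helper558). -/

open MeasureTheory Set Filter Polynomial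
open scoped Topology ENNReal

namespace Vale.Agent.P244.ST.Lag

/-- exponential moment -/
theorem exp_moment {a : ℝ} (ha : -1 < a) :
    Integrable (fun z : ℝ => Real.exp (1 / 2 * |z|)) (mu a) := by
  rw [integrable_mu]
  have h := integrableOn_rpow_mul_exp_neg_mul_rpow (p := 1) (s := a) (b := 1 / 2) ha zero_lt_one
    (by norm_num)
  refine h.congr_fun ?_ measurableSet_Ioi
  intro z hz
  change z ^ a * Real.exp (-(1 / 2) * z ^ (1 : ℝ))
    = Real.exp (1 / 2 * |z|) * (z ^ a * Real.exp (-z))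
  rw [Real.rpow_one, abs_of_pos hz, mul_left_comm, ← Real.exp_add]
  congr 2
  ring

theorem natDegree_ell {a : ℝ} (ha : -1 < a) (n : ℕ) : (ell a n).natDegree = n := by
  apply Polynomial.natDegree_eq_of_le_of_coeff_ne_zero
  · unfold ell
    refine Polynomial.natDegree_sum_le_of_forall_le _ _ fun k hk => ?_
    exact (Polynomial.natDegree_monomial_le _).trans (by
      have := Finset.mem_range.1 hk
      omega)
  · rw [coeff_ell]
    exact cf_ne ha n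

theorem natDegree_en {a : ℝ} (ha : -1 < a) (n : ℕ) : (en a n).natDegree = n := by
  unfold en
  rw [Polynomial.natDegree_C_mul, natDegree_ell ha]
  have := Real.sqrt_pos.2 (nrm_pos ha n)
  positivity

/-- **Parseval** for the Laguerre polynomials -/
theorem parseval_en {a : ℝ} (ha : -1 < a) {f g : ℝ → ℝ} (hf : MemLp f 2 (mu a))
    (hg : MemLp g 2 (mu a)) :
    HasSum (fun i => (∫ z, f z * (en a i).eval z ∂(mu a)) * ∫ z, g z * (en a i).eval z ∂(mu a))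
      (∫ z, f z * g z ∂(mu a)) := by
  have := finite_mu ha
  exact parseval (by norm_num) (exp_moment ha) (natDegree_en ha) (en_orth ha) hf hg

/-- Parseval for one function -/
theorem parseval_sq {a : ℝ} (ha : -1 < a) {f : ℝ → ℝ} (hf : MemLp f 2 (mu a)) :
    HasSum (fun i => (∫ z, f z * (en a i).eval z ∂(mu a)) ^ 2) (∫ z, f z ^ 2 ∂(mu a)) := by
  have h := parseval_en ha hf hf
  simp_rw [← pow_two] at h
  exact h

/-- Bessel -/
theorem bessel {a : ℝ} (ha : -1 < a) {f : ℝ → ℝ} (hf : MemLp f 2 (mu a)) (s : Finset ℕ) :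
    ∑ i ∈ s, (∫ z, f z * (en a i).eval z ∂(mu a)) ^ 2 ≤ ∫ z, f z ^ 2 ∂(mu a) :=
  sum_le_hasSum s (fun _ _ => sq_nonneg _) (parseval_sq ha hf)

/-- if `g_i = λ_i f_i` for the Laguerre coefficients with `λ_i ≥ i`-type lower bounds, then the
form `∫ g f` is bounded below: first `N` modes exactly, the rest by `K`. -/
theorem form_lower {a : ℝ} (ha : -1 < a) {f g : ℝ → ℝ} (hf : MemLp f 2 (mu a))
    (hg : MemLp g 2 (mu a)) {lam : ℕ → ℝ}
    (hfg : ∀ i, ∫ z, g z * (en a i).eval z ∂(mu a) = lam i * ∫ z, f z * (en a i).eval z ∂(mu a))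
    (N : ℕ) {K : ℝ} (hK : ∀ i, N ≤ i → K ≤ lam i) :
    ∑ i ∈ Finset.range N, lam i * (∫ z, f z * (en a i).eval z ∂(mu a)) ^ 2
      + K * (∫ z, f z ^ 2 ∂(mu a)
        - ∑ i ∈ Finset.range N, (∫ z, f z * (en a i).eval z ∂(mu a)) ^ 2)
      ≤ ∫ z, g z * f z ∂(mu a) := by
  set c : ℕ → ℝ := fun i => ∫ z, f z * (en a i).eval z ∂(mu a) with hc
  have h1 : HasSum (fun i => lam i * c i ^ 2) (∫ z, g z * f z ∂(mu a)) := by
    have h := parseval_en ha hg hf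
    have e : ∀ i, (∫ z, g z * (en a i).eval z ∂(mu a)) * (∫ z, f z * (en a i).eval z ∂(mu a))
        = lam i * c i ^ 2 := by
      intro i
      rw [hfg i, hc]
      ring
    simp_rw [e] at h
    exact h
  have h2 : HasSum (fun i => K * c i ^ 2) (K * ∫ z, f z ^ 2 ∂(mu a)) :=
    (parseval_sq ha hf).mul_left K
  have h3 := h1.sub h2
  have h4 : ∑ i ∈ Finset.range N, (lam i * c i ^ 2 - K * c i ^ 2)
      ≤ ∫ z, g z * f z ∂(mu a) - K * ∫ z, f z ^ 2 ∂(mu a) := by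
    refine sum_le_hasSum _ (fun i hi => ?_) h3
    have := hK i (by simpa using hi)
    linarith only [mul_nonneg (sub_nonneg.2 this) (sq_nonneg (c i))]
  rw [Finset.sum_sub_distrib, ← Finset.mul_sum] at h4
  rw [mul_sub]
  linarith only [h4]

end Vale.Agent.P244.ST.Lag
end
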