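import Mathlib
import Vale.Agent.P244.FlowDefs

set_option linter.all false

section

namespace Vale.Agent.P244.GeoM

/-! Ricci curvature of `V dh^2 + U g_{S^(m-1)} + C g_{S^p}` (`U, V, C` functions of `h`):
`RU g_{S^(m-1)} + RV dh^2 + RC g_{S^p}`. -/

noncomputable def RU (m p : ℝ) (U U1 U2 V V1 C C1 : ℝ) : ℝ :=
  (m - 2) - ((U2 / V - U1 * V1 / (2 * V ^ 2)) / 2 + (m - 3) * U1 ^ 2 / (4 * U * V)
    + p * U1 * C1 / (4 * C * V))

noncomputable def RC (m p : ℝ) (U U1 V V1 C C1 C2 : ℝ) : ℝ :=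
  (p - 1) - ((C2 / V - C1 * V1 / (2 * V ^ 2)) / 2 + (p - 2) * C1 ^ 2 / (4 * C * V)
    + (m - 1) * U1 * C1 / (4 * U * V))

noncomputable def RV (m p : ℝ) (U U1 U2 V V1 C C1 C2 : ℝ) : ℝ :=
  -((m - 1) * ((U2 - U1 * V1 / (2 * V)) / (2 * U) - U1 ^ 2 / (4 * U ^ 2))
    + p * ((C2 - C1 * V1 / (2 * V)) / (2 * C) - C1 ^ 2 / (4 * C ^ 2)))

/-- covariance under a change of the variable `h` with derivatives `e1, e2` -/
theorem RU_cov (m p : ℝ) {U U1 U2 V V1 C C1 e1 e2 : ℝ} (hU : U ≠ 0) (hV : V ≠ 0) (hC : C ≠ 0)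
    (he : e1 ≠ 0) :
    RU m p U (U1 * e1) (U2 * e1 ^ 2 + U1 * e2) (V * e1 ^ 2) (V1 * e1 ^ 3 + 2 * V * e1 * e2)
      C (C1 * e1) = RU m p U U1 U2 V V1 C C1 := by
  unfold RU
  field_simp
  ring

theorem RC_cov (m p : ℝ) {U U1 V V1 C C1 C2 e1 e2 : ℝ} (hU : U ≠ 0) (hV : V ≠ 0) (hC : C ≠ 0)
    (he : e1 ≠ 0) :
    RC m p U (U1 * e1) (V * e1 ^ 2) (V1 * e1 ^ 3 + 2 * V * e1 * e2)
      C (C1 * e1) (C2 * e1 ^ 2 + C1 * e2) = RC m p U U1 V V1 C C1 C2 := by
  unfold RC
  field_simp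
  ring

theorem RV_cov (m p : ℝ) {U U1 U2 V V1 C C1 C2 e1 e2 : ℝ} (hU : U ≠ 0) (hV : V ≠ 0) (hC : C ≠ 0)
    (he : e1 ≠ 0) :
    RV m p U (U1 * e1) (U2 * e1 ^ 2 + U1 * e2) (V * e1 ^ 2) (V1 * e1 ^ 3 + 2 * V * e1 * e2)
      C (C1 * e1) (C2 * e1 ^ 2 + C1 * e2) = RV m p U U1 U2 V V1 C C1 C2 * e1 ^ 2 := by
  unfold RV
  field_simp
  ring

/-- the curvatures of the conformal metric, `q = 1 - x^2`, `E = e^{2w}`, `K = e^{2f}` -/
theorem RU_conf (p : ℝ) {x q E K w1 w2 f1 : ℝ} (hq : q = 1 - x ^ 2) (hq0 : q ≠ 0) (hE : E ≠ 0)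
    (hK : K ≠ 0) :
    RU (p + 1) p (E * q) (E * (2 * w1 * q - 2 * x))
      (E * (2 * w1 * (2 * w1 * q - 2 * x) + 2 * w2 * q - 4 * x * w1 - 2)) (E / q)
      (E * (2 * w1 / q + 2 * x / q ^ 2)) K (2 * f1 * K) =
    -(E⁻¹ * (q * w2 - (p + 1) * x * w1 - p - x * ((p - 1) * w1 + p * f1)
      + q * w1 * ((p - 1) * w1 + p * f1))) * (E * q) := by
  unfold RU
  subst hq
  field_simp
  ring

theorem RC_conf (p : ℝ) {x q E K w1 f1 f2 : ℝ} (hq : q = 1 - x ^ 2) (hq0 : q ≠ 0) (hE : E ≠ 0)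
    (hK : K ≠ 0) :
    RC (p + 1) p (E * q) (E * (2 * w1 * q - 2 * x)) (E / q)
      (E * (2 * w1 / q + 2 * x / q ^ 2)) K (2 * f1 * K) ((2 * f2 + 4 * f1 ^ 2) * K) =
    (-(E⁻¹ * (q * f2 - (p + 1) * x * f1 + q * f1 * ((p - 1) * w1 + p * f1))) + (p - 1) * K⁻¹) *
      K := by
  unfold RC
  subst hq
  field_simp
  ring

theorem RV_conf (p : ℝ) {x q E K w1 w2 f1 f2 : ℝ} (hq : q = 1 - x ^ 2) (hq0 : q ≠ 0) (hE : E ≠ 0)
    (hK : K ≠ 0) :
    RV (p + 1) p (E * q) (E * (2 * w1 * q - 2 * x))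
      (E * (2 * w1 * (2 * w1 * q - 2 * x) + 2 * w2 * q - 4 * x * w1 - 2)) (E / q)
      (E * (2 * w1 / q + 2 * x / q ^ 2)) K (2 * f1 * K) ((2 * f2 + 4 * f1 ^ 2) * K) =
    (-(E⁻¹ * (q * w2 - (p + 1) * x * w1 - p - x * ((p - 1) * w1 + p * f1)
      + q * w1 * ((p - 1) * w1 + p * f1)))
      - E⁻¹ * q * ((p - 1) * (w2 - w1 ^ 2) + p * (f2 + f1 ^ 2 - 2 * w1 * f1))) * (E / q) := by
  unfold RV
  subst hq
  field_simp
  ring

/-- evolution of `U`, `C`, `V` along the gauge field -/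
theorem evo_U (p : ℝ) {x q E K w1 w2 f1 J : ℝ} (hq : q = 1 - x ^ 2) (hq0 : q ≠ 0) (hE : E ≠ 0)
    (hK : K ≠ 0) :
    2 * (E⁻¹ * (q * w2 - (p + 1) * x * w1 - p) + (x - q * w1) * J) * (E * q) +
      (E * (2 * w1 * q - 2 * x)) * (q * (J + E⁻¹ * ((p - 1) * w1 + p * f1))) =
    -2 * RU (p + 1) p (E * q) (E * (2 * w1 * q - 2 * x))
      (E * (2 * w1 * (2 * w1 * q - 2 * x) + 2 * w2 * q - 4 * x * w1 - 2)) (E / q)
      (E * (2 * w1 / q + 2 * x / q ^ 2)) K (2 * f1 * K) := by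
  rw [RU_conf p hq hq0 hE hK]
  field_simp
  ring

theorem evo_C (p : ℝ) {x q E K w1 f1 f2 J : ℝ} (hq : q = 1 - x ^ 2) (hq0 : q ≠ 0) (hE : E ≠ 0)
    (hK : K ≠ 0) :
    2 * (E⁻¹ * (q * f2 - (p + 1) * x * f1) - (p - 1) * K⁻¹ - q * f1 * J) * K +
      (2 * f1 * K) * (q * (J + E⁻¹ * ((p - 1) * w1 + p * f1))) =
    -2 * RC (p + 1) p (E * q) (E * (2 * w1 * q - 2 * x)) (E / q)
      (E * (2 * w1 / q + 2 * x / q ^ 2)) K (2 * f1 * K) ((2 * f2 + 4 * f1 ^ 2) * K) := by
  rw [RC_conf p hq hq0 hE hK]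
  field_simp
  ring

theorem evo_V (p : ℝ) {x q E K w1 w2 f1 f2 J : ℝ} (hq : q = 1 - x ^ 2) (hq0 : q ≠ 0) (hE : E ≠ 0)
    (hK : K ≠ 0) :
    2 * (E⁻¹ * (q * w2 - (p + 1) * x * w1 - p) + (x - q * w1) * J) * (E / q) +
      (E * (2 * w1 / q + 2 * x / q ^ 2)) * (q * (J + E⁻¹ * ((p - 1) * w1 + p * f1))) +
      2 * (E / q) * (-2 * x * (J + E⁻¹ * ((p - 1) * w1 + p * f1)) +
        q * (E⁻¹ * ((p - 1) * (w2 - w1 ^ 2) + p * (f2 + f1 ^ 2 - 2 * w1 * f1)))) =
    -2 * RV (p + 1) p (E * q) (E * (2 * w1 * q - 2 * x))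
      (E * (2 * w1 * (2 * w1 * q - 2 * x) + 2 * w2 * q - 4 * x * w1 - 2)) (E / q)
      (E * (2 * w1 / q + 2 * x / q ^ 2)) K (2 * f1 * K) ((2 * f2 + 4 * f1 ^ 2) * K) := by
  rw [RV_conf p hq hq0 hE hK]
  field_simp
  ring

end Vale.Agent.P244.GeoM
end

section

set_option linter.all false

/-! # P244, block G1: coordinate computation of the Ricci tensor of the doubly warped metrics.
Part A: calculus in `EuclideanSpace ℝ (Fin m)` and the basic functions of the stereographic charts. -/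

open scoped ContDiff
open Set

namespace Vale.Agent.P244.Geo

/-- Euclidean space -/
abbrev EE (m : ℕ) : Type := EuclideanSpace ℝ (Fin m)

/-- `f` is differentiable at `y` with partial derivatives `f'` -/
def HD {m : ℕ} (f : EE m → ℝ) (f' : Fin m → ℝ) (y : EE m) : Prop :=
  DifferentiableAt ℝ f y ∧ ∀ j, fderiv ℝ f y (EuclideanSpace.single j 1) = f' j

namespace HD

variable {m : ℕ} {f g : EE m → ℝ} {f' g' : Fin m → ℝ} {y : EE m}

lemma congr (h : HD f f' y) (h2 : ∀ j, f' j = g' j) : HD f g' y := ⟨h.1, fun j => (h.2 j).trans (h2 j)⟩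

lemma const (c : ℝ) : HD (fun _ : EE m => c) (fun _ => 0) y := by
  refine ⟨differentiableAt_const c, fun j => ?_⟩
  simp

lemma coord (i : Fin m) : HD (fun z : EE m => z i) (fun j => if i = j then 1 else 0) y := by
  have h : HasFDerivAt (fun z : EE m => z i) (EuclideanSpace.proj i : EE m →L[ℝ] ℝ) y :=
    (EuclideanSpace.proj i : EE m →L[ℝ] ℝ).hasFDerivAt
  refine ⟨h.differentiableAt, fun j => ?_⟩
  rw [h.fderiv]
  simp [Pi.single_apply]

lemma add (hf : HD f f' y) (hg : HD g g' y) : HD (fun z => f z + g z) (fun j => f' j + g' j) y := by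
  refine ⟨hf.1.add hg.1, fun j => ?_⟩
  have : fderiv ℝ (fun z => f z + g z) y = fderiv ℝ f y + fderiv ℝ g y := fderiv_add hf.1 hg.1
  rw [this, ContinuousLinearMap.add_apply, hf.2, hg.2]

lemma sub (hf : HD f f' y) (hg : HD g g' y) : HD (fun z => f z - g z) (fun j => f' j - g' j) y := by
  refine ⟨hf.1.sub hg.1, fun j => ?_⟩
  have : fderiv ℝ (fun z => f z - g z) y = fderiv ℝ f y - fderiv ℝ g y := fderiv_sub hf.1 hg.1
  rw [this, ContinuousLinearMap.sub_apply, hf.2, hg.2]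

lemma neg (hf : HD f f' y) : HD (fun z => - f z) (fun j => - f' j) y := by
  refine ⟨hf.1.neg, fun j => ?_⟩
  have : fderiv ℝ (fun z => - f z) y = - fderiv ℝ f y := fderiv_neg
  rw [this, ContinuousLinearMap.neg_apply, hf.2]

lemma mul (hf : HD f f' y) (hg : HD g g' y) :
    HD (fun z => f z * g z) (fun j => f' j * g y + f y * g' j) y := by
  refine ⟨hf.1.mul hg.1, fun j => ?_⟩
  have : fderiv ℝ (fun z => f z * g z) y = f y • fderiv ℝ g y + g y • fderiv ℝ f y :=
    fderiv_mul hf.1 hg.1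
  rw [this, ContinuousLinearMap.add_apply, ContinuousLinearMap.smul_apply,
    ContinuousLinearMap.smul_apply, hf.2, hg.2, smul_eq_mul, smul_eq_mul]
  ring

lemma comp {φ : ℝ → ℝ} {φ' : ℝ} (hφ : HasDerivAt φ φ' (f y)) (hf : HD f f' y) :
    HD (fun z => φ (f z)) (fun j => φ' * f' j) y := by
  have h := hφ.comp_hasFDerivAt y hf.1.hasFDerivAt
  refine ⟨h.differentiableAt, fun j => ?_⟩
  have h2 : fderiv ℝ (fun z => φ (f z)) y = φ' • fderiv ℝ f y := h.fderiv
  rw [h2, ContinuousLinearMap.smul_apply, hf.2, smul_eq_mul]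

lemma compW {φ : ℝ → ℝ} {φ' : ℝ} {S : Set ℝ} (hφ : HasDerivWithinAt φ φ' S (f y)) (hf : HD f f' y)
    (hS : ∀ z, f z ∈ S) : HD (fun z => φ (f z)) (fun j => φ' * f' j) y := by
  have h := hφ.comp_hasFDerivAt y hf.1.hasFDerivAt (Filter.Eventually.of_forall hS)
  refine ⟨h.differentiableAt, fun j => ?_⟩
  have h2 : fderiv ℝ (fun z => φ (f z)) y = φ' • fderiv ℝ f y := h.fderiv
  rw [h2, ContinuousLinearMap.smul_apply, hf.2, smul_eq_mul]

lemma const_mul (c : ℝ) (hf : HD f f' y) : HD (fun z => c * f z) (fun j => c * f' j) y :=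
  ((const c).mul hf).congr fun j => by ring

lemma inv (hf : HD f f' y) (h0 : f y ≠ 0) :
    HD (fun z => (f z)⁻¹) (fun j => -(f' j) / (f y) ^ 2) y :=
  (comp (hasDerivAt_inv h0) hf).congr fun j => by ring

lemma div (hf : HD f f' y) (hg : HD g g' y) (h0 : g y ≠ 0) :
    HD (fun z => f z / g z) (fun j => (f' j * g y - f y * g' j) / (g y) ^ 2) y :=
  (hf.mul (hg.inv h0)).congr fun j => by field_simp; ring

lemma normsq : HD (fun z : EE m => ‖z‖ ^ 2) (fun j => 2 * y j) y := by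
  have h : HasFDerivAt (fun z : EE m => ‖z‖ ^ 2) (2 • (innerSL ℝ y)) y :=
    (hasStrictFDerivAt_norm_sq y).hasFDerivAt
  refine ⟨h.differentiableAt, fun j => ?_⟩
  rw [h.fderiv]
  simp [EuclideanSpace.inner_single_right]

lemma innerL (b : EE m) : HD (fun z : EE m => inner ℝ b z) (fun j => b j) y := by
  have h : HasFDerivAt (fun z : EE m => inner ℝ b z) (innerSL ℝ b) y :=
    (innerSL ℝ b).hasFDerivAt
  refine ⟨h.differentiableAt, fun j => ?_⟩
  rw [h.fderiv]
  simp [EuclideanSpace.inner_single_right]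

lemma of_eq (h : HD f f' y) (h2 : ∀ z, g z = f z) : HD g f' y := by
  have : g = f := funext h2
  rw [this]; exact h

end HD

section base

variable {m : ℕ}

/-- the conformal factor of the stereographic chart -/
noncomputable def rho (y : EE m) : ℝ := 4 / (‖y‖ ^ 2 + 4)

/-- `∂_i log ρ` -/
noncomputable def uu (i : Fin m) (y : EE m) : ℝ := -2 * y i / (‖y‖ ^ 2 + 4)

/-- the height function in a stereographic chart -/
noncomputable def hh (b : EE m) (c : ℝ) (y : EE m) : ℝ :=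
  (4 * inner ℝ b y + (‖y‖ ^ 2 - 4) * c) / (‖y‖ ^ 2 + 4)

/-- `∂_i h` -/
noncomputable def hi (b : EE m) (c : ℝ) (i : Fin m) (y : EE m) : ℝ :=
  (4 * b i + 2 * (c - hh b c y) * y i) / (‖y‖ ^ 2 + 4)

/-- auxiliary scalar: the trace part of the Hessian of `h` -/
noncomputable def ss (b : EE m) (c : ℝ) (y : EE m) : ℝ := (c - hh b c y) * rho y / 2

lemma N_pos (y : EE m) : 0 < ‖y‖ ^ 2 + 4 := by positivity

lemma rho_pos (y : EE m) : 0 < rho y := by unfold rho; positivity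

lemma HD_N (y : EE m) : HD (fun z : EE m => ‖z‖ ^ 2 + 4) (fun j => 2 * y j) y :=
  (HD.normsq.add (HD.const 4)).congr fun j => by ring

lemma HD_rho (y : EE m) : HD (rho (m := m)) (fun j => rho y * uu j y) y := by
  have h := (HD.const (m := m) (y := y) 4).div (HD_N y) (N_pos y).ne'
  refine h.congr fun j => ?_
  have := (N_pos y).ne'
  unfold rho uu
  field_simp
  ring

lemma HD_uu (i : Fin m) (y : EE m) :
    HD (uu i) (fun j => uu i y * uu j y - rho y / 2 * (if i = j then 1 else 0)) y := by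
  have h := (HD.const_mul (-2) (HD.coord i)).div (HD_N y) (N_pos y).ne'
  refine h.congr fun j => ?_
  have := (N_pos y).ne'
  unfold rho uu
  field_simp
  ring

lemma HD_hh (b : EE m) (c : ℝ) (y : EE m) : HD (hh b c) (fun j => hi b c j y) y := by
  have h := ((HD.const_mul 4 (HD.innerL b)).add (((HD.normsq (y := y)).sub (HD.const 4)).mul
    (HD.const c))).div (HD_N y) (N_pos y).ne'
  refine h.congr fun j => ?_
  have := (N_pos y).ne'
  unfold hi hh
  field_simp
  ring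

lemma HD_hi (b : EE m) (c : ℝ) (i : Fin m) (y : EE m) :
    HD (hi b c i) (fun j => uu i y * hi b c j y + uu j y * hi b c i y +
      ss b c y * (if i = j then 1 else 0)) y := by
  have h := ((HD.const (4 * b i)).add ((HD.const_mul 2 ((HD.const c).sub (HD_hh b c y))).mul
    (HD.coord i))).div (HD_N y) (N_pos y).ne'
  refine h.congr fun j => ?_
  have := (N_pos y).ne'
  unfold ss rho uu
  have e : hi b c i y = (4 * b i + 2 * (c - hh b c y) * y i) / (‖y‖ ^ 2 + 4) := rfl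
  rw [e]
  generalize hi b c j y = H
  generalize hh b c y = hv
  field_simp
  ring

lemma sum_sq (y : EE m) : ∑ k, y k ^ 2 = ‖y‖ ^ 2 := by
  rw [EuclideanSpace.norm_sq_eq]
  simp

lemma sum_by (b y : EE m) : ∑ k, b k * y k = inner ℝ b y := by
  rw [PiLp.inner_apply]
  refine Finset.sum_congr rfl fun k _ => ?_
  simp [mul_comm]

lemma sum_uu (y : EE m) : ∑ k, uu k y * uu k y = rho y - rho y ^ 2 := by
  have h : ∀ k, uu k y * uu k y = 4 / (‖y‖ ^ 2 + 4) ^ 2 * y k ^ 2 := by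
    intro k
    have := (N_pos y).ne'
    unfold uu
    field_simp
    ring
  simp only [h]
  rw [← Finset.mul_sum, sum_sq]
  have := (N_pos y).ne'
  unfold rho
  field_simp
  ring

lemma sum_uh (b : EE m) (c : ℝ) (y : EE m) :
    ∑ k, uu k y * hi b c k y = -(hh b c y * rho y ^ 2) - ss b c y := by
  have h : ∀ k, uu k y * hi b c k y = -8 / (‖y‖ ^ 2 + 4) ^ 2 * (b k * y k) +
      -4 * (c - hh b c y) / (‖y‖ ^ 2 + 4) ^ 2 * y k ^ 2 := by
    intro k
    have := (N_pos y).ne'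
    unfold uu hi
    field_simp
    ring
  simp only [h]
  rw [Finset.sum_add_distrib, ← Finset.mul_sum, ← Finset.mul_sum, sum_sq, sum_by]
  have h2 : inner ℝ b y = (hh b c y * (‖y‖ ^ 2 + 4) - (‖y‖ ^ 2 - 4) * c) / 4 := by
    unfold hh
    have := (N_pos y).ne'
    field_simp
    ring
  rw [h2]
  have := (N_pos y).ne'
  unfold ss rho
  field_simp
  ring

lemma sum_hh {b : EE m} {c : ℝ} (hb : ‖b‖ ^ 2 + c ^ 2 = 1) (y : EE m) :
    ∑ k, hi b c k y * hi b c k y = rho y ^ 2 * (1 - hh b c y ^ 2) := by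
  have h : ∀ k, hi b c k y * hi b c k y = 16 / (‖y‖ ^ 2 + 4) ^ 2 * b k ^ 2 +
      16 * (c - hh b c y) / (‖y‖ ^ 2 + 4) ^ 2 * (b k * y k) +
      4 * (c - hh b c y) ^ 2 / (‖y‖ ^ 2 + 4) ^ 2 * y k ^ 2 := by
    intro k
    have := (N_pos y).ne'
    unfold hi
    field_simp
    ring
  simp only [h]
  rw [Finset.sum_add_distrib, Finset.sum_add_distrib, ← Finset.mul_sum, ← Finset.mul_sum,
    ← Finset.mul_sum, sum_sq, sum_sq, sum_by]
  have h2 : inner ℝ b y = (hh b c y * (‖y‖ ^ 2 + 4) - (‖y‖ ^ 2 - 4) * c) / 4 := by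
    unfold hh
    have := (N_pos y).ne'
    field_simp
    ring
  have hb2 : ‖b‖ ^ 2 = 1 - c ^ 2 := by linarith only [hb]
  rw [h2, hb2]
  have := (N_pos y).ne'
  unfold rho
  field_simp
  ring

lemma hh_mem {b : EE m} {c : ℝ} (hb : ‖b‖ ^ 2 + c ^ 2 = 1) (y : EE m) :
    hh b c y ∈ Icc (-1 : ℝ) 1 := by
  have h1 := sum_hh hb y
  have h2 : 0 ≤ ∑ k, hi b c k y * hi b c k y := Finset.sum_nonneg fun k _ => mul_self_nonneg _
  rw [h1] at h2
  have h3 : 0 < rho y ^ 2 := by have := rho_pos y; positivity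
  have h4 : 0 ≤ 1 - hh b c y ^ 2 := by
    by_contra hneg
    push Not at hneg
    have := mul_neg_of_pos_of_neg h3 hneg
    linarith only [h2, this]
  constructor <;> nlinarith only [h4]

end base

end Vale.Agent.P244.Geo
end

section

set_option linter.all false

/-! # P244, block G1, part B: metric, inverse metric, Christoffel symbols. -/

open scoped ContDiff
open Set
open Vale.Agent.P244.Flow (pd christoffel ricci)

namespace Vale.Agent.P244.Geo

/-- Kronecker delta -/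
def dl {n : ℕ} (i j : Fin n) : ℝ := if i = j then 1 else 0

section delta

variable {n : ℕ}

lemma dl_comm (i j : Fin n) : dl i j = dl j i := by
  unfold dl
  by_cases h : i = j
  · subst h; rfl
  · rw [if_neg h, if_neg (Ne.symm h)]

lemma dl_self (i : Fin n) : dl i i = 1 := by simp [dl]

lemma sum_dl (i : Fin n) (f : Fin n → ℝ) : ∑ k, dl i k * f k = f i := by
  simp [dl]

lemma sum_dl' (i : Fin n) (f : Fin n → ℝ) : ∑ k, dl k i * f k = f i := by
  simp [dl]

lemma dl_mul_self (i j : Fin n) : dl i j * dl i j = dl i j := by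
  unfold dl; split_ifs <;> simp

end delta

/-- the coordinate frame of `ℝ^m × ℝ^p` -/
noncomputable def frame (m p : ℕ) : Fin (m + p) → EE m × EE p :=
  Fin.addCases (fun i => (EuclideanSpace.single i 1, 0)) (fun j => (0, EuclideanSpace.single j 1))

/-- block diagonal matrix -/
def blk {m p : ℕ} (M1 : Fin m → Fin m → ℝ) (M2 : Fin p → Fin p → ℝ) :
    Matrix (Fin (m + p)) (Fin (m + p)) ℝ :=
  Matrix.of fun I J => Fin.addCases (fun i => Fin.addCases (fun j => M1 i j) (fun _ => 0) J)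
    (fun a => Fin.addCases (fun _ => 0) (fun b => M2 a b) J) I

variable {m p : ℕ}

lemma frame_left (i : Fin m) :
    frame m p (Fin.castAdd p i) = (EuclideanSpace.single i 1, 0) := by simp [frame]

lemma frame_right (a : Fin p) :
    frame m p (Fin.natAdd m a) = (0, EuclideanSpace.single a 1) := by simp [frame]

lemma blk_ll (M1 : Fin m → Fin m → ℝ) (M2 : Fin p → Fin p → ℝ) (i j : Fin m) :
    blk M1 M2 (Fin.castAdd p i) (Fin.castAdd p j) = M1 i j := by simp [blk]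

lemma blk_lr (M1 : Fin m → Fin m → ℝ) (M2 : Fin p → Fin p → ℝ) (i : Fin m)
    (a : Fin p) : blk M1 M2 (Fin.castAdd p i) (Fin.natAdd m a) = 0 := by simp [blk]

lemma blk_rl (M1 : Fin m → Fin m → ℝ) (M2 : Fin p → Fin p → ℝ) (i : Fin m)
    (a : Fin p) : blk M1 M2 (Fin.natAdd m a) (Fin.castAdd p i) = 0 := by simp [blk]

lemma blk_rr (M1 : Fin m → Fin m → ℝ) (M2 : Fin p → Fin p → ℝ) (a a' : Fin p) :
    blk M1 M2 (Fin.natAdd m a) (Fin.natAdd m a') = M2 a a' := by simp [blk]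

lemma blk_one : blk (dl : Fin m → Fin m → ℝ) (dl : Fin p → Fin p → ℝ) = 1 := by
  ext I J
  refine Fin.addCases (fun i => ?_) (fun a => ?_) I <;>
  refine Fin.addCases (fun j => ?_) (fun a' => ?_) J
  · rw [blk_ll, Matrix.one_apply]
    simp [dl]
  · rw [blk_lr, Matrix.one_apply, if_neg]
    intro h
    have := congrArg Fin.val h
    simp at this
    omega
  · rw [blk_rl, Matrix.one_apply, if_neg]
    intro h
    have := congrArg Fin.val h
    simp at this
    omega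
  · rw [blk_rr, Matrix.one_apply]
    simp [dl]

lemma blk_inv {M1 N1 : Fin m → Fin m → ℝ} {M2 N2 : Fin p → Fin p → ℝ}
    (h1 : ∀ i j, ∑ k, M1 i k * N1 k j = dl i j) (h2 : ∀ i j, ∑ k, M2 i k * N2 k j = dl i j) :
    (blk M1 M2)⁻¹ = blk N1 N2 := by
  refine Matrix.inv_eq_right_inv ?_
  rw [← blk_one]
  ext I J
  rw [Matrix.mul_apply, Fin.sum_univ_add]
  refine Fin.addCases (fun i => ?_) (fun a => ?_) I <;>
  refine Fin.addCases (fun j => ?_) (fun a' => ?_) J <;>
  simp [blk_ll, blk_lr, blk_rl, blk_rr, h1, h2]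

/-- `F` is differentiable at `y`, with partial derivatives `f1` (first factor), `f2` (second) -/
def PD (F : EE m × EE p → ℝ) (f1 : Fin m → ℝ) (f2 : Fin p → ℝ) (y : EE m × EE p) : Prop :=
  DifferentiableAt ℝ F y ∧ (∀ i, pd (frame m p) (Fin.castAdd p i) F y = f1 i) ∧
    ∀ a, pd (frame m p) (Fin.natAdd m a) F y = f2 a

namespace PD

variable {F K : EE m × EE p → ℝ} {f1 k1 : Fin m → ℝ} {f2 k2 : Fin p → ℝ} {y : EE m × EE p}

lemma congr (h : PD F f1 f2 y) (h1 : ∀ j, f1 j = k1 j) (h2 : ∀ j, f2 j = k2 j) : PD F k1 k2 y :=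
  ⟨h.1, fun j => (h.2.1 j).trans (h1 j), fun j => (h.2.2 j).trans (h2 j)⟩

lemma fst {f : EE m → ℝ} {f' : Fin m → ℝ} (h : HD f f' y.1) :
    PD (fun z : EE m × EE p => f z.1) f' (fun _ => 0) y := by
  have h1 : HasFDerivAt (fun z : EE m × EE p => f z.1)
      ((fderiv ℝ f y.1).comp (ContinuousLinearMap.fst ℝ (EE m) (EE p))) y :=
    h.1.hasFDerivAt.comp y hasFDerivAt_fst
  refine ⟨h1.differentiableAt, fun i => ?_, fun a => ?_⟩
  · unfold pd
    rw [h1.fderiv, frame_left]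
    simpa using h.2 i
  · unfold pd
    rw [h1.fderiv, frame_right]
    simp

lemma snd {f : EE p → ℝ} {f' : Fin p → ℝ} (h : HD f f' y.2) :
    PD (fun z : EE m × EE p => f z.2) (fun _ => 0) f' y := by
  have h1 : HasFDerivAt (fun z : EE m × EE p => f z.2)
      ((fderiv ℝ f y.2).comp (ContinuousLinearMap.snd ℝ (EE m) (EE p))) y :=
    h.1.hasFDerivAt.comp y hasFDerivAt_snd
  refine ⟨h1.differentiableAt, fun i => ?_, fun a => ?_⟩
  · unfold pd
    rw [h1.fderiv, frame_left]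
    simp
  · unfold pd
    rw [h1.fderiv, frame_right]
    simpa using h.2 a

lemma const (c : ℝ) : PD (fun _ : EE m × EE p => c) (fun _ => 0) (fun _ => 0) y := by
  refine ⟨differentiableAt_const c, fun i => ?_, fun a => ?_⟩ <;> simp [pd]

lemma add (hF : PD F f1 f2 y) (hK : PD K k1 k2 y) :
    PD (fun z => F z + K z) (fun j => f1 j + k1 j) (fun j => f2 j + k2 j) y := by
  have : fderiv ℝ (fun z => F z + K z) y = fderiv ℝ F y + fderiv ℝ K y := fderiv_add hF.1 hK.1
  refine ⟨hF.1.add hK.1, fun i => ?_, fun a => ?_⟩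
  · beta_reduce; rw [← hF.2.1 i, ← hK.2.1 i]; unfold pd; rw [this]; rfl
  · beta_reduce; rw [← hF.2.2 a, ← hK.2.2 a]; unfold pd; rw [this]; rfl

lemma neg (hF : PD F f1 f2 y) : PD (fun z => - F z) (fun j => - f1 j) (fun j => - f2 j) y := by
  have : fderiv ℝ (fun z => - F z) y = - fderiv ℝ F y := fderiv_neg
  refine ⟨hF.1.neg, fun i => ?_, fun a => ?_⟩
  · beta_reduce; rw [← hF.2.1 i]; unfold pd; rw [this]; rfl
  · beta_reduce; rw [← hF.2.2 a]; unfold pd; rw [this]; rfl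

lemma mul (hF : PD F f1 f2 y) (hK : PD K k1 k2 y) :
    PD (fun z => F z * K z) (fun j => f1 j * K y + F y * k1 j) (fun j => f2 j * K y + F y * k2 j)
      y := by
  have h : fderiv ℝ (fun z => F z * K z) y = F y • fderiv ℝ K y + K y • fderiv ℝ F y :=
    fderiv_mul hF.1 hK.1
  refine ⟨hF.1.mul hK.1, fun i => ?_, fun a => ?_⟩
  · beta_reduce; rw [← hF.2.1 i, ← hK.2.1 i]; unfold pd
    rw [h, ContinuousLinearMap.add_apply, ContinuousLinearMap.smul_apply,
      ContinuousLinearMap.smul_apply, smul_eq_mul, smul_eq_mul]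
    ring
  · beta_reduce; rw [← hF.2.2 a, ← hK.2.2 a]; unfold pd
    rw [h, ContinuousLinearMap.add_apply, ContinuousLinearMap.smul_apply,
      ContinuousLinearMap.smul_apply, smul_eq_mul, smul_eq_mul]
    ring

lemma of_eq (h : PD F f1 f2 y) (h2 : ∀ z, K z = F z) : PD K f1 f2 y := by
  have : K = F := funext h2
  rw [this]; exact h

end PD

/-- profile functions with their first two derivatives -/
structure Prof where
  A : ℝ → ℝ
  A1 : ℝ → ℝ
  A2 : ℝ → ℝ
  B : ℝ → ℝ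
  B1 : ℝ → ℝ
  B2 : ℝ → ℝ
  C : ℝ → ℝ
  C1 : ℝ → ℝ
  C2 : ℝ → ℝ

namespace Prof

/-- regularity and positivity of the profile functions on `[-1,1]` -/
structure Good (P : Prof) : Prop where
  hA : ∀ x ∈ Icc (-1 : ℝ) 1, HasDerivWithinAt P.A (P.A1 x) (Icc (-1) 1) x
  hA1 : ∀ x ∈ Icc (-1 : ℝ) 1, HasDerivWithinAt P.A1 (P.A2 x) (Icc (-1) 1) x
  hB : ∀ x ∈ Icc (-1 : ℝ) 1, HasDerivWithinAt P.B (P.B1 x) (Icc (-1) 1) x
  hB1 : ∀ x ∈ Icc (-1 : ℝ) 1, HasDerivWithinAt P.B1 (P.B2 x) (Icc (-1) 1) x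
  hC : ∀ x ∈ Icc (-1 : ℝ) 1, HasDerivWithinAt P.C (P.C1 x) (Icc (-1) 1) x
  hC1 : ∀ x ∈ Icc (-1 : ℝ) 1, HasDerivWithinAt P.C1 (P.C2 x) (Icc (-1) 1) x
  posA : ∀ x ∈ Icc (-1 : ℝ) 1, 0 < P.A x
  posAB : ∀ x ∈ Icc (-1 : ℝ) 1, 0 < P.A x + P.B x * (1 - x ^ 2)
  posC : ∀ x ∈ Icc (-1 : ℝ) 1, 0 < P.C x

variable (P : Prof)

/-- `D = 1/(A + B (1 - x^2))` -/
noncomputable def D (x : ℝ) : ℝ := (P.A x + P.B x * (1 - x ^ 2))⁻¹
/-- derivative of `D` -/
noncomputable def D1 (x : ℝ) : ℝ :=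
  -(P.A1 x + P.B1 x * (1 - x ^ 2) - 2 * x * P.B x) * P.D x ^ 2
noncomputable def al (x : ℝ) : ℝ := P.A1 x / (2 * P.A x)
noncomputable def al1 (x : ℝ) : ℝ := P.A2 x / (2 * P.A x) - P.A1 x ^ 2 / (2 * P.A x ^ 2)
noncomputable def ga (x : ℝ) : ℝ := -(P.D x * (P.A1 x / 2 + P.B x * x))
noncomputable def ga1 (x : ℝ) : ℝ := -(P.D1 x * (P.A1 x / 2 + P.B x * x) +
  P.D x * (P.A2 x / 2 + P.B1 x * x + P.B x))
noncomputable def be (x : ℝ) : ℝ := P.D x * (P.B1 x / 2 - 2 * P.al x * P.B x)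
noncomputable def be1 (x : ℝ) : ℝ := P.D1 x * (P.B1 x / 2 - 2 * P.al x * P.B x) +
  P.D x * (P.B2 x / 2 - (2 * P.al1 x * P.B x + 2 * P.al x * P.B1 x))
noncomputable def ka (x : ℝ) : ℝ := P.C1 x / (2 * P.C x)
noncomputable def ka1 (x : ℝ) : ℝ := P.C2 x / (2 * P.C x) - P.C1 x ^ 2 / (2 * P.C x ^ 2)
noncomputable def la (x : ℝ) : ℝ := P.C1 x * P.D x / 2
noncomputable def la1 (x : ℝ) : ℝ := (P.C2 x * P.D x + P.C1 x * P.D1 x) / 2

variable {P} (hP : P.Good) {x : ℝ} (hx : x ∈ Icc (-1 : ℝ) 1)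
include hP hx

lemma Good.der_D : HasDerivWithinAt P.D (P.D1 x) (Icc (-1) 1) x := by
  have h0 := (hP.posAB x hx).ne'
  have hq : HasDerivWithinAt (fun x : ℝ => 1 - x ^ 2) (-(2 * x)) (Icc (-1) 1) x := by
    have := ((hasDerivAt_const x (1 : ℝ)).sub (hasDerivAt_pow 2 x)).hasDerivWithinAt (s := Icc (-1) 1)
    refine this.congr_deriv ?_
    simp
  have h1 := (hP.hA x hx).add ((hP.hB x hx).mul hq)
  have h2 := HasDerivWithinAt.inv h1 h0
  refine h2.congr_deriv ?_
  unfold D1 D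
  simp only [Pi.add_apply, Pi.mul_apply]
  field_simp
  ring

lemma Good.der_al : HasDerivWithinAt P.al (P.al1 x) (Icc (-1) 1) x := by
  have h0 := (hP.posA x hx).ne'
  have h1 := (hP.hA1 x hx).div ((hP.hA x hx).const_mul 2) (by simpa using h0)
  refine h1.congr_deriv ?_
  unfold al1
  field_simp

lemma Good.der_ka : HasDerivWithinAt P.ka (P.ka1 x) (Icc (-1) 1) x := by
  have h0 := (hP.posC x hx).ne'
  have h1 := (hP.hC1 x hx).div ((hP.hC x hx).const_mul 2) (by simpa using h0)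
  refine h1.congr_deriv ?_
  unfold ka1
  field_simp

lemma Good.der_ga : HasDerivWithinAt P.ga (P.ga1 x) (Icc (-1) 1) x := by
  have h1 := ((hP.der_D hx).mul (((hP.hA1 x hx).div_const 2).add
    ((hP.hB x hx).mul (hasDerivWithinAt_id x _)))).neg
  refine h1.congr_deriv ?_
  unfold ga1
  simp only [Pi.add_apply, Pi.mul_apply, id]
  ring

lemma Good.der_be : HasDerivWithinAt P.be (P.be1 x) (Icc (-1) 1) x := by
  have h1 := ((hP.der_D hx).mul (((hP.hB1 x hx).div_const 2).sub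
    (((hP.der_al hx).const_mul 2).mul (hP.hB x hx))))
  refine h1.congr_deriv ?_
  unfold be1
  simp only [Pi.sub_apply, Pi.mul_apply, id]

lemma Good.der_la : HasDerivWithinAt P.la (P.la1 x) (Icc (-1) 1) x := by
  have h1 := ((hP.hC1 x hx).mul (hP.der_D hx)).div_const 2
  exact h1.congr_deriv (by unfold la1; rfl)

end Prof

end Vale.Agent.P244.Geo
end

section

set_option linter.all false

/-! # P244, block G1, part C: the metric, its inverse and its Christoffel symbols. -/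

open scoped ContDiff
open Set
open Vale.Agent.P244.Flow (pd christoffel ricci)

namespace Vale.Agent.P244.Geo

variable {m p : ℕ}

/-- the doubly warped metric in a product of two stereographic charts -/
noncomputable def G (m p : ℕ) (b : EE m) (c : ℝ) (A B C : ℝ → ℝ) (y : EE m × EE p) :
    Matrix (Fin (m + p)) (Fin (m + p)) ℝ :=
  blk (fun i j => A (hh b c y.1) * (rho y.1 ^ 2 * dl i j) +
      B (hh b c y.1) * (hi b c i y.1 * hi b c j y.1))
    (fun a a' => C (hh b c y.1) * (rho y.2 ^ 2 * dl a a'))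

/-! ### algebra -/

lemma contr (h X : Fin m → ℝ) (a e : ℝ) (k : Fin m) :
    ∑ l, (a * (dl k l - e * (h k * h l))) * X l = a * (X k - e * h k * ∑ l, h l * X l) := by
  have h1 : ∀ l, (a * (dl k l - e * (h k * h l))) * X l =
      a * (dl k l * X l) - a * e * h k * (h l * X l) := fun l => by ring
  simp only [h1]
  rw [Finset.sum_sub_distrib, ← Finset.mul_sum, ← Finset.mul_sum, sum_dl]
  ring

lemma sum_hX (h u : Fin m → ℝ) (c1 c2 c3 c4 : ℝ) (i j : Fin m) :
    ∑ l, h l * (c1 * dl j l + c2 * dl i l + c3 * u l + c4 * h l) =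
      c1 * h j + c2 * h i + c3 * ∑ l, u l * h l + c4 * ∑ l, h l * h l := by
  have h1 : ∀ l, h l * (c1 * dl j l + c2 * dl i l + c3 * u l + c4 * h l) =
      c1 * (dl j l * h l) + c2 * (dl i l * h l) + c3 * (u l * h l) + c4 * (h l * h l) :=
    fun l => by ring
  simp only [h1]
  rw [Finset.sum_add_distrib, Finset.sum_add_distrib, Finset.sum_add_distrib, ← Finset.mul_sum,
    ← Finset.mul_sum, ← Finset.mul_sum, ← Finset.mul_sum, sum_dl, sum_dl]

lemma inv_alg (h : Fin m → ℝ) (a B e : ℝ) (ha : a ≠ 0) (he : B - a * e - B * e * ∑ l, h l * h l = 0)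
    (i j : Fin m) :
    ∑ k, (a * dl i k + B * (h i * h k)) * (a⁻¹ * (dl k j - e * (h k * h j))) = dl i j := by
  have h1 : ∀ k, (a * dl i k + B * (h i * h k)) * (a⁻¹ * (dl k j - e * (h k * h j))) =
      dl i k * (dl k j - e * (h k * h j)) + (B * h i * a⁻¹) * (dl k j * h k) -
      (B * h i * a⁻¹ * e * h j) * (h k * h k) := by
    intro k
    field_simp
    ring
  simp only [h1]
  rw [Finset.sum_sub_distrib, Finset.sum_add_distrib, ← Finset.mul_sum, ← Finset.mul_sum, sum_dl,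
    sum_dl']
  have h2 : a⁻¹ * a = 1 := inv_mul_cancel₀ ha
  have h3 : e = a⁻¹ * (a * e) := by rw [← mul_assoc, h2, one_mul]
  linear_combination (a⁻¹ * h i * h j) * he + (-(h i * h j)) * h3

lemma chr_alg (h u : Fin m → ℝ) (A A1 B B1 D ρ s x : ℝ) (hA : A ≠ 0) (hρ : ρ ≠ 0)
    (hD : D * (A + B * (1 - x ^ 2)) = 1)
    (huh : ∑ l, u l * h l = -(x * ρ ^ 2) - s) (hhh : ∑ l, h l * h l = ρ ^ 2 * (1 - x ^ 2))
    (i j k : Fin m) :
    (1 / 2) * ∑ l, ((A * ρ ^ 2)⁻¹ * (dl k l - (B * D / ρ ^ 2) * (h k * h l))) *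
      ((((A1 * h i) * (ρ ^ 2 * dl j l) + A * ((2 * ρ * (ρ * u i)) * dl j l)) + ((B1 * h i) * (h j * h l)
        + B * ((u j * h i + u i * h j + s * dl j i) * h l + h j * (u l * h i + u i * h l +
          s * dl l i)))) +
       (((A1 * h j) * (ρ ^ 2 * dl i l) + A * ((2 * ρ * (ρ * u j)) * dl i l)) + ((B1 * h j) * (h i * h l)
        + B * ((u i * h j + u j * h i + s * dl i j) * h l + h i * (u l * h j + u j * h l +
          s * dl l j)))) -
       (((A1 * h l) * (ρ ^ 2 * dl i j) + A * ((2 * ρ * (ρ * u l)) * dl i j)) + ((B1 * h l) * (h i * h j)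
        + B * ((u i * h l + u l * h i + s * dl i l) * h j + h i * (u j * h l + u l * h j +
          s * dl j l))))) =
    dl j k * (u i + A1 / (2 * A) * h i) + dl i k * (u j + A1 / (2 * A) * h j) +
      dl i j * (-u k + -(D * (A1 / 2 + B * x)) * h k) +
      D * (B1 / 2 - 2 * (A1 / (2 * A)) * B) / ρ ^ 2 * (h i * h j * h k) := by
  have h1 : ∀ l, ((A * ρ ^ 2)⁻¹ * (dl k l - (B * D / ρ ^ 2) * (h k * h l))) *
      ((((A1 * h i) * (ρ ^ 2 * dl j l) + A * ((2 * ρ * (ρ * u i)) * dl j l)) + ((B1 * h i) * (h j * h l)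
        + B * ((u j * h i + u i * h j + s * dl j i) * h l + h j * (u l * h i + u i * h l +
          s * dl l i)))) +
       (((A1 * h j) * (ρ ^ 2 * dl i l) + A * ((2 * ρ * (ρ * u j)) * dl i l)) + ((B1 * h j) * (h i * h l)
        + B * ((u i * h j + u j * h i + s * dl i j) * h l + h i * (u l * h j + u j * h l +
          s * dl l j)))) -
       (((A1 * h l) * (ρ ^ 2 * dl i j) + A * ((2 * ρ * (ρ * u l)) * dl i j)) + ((B1 * h l) * (h i * h j)
        + B * ((u i * h l + u l * h i + s * dl i l) * h j + h i * (u j * h l + u l * h j +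
          s * dl j l))))) =
      ((A * ρ ^ 2)⁻¹ * (dl k l - (B * D / ρ ^ 2) * (h k * h l))) *
      (((A1 * h i + 2 * A * u i) * ρ ^ 2) * dl j l + ((A1 * h j + 2 * A * u j) * ρ ^ 2) * dl i l +
        (-2 * A * ρ ^ 2 * dl i j) * u l + (-A1 * ρ ^ 2 * dl i j + B1 * h i * h j +
          2 * B * (u j * h i + u i * h j + s * dl i j)) * h l) := by
    intro l
    rw [dl_comm l i, dl_comm l j, dl_comm j i]
    congr 1
    ring
  simp only [h1]
  rw [contr, sum_hX, huh, hhh]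
  generalize dl j k = d1
  generalize dl i k = d2
  generalize dl i j = d3
  have hD0 : A + B * (1 - x ^ 2) ≠ 0 := by
    intro h0; rw [h0] at hD; simp at hD
  have hD1 : D = 1 / (A + B * (1 - x ^ 2)) := by field_simp; linarith only [hD]
  rw [hD1]
  field_simp
  ring

/-! ### base functions on the product -/

section base

variable {P : Prof} {b : EE m} {c : ℝ}

lemma PD_comp {φ : ℝ → ℝ} {φ' : ℝ} (hb : ‖b‖ ^ 2 + c ^ 2 = 1) (y : EE m × EE p)
    (hφ : HasDerivWithinAt φ φ' (Icc (-1) 1) (hh b c y.1)) :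
    PD (fun z : EE m × EE p => φ (hh b c z.1)) (fun k => φ' * hi b c k y.1) (fun _ => 0) y :=
  PD.fst (HD.compW hφ (HD_hh b c y.1) (hh_mem hb))

lemma PD_hi (i : Fin m) (y : EE m × EE p) :
    PD (fun z : EE m × EE p => hi b c i z.1) (fun k => uu i y.1 * hi b c k y.1 +
      uu k y.1 * hi b c i y.1 + ss b c y.1 * dl i k) (fun _ => 0) y :=
  PD.fst (HD_hi b c i y.1)

lemma HD_rho2 (y : EE m) : HD (fun z : EE m => rho z ^ 2) (fun j => 2 * rho y * (rho y * uu j y)) y :=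
  (((HD_rho y).mul (HD_rho y)).congr fun j => by ring).of_eq fun z => by ring

/-- `∂_K g_ij`, first block -/
lemma PD_G_ll (hP : P.Good) (hb : ‖b‖ ^ 2 + c ^ 2 = 1) (i j : Fin m) (y : EE m × EE p) :
    PD (fun z => G m p b c P.A P.B P.C z (Fin.castAdd p i) (Fin.castAdd p j))
      (fun k => ((P.A1 (hh b c y.1) * hi b c k y.1) * (rho y.1 ^ 2 * dl i j) +
        P.A (hh b c y.1) * ((2 * rho y.1 * (rho y.1 * uu k y.1)) * dl i j)) +
        ((P.B1 (hh b c y.1) * hi b c k y.1) * (hi b c i y.1 * hi b c j y.1) +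
        P.B (hh b c y.1) * ((uu i y.1 * hi b c k y.1 + uu k y.1 * hi b c i y.1 +
          ss b c y.1 * dl i k) * hi b c j y.1 + hi b c i y.1 * (uu j y.1 * hi b c k y.1 +
          uu k y.1 * hi b c j y.1 + ss b c y.1 * dl j k)))) (fun _ => 0) y := by
  have hx := hh_mem hb y.1
  have h1 := (PD_comp (p := p) hb y (hP.hA _ hx)).mul ((PD.fst (HD_rho2 y.1)).mul (PD.const (dl i j)))
  have h2 := (PD_comp (p := p) hb y (hP.hB _ hx)).mul
    ((PD_hi (b := b) (c := c) i y).mul (PD_hi (b := b) (c := c) j y))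
  refine ((h1.add h2).of_eq fun z => ?_).congr (fun k => ?_) (fun k => ?_)
  · unfold G; rw [blk_ll]
  · ring
  · ring

/-- `∂_K g_ab`, second block -/
lemma PD_G_rr (hP : P.Good) (hb : ‖b‖ ^ 2 + c ^ 2 = 1) (a a' : Fin p) (y : EE m × EE p) :
    PD (fun z => G m p b c P.A P.B P.C z (Fin.natAdd m a) (Fin.natAdd m a'))
      (fun k => (P.C1 (hh b c y.1) * hi b c k y.1) * (rho y.2 ^ 2 * dl a a'))
      (fun k => P.C (hh b c y.1) * ((2 * rho y.2 * (rho y.2 * uu k y.2)) * dl a a')) y := by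
  have hx := hh_mem hb y.1
  have h1 := (PD_comp (p := p) hb y (hP.hC _ hx)).mul ((PD.snd (HD_rho2 y.2)).mul (PD.const (dl a a')))
  refine (h1.of_eq fun z => ?_).congr (fun k => ?_) (fun k => ?_)
  · unfold G; rw [blk_rr]
  · ring
  · ring

lemma PD_G_lr (i : Fin m) (a : Fin p) (A B C : ℝ → ℝ) (y : EE m × EE p) :
    PD (fun z => G m p b c A B C z (Fin.castAdd p i) (Fin.natAdd m a)) (fun _ => 0) (fun _ => 0) y :=
  (PD.const 0).of_eq fun z => by unfold G; rw [blk_lr]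

lemma PD_G_rl (i : Fin m) (a : Fin p) (A B C : ℝ → ℝ) (y : EE m × EE p) :
    PD (fun z => G m p b c A B C z (Fin.natAdd m a) (Fin.castAdd p i)) (fun _ => 0) (fun _ => 0) y :=
  (PD.const 0).of_eq fun z => by unfold G; rw [blk_rl]

lemma D_mul (hP : P.Good) {x : ℝ} (hx : x ∈ Icc (-1 : ℝ) 1) :
    P.D x * (P.A x + P.B x * (1 - x ^ 2)) = 1 := by
  unfold Prof.D
  exact inv_mul_cancel₀ (hP.posAB x hx).ne'

/-- the inverse metric -/
lemma G_inv (hP : P.Good) (hb : ‖b‖ ^ 2 + c ^ 2 = 1) (y : EE m × EE p) :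
    (G m p b c P.A P.B P.C y)⁻¹ =
      blk (fun i j => (P.A (hh b c y.1) * rho y.1 ^ 2)⁻¹ * (dl i j -
          (P.B (hh b c y.1) * P.D (hh b c y.1) / rho y.1 ^ 2) * (hi b c i y.1 * hi b c j y.1)))
        (fun a a' => (P.C (hh b c y.1) * rho y.2 ^ 2)⁻¹ * dl a a') := by
  have hx := hh_mem hb y.1
  have hA := (hP.posA _ hx).ne'
  have hC := (hP.posC _ hx).ne'
  have hD := D_mul hP hx
  have hr1 := (rho_pos y.1).ne'
  have hr2 := (rho_pos y.2).ne'
  unfold G
  refine blk_inv (fun i j => ?_) (fun i j => ?_)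
  · have h1 := inv_alg (fun k => hi b c k y.1) (P.A (hh b c y.1) * rho y.1 ^ 2) (P.B (hh b c y.1))
      (P.B (hh b c y.1) * P.D (hh b c y.1) / rho y.1 ^ 2) (by positivity) (by
        rw [sum_hh hb]
        have e1 : P.B (hh b c y.1) - P.A (hh b c y.1) * rho y.1 ^ 2 *
          (P.B (hh b c y.1) * P.D (hh b c y.1) / rho y.1 ^ 2) - P.B (hh b c y.1) *
          (P.B (hh b c y.1) * P.D (hh b c y.1) / rho y.1 ^ 2) *
            (rho y.1 ^ 2 * (1 - hh b c y.1 ^ 2)) = P.B (hh b c y.1) * (1 - P.D (hh b c y.1) *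
              (P.A (hh b c y.1) + P.B (hh b c y.1) * (1 - hh b c y.1 ^ 2))) := by
          field_simp
          ring
        rw [e1, hD]
        ring) i j
    refine Eq.trans (Finset.sum_congr rfl fun k _ => ?_) h1
    ring
  · have h1 : ∀ k, P.C (hh b c y.1) * (rho y.2 ^ 2 * dl i k) *
      ((P.C (hh b c y.1) * rho y.2 ^ 2)⁻¹ * dl k j) = dl i k * dl k j := by
      intro k
      field_simp
    simp only [h1]
    rw [sum_dl]

/-! ### Christoffel symbols -/

/-- `p_i` -/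
noncomputable def pp (P : Prof) (b : EE m) (c : ℝ) (i : Fin m) (y : EE m) : ℝ :=
  uu i y + P.al (hh b c y) * hi b c i y

/-- `r_i` -/
noncomputable def rr (P : Prof) (b : EE m) (c : ℝ) (i : Fin m) (y : EE m) : ℝ :=
  -uu i y + P.ga (hh b c y) * hi b c i y

/-- `ω` -/
noncomputable def om (P : Prof) (b : EE m) (c : ℝ) (y : EE m) : ℝ :=
  P.be (hh b c y) / rho y ^ 2

/-- the Christoffel symbols of the first block -/
noncomputable def chF (P : Prof) (b : EE m) (c : ℝ) (k i j : Fin m) (y : EE m) : ℝ :=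
  dl j k * pp P b c i y + dl i k * pp P b c j y + dl i j * rr P b c k y +
    om P b c y * (hi b c i y * hi b c j y * hi b c k y)

/-- the Christoffel symbols of the second block -/
noncomputable def chS (k i j : Fin p) (y : EE p) : ℝ :=
  dl j k * uu i y + dl i k * uu j y - dl i j * uu k y

lemma ch_lll (hP : P.Good) (hb : ‖b‖ ^ 2 + c ^ 2 = 1) (k i j : Fin m) (y : EE m × EE p) :
    christoffel (frame m p) (G m p b c P.A P.B P.C) (Fin.castAdd p k) (Fin.castAdd p i)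
      (Fin.castAdd p j) y = chF P b c k i j y.1 := by
  have hx := hh_mem hb y.1
  have hA := (hP.posA _ hx).ne'
  have hD := D_mul hP hx
  have hr1 := (rho_pos y.1).ne'
  unfold christoffel
  rw [G_inv hP hb, Fin.sum_univ_add]
  simp only [blk_ll, blk_lr, zero_mul, Finset.sum_const_zero, add_zero, (PD_G_ll hP hb _ _ y).2.1]
  exact chr_alg (fun k => hi b c k y.1) (fun k => uu k y.1) _ _ _ _ _ _ _ _ hA hr1 hD
    (sum_uh b c y.1) (sum_hh hb y.1) i j k

lemma ch_llr (hP : P.Good) (hb : ‖b‖ ^ 2 + c ^ 2 = 1) (k i : Fin m) (a : Fin p)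
    (y : EE m × EE p) :
    christoffel (frame m p) (G m p b c P.A P.B P.C) (Fin.castAdd p k) (Fin.castAdd p i)
      (Fin.natAdd m a) y = 0 := by
  unfold christoffel
  rw [G_inv hP hb, Fin.sum_univ_add]
  simp only [blk_ll, blk_lr, zero_mul, Finset.sum_const_zero, add_zero, (PD_G_ll hP hb _ _ y).2.2,
    (PD_G_rl _ _ P.A P.B P.C y).2.1, (PD_G_lr _ _ P.A P.B P.C y).2.1, sub_zero, mul_zero]

lemma ch_lrl (hP : P.Good) (hb : ‖b‖ ^ 2 + c ^ 2 = 1) (k i : Fin m) (a : Fin p)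
    (y : EE m × EE p) :
    christoffel (frame m p) (G m p b c P.A P.B P.C) (Fin.castAdd p k) (Fin.natAdd m a)
      (Fin.castAdd p i) y = 0 := by
  unfold christoffel
  rw [G_inv hP hb, Fin.sum_univ_add]
  simp only [blk_ll, blk_lr, zero_mul, Finset.sum_const_zero, add_zero, (PD_G_ll hP hb _ _ y).2.2,
    (PD_G_rl _ _ P.A P.B P.C y).2.1, (PD_G_lr _ _ P.A P.B P.C y).2.1, sub_zero, mul_zero]

/-- `Γ^k_ab` -/
noncomputable def chM (P : Prof) (b : EE m) (c : ℝ) (k : Fin m) (y : EE m) : ℝ :=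
  -(P.la (hh b c y) / rho y ^ 2 * hi b c k y)

lemma ch_lrr (hP : P.Good) (hb : ‖b‖ ^ 2 + c ^ 2 = 1) (k : Fin m) (a a' : Fin p)
    (y : EE m × EE p) :
    christoffel (frame m p) (G m p b c P.A P.B P.C) (Fin.castAdd p k) (Fin.natAdd m a)
      (Fin.natAdd m a') y = chM P b c k y.1 * (rho y.2 ^ 2 * dl a a') := by
  have hx := hh_mem hb y.1
  have hA := (hP.posA _ hx).ne'
  have hAB := (hP.posAB _ hx).ne'
  have hr1 := (rho_pos y.1).ne'
  unfold christoffel
  rw [G_inv hP hb, Fin.sum_univ_add]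
  simp only [blk_ll, blk_lr, zero_mul, Finset.sum_const_zero, add_zero,
    (PD_G_rr hP hb _ _ y).2.1, (PD_G_rl _ _ P.A P.B P.C y).2.2, sub_zero, mul_zero, zero_sub]
  rw [contr (fun l => hi b c l y.1)
    (fun l => -(P.C1 (hh b c y.1) * hi b c l y.1 * (rho y.2 ^ 2 * dl a a')))]
  have h1 : ∑ l, hi b c l y.1 * -(P.C1 (hh b c y.1) * hi b c l y.1 * (rho y.2 ^ 2 * dl a a')) =
      -(P.C1 (hh b c y.1) * (rho y.2 ^ 2 * dl a a')) * ∑ l, hi b c l y.1 * hi b c l y.1 := by
    rw [Finset.mul_sum]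
    refine Finset.sum_congr rfl fun l _ => ?_
    ring
  rw [h1, sum_hh hb]
  unfold chM Prof.la Prof.D
  generalize dl a a' = d
  field_simp
  ring

lemma ch_rll (hP : P.Good) (hb : ‖b‖ ^ 2 + c ^ 2 = 1) (a : Fin p) (i j : Fin m)
    (y : EE m × EE p) :
    christoffel (frame m p) (G m p b c P.A P.B P.C) (Fin.natAdd m a) (Fin.castAdd p i)
      (Fin.castAdd p j) y = 0 := by
  unfold christoffel
  rw [G_inv hP hb, Fin.sum_univ_add]
  simp only [blk_rl, blk_rr, zero_mul, Finset.sum_const_zero, add_zero, (PD_G_ll hP hb _ _ y).2.2,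
    (PD_G_rl _ _ P.A P.B P.C y).2.1, (PD_G_lr _ _ P.A P.B P.C y).2.1, sub_zero, mul_zero]

lemma ch_rlr (hP : P.Good) (hb : ‖b‖ ^ 2 + c ^ 2 = 1) (a a' : Fin p) (i : Fin m)
    (y : EE m × EE p) :
    christoffel (frame m p) (G m p b c P.A P.B P.C) (Fin.natAdd m a) (Fin.castAdd p i)
      (Fin.natAdd m a') y = P.ka (hh b c y.1) * hi b c i y.1 * dl a a' := by
  have hx := hh_mem hb y.1
  have hC := (hP.posC _ hx).ne'
  have hr2 := (rho_pos y.2).ne'
  unfold christoffel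
  rw [G_inv hP hb, Fin.sum_univ_add]
  simp only [blk_rl, blk_rr, zero_mul, Finset.sum_const_zero, zero_add,
    (PD_G_rr hP hb _ _ y).2.1, (PD_G_lr _ _ P.A P.B P.C y).2.2, sub_zero, mul_zero, add_zero]
  have h1 : ∀ l, (P.C (hh b c y.1) * rho y.2 ^ 2)⁻¹ * dl a l *
      (P.C1 (hh b c y.1) * hi b c i y.1 * (rho y.2 ^ 2 * dl a' l)) =
      P.C1 (hh b c y.1) / P.C (hh b c y.1) * hi b c i y.1 * (dl a l * dl a' l) := by
    intro l
    field_simp
  simp only [h1]
  rw [← Finset.mul_sum, sum_dl, dl_comm a' a]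
  unfold Prof.ka
  field_simp

lemma ch_rrl (hP : P.Good) (hb : ‖b‖ ^ 2 + c ^ 2 = 1) (a a' : Fin p) (i : Fin m)
    (y : EE m × EE p) :
    christoffel (frame m p) (G m p b c P.A P.B P.C) (Fin.natAdd m a) (Fin.natAdd m a')
      (Fin.castAdd p i) y = P.ka (hh b c y.1) * hi b c i y.1 * dl a a' := by
  rw [← ch_rlr hP hb a a' i y]
  unfold christoffel
  congr 1
  refine Finset.sum_congr rfl fun L _ => ?_
  have h1 : (fun z => G m p b c P.A P.B P.C z (Fin.natAdd m a') (Fin.castAdd p i)) =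
      (fun z => G m p b c P.A P.B P.C z (Fin.castAdd p i) (Fin.natAdd m a')) := by
    funext z; unfold G; rw [blk_rl, blk_lr]
  rw [h1, add_comm (pd _ _ _ _)]

lemma ch_rrr (hP : P.Good) (hb : ‖b‖ ^ 2 + c ^ 2 = 1) (k i j : Fin p)
    (y : EE m × EE p) :
    christoffel (frame m p) (G m p b c P.A P.B P.C) (Fin.natAdd m k) (Fin.natAdd m i)
      (Fin.natAdd m j) y = chS k i j y.2 := by
  have hx := hh_mem hb y.1
  have hC := (hP.posC _ hx).ne'
  have hr2 := (rho_pos y.2).ne'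
  unfold christoffel
  rw [G_inv hP hb, Fin.sum_univ_add]
  simp only [blk_rl, blk_rr, zero_mul, Finset.sum_const_zero, zero_add,
    (PD_G_rr hP hb _ _ y).2.2]
  have h1 : ∀ l, (P.C (hh b c y.1) * rho y.2 ^ 2)⁻¹ * dl k l *
      (P.C (hh b c y.1) * (2 * rho y.2 * (rho y.2 * uu i y.2) * dl j l) +
        P.C (hh b c y.1) * (2 * rho y.2 * (rho y.2 * uu j y.2) * dl i l) -
        P.C (hh b c y.1) * (2 * rho y.2 * (rho y.2 * uu l y.2) * dl i j)) =
      dl k l * (2 * uu i y.2 * dl j l + 2 * uu j y.2 * dl i l - 2 * uu l y.2 * dl i j) := by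
    intro l
    field_simp
  simp only [h1]
  rw [sum_dl]
  unfold chS
  ring

end base

end Vale.Agent.P244.Geo
end

section

open scoped Manifold ContDiff RealInnerProductSpace
open Set Metric Module

namespace Vale.Agent.P244.GeoM

open Vale.Agent.P244.Geo (EE rho hh frame)

/-- The unit sphere `S^m` in `ℝ^(m+1)`. -/
abbrev Sph (m : ℕ) := sphere (0 : EE (m + 1)) 1

/-- The closed manifold `S^m × S^p`. -/
abbrev Mfd (m p : ℕ) := Sph m × Sph p

/-- The product manifold structure of `S^m × S^p`. -/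
noncomputable instance instCharted (m p : ℕ) : ChartedSpace (EE m × EE p) (Mfd m p) :=
  inferInstanceAs (ChartedSpace (ModelProd (EE m) (EE p)) (Sph m × Sph p))

instance instIsManifold (m p : ℕ) : IsManifold 𝓘(ℝ, EE m × EE p) ∞ (Mfd m p) := by
  have h : IsManifold ((𝓡 m).prod (𝓡 p)) ∞ (Sph m × Sph p) := by
    have h1 : IsManifold (𝓡 m) ∞ (Sph m) := IsManifold.of_le (n := ω) le_top
    have h2 : IsManifold (𝓡 p) ∞ (Sph p) := IsManifold.of_le (n := ω) le_top
    exact IsManifold.prod _ _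
  rw [← modelWithCornersSelf_prod] at h
  exact h

theorem factFin (m : ℕ) : Fact (finrank ℝ (EE (m + 1)) = m + 1) :=
  Fact.mk (@finrank_euclideanSpace_fin ℝ _ (m + 1))

attribute [local instance] factFin

/-- The position vector in `ℝ^(m+1)` of the first factor. -/
def pos1 {m p : ℕ} (x : Mfd m p) : EE (m + 1) := x.1.1

/-- The position vector in `ℝ^(p+1)` of the second factor. -/
def pos2 {m p : ℕ} (x : Mfd m p) : EE (p + 1) := x.2.1

/-- The height function on `S^m`. -/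
noncomputable def height {m p : ℕ} (x : Mfd m p) : ℝ := pos1 x (Fin.last m)

/-- The inner product as a bilinear form. -/
noncomputable def innerBil (E : Type*) [NormedAddCommGroup E] [InnerProductSpace ℝ E] :
    E →L[ℝ] E →L[ℝ] ℝ := innerSL ℝ

/-- The derivative of `pos1` at `x`, a linear map on the tangent space at `x` (which is a copy of
the model space). -/
noncomputable def dpos1 {m p : ℕ} (x : Mfd m p) : (EE m × EE p) →L[ℝ] EE (m + 1) :=
  mfderiv 𝓘(ℝ, EE m × EE p) 𝓘(ℝ, EE (m + 1)) (pos1 (m := m) (p := p)) x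

/-- The derivative of `pos2` at `x`. -/
noncomputable def dpos2 {m p : ℕ} (x : Mfd m p) : (EE m × EE p) →L[ℝ] EE (p + 1) :=
  mfderiv 𝓘(ℝ, EE m × EE p) 𝓘(ℝ, EE (p + 1)) (pos2 (m := m) (p := p)) x

/-- The derivative of the height function at `x`. -/
noncomputable def dheight {m p : ℕ} (x : Mfd m p) : (EE m × EE p) →L[ℝ] ℝ :=
  (EuclideanSpace.proj (Fin.last m)).comp (dpos1 x)

/-- The bilinear form `A(h) g_{S^m} + B(h) dh^2 + C(h) g_{S^p}` at `x`. -/
noncomputable def form (m p : ℕ) (A B C : ℝ → ℝ) (x : Mfd m p) :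
    (EE m × EE p) →L[ℝ] (EE m × EE p) →L[ℝ] ℝ :=
  A (height x) • (innerBil _).bilinearComp (dpos1 x) (dpos1 x) +
  B (height x) • (ContinuousLinearMap.mul ℝ ℝ).bilinearComp (dheight x) (dheight x) +
  C (height x) • (innerBil _).bilinearComp (dpos2 x) (dpos2 x)

/-- The metric `A(h) g_{S^m} + B(h) dh^2 + C(h) g_{S^p}` on `S^m × S^p`. -/
noncomputable def tens (m p : ℕ) (A B C : ℝ → ℝ) : Flow.Tensor (EE m × EE p) (Mfd m p) :=
  fun x => form m p A B C x

theorem val_tens {m p : ℕ} (A B C : ℝ → ℝ) (x : Mfd m p)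
    (u w : TangentSpace 𝓘(ℝ, EE m × EE p) x) :
    Flow.val (tens m p A B C) x u w = A (height x) * ⟪dpos1 x u, dpos1 x w⟫ +
      B (height x) * (dheight x u * dheight x w) +
      C (height x) * ⟪dpos2 x u, dpos2 x w⟫ := by
  rfl


theorem contMDiff_pos1 {m p : ℕ} :
    ContMDiff 𝓘(ℝ, EE m × EE p) 𝓘(ℝ, EE (m + 1)) ∞ (pos1 (m := m) (p := p)) := by
  have h : ContMDiff ((𝓡 m).prod (𝓡 p)) 𝓘(ℝ, EE (m + 1)) ∞
      (fun x : Sph m × Sph p => (x.1 : EE (m + 1))) := by
    have h1 : ContMDiff (𝓡 m) 𝓘(ℝ, EE (m + 1)) ∞ ((↑) : Sph m → EE (m + 1)) :=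
      contMDiff_coe_sphere
    exact h1.comp contMDiff_fst
  rw [← modelWithCornersSelf_prod] at h
  exact h

theorem contMDiff_pos2 {m p : ℕ} :
    ContMDiff 𝓘(ℝ, EE m × EE p) 𝓘(ℝ, EE (p + 1)) ∞ (pos2 (m := m) (p := p)) := by
  have h : ContMDiff ((𝓡 m).prod (𝓡 p)) 𝓘(ℝ, EE (p + 1)) ∞
      (fun x : Sph m × Sph p => (x.2 : EE (p + 1))) := by
    have h1 : ContMDiff (𝓡 p) 𝓘(ℝ, EE (p + 1)) ∞ ((↑) : Sph p → EE (p + 1)) :=
      contMDiff_coe_sphere
    exact h1.comp contMDiff_snd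
  rw [← modelWithCornersSelf_prod] at h
  exact h

/-- the stereographic parametrisation of the sphere -/
noncomputable def par {m : ℕ} (v : Sph m) (y : EE m) : EE (m + 1) :=
  ((stereographic' m v).symm y : EE (m + 1))

theorem mem_atlas {m p : ℕ} {e : OpenPartialHomeomorph (Mfd m p) (EE m × EE p)}
    (he : e ∈ atlas (EE m × EE p) (Mfd m p)) : ∃ (v : Sph m) (w : Sph p),
      e.target = univ ∧ (∀ y, pos1 (e.symm y) = par v y.1) ∧
      (∀ y, pos2 (e.symm y) = par w y.2) := by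
  obtain ⟨e1, ⟨v, rfl⟩, e2, ⟨w, rfl⟩, rfl⟩ := he
  refine ⟨v, w, ?_, fun y => rfl, fun y => rfl⟩
  change (stereographic' m v).target ×ˢ (stereographic' p w).target = univ
  simp


/-- the linear isometry used in the chart -/
noncomputable def lin {m : ℕ} (v : Sph m) : EE m →ₗᵢ[ℝ] EE (m + 1) :=
  (ℝ ∙ (v : EE (m + 1)))ᗮ.subtypeₗᵢ.comp
    (OrthonormalBasis.fromOrthogonalSpanSingleton m
      (ne_zero_of_mem_unit_sphere v)).repr.symm.toLinearIsometry

theorem lin_orth {m : ℕ} (v : Sph m) (y : EE m) : ⟪lin v y, (v : EE (m + 1))⟫ = 0 := by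
  have h : lin v y ∈ (ℝ ∙ (v : EE (m + 1)))ᗮ := by
    simp only [lin, LinearIsometry.coe_comp, Function.comp_apply]
    exact Subtype.prop _
  rw [Submodule.mem_orthogonal_singleton_iff_inner_left] at h
  exact h

theorem par_eq {m : ℕ} (v : Sph m) (y : EE m) :
    par v y = (‖y‖ ^ 2 + 4)⁻¹ • ((4 : ℝ) • lin v y + (‖y‖ ^ 2 - 4) • (v : EE (m + 1))) := by
  rw [par, stereographic'_symm_apply]
  simp only
  have h1 : ‖(((OrthonormalBasis.fromOrthogonalSpanSingleton m
      (ne_zero_of_mem_unit_sphere v)).repr.symm y : (ℝ ∙ (v : EE (m + 1)))ᗮ) : EE (m + 1))‖ = ‖y‖ := by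
    rw [← Submodule.coe_norm, LinearIsometryEquiv.norm_map]
  rw [h1, smul_add]
  rfl

theorem normSq_pos {m : ℕ} (y : EE m) : 0 < ‖y‖ ^ 2 + 4 := by positivity

theorem hasFDerivAt_par {m : ℕ} (v : Sph m) (y : EE m) :
    HasFDerivAt (par v) ((4 / (‖y‖ ^ 2 + 4)) • (lin v).toContinuousLinearMap +
      (innerSL ℝ y : EE m →L[ℝ] ℝ).smulRight ((16 / (‖y‖ ^ 2 + 4) ^ 2) • (v : EE (m + 1)) -
        (8 / (‖y‖ ^ 2 + 4) ^ 2) • lin v y)) y := by
  have hN := normSq_pos y
  have h0 : HasFDerivAt (fun y : EE m => ‖y‖ ^ 2) (2 • (innerSL ℝ y : EE m →L[ℝ] ℝ)) y :=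
    (hasStrictFDerivAt_norm_sq y).hasFDerivAt
  have h1 : HasFDerivAt (fun y : EE m => (‖y‖ ^ 2 + 4)⁻¹)
      (-((‖y‖ ^ 2 + 4) ^ 2)⁻¹ • (2 • (innerSL ℝ y : EE m →L[ℝ] ℝ))) y := by
    have := (h0.add_const (4 : ℝ))
    exact (hasDerivAt_inv hN.ne').comp_hasFDerivAt y this
  have h2 : HasFDerivAt (fun y : EE m => (4 : ℝ) • lin v y + (‖y‖ ^ 2 - 4) • (v : EE (m + 1)))
      ((4 : ℝ) • (lin v).toContinuousLinearMap +
        (2 • (innerSL ℝ y : EE m →L[ℝ] ℝ)).smulRight (v : EE (m + 1))) y := by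
    refine HasFDerivAt.add ?_ ?_
    · exact (lin v).toContinuousLinearMap.hasFDerivAt.const_smul (4 : ℝ)
    · exact (h0.sub_const 4).smul_const _
  have h3 := h1.smul h2
  have h4 : par v = fun y => (‖y‖ ^ 2 + 4)⁻¹ • ((4 : ℝ) • lin v y + (‖y‖ ^ 2 - 4) • (v : EE (m + 1))) := by
    funext y; exact par_eq v y
  rw [h4]
  refine h3.congr_fderiv ?_
  ext1 w
  simp only [ContinuousLinearMap.add_apply, ContinuousLinearMap.smul_apply,
    ContinuousLinearMap.smulRight_apply, LinearIsometry.coe_toContinuousLinearMap, smul_add,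
    smul_sub, innerSL_apply_apply, smul_smul, nsmul_eq_mul, smul_eq_mul, Nat.cast_ofNat]
  have hN' := hN.ne'
  match_scalars <;> field_simp <;> ring

theorem fderiv_par {m : ℕ} (v : Sph m) (y w : EE m) :
    fderiv ℝ (par v) y w = (4 / (‖y‖ ^ 2 + 4)) • lin v w +
      ⟪y, w⟫ • ((16 / (‖y‖ ^ 2 + 4) ^ 2) • (v : EE (m + 1)) -
        (8 / (‖y‖ ^ 2 + 4) ^ 2) • lin v y) := by
  rw [(hasFDerivAt_par v y).fderiv]
  simp

theorem inner_fderiv_par {m : ℕ} (v : Sph m) (y w w' : EE m) :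
    ⟪fderiv ℝ (par v) y w, fderiv ℝ (par v) y w'⟫ = (4 / (‖y‖ ^ 2 + 4)) ^ 2 * ⟪w, w'⟫ := by
  have hN := (normSq_pos y).ne'
  have hv : ⟪(v : EE (m + 1)), (v : EE (m + 1))⟫ = 1 := by
    rw [real_inner_self_eq_norm_sq, norm_eq_of_mem_sphere]; norm_num
  have hy : ⟪y, y⟫ = ‖y‖ ^ 2 := real_inner_self_eq_norm_sq y
  have h1 := lin_orth v
  have h2 : ∀ y : EE m, ⟪(v : EE (m + 1)), lin v y⟫ = 0 := fun y => by
    rw [real_inner_comm]; exact h1 y
  rw [fderiv_par, fderiv_par]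
  simp only [inner_add_left, inner_add_right, inner_sub_left, inner_sub_right, inner_smul_left,
    inner_smul_right, LinearIsometry.inner_map_map, h1, h2, hv, hy, real_inner_comm w y,
    conj_trivial, mul_zero, zero_mul, sub_zero, zero_sub, add_zero, zero_add]
  rw [real_inner_comm y w]
  field_simp
  ring

/-- the vector of coefficients of the height function in the chart -/
noncomputable def bvec {m : ℕ} (v : Sph m) : EE m :=
  WithLp.toLp 2 (fun i => (lin v (EuclideanSpace.single i 1)) (Fin.last m))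

theorem inner_bvec {m : ℕ} (v : Sph m) (y : EE m) : ⟪bvec v, y⟫ = (lin v y) (Fin.last m) := by
  have h : lin v y = ∑ i, y i • lin v (EuclideanSpace.single i 1) := by
    conv_lhs => rw [← (EuclideanSpace.basisFun (Fin m) ℝ).sum_repr y]
    rw [map_sum]
    simp
  rw [h]
  simp [bvec, PiLp.inner_apply, mul_comm]

theorem inner_e {m : ℕ} (i : Fin m) (z : EE m) : ⟪EuclideanSpace.single i (1 : ℝ), z⟫ = z i := by
  rw [EuclideanSpace.inner_single_left]; simp

theorem inner_e' {m : ℕ} (i : Fin m) (z : EE m) : ⟪z, EuclideanSpace.single i (1 : ℝ)⟫ = z i := by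
  rw [real_inner_comm]; exact inner_e i z

theorem exists_lin_eq {m : ℕ} (v : Sph m) (z : EE (m + 1)) (hz : ⟪z, (v : EE (m + 1))⟫ = 0) :
    ∃ y, lin v y = z := by
  have hz' : z ∈ (ℝ ∙ (v : EE (m + 1)))ᗮ := by
    rw [Submodule.mem_orthogonal_singleton_iff_inner_left]; exact hz
  refine ⟨(OrthonormalBasis.fromOrthogonalSpanSingleton m
      (ne_zero_of_mem_unit_sphere v)).repr ⟨z, hz'⟩, ?_⟩
  simp [lin]

theorem norm_bvec {m : ℕ} (v : Sph m) : ‖bvec v‖ ^ 2 + (v : EE (m + 1)) (Fin.last m) ^ 2 = 1 := by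
  have hv : ⟪(v : EE (m + 1)), (v : EE (m + 1))⟫ = 1 := by
    rw [real_inner_self_eq_norm_sq, norm_eq_of_mem_sphere]; norm_num
  set e : EE (m + 1) := EuclideanSpace.single (Fin.last m) (1 : ℝ) with he
  set c : ℝ := (v : EE (m + 1)) (Fin.last m) with hc
  have hev : ⟪e, (v : EE (m + 1))⟫ = c := inner_e _ _
  have hve : ⟪(v : EE (m + 1)), e⟫ = c := by rw [real_inner_comm]; exact hev
  have hee : ⟪e, e⟫ = 1 := by rw [he, inner_e]; simp
  obtain ⟨y, hy⟩ := exists_lin_eq v (e - c • (v : EE (m + 1))) (by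
    rw [inner_sub_left, inner_smul_left, hv, hev]; simp)
  have hb : bvec v = y := by
    refine ext_inner_right ℝ (fun w => ?_)
    rw [inner_bvec, ← LinearIsometry.inner_map_map (lin v) y w, hy, inner_sub_left,
      inner_smul_left, real_inner_comm (lin v w) (v : EE (m + 1)), lin_orth, he, inner_e]
    simp
  rw [hb, ← real_inner_self_eq_norm_sq, ← LinearIsometry.inner_map_map (lin v) y y, hy,
    inner_sub_left, inner_sub_right, inner_sub_right, inner_smul_left, inner_smul_right,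
    inner_smul_left, inner_smul_right, hv, hev, hve, hee]
  simp
  ring

theorem par_last {m : ℕ} (v : Sph m) (y : EE m) :
    par v y (Fin.last m) = hh (bvec v) ((v : EE (m + 1)) (Fin.last m)) y := by
  rw [par_eq, hh, inner_bvec]
  simp
  ring

theorem mdiff_symm {m p : ℕ} {e : OpenPartialHomeomorph (Mfd m p) (EE m × EE p)}
    (he : e ∈ atlas (EE m × EE p) (Mfd m p)) (y : EE m × EE p) (hy : y ∈ e.target) :
    MDifferentiableAt 𝓘(ℝ, EE m × EE p) 𝓘(ℝ, EE m × EE p) e.symm y := by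
  have h1 : e ∈ IsManifold.maximalAtlas 𝓘(ℝ, EE m × EE p) ∞ (Mfd m p) :=
    IsManifold.subset_maximalAtlas he
  have h2 := contMDiffOn_symm_of_mem_maximalAtlas h1
  exact (h2.contMDiffAt (e.open_target.mem_nhds hy)).mdifferentiableAt (by simp)

theorem dpos1_symm {m p : ℕ} {e : OpenPartialHomeomorph (Mfd m p) (EE m × EE p)}
    (he : e ∈ atlas (EE m × EE p) (Mfd m p)) (v : Sph m) (ht : e.target = univ)
    (hv : ∀ y, pos1 (e.symm y) = par v y.1) (y w : EE m × EE p) :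
    dpos1 (e.symm y) (mfderiv 𝓘(ℝ, EE m × EE p) 𝓘(ℝ, EE m × EE p) e.symm y w) =
      fderiv ℝ (par v) y.1 w.1 := by
  have h1 : MDifferentiableAt 𝓘(ℝ, EE m × EE p) 𝓘(ℝ, EE (m + 1)) (pos1 (m := m) (p := p))
      (e.symm y) := contMDiff_pos1.mdifferentiableAt (by simp)
  have h2 := mdiff_symm he y (by rw [ht]; trivial)
  have h3 := mfderiv_comp y h1 h2
  have h4 : (pos1 (m := m) (p := p)) ∘ e.symm = fun y : EE m × EE p => par v y.1 := by
    funext y; exact hv y
  have h5 : HasFDerivAt (fun y : EE m × EE p => par v y.1)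
      ((fderiv ℝ (par v) y.1).comp (ContinuousLinearMap.fst ℝ (EE m) (EE p))) y :=
    ((hasFDerivAt_par v y.1).differentiableAt.hasFDerivAt).comp y hasFDerivAt_fst
  rw [h4, mfderiv_eq_fderiv, h5.fderiv] at h3
  have h6 := congrArg (fun L : (EE m × EE p) →L[ℝ] EE (m + 1) => L w) h3
  exact h6.symm

theorem dpos2_symm {m p : ℕ} {e : OpenPartialHomeomorph (Mfd m p) (EE m × EE p)}
    (he : e ∈ atlas (EE m × EE p) (Mfd m p)) (v : Sph p) (ht : e.target = univ)
    (hv : ∀ y, pos2 (e.symm y) = par v y.2) (y w : EE m × EE p) :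
    dpos2 (e.symm y) (mfderiv 𝓘(ℝ, EE m × EE p) 𝓘(ℝ, EE m × EE p) e.symm y w) =
      fderiv ℝ (par v) y.2 w.2 := by
  have h1 : MDifferentiableAt 𝓘(ℝ, EE m × EE p) 𝓘(ℝ, EE (p + 1)) (pos2 (m := m) (p := p))
      (e.symm y) := contMDiff_pos2.mdifferentiableAt (by simp)
  have h2 := mdiff_symm he y (by rw [ht]; trivial)
  have h3 := mfderiv_comp y h1 h2
  have h4 : (pos2 (m := m) (p := p)) ∘ e.symm = fun y : EE m × EE p => par v y.2 := by
    funext y; exact hv y
  have h5 : HasFDerivAt (fun y : EE m × EE p => par v y.2)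
      ((fderiv ℝ (par v) y.2).comp (ContinuousLinearMap.snd ℝ (EE m) (EE p))) y :=
    ((hasFDerivAt_par v y.2).differentiableAt.hasFDerivAt).comp y hasFDerivAt_snd
  rw [h4, mfderiv_eq_fderiv, h5.fderiv] at h3
  have h6 := congrArg (fun L : (EE m × EE p) →L[ℝ] EE (p + 1) => L w) h3
  exact h6.symm

theorem dheight_symm {m : ℕ} (v : Sph m) (y w : EE m) :
    (fderiv ℝ (par v) y w) (Fin.last m) =
      fderiv ℝ (hh (bvec v) ((v : EE (m + 1)) (Fin.last m))) y w := by
  have h1 := (hasFDerivAt_par v y).differentiableAt.hasFDerivAt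
  have h2 := (EuclideanSpace.proj (𝕜 := ℝ) (Fin.last m)).hasFDerivAt.comp y h1
  have h3 : (EuclideanSpace.proj (𝕜 := ℝ) (Fin.last m)) ∘ (par v) =
      hh (bvec v) ((v : EE (m + 1)) (Fin.last m)) := by
    funext y; exact par_last v y
  rw [h3] at h2
  rw [h2.fderiv]
  simp

/-- The quadratic form of the metric in a stereographic chart. -/
noncomputable def chartForm (m p : ℕ) (b : EE m) (c : ℝ) (A B C : ℝ → ℝ)
    (y w w' : EE m × EE p) : ℝ :=
  A (hh b c y.1) * (rho y.1 ^ 2 * ⟪w.1, w'.1⟫) +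
    B (hh b c y.1) * (fderiv ℝ (hh b c) y.1 w.1 * fderiv ℝ (hh b c) y.1 w'.1) +
    C (hh b c y.1) * (rho y.2 ^ 2 * ⟪w.2, w'.2⟫)

theorem norm_par {m : ℕ} (v : Sph m) (y : EE m) : ⟪par v y, par v y⟫ = 1 := by
  rw [real_inner_self_eq_norm_sq, par, norm_eq_of_mem_sphere]; norm_num

theorem inner_par_fderiv {m : ℕ} (v : Sph m) (y w : EE m) : ⟪par v y, fderiv ℝ (par v) y w⟫ = 0 := by
  have h1 := (hasFDerivAt_par v y).differentiableAt.hasFDerivAt
  have h2 := h1.inner ℝ h1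
  have h3 : (fun y => ⟪par v y, par v y⟫) = fun _ => (1 : ℝ) := by
    funext y; exact norm_par v y
  rw [h3] at h2
  have h4 := h2.unique (hasFDerivAt_const (1 : ℝ) y)
  have h5 := congrArg (fun L : EE m →L[ℝ] ℝ => L w) h4
  simp [fderivInnerCLM_apply] at h5
  rw [real_inner_comm (par v y)] at h5
  linarith only [h5]


theorem dheight_sq_le {m : ℕ} (v : Sph m) (y w : EE m) :
    ((fderiv ℝ (par v) y w) (Fin.last m)) ^ 2 ≤
      (1 - (par v y (Fin.last m)) ^ 2) * ⟪fderiv ℝ (par v) y w, fderiv ℝ (par v) y w⟫ := by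
  set e : EE (m + 1) := EuclideanSpace.single (Fin.last m) (1 : ℝ) with he
  set X := par v y with hX
  set Y := fderiv ℝ (par v) y w with hY
  set h := X (Fin.last m) with hh
  have h1 : ⟪e - h • X, Y⟫ = Y (Fin.last m) := by
    rw [inner_sub_left, inner_smul_left, he, inner_e, hX, hY, inner_par_fderiv]; simp
  have hee : ⟪e, e⟫ = 1 := by rw [he, inner_e]; simp
  have heX : ⟪e, X⟫ = h := inner_e _ _
  have hXe : ⟪X, e⟫ = h := inner_e' _ _
  have hXX : ⟪X, X⟫ = 1 := norm_par v y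
  have h2 : ⟪e - h • X, e - h • X⟫ = 1 - h ^ 2 := by
    rw [inner_sub_left, inner_sub_right, inner_sub_right, inner_smul_left, inner_smul_right,
      inner_smul_left, inner_smul_right, hXX, heX, hXe, hee]
    simp
    ring
  have h3 := real_inner_mul_inner_self_le (e - h • X) Y
  rw [h1, h2] at h3
  nlinarith only [h3]

theorem tens_pos_aux {a b c h r1 r2 d n1 n2 : ℝ} (ha : 0 < a) (hab : 0 < a + b * (1 - h ^ 2))
    (hc : 0 < c) (hr1 : 0 < r1) (hr2 : 0 < r2) (hn1 : 0 ≤ n1) (hn2 : 0 ≤ n2)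
    (hd : d ^ 2 ≤ (1 - h ^ 2) * (r1 * n1)) (hn : n1 ≠ 0 ∨ n2 ≠ 0) :
    0 < a * (r1 * n1) + b * (d * d) + c * (r2 * n2) := by
  have h1 : 0 ≤ r1 * n1 := by positivity
  have h2 : 0 ≤ r2 * n2 := by positivity
  have h3 : 0 ≤ a * (r1 * n1) + b * (d * d) ∧ (0 < n1 → 0 < a * (r1 * n1) + b * (d * d)) := by
    rcases le_total 0 b with hb | hb
    · have h4 : 0 ≤ b * (d * d) := mul_nonneg hb (mul_self_nonneg d)
      refine ⟨by positivity, fun hn1 => ?_⟩
      have : 0 < a * (r1 * n1) := by positivity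
      linarith only [h4, this]
    · have h4 : b * ((1 - h ^ 2) * (r1 * n1)) ≤ b * (d * d) := by
        refine mul_le_mul_of_nonpos_left ?_ hb
        rw [← sq]; exact hd
      have h5 : a * (r1 * n1) + b * (d * d) ≥ (a + b * (1 - h ^ 2)) * (r1 * n1) := by linarith only [h4]
      refine ⟨le_trans (by positivity) h5, fun hn1 => lt_of_lt_of_le (by positivity) h5⟩
  rcases hn with hn | hn
  · have := h3.2 (lt_of_le_of_ne hn1 (Ne.symm hn))
    have h6 : 0 ≤ c * (r2 * n2) := by positivity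
    linarith only [this, h6]
  · have h7 : 0 < n2 := lt_of_le_of_ne hn2 (Ne.symm hn)
    have h6 : 0 < c * (r2 * n2) := by positivity
    linarith only [h3, h6, h3.1]

theorem chartForm_pos {m p : ℕ} (v1 : Sph m) (A B C : ℝ → ℝ)
    (hA : ∀ x ∈ Icc (-1 : ℝ) 1, 0 < A x) (hAB : ∀ x ∈ Icc (-1 : ℝ) 1, 0 < A x + B x * (1 - x ^ 2))
    (hC : ∀ x ∈ Icc (-1 : ℝ) 1, 0 < C x) (y w : EE m × EE p) (hw : w ≠ 0) :
    0 < chartForm m p (bvec v1) ((v1 : EE (m + 1)) (Fin.last m)) A B C y w w := by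
  have hm := Geo.hh_mem (norm_bvec v1) y.1
  have hN1 := normSq_pos y.1
  have hN2 := normSq_pos y.2
  unfold chartForm
  refine tens_pos_aux (h := hh (bvec v1) ((v1 : EE (m + 1)) (Fin.last m)) y.1) (hA _ hm)
    (hAB _ hm) (hC _ hm) (by unfold rho; positivity) (by unfold rho; positivity)
    real_inner_self_nonneg real_inner_self_nonneg ?_ ?_
  · have := dheight_sq_le v1 y.1 w.1
    rw [dheight_symm, par_last, inner_fderiv_par] at this
    exact this
  · by_contra hcon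
    push Not at hcon
    apply hw
    have h1 := inner_self_eq_zero.mp hcon.1
    have h2 := inner_self_eq_zero.mp hcon.2
    exact Prod.ext h1 h2

theorem exists_symm_eq {m p : ℕ} (x : Mfd m p) (w : TangentSpace 𝓘(ℝ, EE m × EE p) x) :
    ∃ w' : EE m × EE p, mfderiv 𝓘(ℝ, EE m × EE p) 𝓘(ℝ, EE m × EE p)
      (chartAt (EE m × EE p) x).symm (chartAt (EE m × EE p) x x) w' = w := by
  have h1 := (mdifferentiable_chart (I := 𝓘(ℝ, EE m × EE p)) x).symm_comp_deriv
    (mem_chart_source (EE m × EE p) x)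
  refine ⟨mfderiv 𝓘(ℝ, EE m × EE p) 𝓘(ℝ, EE m × EE p) (chartAt (EE m × EE p) x) x w, ?_⟩
  have h2 := congrArg (fun L => L w) h1
  exact h2


theorem form_symm {m p : ℕ} {e : OpenPartialHomeomorph (Mfd m p) (EE m × EE p)}
    (he : e ∈ atlas (EE m × EE p) (Mfd m p)) : ∃ (v1 : Sph m),
      e.target = univ ∧
      (∀ y, height (e.symm y) = hh (bvec v1) ((v1 : EE (m + 1)) (Fin.last m)) y.1) ∧
      ∀ (A B C : ℝ → ℝ) y w w',
      Flow.val (tens m p A B C) (e.symm y)
        (mfderiv 𝓘(ℝ, EE m × EE p) 𝓘(ℝ, EE m × EE p) e.symm y w)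
        (mfderiv 𝓘(ℝ, EE m × EE p) 𝓘(ℝ, EE m × EE p) e.symm y w') =
      chartForm m p (bvec v1) ((v1 : EE (m + 1)) (Fin.last m)) A B C y w w' := by
  obtain ⟨v1, v2, ht, h1, h2⟩ := mem_atlas he
  have hh1 : ∀ y, height (e.symm y) = hh (bvec v1) ((v1 : EE (m + 1)) (Fin.last m)) y.1 := by
    intro y
    rw [height, h1, par_last]
  refine ⟨v1, ht, hh1, ?_⟩
  intro A B C y w w'
  rw [val_tens]
  have e1 := dpos1_symm he v1 ht h1 y
  have e2 := dpos2_symm he v2 ht h2 y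
  have e3 : ∀ w, dheight (e.symm y) (mfderiv 𝓘(ℝ, EE m × EE p) 𝓘(ℝ, EE m × EE p) e.symm y w) =
      fderiv ℝ (hh (bvec v1) ((v1 : EE (m + 1)) (Fin.last m))) y.1 w.1 := by
    intro w
    rw [← dheight_symm, ← e1 w]
    rfl
  have a1 := (congrArg₂ (fun a b : EE (m + 1) => ⟪a, b⟫) (e1 w) (e1 w')).trans
    (inner_fderiv_par v1 y.1 w.1 w'.1)
  have a2 := (congrArg₂ (fun a b : EE (p + 1) => ⟪a, b⟫) (e2 w) (e2 w')).trans
    (inner_fderiv_par v2 y.2 w.2 w'.2)
  have a3 := congrArg₂ (fun a b : ℝ => a * b) (e3 w) (e3 w')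
  have a0 := hh1 y
  simp only at a1 a2 a3
  unfold chartForm rho
  rw [← a0, ← a1, ← a2, ← a3]

theorem tens_pos {m p : ℕ} (A B C : ℝ → ℝ)
    (hA : ∀ x ∈ Icc (-1 : ℝ) 1, 0 < A x) (hAB : ∀ x ∈ Icc (-1 : ℝ) 1, 0 < A x + B x * (1 - x ^ 2))
    (hC : ∀ x ∈ Icc (-1 : ℝ) 1, 0 < C x) (x : Mfd m p) (w : TangentSpace 𝓘(ℝ, EE m × EE p) x)
    (hw : w ≠ 0) : 0 < Flow.val (tens m p A B C) x w w := by
  obtain ⟨v1, ht, h1, h2⟩ := form_symm (chart_mem_atlas (EE m × EE p) x)
  obtain ⟨w', rfl⟩ := exists_symm_eq x w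
  have hw' : w' ≠ 0 := by
    rintro rfl
    exact hw (map_zero _)
  have h3 := h2 A B C (chartAt (EE m × EE p) x x) w' w'
  have h4 := chartForm_pos v1 A B C hA hAB hC (chartAt (EE m × EE p) x x) w' hw'
  rw [← h3] at h4
  have h5 := (chartAt (EE m × EE p) x).left_inv (mem_chart_source (EE m × EE p) x)
  have key : ∀ (x' : Mfd m p) (u : EE m × EE p), x' = x →
      0 < Flow.val (tens m p A B C) x' u u → 0 < Flow.val (tens m p A B C) x u u := by
    rintro x' u rfl h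
    exact h
  exact key _ _ h5 h4

theorem tens_symm {m p : ℕ} (A B C : ℝ → ℝ) (x : Mfd m p)
    (u w : TangentSpace 𝓘(ℝ, EE m × EE p) x) :
    Flow.val (tens m p A B C) x u w = Flow.val (tens m p A B C) x w u := by
  rw [val_tens, val_tens]
  have h1 := real_inner_comm (dpos1 x u) (dpos1 x w)
  have h2 := real_inner_comm (dpos2 x u) (dpos2 x w)
  have h3 := mul_comm (dheight x u) (dheight x w)
  rw [h1, h2, h3]

theorem comp_tens {m p : ℕ} {e : OpenPartialHomeomorph (Mfd m p) (EE m × EE p)}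
    (he : e ∈ atlas (EE m × EE p) (Mfd m p)) : ∃ (b : EE m) (c : ℝ), ‖b‖ ^ 2 + c ^ 2 = 1 ∧
      e.target = univ ∧ (∀ y, height (e.symm y) = hh b c y.1) ∧
      ∀ (A B C : ℝ → ℝ) y i j, Flow.comp (frame m p) (tens m p A B C) e y i j =
      chartForm m p b c A B C y (frame m p i) (frame m p j) := by
  obtain ⟨v1, ht, h1, h2⟩ := form_symm he
  exact ⟨_, _, norm_bvec v1, ht, h1, fun A B C y i j => h2 A B C y _ _⟩

end Vale.Agent.P244.GeoM
end

section

/-!
# P244-ST, block B : the bubble profile (interface)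

`m = 2p = 40`; `u = log (φ/ψ)`, `G = - r u_r`; the Ricci-flat cohomogeneity-one
metric is `G = g(u)`, `Z = r_s² = Zs(u)`; `l = log r`.
-/

open Set Filter Topology Real
open scoped ContDiff

namespace Vale.Agent.P244.ST.BD

/-- indicial exponent `κ` -/
noncomputable def kap (m : ℝ) : ℝ := ((m - 1) - sqrt ((m - 1) * (m - 9))) / 2

/-- `q = (m-1) - g²/4` -/
noncomputable def qf (m y : ℝ) : ℝ := (m - 1) - y ^ 2 / 4

/-- right hand side of `g' = q (g - 2 tanh u)/g` -/
noncomputable def gRhs (m u y : ℝ) : ℝ := qf m y * (y - 2 * tanh u) / y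

/-- The bubble profile `g` (odd), with all qualitative properties (g1)-(g7) of P244-B1. -/
structure IsBub (m : ℝ) (g : ℝ → ℝ) : Prop where
  zero : g 0 = 0
  odd : ∀ u, g (-u) = - g u
  deriv : ∀ u > 0, HasDerivAt g (gRhs m u (g u)) u
  lower : ∀ u > 0, 2 * tanh u < g u
  upper : ∀ u > 0, g u < kap m * tanh u
  lt_two : ∀ u > 0, g u < 2
  rhs_pos : ∀ u > 0, 0 < gRhs m u (g u)
  quot : ∀ u > 0, gRhs m u (g u) * tanh u ≤ g u * (1 - tanh u ^ 2)
  near_zero : ∃ C, ∀ u > 0, kap m - g u / tanh u ≤ C * tanh u ^ 2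
  near_top : ∃ C, ∀ u > 0, g u / tanh u - 2 ≤ C * (1 - tanh u ^ 2)
  tip : ∃ h : ℝ → ℝ, ∃ ε > 0, ContDiffOn ℝ ∞ h (Ioo (-ε) ε) ∧ h 0 = 2 ∧
    ∀ u, exp (-2 * u) < ε → g u = h (exp (-2 * u))

/-- B1 + B2 -/
def BubStatement : Prop := ∃ g, IsBub 40 g

/-- `Zs(u) = (m-1) cosh u / q` -/
noncomputable def Zs (m : ℝ) (g : ℝ → ℝ) (u : ℝ) : ℝ := (m - 1) * cosh u / qf m (g u)

/-- The bubble in the variable `l = log r`: `Y' = - g(Y)`, `Y ~ e^{-κ l}` at infinity. -/
structure IsProf (m : ℝ) (g Y : ℝ → ℝ) : Prop where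
  pos : ∀ l, 0 < Y l
  deriv : ∀ l, HasDerivAt Y (-(g (Y l))) l
  top : Tendsto Y atBot atTop
  smooth : ContDiff ℝ ∞ Y
  asym : ∃ C, ∀ l ≥ 0, ∀ j ≤ 4,
    |iteratedDeriv j Y l - (-(kap m)) ^ j * exp (-(kap m) * l)| ≤ C * exp (-(3 * kap m) * l)
  tip : ∃ S : ℝ → ℝ, ∃ ε > 0, ContDiffOn ℝ ∞ S (Ioo (-ε) ε) ∧ (∀ E ∈ Ioo (-ε) ε, 0 < S E) ∧
    ∀ l, exp (-2 * Y l) < ε → exp (4 * l) = exp (-2 * Y l) * S (exp (-2 * Y l))

/-- B1b -/
def ProfStatement : Prop := ∀ g, IsBub 40 g → ∃ Y, IsProf 40 g Y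

end Vale.Agent.P244.ST.BD
end

section

/-!
# P244-ST : the bubble equation `g g' = q (g - 2 tanh u)`, `q = (m-1) - g²/4`

Existence and qualitative properties of the bubble profile `g` on `(0,∞)`.
-/

open Set Filter Topology

namespace Vale.Agent.P244.ST.BD.BubG


theorem hasDerivAt_tanh (u : ℝ) : HasDerivAt Real.tanh (1 - Real.tanh u ^ 2) u := by
  have hc : Real.cosh u ≠ 0 := (Real.cosh_pos u).ne'
  have h := (Real.hasDerivAt_sinh u).div (Real.hasDerivAt_cosh u) hc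
  have h1 : (fun x => Real.sinh x / Real.cosh x) = Real.tanh := by
    funext x; rw [Real.tanh_eq_sinh_div_cosh]
  have h2 : (Real.cosh u * Real.cosh u - Real.sinh u * Real.sinh u) / Real.cosh u ^ 2 =
      1 - Real.tanh u ^ 2 := by
    rw [Real.tanh_eq_sinh_div_cosh]
    field_simp
  rw [← h2, ← h1]
  exact h

theorem tanh_pos {u : ℝ} (hu : 0 < u) : 0 < Real.tanh u := by
  rw [Real.tanh_eq_sinh_div_cosh]
  exact div_pos (Real.sinh_pos_iff.mpr hu) (Real.cosh_pos u)

theorem tanh_mono : StrictMono Real.tanh := by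
  refine strictMono_of_deriv_pos fun u => ?_
  rw [(hasDerivAt_tanh u).deriv]
  have := Real.tanh_sq_lt_one u
  linarith only [this]

theorem continuous_tanh : Continuous Real.tanh :=
  continuous_iff_continuousAt.mpr fun u => (hasDerivAt_tanh u).continuousAt

theorem gRhs_eq (m u : ℝ) {y : ℝ} (hy : y ≠ 0) :
    gRhs m u y = (m - 1) - y ^ 2 / 4 - 2 * Real.tanh u * (m - 1) / y + Real.tanh u * y / 2 := by
  unfold gRhs qf
  field_simp
  ring

/-- The factor in the difference of the right-hand sides. -/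
noncomputable def bubK (m u y y' : ℝ) : ℝ :=
  Real.tanh u / 2 - (y + y') / 4 + 2 * Real.tanh u * (m - 1) / (y * y')

theorem gRhs_sub (m u : ℝ) {y y' : ℝ} (hy : y ≠ 0) (hy' : y' ≠ 0) :
    gRhs m u y - gRhs m u y' = bubK m u y y' * (y - y') := by
  rw [gRhs_eq m u hy, gRhs_eq m u hy', bubK]
  field_simp
  ring

/-- The parameters: `κ` is the smaller root of `κ² - (m-1) κ + 2 (m-1)`. -/
structure BubPar (m κ : ℝ) : Prop where
  eq : κ ^ 2 = (m - 1) * (κ - 2)
  lo : 2 < κ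
  hi : κ ≤ 3

/-- A bubble profile on `(0,∞)`. -/
structure IsBub0 (m κ : ℝ) (g : ℝ → ℝ) : Prop where
  ode : ∀ u, 0 < u → HasDerivAt g (gRhs m u (g u)) u
  lo : ∀ u, 0 < u → 2 * Real.tanh u < g u
  hi : ∀ u, 0 < u → g u < κ * Real.tanh u

variable {m κ : ℝ}

theorem BubPar.m_ge (h : BubPar m κ) : 9 ≤ m - 1 := by
  have h1 := h.lo
  have h2 : 0 < κ - 2 := by linarith only [h1]
  have h3 : 0 ≤ (κ - 3) * (κ - 6) := mul_nonneg_of_nonpos_of_nonpos (by linarith only [h, h.hi]) (by linarith only [h, h.hi])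
  have h4 : 9 * (κ - 2) ≤ (m - 1) * (κ - 2) := by
    rw [← h.eq]; nlinarith only [h3]
  exact le_of_mul_le_mul_right h4 h2

/-- Bounds for the factor `bubK` in the region. -/
theorem bubK_ge (h : BubPar m κ) {u y y' : ℝ} (hu : 0 < u) (h1 : 2 * Real.tanh u ≤ y)
    (h2 : y ≤ κ * Real.tanh u) (h1' : 2 * Real.tanh u ≤ y') (h2' : y' ≤ κ * Real.tanh u) :
    1 ≤ bubK m u y y' := by
  have hT := tanh_pos hu
  have hT1 := Real.tanh_lt_one u
  set T := Real.tanh u
  have hy : 0 < y := by linarith only [h1, hT]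
  have hy' : 0 < y' := by linarith only [h1', hT]
  have hm := h.m_ge
  have hκ := h.lo
  have hyy : y * y' ≤ κ ^ 2 * T ^ 2 := by
    calc y * y' ≤ (κ * T) * (κ * T) := mul_le_mul h2 h2' hy'.le (by positivity)
      _ = κ ^ 2 * T ^ 2 := by ring
  have h3 : 2 / T ≤ 2 * T * (m - 1) / (y * y') := by
    rw [div_le_div_iff₀ hT (mul_pos hy hy')]
    calc 2 * (y * y') ≤ 2 * (κ ^ 2 * T ^ 2) := by linarith only [hyy]
      _ = 2 * ((m - 1) * (κ - 2)) * T ^ 2 := by rw [h.eq]; ring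
      _ ≤ 2 * ((m - 1) * 1) * T ^ 2 := by
          have : (m - 1) * (κ - 2) ≤ (m - 1) * 1 :=
            mul_le_mul_of_nonneg_left (by linarith only [h, h.hi]) (by linarith only [hT, hT1, hm])
          nlinarith only [this, sq_nonneg T]
      _ = 2 * T * (m - 1) * T := by ring
  have h4 : 2 ≤ 2 / T := by
    rw [le_div_iff₀ hT]; linarith only [hT1]
  have h5 : y + y' ≤ 6 * T := by
    have : κ * T ≤ 3 * T := mul_le_mul_of_nonneg_right h.hi hT.le
    linarith only [h2, h2', this]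
  unfold bubK
  linarith only [hT1, h3, h4, h5]

theorem bubK_le (h : BubPar m κ) {u y y' : ℝ} (hu : 0 < u) (h1 : 2 * Real.tanh u ≤ y)
    (h1' : 2 * Real.tanh u ≤ y') :
    bubK m u y y' ≤ (m - 1) / Real.tanh u := by
  have hT := tanh_pos hu
  have hT1 := Real.tanh_lt_one u
  have hm := h.m_ge
  unfold bubK
  set T := Real.tanh u
  have hy : 0 < y := by linarith only [h1, hT]
  have hy' : 0 < y' := by linarith only [h1', hT]
  have hyy : (2 * T) * (2 * T) ≤ y * y' := mul_le_mul h1 h1' (by positivity) hy.le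
  have h3 : 2 * T * (m - 1) / (y * y') ≤ (m - 1) / T := by
    rw [div_le_div_iff₀ (mul_pos hy hy') hT]
    calc 2 * T * (m - 1) * T = (m - 1) * (2 * T ^ 2) := by ring
      _ ≤ (m - 1) * (y * y') := mul_le_mul_of_nonneg_left (by nlinarith only [hyy]) (by linarith only [hm, hT, hT1])
  linarith only [h1, h1', hT, h3]

/-- A backward barrier lemma. -/
theorem nonneg_backward {φ φ' : ℝ → ℝ} {a b : ℝ} (hc : ContinuousOn φ (Icc a b))
    (hd : ∀ u ∈ Ioo a b, HasDerivAt φ (φ' u) u) (hneg : ∀ u ∈ Ioo a b, φ u < 0 → φ' u ≤ 0)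
    (hb : 0 ≤ φ b) : ∀ u ∈ Icc a b, 0 ≤ φ u := by
  intro u₀ hu₀
  by_contra hlt
  rw [not_le] at hlt
  set S : Set ℝ := {u ∈ Icc u₀ b | 0 ≤ φ u} with hS
  have hsub : Icc u₀ b ⊆ Icc a b := Icc_subset_Icc hu₀.1 le_rfl
  have hbS : b ∈ S := ⟨⟨hu₀.2, le_rfl⟩, hb⟩
  have hScl : IsClosed S := by
    have : S = Icc u₀ b ∩ φ ⁻¹' (Ici 0) := rfl
    rw [this]
    exact (hc.mono hsub).preimage_isClosed_of_isClosed isClosed_Icc isClosed_Ici
  have hSb : BddBelow S := ⟨u₀, fun u hu => hu.1.1⟩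
  have hcS : sInf S ∈ S := hScl.csInf_mem ⟨b, hbS⟩ hSb
  set c := sInf S
  have hcu : u₀ ≤ c := hcS.1.1
  have hanti : AntitoneOn φ (Icc u₀ c) := by
    refine antitoneOn_of_deriv_nonpos (convex_Icc _ _) (hc.mono ?_) ?_ ?_
    · exact Icc_subset_Icc hu₀.1 hcS.1.2
    · intro u hu
      rw [interior_Icc] at hu
      exact (hd u ⟨lt_of_le_of_lt hu₀.1 hu.1, lt_of_lt_of_le hu.2 hcS.1.2⟩).differentiableAt.differentiableWithinAt
    · intro u hu
      rw [interior_Icc] at hu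
      have hu' : u ∈ Ioo a b := ⟨lt_of_le_of_lt hu₀.1 hu.1, lt_of_lt_of_le hu.2 hcS.1.2⟩
      rw [(hd u hu').deriv]
      refine hneg u hu' ?_
      by_contra h0
      rw [not_lt] at h0
      exact absurd (csInf_le hSb (show u ∈ S from ⟨⟨hu.1.le, hu'.2.le⟩, h0⟩)) (not_le.mpr hu.2)
  have := hanti ⟨le_rfl, hcu⟩ ⟨hcu, le_rfl⟩ hcu
  have h0 : 0 ≤ φ c := hcS.2
  linarith only [hlt, this, h0]

/-- The value clamped to the region. -/
noncomputable def bubC (κ u y : ℝ) : ℝ := max (2 * Real.tanh u) (min y (κ * Real.tanh u))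

theorem bubC_lo (κ u y : ℝ) : 2 * Real.tanh u ≤ bubC κ u y := le_max_left _ _

theorem bubC_hi (h : BubPar m κ) {u : ℝ} (hu : 0 < u) (y : ℝ) : bubC κ u y ≤ κ * Real.tanh u := by
  have hT := tanh_pos hu
  refine max_le (mul_le_mul_of_nonneg_right h.lo.le hT.le) (min_le_right _ _)

theorem bubC_lip (κ u y y' : ℝ) : |bubC κ u y - bubC κ u y'| ≤ |y - y'| := by
  unfold bubC
  refine (abs_max_sub_max_le_max _ _ _ _).trans ?_
  rw [sub_self, abs_zero]
  refine max_le (abs_nonneg _) ?_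
  refine (abs_min_sub_min_le_max _ _ _ _).trans ?_
  rw [sub_self, abs_zero]
  exact max_le le_rfl (abs_nonneg _)

theorem gRhs_bound (h : BubPar m κ) {u y : ℝ} (hu : 0 < u) (h1 : 2 * Real.tanh u ≤ y)
    (h2 : y ≤ κ * Real.tanh u) : 0 ≤ gRhs m u y ∧ gRhs m u y ≤ m - 1 := by
  have hT := tanh_pos hu
  have hT1 := Real.tanh_lt_one u
  have hm := h.m_ge
  unfold gRhs qf
  set T := Real.tanh u
  have hy : 0 < y := by linarith only [h1, hT]
  have hy3 : y ≤ 3 := by
    have : κ * T ≤ 3 * 1 := mul_le_mul h.hi hT1.le hT.le (by norm_num)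
    linarith only [h2, this]
  have hq : 0 ≤ (m - 1) - y ^ 2 / 4 := by nlinarith only [hm, h1, hT, hT1, hy3]
  refine ⟨div_nonneg (mul_nonneg hq (by linarith only [h1])) hy.le, ?_⟩
  rw [div_le_iff₀ hy]
  have hq2 : (m - 1) - y ^ 2 / 4 ≤ m - 1 := by nlinarith only [sq_nonneg y]
  exact mul_le_mul hq2 (by linarith only [hT]) (by linarith only [h1]) (by linarith only [hm, hT, hT1])

/-- Solutions on compact intervals, from a value at the right end point. -/
theorem exists_bub_on (h : BubPar m κ) {a b : ℝ} (ha : 0 < a) (hab : a ≤ b) {y₀ : ℝ}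
    (h1 : 2 * Real.tanh b ≤ y₀) (h2 : y₀ ≤ κ * Real.tanh b) :
    ∃ g : ℝ → ℝ, g b = y₀ ∧ (∀ u ∈ Icc a b, 2 * Real.tanh u ≤ g u ∧ g u ≤ κ * Real.tanh u) ∧
      ContinuousOn g (Icc a b) ∧ ∀ u ∈ Ioo a b, HasDerivAt g (gRhs m u (g u)) u := by
  have hm := h.m_ge
  have hTa := tanh_pos ha
  have hpos : ∀ u ∈ Icc a b, 0 < u := fun u hu => lt_of_lt_of_le ha hu.1
  set L : NNReal := ⟨m - 1, by linarith only [hm]⟩ with hL
  set K : NNReal := ⟨(m - 1) / Real.tanh a, by positivity⟩ with hK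
  set R : NNReal := ⟨(m - 1) * (b - a), mul_nonneg (by linarith only [hm]) (by linarith only [hab])⟩ with hR
  have hPL : IsPicardLindelof (fun u y => gRhs m u (bubC κ u y))
      (⟨b, ⟨hab, le_rfl⟩⟩ : Icc a b) y₀ R 0 L K := by
    constructor
    · intro u hu
      refine LipschitzWith.lipschitzOnWith ?_
      refine LipschitzWith.of_dist_le_mul fun y y' => ?_
      have hu0 := hpos u hu
      have hT := tanh_pos hu0
      have e1 := bubC_lo κ u y
      have e2 := bubC_lo κ u y'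
      have e3 := bubC_hi h hu0 y
      have e4 := bubC_hi h hu0 y'
      rw [Real.dist_eq, Real.dist_eq, gRhs_sub m u (by linarith only [hT, e1]) (by linarith only [hT, e2]), abs_mul]
      have e5 := bubK_ge h hu0 e1 e3 e2 e4
      have e6 := bubK_le h hu0 e1 e2
      rw [abs_of_nonneg (by linarith only [e5])]
      have e7 : (m - 1) / Real.tanh u ≤ (m - 1) / Real.tanh a :=
        div_le_div_of_nonneg_left (by linarith only [hm]) hTa (tanh_mono.monotone hu.1)
      exact mul_le_mul (e6.trans e7) (bubC_lip κ u y y') (abs_nonneg _) (by positivity)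
    · intro y _ u hu
      have hu0 := hpos u hu
      have hT := tanh_pos hu0
      have e1 := bubC_lo κ u y
      have hcC : ContinuousAt (fun u => bubC κ u y) u := by
        unfold bubC
        have := continuous_tanh
        fun_prop
      have ht : ContinuousAt Real.tanh u := continuous_tanh.continuousAt
      unfold gRhs qf
      refine ContinuousAt.continuousWithinAt ?_
      refine ContinuousAt.div (by fun_prop) hcC ?_
      linarith only [hT, e1]
    · intro u hu y _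
      have hu0 := hpos u hu
      obtain ⟨e1, e2⟩ := gRhs_bound h hu0 (bubC_lo κ u y) (bubC_hi h hu0 y)
      rw [Real.norm_eq_abs, abs_of_nonneg e1]
      exact e2
    · simp only [sub_self, NNReal.coe_zero, sub_zero]
      rw [max_eq_right (by linarith only [hab])]
      exact le_rfl
  obtain ⟨g, hgb, hg⟩ := hPL.exists_eq_forall_mem_Icc_hasDerivWithinAt₀
  have hgc : ContinuousOn g (Icc a b) := fun u hu => (hg u hu).continuousWithinAt
  have hgd : ∀ u ∈ Ioo a b, HasDerivAt g (gRhs m u (bubC κ u (g u))) u := fun u hu =>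
    (hg u (Ioo_subset_Icc_self hu)).hasDerivAt (Icc_mem_nhds hu.1 hu.2)
  have hcT : Continuous Real.tanh := continuous_tanh
  have hlo : ∀ u ∈ Icc a b, 0 ≤ g u - 2 * Real.tanh u := by
    refine nonneg_backward (φ := fun u => g u - 2 * Real.tanh u)
      (φ' := fun u => gRhs m u (bubC κ u (g u)) - 2 * (1 - Real.tanh u ^ 2)) ?_ ?_ ?_ ?_
    · exact hgc.sub (by fun_prop)
    · intro u hu
      exact (hgd u hu).sub ((hasDerivAt_tanh u).const_mul 2)
    · intro u hu hneg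
      have hu0 : 0 < u := lt_trans ha hu.1
      have hT := tanh_pos hu0
      have e1 : bubC κ u (g u) = 2 * Real.tanh u := by
        unfold bubC
        refine max_eq_left ?_
        exact (min_le_left _ _).trans (by linarith only [hneg])
      have e2 := Real.tanh_sq_lt_one u
      rw [e1]
      unfold gRhs qf
      rw [sub_self, mul_zero, zero_div]
      linarith only [e2]
    · have : g b = y₀ := hgb
      rw [this]
      linarith only [h1]
  have hhi : ∀ u ∈ Icc a b, 0 ≤ κ * Real.tanh u - g u := by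
    refine nonneg_backward (φ := fun u => κ * Real.tanh u - g u)
      (φ' := fun u => κ * (1 - Real.tanh u ^ 2) - gRhs m u (bubC κ u (g u))) ?_ ?_ ?_ ?_
    · exact ContinuousOn.sub (by fun_prop) hgc
    · intro u hu
      exact ((hasDerivAt_tanh u).const_mul κ).sub (hgd u hu)
    · intro u hu hneg
      have hu0 : 0 < u := lt_trans ha hu.1
      have hT := tanh_pos hu0
      have e1 : bubC κ u (g u) = κ * Real.tanh u := by
        unfold bubC
        rw [min_eq_right (by linarith only [hneg]), max_eq_right]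
        exact mul_le_mul_of_nonneg_right h.lo.le hT.le
      rw [e1]
      unfold gRhs qf
      set T := Real.tanh u
      have hκ := h.lo
      have e3 : ((m - 1) - (κ * T) ^ 2 / 4) * (κ * T - 2 * T) / (κ * T) =
          κ - κ * T ^ 2 * ((κ - 2) / 4) := by
        have hκ0 : κ ≠ 0 := by linarith only [hκ]
        have hT0 : T ≠ 0 := hT.ne'
        rw [div_eq_iff (mul_ne_zero hκ0 hT0)]
        have := h.eq
        linear_combination (-T) * this
      rw [e3]
      have e4 : κ * T ^ 2 * ((κ - 2) / 4) ≤ κ * T ^ 2 * 1 :=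
        mul_le_mul_of_nonneg_left (by linarith only [h, h.hi]) (by positivity)
      linarith only [e4]
    · have : g b = y₀ := hgb
      rw [this]
      linarith only [h2]
  refine ⟨g, hgb, fun u hu => ⟨by linarith only [hlo, hu, hlo u hu], by linarith only [hhi, hu, hhi u hu]⟩, hgc, ?_⟩
  intro u hu
  have hu' := Ioo_subset_Icc_self hu
  have e : bubC κ u (g u) = g u := by
    unfold bubC
    rw [min_eq_left (by linarith only [hhi, hu', hhi u hu']), max_eq_right (by linarith only [hlo, hu', hlo u hu'])]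
  have := hgd u hu
  rwa [e] at this

/-- Two solutions get closer backward. -/
theorem bub_contract (h : BubPar m κ) {a b : ℝ} (ha : 0 < a) {g g' : ℝ → ℝ}
    (h1 : ∀ u ∈ Icc a b, 2 * Real.tanh u ≤ g u ∧ g u ≤ κ * Real.tanh u)
    (h1' : ∀ u ∈ Icc a b, 2 * Real.tanh u ≤ g' u ∧ g' u ≤ κ * Real.tanh u)
    (hc : ContinuousOn g (Icc a b)) (hc' : ContinuousOn g' (Icc a b))
    (hd : ∀ u ∈ Ioo a b, HasDerivAt g (gRhs m u (g u)) u)
    (hd' : ∀ u ∈ Ioo a b, HasDerivAt g' (gRhs m u (g' u)) u) :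
    ∀ u ∈ Icc a b, |g u - g' u| ≤ Real.exp (u - b) * |g b - g' b| := by
  have hmono : MonotoneOn (fun u => (g u - g' u) ^ 2 * Real.exp (-2 * u)) (Icc a b) := by
    have hder : ∀ u ∈ Ioo a b, HasDerivAt (fun u => (g u - g' u) ^ 2 * Real.exp (-2 * u))
        (2 * (bubK m u (g u) (g' u) - 1) * (g u - g' u) ^ 2 * Real.exp (-2 * u)) u := by
      intro u hu
      have hu0 : 0 < u := lt_trans ha hu.1
      have hT := tanh_pos hu0
      have hu' := Ioo_subset_Icc_self hu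
      have e1 := ((hd u hu).sub (hd' u hu)).pow 2
      have e2 : HasDerivAt (fun u : ℝ => Real.exp (-2 * u)) (Real.exp (-2 * u) * (-2 * 1)) u :=
        ((hasDerivAt_id u).const_mul (-2)).exp
      have e3 := e1.mul e2
      refine e3.congr_deriv ?_
      have e4 := gRhs_sub m u (y := g u) (y' := g' u) (by linarith only [h1, hT, hu', (h1 u hu').1])
        (by linarith only [h1', hT, hu', (h1' u hu').1])
      simp only [Pi.sub_apply, Pi.pow_apply]
      rw [e4]
      push_cast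
      ring
    refine monotoneOn_of_deriv_nonneg (convex_Icc _ _) ?_ ?_ ?_
    · exact ((hc.sub hc').pow 2).mul (by fun_prop)
    · intro u hu
      rw [interior_Icc] at hu
      exact (hder u hu).differentiableAt.differentiableWithinAt
    · intro u hu
      rw [interior_Icc] at hu
      rw [(hder u hu).deriv]
      have hu' := Ioo_subset_Icc_self hu
      have e5 := bubK_ge h (lt_trans ha hu.1) (h1 u hu').1 (h1 u hu').2 (h1' u hu').1 (h1' u hu').2
      have : 0 ≤ bubK m u (g u) (g' u) - 1 := by linarith only [e5]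
      positivity
  intro u hu
  have h2 := hmono hu ⟨hu.1.trans hu.2, le_rfl⟩ hu.2
  simp only at h2
  have h3 : (g u - g' u) ^ 2 ≤ (Real.exp (u - b) * |g b - g' b|) ^ 2 := by
    have h4 : Real.exp (u - b) ^ 2 = Real.exp (-2 * b) * Real.exp (2 * u) := by
      rw [← Real.exp_nat_mul, ← Real.exp_add]
      congr 1
      push_cast
      ring
    rw [mul_pow, h4, sq_abs]
    have h5 : Real.exp (-2 * u) * Real.exp (2 * u) = 1 := by
      rw [← Real.exp_add]
      simp
    calc (g u - g' u) ^ 2 = (g u - g' u) ^ 2 * Real.exp (-2 * u) * Real.exp (2 * u) := by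
          rw [mul_assoc, h5, mul_one]
      _ ≤ (g b - g' b) ^ 2 * Real.exp (-2 * b) * Real.exp (2 * u) :=
          mul_le_mul_of_nonneg_right h2 (Real.exp_pos _).le
      _ = Real.exp (-2 * b) * Real.exp (2 * u) * (g b - g' b) ^ 2 := by ring
  exact abs_le_of_sq_le_sq h3 (by positivity)

theorem gRhs_hi (h : BubPar m κ) {u : ℝ} (hu : 0 < u) :
    gRhs m u (κ * Real.tanh u) = κ - κ * Real.tanh u ^ 2 * ((κ - 2) / 4) := by
  have hT := tanh_pos hu
  unfold gRhs qf
  set T := Real.tanh u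
  have hκ := h.lo
  have hκ0 : κ ≠ 0 := by linarith only [hκ]
  have hT0 : T ≠ 0 := hT.ne'
  rw [div_eq_iff (mul_ne_zero hκ0 hT0)]
  have := h.eq
  linear_combination (-T) * this

/-- Existence of the bubble profile. -/
theorem exists_bub (h : BubPar m κ) : ∃ g : ℝ → ℝ, IsBub0 m κ g := by
  have hm := h.m_ge
  have ha : ∀ n : ℕ, (0 : ℝ) < 1 / ((n : ℝ) + 1) := fun n => by positivity
  have hab : ∀ n : ℕ, 1 / ((n : ℝ) + 1) ≤ (n : ℝ) + 1 := fun n => by
    rw [div_le_iff₀ (by positivity)]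
    nlinarith only [Nat.cast_nonneg (α := ℝ) n]
  have hb : ∀ n : ℕ, (0 : ℝ) < (n : ℝ) + 1 := fun n => by positivity
  choose g hgb hreg hgc hgd using fun n : ℕ => exists_bub_on h (ha n) (hab n)
    (le_refl (2 * Real.tanh ((n : ℝ) + 1)))
    (mul_le_mul_of_nonneg_right h.lo.le (tanh_pos (hb n)).le)
  have hsub : ∀ n k : ℕ, n ≤ k →
      Icc (1 / ((n : ℝ) + 1)) ((n : ℝ) + 1) ⊆ Icc (1 / ((k : ℝ) + 1)) ((k : ℝ) + 1) := by
    intro n k hnk
    have hc : (n : ℝ) ≤ k := by exact_mod_cast hnk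
    refine Icc_subset_Icc ?_ (by linarith only [hc])
    exact one_div_le_one_div_of_le (hb n) (by linarith only [hc])
  have hsub' : ∀ n k : ℕ, n ≤ k →
      Ioo (1 / ((n : ℝ) + 1)) ((n : ℝ) + 1) ⊆ Ioo (1 / ((k : ℝ) + 1)) ((k : ℝ) + 1) := by
    intro n k hnk
    have hc : (n : ℝ) ≤ k := by exact_mod_cast hnk
    refine Ioo_subset_Ioo ?_ (by linarith only [hc])
    exact one_div_le_one_div_of_le (hb n) (by linarith only [hc])
  have hdist : ∀ n k : ℕ, n ≤ k → ∀ u ∈ Icc (1 / ((n : ℝ) + 1)) ((n : ℝ) + 1),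
      |g n u - g k u| ≤ Real.exp (u - ((n : ℝ) + 1)) := by
    intro n k hnk u hu
    have h1 := bub_contract h (ha n) (hreg n) (fun u hu => hreg k u (hsub n k hnk hu)) (hgc n)
      ((hgc k).mono (hsub n k hnk)) (hgd n) (fun u hu => hgd k u (hsub' n k hnk hu)) u hu
    refine h1.trans ?_
    have hend : (n : ℝ) + 1 ∈ Icc (1 / ((n : ℝ) + 1)) ((n : ℝ) + 1) := ⟨hab n, le_rfl⟩
    have h2 := hreg n _ hend
    have h3 := hreg k _ (hsub n k hnk hend)
    have hT1 := Real.tanh_lt_one ((n : ℝ) + 1)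
    have hT := tanh_pos (hb n)
    have h4 : κ * Real.tanh ((n : ℝ) + 1) - 2 * Real.tanh ((n : ℝ) + 1) ≤ 1 := by
      have : (κ - 2) * Real.tanh ((n : ℝ) + 1) ≤ 1 * 1 :=
        mul_le_mul (by linarith only [h, h.hi]) hT1.le hT.le (by norm_num)
      linarith only [this]
    have h5 : |g n ((n : ℝ) + 1) - g k ((n : ℝ) + 1)| ≤ 1 := by
      rw [abs_le]
      constructor <;> linarith only [h2, h3, h4, h2.1, h2.2, h3.1, h3.2]
    calc Real.exp (u - ((n : ℝ) + 1)) * |g n ((n : ℝ) + 1) - g k ((n : ℝ) + 1)|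
        ≤ Real.exp (u - ((n : ℝ) + 1)) * 1 := mul_le_mul_of_nonneg_left h5 (Real.exp_pos _).le
      _ = _ := mul_one _
  have hex : ∀ u v : ℝ, 0 < u → ∃ N : ℕ, 1 / ((N : ℝ) + 1) < u ∧ v < (N : ℝ) + 1 := by
    intro u v hu
    obtain ⟨N₁, hN₁⟩ := exists_nat_one_div_lt hu
    obtain ⟨N₂, hN₂⟩ := exists_nat_gt v
    refine ⟨max N₁ N₂, ?_, ?_⟩
    · refine lt_of_le_of_lt (one_div_le_one_div_of_le (hb N₁) ?_) hN₁
      push_cast
      linarith only [le_max_left (N₁ : ℝ) N₂]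
    · push_cast
      linarith only [hN₂, le_max_right (N₁ : ℝ) N₂]
  have hexp : ∀ u : ℝ, Tendsto (fun n : ℕ => Real.exp (u - ((n : ℝ) + 1))) atTop (𝓝 0) := by
    intro u
    refine Real.tendsto_exp_atBot.comp ?_
    refine tendsto_atBot_add_const_left _ u ?_ |>.congr fun n => (sub_eq_add_neg _ _).symm
    exact tendsto_neg_atTop_atBot.comp (tendsto_atTop_add_const_right _ 1 tendsto_natCast_atTop_atTop)
  have hlim : ∀ u : ℝ, ∃ l : ℝ, 0 < u → Tendsto (fun n => g n u) atTop (𝓝 l) := by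
    intro u
    by_cases hu : 0 < u
    · obtain ⟨N, hN1, hN2⟩ := hex u u hu
      have hcau : CauchySeq (fun n => g n u) := by
        rw [Metric.cauchySeq_iff']
        intro ε hε
        have h1 := (hexp u).eventually (gt_mem_nhds hε)
        obtain ⟨N', hN'⟩ := (h1.and (eventually_ge_atTop N)).exists
        refine ⟨N', fun n hn => ?_⟩
        rw [dist_comm, Real.dist_eq]
        refine lt_of_le_of_lt (hdist N' n hn u ?_) hN'.1
        exact hsub N N' hN'.2 ⟨hN1.le, hN2.le⟩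
      obtain ⟨l, hl⟩ := cauchySeq_tendsto_of_complete hcau
      exact ⟨l, fun _ => hl⟩
    · exact ⟨0, fun h => absurd h hu⟩
  choose G hG using hlim
  have herr : ∀ n : ℕ, ∀ u ∈ Icc (1 / ((n : ℝ) + 1)) ((n : ℝ) + 1),
      |g n u - G u| ≤ Real.exp (u - ((n : ℝ) + 1)) := by
    intro n u hu
    have hu0 : 0 < u := lt_of_lt_of_le (ha n) hu.1
    have h1 : Tendsto (fun k => |g n u - g k u|) atTop (𝓝 |g n u - G u|) :=
      (tendsto_const_nhds.sub (hG u hu0)).abs
    refine le_of_tendsto h1 ?_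
    filter_upwards [eventually_ge_atTop n] with k hk
    exact hdist n k hk u hu
  have hGreg : ∀ u, 0 < u → 2 * Real.tanh u ≤ G u ∧ G u ≤ κ * Real.tanh u := by
    intro u hu
    obtain ⟨N, hN1, hN2⟩ := hex u u hu
    constructor
    · refine ge_of_tendsto (hG u hu) ?_
      filter_upwards [eventually_ge_atTop N] with k hk
      exact (hreg k u (hsub N k hk ⟨hN1.le, hN2.le⟩)).1
    · refine le_of_tendsto (hG u hu) ?_
      filter_upwards [eventually_ge_atTop N] with k hk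
      exact (hreg k u (hsub N k hk ⟨hN1.le, hN2.le⟩)).2
  have hode : ∀ u, 0 < u → HasDerivAt G (gRhs m u (G u)) u := by
    intro u₀ hu₀
    obtain ⟨N, hN1, hN2⟩ := hex (u₀ / 2) (u₀ + 1) (by linarith only [hu₀])
    have hsubs : Ioo (u₀ / 2) (u₀ + 1) ⊆ Ioo (1 / ((N : ℝ) + 1)) ((N : ℝ) + 1) :=
      Ioo_subset_Ioo hN1.le hN2.le
    refine hasDerivAt_of_tendstoLocallyUniformlyOn (l := atTop) (f := g)
      (f' := fun n u => gRhs m u (g n u)) (g' := fun u => gRhs m u (G u))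
      (isOpen_Ioo (a := u₀ / 2) (b := u₀ + 1)) ?_ ?_ ?_ ⟨by linarith only [hu₀], by linarith only []⟩
    · refine TendstoUniformlyOn.tendstoLocallyUniformlyOn ?_
      rw [Metric.tendstoUniformlyOn_iff]
      intro ε hε
      have hT2 := tanh_pos (show 0 < u₀ / 2 by linarith only [hu₀])
      have h1 : Tendsto (fun n : ℕ => (m - 1) / Real.tanh (u₀ / 2) *
          Real.exp (u₀ + 1 - ((n : ℝ) + 1))) atTop (𝓝 0) := by
        have := (hexp (u₀ + 1)).const_mul ((m - 1) / Real.tanh (u₀ / 2))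
        rwa [mul_zero] at this
      filter_upwards [h1.eventually (gt_mem_nhds hε), eventually_ge_atTop N] with n hn hnN
      intro u hu
      have hu0 : 0 < u := by linarith only [hu₀, hu, hu.1]
      have hT := tanh_pos hu0
      have hun := hsub N n hnN (Ioo_subset_Icc_self (hsubs hu))
      have e1 := hreg n u hun
      have e2 := hGreg u hu0
      rw [dist_comm, Real.dist_eq, gRhs_sub m u (by linarith only [hT, e1, e1.1]) (by linarith only [hT, e2, e2.1]), abs_mul]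
      have e5 := bubK_ge h hu0 e1.1 e1.2 e2.1 e2.2
      have e6 := bubK_le h hu0 e1.1 e2.1
      rw [abs_of_nonneg (by linarith only [e5] : 0 ≤ bubK m u (g n u) (G u))]
      have e7 : (m - 1) / Real.tanh u ≤ (m - 1) / Real.tanh (u₀ / 2) :=
        div_le_div_of_nonneg_left (by linarith only [hm]) hT2 (tanh_mono.monotone hu.1.le)
      refine lt_of_le_of_lt ?_ hn
      refine mul_le_mul (e6.trans e7) ((herr n u hun).trans ?_) (abs_nonneg _) (by positivity)
      exact Real.exp_le_exp.mpr (by linarith only [hu, hu.2])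
    · filter_upwards [eventually_ge_atTop N] with n hn
      intro u hu
      exact hgd n u (hsub' N n hn (hsubs hu))
    · intro u hu
      exact hG u (by linarith only [hu₀, hu, hu.1])
  refine ⟨G, hode, ?_, ?_⟩
  · intro u hu
    refine lt_of_le_of_ne (hGreg u hu).1 fun heq => ?_
    have hmin : IsLocalMin (fun u => G u - 2 * Real.tanh u) u := by
      filter_upwards [Ioi_mem_nhds hu] with v hv
      have := (hGreg v hv).1
      linarith only [heq, this]
    have hd := (hode u hu).sub ((hasDerivAt_tanh u).const_mul 2)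
    have h0 := hmin.hasDerivAt_eq_zero hd
    rw [← heq] at h0
    unfold gRhs qf at h0
    rw [sub_self, mul_zero, zero_div] at h0
    have := Real.tanh_sq_lt_one u
    linarith only [h0, this]
  · intro u hu
    refine lt_of_le_of_ne (hGreg u hu).2 fun heq => ?_
    have hmin : IsLocalMin (fun u => κ * Real.tanh u - G u) u := by
      filter_upwards [Ioi_mem_nhds hu] with v hv
      have := (hGreg v hv).2
      linarith only [heq, this]
    have hd := ((hasDerivAt_tanh u).const_mul κ).sub (hode u hu)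
    have h0 := hmin.hasDerivAt_eq_zero hd
    rw [heq, gRhs_hi h hu] at h0
    have hT := tanh_pos hu
    have hκ := h.lo
    have h1 : κ * Real.tanh u ^ 2 * ((κ - 2) / 4) < κ * Real.tanh u ^ 2 * 1 :=
      mul_lt_mul_of_pos_left (by linarith only [h, h.hi]) (by positivity)
    linarith only [h0, h1]

section props

variable {g : ℝ → ℝ}

theorem bub_pos (hg : IsBub0 m κ g) {u : ℝ} (hu : 0 < u) : 0 < g u := by
  have h1 := hg.lo u hu
  have h2 := tanh_pos hu
  linarith only [h1, h2]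

theorem bub_lt_three (h : BubPar m κ) (hg : IsBub0 m κ g) {u : ℝ} (hu : 0 < u) : g u < 3 := by
  have h1 := hg.hi u hu
  have hT := tanh_pos hu
  have hT1 := Real.tanh_lt_one u
  have : κ * Real.tanh u ≤ 3 * 1 := mul_le_mul h.hi hT1.le hT.le (by norm_num)
  linarith only [h1, this]

theorem bub_q (h : BubPar m κ) (hg : IsBub0 m κ g) {u : ℝ} (hu : 0 < u) :
    27 / 4 < qf m (g u) := by
  have h1 := bub_pos hg hu
  have h2 := bub_lt_three h hg hu
  have hm := h.m_ge
  unfold qf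
  nlinarith only [h1, h2, hm]

theorem bub_rhs_pos (h : BubPar m κ) (hg : IsBub0 m κ g) {u : ℝ} (hu : 0 < u) :
    0 < gRhs m u (g u) := by
  have h1 := bub_pos hg hu
  have h2 := bub_q h hg hu
  have h3 := hg.lo u hu
  unfold gRhs
  exact div_pos (mul_pos (by linarith only [h2]) (by linarith only [h3])) h1

theorem bub_strictMono (h : BubPar m κ) (hg : IsBub0 m κ g) : StrictMonoOn g (Ioi 0) := by
  refine strictMonoOn_of_deriv_pos (convex_Ioi 0) ?_ ?_
  · exact fun u hu => (hg.ode u hu).continuousAt.continuousWithinAt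
  · intro u hu
    rw [interior_Ioi] at hu
    rw [(hg.ode u hu).deriv]
    exact bub_rhs_pos h hg hu

/-- The quantity `Φ = g (1 - T²) - T g'`. -/
noncomputable def bubPhi (m : ℝ) (g : ℝ → ℝ) (u : ℝ) : ℝ :=
  g u * (1 - Real.tanh u ^ 2) - Real.tanh u * gRhs m u (g u)

theorem hasDerivAt_rhs (hg : IsBub0 m κ g) {u : ℝ} (hu : 0 < u) :
    HasDerivAt (fun u => gRhs m u (g u))
      (bubK m u (g u) (g u) * gRhs m u (g u) +
        (1 - Real.tanh u ^ 2) * (g u / 2 - 2 * (m - 1) / g u)) u := by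
  have h0 := bub_pos hg hu
  have hd := hg.ode u hu
  have hT := hasDerivAt_tanh u
  have h1 : HasDerivAt (fun u => (m - 1) - g u ^ 2 / 4 - 2 * Real.tanh u * (m - 1) / g u +
      Real.tanh u * g u / 2) (0 - (2 * g u ^ (2 - 1) * gRhs m u (g u)) / 4 -
      ((2 * (1 - Real.tanh u ^ 2) * (m - 1)) * g u - 2 * Real.tanh u * (m - 1) * gRhs m u (g u)) /
        g u ^ 2 + ((1 - Real.tanh u ^ 2) * g u + Real.tanh u * gRhs m u (g u)) / 2) u := by
    have e1 := ((hasDerivAt_const u (m - 1)).sub ((hd.pow 2).div_const 4)).sub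
      (((hT.const_mul 2).mul_const (m - 1)).div hd h0.ne')
    have e2 := e1.add ((hT.mul hd).div_const 2)
    refine e2.congr_deriv ?_
    push_cast
    ring
  have h2 : (fun u => gRhs m u (g u)) =ᶠ[𝓝 u] (fun u => (m - 1) - g u ^ 2 / 4 -
      2 * Real.tanh u * (m - 1) / g u + Real.tanh u * g u / 2) := by
    filter_upwards [Ioi_mem_nhds hu] with v hv
    exact gRhs_eq m v (bub_pos hg hv).ne'
  refine (h1.congr_of_eventuallyEq h2).congr_deriv ?_
  unfold bubK
  field_simp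
  ring

theorem hasDerivAt_phi (hg : IsBub0 m κ g) {u : ℝ} (hu : 0 < u) :
    HasDerivAt (bubPhi m g) (bubK m u (g u) (g u) * bubPhi m g u -
      (1 - Real.tanh u ^ 2) * g u * (3 * Real.tanh u - g u / 2)) u := by
  have h0 := bub_pos hg hu
  have hd := hg.ode u hu
  have hT := hasDerivAt_tanh u
  have h1 := (hd.mul ((hT.pow 2).const_sub 1)).sub (hT.mul (hasDerivAt_rhs hg hu))
  have h2 : bubPhi m g = (g * fun x => 1 - (Real.tanh ^ 2) x) -
      (Real.tanh * fun u => gRhs m u (g u)) := by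
    funext x
    simp [bubPhi]
  rw [h2]
  refine h1.congr_deriv ?_
  simp only [Pi.sub_apply, Pi.mul_apply, Pi.pow_apply]
  have hT0 := tanh_pos hu
  unfold bubK
  field_simp
  ring

theorem bub_neg_mono (h : BubPar m κ) (hg : IsBub0 m κ g) {u : ℝ} (hu : 0 < u)
    (hneg : bubPhi m g u ≤ 0) : bubK m u (g u) (g u) * bubPhi m g u -
      (1 - Real.tanh u ^ 2) * g u * (3 * Real.tanh u - g u / 2) < 0 := by
  have h0 := bub_pos hg hu
  have hlo := hg.lo u hu
  have hhi := hg.hi u hu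
  have hK := bubK_ge h hu hlo.le hhi.le hlo.le hhi.le
  have hT := tanh_pos hu
  have hT2 := Real.tanh_sq_lt_one u
  have h3 : κ * Real.tanh u ≤ 3 * Real.tanh u := mul_le_mul_of_nonneg_right h.hi hT.le
  have h4 : 0 < (1 - Real.tanh u ^ 2) * g u * (3 * Real.tanh u - g u / 2) :=
    mul_pos (mul_pos (by linarith only [hT2]) h0) (by linarith only [hlo, hhi, h3])
  have h5 : bubK m u (g u) (g u) * bubPhi m g u ≤ 0 :=
    mul_nonpos_of_nonneg_of_nonpos (by linarith only [hK]) hneg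
  linarith only [h4, h5]

theorem hasDerivAt_quot (hg : IsBub0 m κ g) {u : ℝ} (hu : 0 < u) :
    HasDerivAt (fun u => g u / Real.tanh u) (-(bubPhi m g u) / Real.tanh u ^ 2) u := by
  have hT := tanh_pos hu
  have h1 := (hg.ode u hu).div (hasDerivAt_tanh u) hT.ne'
  refine h1.congr_deriv ?_
  unfold bubPhi
  ring

theorem bub_phi_nonneg (h : BubPar m κ) (hg : IsBub0 m κ g) {u : ℝ} (hu : 0 < u) :
    0 ≤ bubPhi m g u := by
  by_contra hlt
  rw [not_le] at hlt
  have hcont : ∀ v, 0 < v → ContinuousAt (bubPhi m g) v :=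
    fun v hv => (hasDerivAt_phi hg hv).continuousAt
  have hneg : ∀ v, u ≤ v → bubPhi m g v < 0 := by
    intro v hv
    by_contra h0
    rw [not_lt] at h0
    have := nonneg_backward (φ := bubPhi m g) (φ' := fun u => bubK m u (g u) (g u) * bubPhi m g u -
      (1 - Real.tanh u ^ 2) * g u * (3 * Real.tanh u - g u / 2)) (a := u) (b := v)
      (fun x hx => (hcont x (lt_of_lt_of_le hu hx.1)).continuousWithinAt)
      (fun x hx => hasDerivAt_phi hg (lt_trans hu hx.1))
      (fun x hx hx0 => (bub_neg_mono h hg (lt_trans hu hx.1) hx0.le).le) h0 u ⟨le_rfl, hv⟩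
    linarith only [hlt, this]
  have hanti : AntitoneOn (bubPhi m g) (Ici u) := by
    refine antitoneOn_of_deriv_nonpos (convex_Ici u) ?_ ?_ ?_
    · exact fun x hx => (hcont x (lt_of_lt_of_le hu hx)).continuousWithinAt
    · intro x hx
      rw [interior_Ici] at hx
      exact (hasDerivAt_phi hg (lt_trans hu hx)).differentiableAt.differentiableWithinAt
    · intro x hx
      rw [interior_Ici] at hx
      rw [(hasDerivAt_phi hg (lt_trans hu hx)).deriv]
      exact (bub_neg_mono h hg (lt_trans hu hx) (hneg x (le_of_lt hx)).le).le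
  set c := -bubPhi m g u with hc
  have hc0 : 0 < c := by linarith only [hlt]
  have hmono : MonotoneOn (fun v => g v / Real.tanh v - c * v) (Ici u) := by
    have hder : ∀ x, 0 < x → HasDerivAt (fun v => g v / Real.tanh v - c * v)
        (-(bubPhi m g x) / Real.tanh x ^ 2 - c * 1) x := fun x hx =>
      (hasDerivAt_quot hg hx).sub ((hasDerivAt_id x).const_mul c)
    refine monotoneOn_of_deriv_nonneg (convex_Ici u) ?_ ?_ ?_
    · exact fun x hx => (hder x (lt_of_lt_of_le hu hx)).continuousAt.continuousWithinAt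
    · intro x hx
      rw [interior_Ici] at hx
      exact (hder x (lt_trans hu hx)).differentiableAt.differentiableWithinAt
    · intro x hx
      rw [interior_Ici] at hx
      have hx0 := lt_trans hu hx
      rw [(hder x hx0).deriv]
      have h1 := hanti (mem_Ici.mpr le_rfl) (mem_Ici.mpr (le_of_lt hx)) (le_of_lt hx)
      have hT := tanh_pos hx0
      have hT2 := Real.tanh_sq_lt_one x
      have h2 : c ≤ -(bubPhi m g x) / Real.tanh x ^ 2 := by
        rw [le_div_iff₀ (by positivity)]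
        calc c * Real.tanh x ^ 2 ≤ c * 1 := mul_le_mul_of_nonneg_left hT2.le hc0.le
          _ ≤ -(bubPhi m g x) := by linarith only [h1]
      linarith only [h2]
  have hb : ∀ v, 0 < v → 0 < g v / Real.tanh v ∧ g v / Real.tanh v < 3 := by
    intro v hv
    have hT := tanh_pos hv
    refine ⟨div_pos (bub_pos hg hv) hT, ?_⟩
    rw [div_lt_iff₀ hT]
    exact lt_of_lt_of_le (hg.hi v hv) (mul_le_mul_of_nonneg_right h.hi hT.le)
  have h1 := hmono (mem_Ici.mpr le_rfl)
    (mem_Ici.mpr (by have := div_pos (show (0:ℝ) < 3 by norm_num) hc0; exact le_add_of_nonneg_right this.le))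
    (by have := div_pos (show (0:ℝ) < 3 by norm_num) hc0; linarith only [this])
  simp only at h1
  have h2 := (hb u hu).1
  have h3 := (hb (u + 3 / c) (by have := div_pos (show (0:ℝ) < 3 by norm_num) hc0; linarith only [hu, this])).2
  have h4 : c * (u + 3 / c) = c * u + 3 := by
    rw [mul_add, mul_div_cancel₀ _ hc0.ne']
  linarith only [h1, h2, h3, h4]

/-- (g4) -/
theorem bub_quot (h : BubPar m κ) (hg : IsBub0 m κ g) {u : ℝ} (hu : 0 < u) :
    gRhs m u (g u) * Real.tanh u ≤ g u * (1 - Real.tanh u ^ 2) := by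
  have := bub_phi_nonneg h hg hu
  unfold bubPhi at this
  linarith only [this]

/-- (g6) -/
theorem bub_near_top (h : BubPar m κ) (hg : IsBub0 m κ g) {u : ℝ} (hu : 0 < u) :
    g u / Real.tanh u - 2 ≤ 4 / 3 * (1 - Real.tanh u ^ 2) := by
  have hT := tanh_pos hu
  have h1 := bub_quot h hg hu
  have h0 := bub_pos hg hu
  have hq := bub_q h hg hu
  have hlo := hg.lo u hu
  have hT2 := Real.tanh_sq_lt_one u
  have h3 : g u < 3 * Real.tanh u :=
    lt_of_lt_of_le (hg.hi u hu) (mul_le_mul_of_nonneg_right h.hi hT.le)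
  rw [sub_le_iff_le_add, div_le_iff₀ hT]
  unfold gRhs at h1
  rw [div_mul_eq_mul_div, div_le_iff₀ h0] at h1
  set T := Real.tanh u
  set y := g u
  -- `q (y - 2T) T ≤ y² (1 - T²)`
  have h4 : 27 / 4 * ((y - 2 * T) * T) ≤ qf m y * ((y - 2 * T) * T) :=
    mul_le_mul_of_nonneg_right hq.le (mul_nonneg (by linarith only [hlo]) hT.le)
  have h5 : y ^ 2 ≤ 9 * T ^ 2 := by nlinarith only [hT, h0, h3]
  have h6 : y ^ 2 * (1 - T ^ 2) ≤ 9 * T ^ 2 * (1 - T ^ 2) :=
    mul_le_mul_of_nonneg_right h5 (by linarith only [hT2])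
  have h7 : 27 / 4 * ((y - 2 * T) * T) ≤ 9 * T ^ 2 * (1 - T ^ 2) := by
    calc 27 / 4 * ((y - 2 * T) * T) ≤ qf m y * ((y - 2 * T) * T) := h4
      _ = qf m y * (y - 2 * T) * T := by ring
      _ ≤ y * (1 - T ^ 2) * y := h1
      _ = y ^ 2 * (1 - T ^ 2) := by ring
      _ ≤ _ := h6
  have h8 : (y - 2 * T) ≤ 4 / 3 * (T * (1 - T ^ 2)) := by
    have : (y - 2 * T) * T ≤ (4 / 3 * (T * (1 - T ^ 2))) * T := by linarith only [h1, h4, h6]
    exact le_of_mul_le_mul_right this hT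
  linarith only [h8]

theorem one_sub_tanh_sq_le {u : ℝ} (hu : 0 < u) : 1 - Real.tanh u ^ 2 ≤ 4 / u := by
  have hc := Real.cosh_pos u
  have h1 : 1 - Real.tanh u ^ 2 = 1 / Real.cosh u ^ 2 := by
    rw [Real.tanh_eq_sinh_div_cosh, div_pow, eq_div_iff (by positivity), sub_mul,
      div_mul_cancel₀ _ (by positivity)]
    have := Real.cosh_sq u
    linarith only [this]
  have h2 : u / 2 ≤ Real.cosh u := by
    have e1 := Real.add_one_le_exp u
    have e2 := Real.exp_pos (-u)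
    rw [Real.cosh_eq]
    linarith only [e1, e2]
  have h3 := Real.one_le_cosh u
  rw [h1, div_le_div_iff₀ (by positivity) hu]
  nlinarith only [hu, hc, h2, h3]

/-- `g < 2` -/
theorem bub_lt_two (h : BubPar m κ) (hg : IsBub0 m κ g) {u : ℝ} (hu : 0 < u) : g u < 2 := by
  by_contra hge
  rw [not_lt] at hge
  have h1 := bub_strictMono h hg (show u ∈ Ioi 0 from hu)
    (show u + 1 ∈ Ioi 0 from by simp only [mem_Ioi]; linarith only [hu]) (by linarith only [])
  set η := g (u + 1) - 2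
  have hη : 0 < η := by linarith only [hge, h1]
  set v := max (u + 1) (8 / η) with hv
  have hv1 : u + 1 ≤ v := le_max_left _ _
  have hv2 : 8 / η ≤ v := le_max_right _ _
  have hv0 : 0 < v := by linarith only [hu, hv1]
  have h2 : g (u + 1) ≤ g v := (bub_strictMono h hg).monotoneOn
    (show u + 1 ∈ Ioi 0 from by simp only [mem_Ioi]; linarith only [hu]) hv0 hv1
  have h3 := bub_near_top h hg hv0
  have h4 := one_sub_tanh_sq_le hv0
  have hT := tanh_pos hv0
  have hT1 := Real.tanh_lt_one v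
  have h5 : g v ≤ g v / Real.tanh v := by
    rw [le_div_iff₀ hT]
    exact mul_le_of_le_one_right (bub_pos hg hv0).le hT1.le
  have h6 : 4 / v ≤ η / 2 := by
    rw [div_le_iff₀ hv0]
    have : η / 2 * (8 / η) ≤ η / 2 * v := mul_le_mul_of_nonneg_left hv2 (by linarith only [hge, h1])
    have e : η / 2 * (8 / η) = 4 := by
      field_simp
      norm_num
    linarith only [this, e]
  linarith only [hge, h1, h2, h3, h4, h5, h6]

/-- (g5) -/
theorem bub_near_zero (h : BubPar m κ) (hg : IsBub0 m κ g) {C : ℝ} (hC1 : κ ^ 2 ≤ C * (m - 1 - 4 * κ))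
    (hC2 : κ - 2 < C) {u : ℝ} (hu : 0 < u) : κ - g u / Real.tanh u ≤ C * Real.tanh u ^ 2 := by
  have hκ := h.lo
  have hC0 : 0 < C := by linarith only [hC2, hκ]
  -- a point where the barrier holds
  obtain ⟨b, hub, hb⟩ : ∃ b, u ≤ b ∧ κ - 2 ≤ C * Real.tanh b ^ 2 := by
    have hε : 0 < C - (κ - 2) := by linarith only [hC2]
    refine ⟨max u (4 * C / (C - (κ - 2))), le_max_left _ _, ?_⟩
    set b := max u (4 * C / (C - (κ - 2)))
    have hb2 : 4 * C / (C - (κ - 2)) ≤ b := le_max_right _ _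
    have hb0 : 0 < b := lt_of_lt_of_le hu (le_max_left _ _)
    have h4 := one_sub_tanh_sq_le hb0
    have h5 : C * (4 / b) ≤ C - (κ - 2) := by
      rw [← mul_div_assoc, div_le_iff₀ hb0]
      rw [div_le_iff₀ hε] at hb2
      linarith only [hb2]
    have h6 : C * (1 - Real.tanh b ^ 2) ≤ C * (4 / b) := mul_le_mul_of_nonneg_left h4 hC0.le
    linarith only [h5, h6]
  have hmain := nonneg_backward
    (φ := fun u => g u - κ * Real.tanh u + C * Real.tanh u ^ 3)
    (φ' := fun u => gRhs m u (g u) - κ * (1 - Real.tanh u ^ 2) +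
      C * (3 * Real.tanh u ^ 2 * (1 - Real.tanh u ^ 2))) (a := u) (b := b) ?_ ?_ ?_ ?_ u ⟨le_rfl, hub⟩
  · have hT := tanh_pos hu
    rw [sub_le_iff_le_add, ← sub_le_iff_le_add', le_div_iff₀ hT]
    linarith only [hmain]
  · intro x hx
    have hx0 : 0 < x := lt_of_lt_of_le hu hx.1
    have hc := (hg.ode x hx0).continuousAt
    have ht : ContinuousAt Real.tanh x := continuous_tanh.continuousAt
    exact ContinuousAt.continuousWithinAt (by fun_prop)
  · intro x hx
    have hx0 : 0 < x := lt_trans hu hx.1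
    have e := ((hg.ode x hx0).sub ((hasDerivAt_tanh x).const_mul κ)).add
      (((hasDerivAt_tanh x).pow 3).const_mul C)
    refine e.congr_deriv ?_
    push_cast
    ring
  · intro x hx hneg
    have hx0 : 0 < x := lt_trans hu hx.1
    have hT := tanh_pos hx0
    have hT2 := Real.tanh_sq_lt_one x
    have hlo := hg.lo x hx0
    have h0 := bub_pos hg hx0
    set T := Real.tanh x
    set y := g x
    set ρ := κ - C * T ^ 2 with hρ
    have hyρ : y < ρ * T := by
      have : ρ * T = κ * T - C * T ^ 3 := by rw [hρ]; ring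
      linarith only [hneg]
    have hρ2 : 2 < ρ := by
      have : 2 * T < ρ * T := by linarith only [hneg, hlo]
      exact lt_of_mul_lt_mul_right this hT.le
    have hm := h.m_ge
    have hT20 : 0 ≤ T ^ 2 := sq_nonneg T
    -- the key polynomial inequality
    have key : (m - 1) * (ρ - 2) ≤ (κ - 3 * C * T ^ 2) * (1 - T ^ 2) * ρ := by
      have e1 : (m - 1) * (ρ - 2) = κ ^ 2 - (m - 1) * C * T ^ 2 := by
        rw [hρ, h.eq]; ring
      have e2 : (κ - 3 * C * T ^ 2) * (1 - T ^ 2) * ρ = κ ^ 2 - 4 * C * κ * T ^ 2 - κ ^ 2 * T ^ 2 +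
          4 * C * κ * T ^ 2 * T ^ 2 + 3 * C ^ 2 * T ^ 2 * T ^ 2 * (1 - T ^ 2) := by
        rw [hρ]; ring
      have e3 : κ ^ 2 * T ^ 2 ≤ C * (m - 1 - 4 * κ) * T ^ 2 := mul_le_mul_of_nonneg_right hC1 hT20
      have e4 : 0 ≤ 4 * C * κ * T ^ 2 * T ^ 2 := by positivity
      have e5 : 0 ≤ 3 * C ^ 2 * T ^ 2 * T ^ 2 * (1 - T ^ 2) :=
        mul_nonneg (by positivity) (by linarith only [hT2])
      rw [e1, e2]
      linarith only [e3, e4, e5]
    have hρT : 0 < ρ * T := by positivity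
    have e6 : gRhs m x y ≤ (m - 1) * (y - 2 * T) / y := by
      unfold gRhs qf
      refine div_le_div_of_nonneg_right ?_ h0.le
      refine mul_le_mul_of_nonneg_right ?_ (by linarith only [hlo])
      nlinarith only [sq_nonneg y]
    have e7 : (m - 1) * (y - 2 * T) / y ≤ (κ - 3 * C * T ^ 2) * (1 - T ^ 2) := by
      rw [div_le_iff₀ h0]
      have e8 : (m - 1) * (y - 2 * T) * ρ ≤ (m - 1) * (ρ - 2) * y := by
        have : (m - 1) * ((y - 2 * T) * ρ - (ρ - 2) * y) ≤ 0 := by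
          refine mul_nonpos_of_nonneg_of_nonpos (by linarith only [hm]) ?_
          have : (y - 2 * T) * ρ - (ρ - 2) * y = 2 * (y - ρ * T) := by ring
          rw [this]
          linarith only [hneg]
        linarith only [this]
      have e9 : (m - 1) * (ρ - 2) * y ≤ (κ - 3 * C * T ^ 2) * (1 - T ^ 2) * ρ * y :=
        mul_le_mul_of_nonneg_right key h0.le
      have e10 : (m - 1) * (y - 2 * T) * ρ ≤ (κ - 3 * C * T ^ 2) * (1 - T ^ 2) * y * ρ := by
        calc _ ≤ _ := e8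
          _ ≤ _ := e9
          _ = _ := by ring
      exact le_of_mul_le_mul_right e10 (by linarith only [hρ2])
    have e11 : (κ - 3 * C * T ^ 2) * (1 - T ^ 2) = κ * (1 - T ^ 2) - C * (3 * T ^ 2 * (1 - T ^ 2)) := by
      ring
    linarith only [e6, e7]
  · have hb0 : 0 < b := lt_of_lt_of_le hu hub
    have hT := tanh_pos hb0
    have hlo := hg.lo b hb0
    have : 0 ≤ Real.tanh b * (C * Real.tanh b ^ 2 - (κ - 2)) := mul_nonneg hT.le (by linarith only [hb])
    have e : Real.tanh b * (C * Real.tanh b ^ 2 - (κ - 2)) =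
      2 * Real.tanh b - κ * Real.tanh b + C * Real.tanh b ^ 3 := by ring
    linarith only [hlo, this]

open scoped ContDiff in
/-- Smoothness on `(0,∞)`. -/
theorem bub_smooth (hg : IsBub0 m κ g) : ContDiffOn ℝ ∞ g (Ioi 0) := by
  have hT : ContDiff ℝ ∞ Real.tanh := by
    have : Real.tanh = fun x => Real.sinh x / Real.cosh x := by
      funext x; exact Real.tanh_eq_sinh_div_cosh x
    rw [this]
    exact Real.contDiff_sinh.div Real.contDiff_cosh fun x => (Real.cosh_pos x).ne'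
  rw [contDiffOn_infty]
  intro n
  induction n with
  | zero =>
    rw [Nat.cast_zero, contDiffOn_zero]
    exact fun u hu => (hg.ode u hu).continuousAt.continuousWithinAt
  | succ n ih =>
    rw [Nat.cast_succ, contDiffOn_succ_iff_deriv_of_isOpen isOpen_Ioi]
    refine ⟨fun u hu => (hg.ode u hu).differentiableAt.differentiableWithinAt, ?_, ?_⟩
    · intro hω
      exact absurd hω (by simp)
    · have h1 : ContDiffOn ℝ n (fun u => gRhs m u (g u)) (Ioi 0) := by
        unfold gRhs qf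
        refine ContDiffOn.div ?_ ih fun u hu => (bub_pos hg hu).ne'
        have hTn : ContDiffOn ℝ n Real.tanh (Ioi 0) := (hT.of_le (by exact_mod_cast le_top)).contDiffOn
        fun_prop
      refine h1.congr fun u hu => ?_
      exact (hg.ode u hu).deriv

end props

/-- The parameters of the main theorem. -/
theorem bubPar_forty : BubPar 40 (kap 40) ∧ kap 40 ^ 2 ≤ 1 / 4 * (40 - 1 - 4 * kap 40) ∧
    kap 40 - 2 < 1 / 4 := by
  have h1 : Real.sqrt ((40 - 1) * (40 - 9)) ^ 2 = 1209 := by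
    rw [Real.sq_sqrt (by norm_num)]; norm_num
  have h2 : 0 ≤ Real.sqrt ((40 - 1) * (40 - 9)) := Real.sqrt_nonneg _
  have h3 : Real.sqrt ((40 - 1) * (40 - 9)) < 34.8 := by
    rw [Real.sqrt_lt' (by norm_num)]
    norm_num
  have h4 : 34.77 < Real.sqrt ((40 - 1) * (40 - 9)) := by
    rw [Real.lt_sqrt (by norm_num)]
    norm_num
  have h5 : kap 40 ^ 2 = 682.5 - 19.5 * Real.sqrt ((40 - 1) * (40 - 9)) := by
    unfold kap
    linear_combination h1 / 4
  have h6 : kap 40 = (39 - Real.sqrt ((40 - 1) * (40 - 9))) / 2 := by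
    unfold kap
    norm_num
  refine ⟨⟨?_, ?_, ?_⟩, ?_, ?_⟩
  · rw [h5, h6]; ring
  · rw [h6]; linarith only [h3, h4]
  · rw [h6]; linarith only [h3, h4]
  · rw [h5, h6]; linarith only [h3, h4]
  · rw [h6]; linarith only [h3, h4]

/-- The odd extension. -/
noncomputable def oddExt (g : ℝ → ℝ) (u : ℝ) : ℝ :=
  if 0 < u then g u else if u < 0 then -g (-u) else 0

theorem oddExt_pos {g : ℝ → ℝ} {u : ℝ} (hu : 0 < u) : oddExt g u = g u := if_pos hu

theorem oddExt_odd (g : ℝ → ℝ) (u : ℝ) : oddExt g (-u) = -oddExt g u := by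
  unfold oddExt
  rcases lt_trichotomy u 0 with h | h | h
  · rw [if_pos (by linarith only [h]), if_neg (by linarith only [h]), if_pos h]
    ring
  · subst h
    simp
  · rw [if_neg (by linarith only [h]), if_pos (by linarith only [h]), if_pos h]
    ring_nf

/-- The bubble profile: all the fields of `IsBub 40` with the exception of `tip`. -/
theorem exists_core : ∃ g : ℝ → ℝ, IsBub0 40 (kap 40) g ∧ g 0 = 0 ∧ (∀ u, g (-u) = - g u) := by
  obtain ⟨g, hg⟩ := exists_bub bubPar_forty.1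
  refine ⟨oddExt g, ⟨?_, ?_, ?_⟩, by simp [oddExt], oddExt_odd g⟩
  · intro u hu
    have h1 : oddExt g =ᶠ[𝓝 u] g := by
      filter_upwards [Ioi_mem_nhds hu] with v hv
      exact oddExt_pos hv
    rw [oddExt_pos hu]
    exact (hg.ode u hu).congr_of_eventuallyEq h1
  · intro u hu
    rw [oddExt_pos hu]
    exact hg.lo u hu
  · intro u hu
    rw [oddExt_pos hu]
    exact hg.hi u hu

end Vale.Agent.P244.ST.BD.BubG
end

section

/-!
# P244-ST, block B2: smoothness of the bubble function at the tip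

With `ζ = e^{-2u}`, `σ = ζ/(1+ζ)`, `v = 1/g = 1/2 + y`, `a = (m-2)/4` the bubble equation
`g g' = ((m-1) - g²/4)(g - 2 tanh u)` becomes the regular singular equation
`ζ y_ζ = (a + (m-1)(y+y²))(-y + σ(1+2y))`.  We solve it by the implicit function theorem in
the Banach algebra `C([0,1])`, which gives a solution analytic at `ζ = 0`.
-/

open Set Filter Topology MeasureTheory
open scoped ContDiff

namespace Vale.Agent.P244.ST.BD.BubTip


/-- The Banach algebra `C([0,1])`. -/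
abbrev XX := C(↥(Icc (0:ℝ) 1), ℝ)

/-- Projection to `[0,1]`. -/
noncomputable def pr (t : ℝ) : ↥(Icc (0:ℝ) 1) := projIcc 0 1 zero_le_one t

theorem continuous_pr : Continuous pr := continuous_projIcc (h := zero_le_one)

theorem pr_val {t : ℝ} (h0 : 0 ≤ t) (h1 : t ≤ 1) : ((pr t : ↥(Icc (0:ℝ) 1)) : ℝ) = t := by
  unfold pr
  rw [projIcc_of_mem zero_le_one (⟨h0, h1⟩ : t ∈ Icc (0:ℝ) 1)]

theorem pr_coe (s : ↥(Icc (0:ℝ) 1)) : pr (s : ℝ) = s := by
  unfold pr
  exact projIcc_val zero_le_one s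

theorem cont_integrand (a : ℝ) (ha : 1 ≤ a) (f : XX) :
    Continuous (Function.uncurry (fun (s : ↥(Icc (0:ℝ) 1)) (τ : ℝ) =>
      τ ^ (a - 1) * f (pr (τ * s)))) := by
  have h1 : Continuous fun p : ↥(Icc (0:ℝ) 1) × ℝ => p.2 ^ (a - 1) :=
    continuous_snd.rpow_const (fun p => Or.inr (by linarith only [ha]))
  have h2 : Continuous fun p : ↥(Icc (0:ℝ) 1) × ℝ => f (pr (p.2 * (p.1 : ℝ))) :=
    f.continuous.comp (continuous_pr.comp
      (continuous_snd.mul (continuous_subtype_val.comp continuous_fst)))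
  exact h1.mul h2

/-- The integral operator as a function. -/
noncomputable def opFun (a : ℝ) (ha : 1 ≤ a) (f : XX) : XX :=
  ⟨fun s => ∫ τ in (0:ℝ)..1, τ ^ (a - 1) * f (pr (τ * s)),
    intervalIntegral.continuous_parametric_intervalIntegral_of_continuous'
      (cont_integrand a ha f) 0 1⟩

theorem opFun_apply (a : ℝ) (ha : 1 ≤ a) (f : XX) (s : ↥(Icc (0:ℝ) 1)) :
    opFun a ha f s = ∫ τ in (0:ℝ)..1, τ ^ (a - 1) * f (pr (τ * s)) := rfl

theorem intble (a : ℝ) (ha : 1 ≤ a) (f : XX) (s : ↥(Icc (0:ℝ) 1)) :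
    IntervalIntegrable (fun τ : ℝ => τ ^ (a - 1) * f (pr (τ * s))) volume 0 1 := by
  apply Continuous.intervalIntegrable
  exact (cont_integrand a ha f).comp (continuous_const.prodMk continuous_id)

/-- The integral operator `(T f)(s) = ∫₀¹ τ^{a-1} f(τ s) dτ`. -/
noncomputable def op (a : ℝ) (ha : 1 ≤ a) : XX →L[ℝ] XX :=
  LinearMap.mkContinuous
    { toFun := opFun a ha
      map_add' := by
        intro f g
        ext s
        rw [ContinuousMap.add_apply, opFun_apply, opFun_apply, opFun_apply,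
          ← intervalIntegral.integral_add (intble a ha f s) (intble a ha g s)]
        congr 1
        ext τ
        rw [ContinuousMap.add_apply]
        ring
      map_smul' := by
        intro c f
        ext s
        rw [ContinuousMap.smul_apply, opFun_apply, opFun_apply, RingHom.id_apply, smul_eq_mul,
          ← intervalIntegral.integral_const_mul]
        congr 1
        ext τ
        rw [ContinuousMap.smul_apply, smul_eq_mul]
        ring } 1 (by
      intro f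
      rw [one_mul]
      refine (ContinuousMap.norm_le _ (norm_nonneg f)).2 ?_
      intro s
      change ‖∫ τ in (0:ℝ)..1, τ ^ (a - 1) * f (pr (τ * s))‖ ≤ ‖f‖
      have h := intervalIntegral.norm_integral_le_of_norm_le_const (a := (0:ℝ)) (b := 1)
        (f := fun τ : ℝ => τ ^ (a - 1) * f (pr (τ * s))) (C := ‖f‖) ?_
      · simpa using h
      · intro τ hτ
        rw [uIoc_of_le zero_le_one] at hτ
        rw [norm_mul]
        have h1 : ‖τ ^ (a - 1)‖ ≤ 1 := by
          rw [Real.norm_of_nonneg (Real.rpow_nonneg hτ.1.le _)]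
          exact Real.rpow_le_one hτ.1.le hτ.2 (by linarith only [ha])
        have h2 : ‖f (pr (τ * s))‖ ≤ ‖f‖ := f.norm_coe_le_norm _
        nlinarith only [h1, h2, norm_nonneg (f (pr (τ * s))), norm_nonneg (τ ^ (a - 1))])

theorem op_apply (a : ℝ) (ha : 1 ≤ a) (f : XX) (s : ↥(Icc (0:ℝ) 1)) :
    op a ha f s = ∫ τ in (0:ℝ)..1, τ ^ (a - 1) * f (pr (τ * s)) := rfl

/-- The coordinate function. -/
noncomputable def iot : XX := ⟨fun s => (s : ℝ), continuous_subtype_val⟩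

theorem iot_apply (s : ↥(Icc (0:ℝ) 1)) : iot s = (s : ℝ) := rfl

/-- `σ` as a function of `μ` with values in `C([0,1])`. -/
noncomputable def sg (μ : ℝ) : XX := (μ • iot) * Ring.inverse (1 + μ • iot)

theorem isUnit_sg {μ : ℝ} (hμ : |μ| < 1) : IsUnit (1 + μ • iot) := by
  rw [ContinuousMap.isUnit_iff_forall_ne_zero]
  intro s
  rw [ContinuousMap.add_apply, ContinuousMap.smul_apply, ContinuousMap.one_apply, smul_eq_mul,
    iot_apply]
  have h1 := s.2.1
  have h2 := s.2.2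
  have h3 : |μ * s| < 1 := by
    rw [abs_mul, abs_of_nonneg h1]
    nlinarith only [hμ, h2, abs_nonneg μ]
  have h4 := abs_lt.1 h3
  linarith only [h4, h4.1]

theorem sg_apply {μ : ℝ} (hμ : |μ| < 1) (s : ↥(Icc (0:ℝ) 1)) :
    sg μ s = (μ * s) / (1 + μ * s) := by
  have h := Ring.inverse_mul_cancel _ (isUnit_sg hμ)
  have h2 := congrArg (fun f : XX => f s) h
  simp only [ContinuousMap.mul_apply, ContinuousMap.add_apply, ContinuousMap.one_apply,
    ContinuousMap.smul_apply, smul_eq_mul, iot_apply] at h2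
  have h3 : (1 + μ * (s:ℝ)) ≠ 0 := by
    intro h0
    rw [h0, mul_zero] at h2
    exact zero_ne_one h2
  unfold sg
  simp only [ContinuousMap.mul_apply, ContinuousMap.smul_apply, smul_eq_mul, iot_apply]
  rw [div_eq_mul_inv]
  congr 1
  exact eq_inv_of_mul_eq_one_left h2

theorem sg_zero : sg 0 = 0 := by
  unfold sg
  simp

theorem contDiffAt_sg : ContDiffAt ℝ ω sg 0 := by
  unfold sg
  have h1 : ContDiffAt ℝ ω (fun μ : ℝ => μ • iot) 0 := contDiffAt_id.smul contDiffAt_const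
  refine h1.mul ?_
  have h2 : ContDiffAt ℝ ω (fun μ : ℝ => (1 : XX) + μ • iot) 0 := contDiffAt_const.add h1
  have h3 : ContDiffAt ℝ ω (Ring.inverse : XX → XX) ((1 : XX) + (0:ℝ) • iot) := by
    rw [zero_smul, add_zero]
    exact contDiffAt_ringInverse ℝ (1 : XXˣ)
  exact ContDiffAt.comp (0:ℝ) h3 h2

/-- Right-hand side (scalar). -/
noncomputable def NN (m a σ y : ℝ) : ℝ :=
  a * σ * (1 + 2 * y) + (m - 1) * (y + y ^ 2) * (-y + σ * (1 + 2 * y))

/-- Right-hand side in the Banach algebra. -/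
noncomputable def Nop (m a : ℝ) (v : ℝ × XX) : XX :=
  a • (sg v.1 * (1 + (2:ℝ) • v.2)) +
    (m - 1) • ((v.2 + v.2 ^ 2) * (-v.2 + sg v.1 * (1 + (2:ℝ) • v.2)))

theorem Nop_apply (m a : ℝ) {μ : ℝ} (hμ : |μ| < 1) (h : XX) (s : ↥(Icc (0:ℝ) 1)) :
    Nop m a (μ, h) s = NN m a ((μ * s) / (1 + μ * s)) (h s) := by
  unfold Nop NN
  simp only [ContinuousMap.mul_apply, ContinuousMap.add_apply, ContinuousMap.one_apply,
    ContinuousMap.smul_apply, smul_eq_mul, ContinuousMap.pow_apply, ContinuousMap.neg_apply,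
    sg_apply hμ]
  ring

/-- The implicit equation. -/
noncomputable def FF (m a : ℝ) (ha : 1 ≤ a) (v : ℝ × XX) : XX := v.2 - op a ha (Nop m a v)

theorem contDiffAt_FF (m a : ℝ) (ha : 1 ≤ a) : ContDiffAt ℝ ω (FF m a ha) (0, 0) := by
  unfold FF
  have hsnd : ContDiffAt ℝ ω (fun v : ℝ × XX => v.2) (0, 0) := contDiffAt_snd
  have hsg : ContDiffAt ℝ ω (fun v : ℝ × XX => sg v.1) (0, 0) :=
    ContDiffAt.comp (x := ((0, 0) : ℝ × XX)) (g := sg) (f := Prod.fst) contDiffAt_sg contDiffAt_fst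
  refine hsnd.sub ?_
  refine (op a ha).contDiff.contDiffAt.comp _ ?_
  unfold Nop
  have h12 : ContDiffAt ℝ ω (fun v : ℝ × XX => (1 : XX) + (2:ℝ) • v.2) (0, 0) :=
    contDiffAt_const.add (hsnd.const_smul 2)
  have hA := hsg.mul h12
  exact (hA.const_smul a).add
    (((hsnd.add (hsnd.pow 2)).mul (hsnd.neg.add hA)).const_smul (m - 1))

theorem FF_zero (m a : ℝ) (ha : 1 ≤ a) : FF m a ha (0, 0) = 0 := by
  unfold FF Nop
  simp [sg_zero]

theorem hasFDerivAt_inr (m a : ℝ) (ha : 1 ≤ a) :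
    (fderiv ℝ (FF m a ha) (0, 0)) ∘L (ContinuousLinearMap.inr ℝ ℝ XX) =
      ContinuousLinearMap.id ℝ XX := by
  have hd : HasFDerivAt (FF m a ha) (fderiv ℝ (FF m a ha) (0, 0)) ((0, 0) : ℝ × XX) :=
    ((contDiffAt_FF m a ha).differentiableAt (by simp)).hasFDerivAt
  have hc : HasFDerivAt (fun h : XX => FF m a ha (0, h))
      ((fderiv ℝ (FF m a ha) (0, 0)) ∘L (ContinuousLinearMap.inr ℝ ℝ XX)) (0 : XX) := by
    have hi : HasFDerivAt (fun h : XX => ((0 : ℝ), h)) (ContinuousLinearMap.inr ℝ ℝ XX) (0 : XX) :=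
      (ContinuousLinearMap.inr ℝ ℝ XX).hasFDerivAt
    exact HasFDerivAt.comp (0 : XX) hd hi
  have hc2 : HasFDerivAt (fun h : XX => FF m a ha (0, h)) (ContinuousLinearMap.id ℝ XX)
      (0 : XX) := by
    have e : (fun h : XX => FF m a ha (0, h)) =
        fun h : XX => h - op a ha ((m - 1) • ((h + h ^ 2) * (-h))) := by
      ext1 h
      unfold FF Nop
      simp [sg_zero]
    rw [e]
    have h1 : HasFDerivAt (fun h : XX => h) (ContinuousLinearMap.id ℝ XX) (0 : XX) :=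
      hasFDerivAt_id _
    have h2 := (h1.add (h1.pow 2)).mul h1.neg
    have h3 := (op a ha).hasFDerivAt.comp (0:XX) (h2.const_smul (m - 1))
    have h4 := h1.sub h3
    refine h4.congr_fderiv ?_
    ext1 h
    simp
  exact hc.unique hc2

theorem exists_psi (m a : ℝ) (ha : 1 ≤ a) : ∃ ψ : ℝ → XX, ContDiffAt ℝ ω ψ 0 ∧ ψ 0 = 0 ∧
    ∃ r > 0, r < 1 ∧ (∀ μ : ℝ, |μ| < r → FF m a ha (μ, ψ μ) = 0) ∧
      (∀ (μ : ℝ) (h : XX), |μ| < r → ‖h‖ < r → FF m a ha (μ, h) = 0 → h = ψ μ) := by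
  have hinv : (fderiv ℝ (FF m a ha) ((0, 0) : ℝ × XX) ∘L
      ContinuousLinearMap.inr ℝ ℝ XX).IsInvertible := by
    rw [hasFDerivAt_inr]
    exact ⟨ContinuousLinearEquiv.refl ℝ XX, rfl⟩
  have hn : (ω : WithTop ℕ∞) ≠ 0 := by simp
  have hc := contDiffAt_FF m a ha
  refine ⟨hc.implicitFunction hn hinv, hc.contDiffAt_implicitFunction hn hinv,
    hc.implicitFunction_apply_self hn hinv, ?_⟩
  have h1 := hc.eventually_apply_implicitFunction hn hinv
  have h2 := hc.eventually_apply_eq_iff_implicitFunction hn hinv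
  rw [FF_zero] at h1 h2
  obtain ⟨r1, hr1, h1'⟩ := Metric.eventually_nhds_iff.1 h1
  obtain ⟨r2, hr2, h2'⟩ := Metric.eventually_nhds_iff.1 h2
  refine ⟨min (1/2) (min r1 r2), by positivity, ?_, ?_, ?_⟩
  · exact lt_of_le_of_lt (min_le_left _ _) (by norm_num)
  · intro μ hμ
    apply h1'
    simp only [Real.dist_eq, sub_zero]
    exact lt_of_lt_of_le hμ ((min_le_right _ _).trans (min_le_left _ _))
  · intro μ h hμ hh h0
    have h3 := (h2' (y := (μ, h)) ?_).1 h0
    · exact h3.symm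
    · rw [Prod.dist_eq]
      simp only [dist_zero_right, Real.norm_eq_abs]
      have hmin := (min_le_right (1/2 : ℝ) (min r1 r2)).trans (min_le_right _ _)
      exact max_lt (lt_of_lt_of_le hμ hmin) (lt_of_lt_of_le hh hmin)

/-- Rescaling of a function on `[0,1]`. -/
noncomputable def resc (σ : ↥(Icc (0:ℝ) 1)) (h : XX) : XX :=
  ⟨fun s => h (pr (σ * s)),
    h.continuous.comp (continuous_pr.comp (continuous_const.mul continuous_subtype_val))⟩

theorem resc_apply (σ : ↥(Icc (0:ℝ) 1)) (h : XX) (s : ↥(Icc (0:ℝ) 1)) :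
    resc σ h s = h (pr (σ * s)) := rfl

theorem norm_resc_le (σ : ↥(Icc (0:ℝ) 1)) (h : XX) : ‖resc σ h‖ ≤ ‖h‖ :=
  (ContinuousMap.norm_le _ (norm_nonneg h)).2 (fun _ => h.norm_coe_le_norm _)

theorem FF_resc (m a : ℝ) (ha : 1 ≤ a) {μ : ℝ} (hμ : |μ| < 1) (h : XX)
    (h0 : FF m a ha (μ, h) = 0) (σ : ↥(Icc (0:ℝ) 1)) : FF m a ha (μ * σ, resc σ h) = 0 := by
  have hs1 := σ.2.1
  have hs2 := σ.2.2
  have hμσ : |μ * (σ:ℝ)| < 1 := by
    rw [abs_mul, abs_of_nonneg hs1]
    nlinarith only [hμ, hs2, abs_nonneg μ]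
  ext s
  have hss1 := s.2.1
  have hss2 := s.2.2
  have h1 := congrArg (fun f : XX => f (pr (σ * s))) h0
  unfold FF at h1 ⊢
  simp only [ContinuousMap.sub_apply, ContinuousMap.zero_apply, op_apply] at h1 ⊢
  rw [resc_apply]
  refine Eq.trans ?_ h1
  congr 1
  apply intervalIntegral.integral_congr
  intro τ hτ
  rw [uIcc_of_le zero_le_one] at hτ
  have h01 : 0 ≤ τ * (s:ℝ) := mul_nonneg hτ.1 hss1
  have h02 : τ * (s:ℝ) ≤ 1 := by nlinarith only [hss1, hss2, hτ, hτ.1, hτ.2]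
  have h03 : 0 ≤ (σ:ℝ) * s := mul_nonneg hs1 hss1
  have h04 : (σ:ℝ) * s ≤ 1 := by nlinarith only [hs1, hs2, hss2]
  have h05 : 0 ≤ τ * ((σ:ℝ) * s) := mul_nonneg hτ.1 h03
  have h06 : τ * ((σ:ℝ) * s) ≤ 1 := by nlinarith only [hs1, hs2, h02, hτ.1, hτ.2]
  simp only
  rw [Nop_apply m a hμσ, Nop_apply m a hμ, resc_apply, pr_val h01 h02, pr_val h03 h04,
    pr_val h05 h06]
  have e1 : μ * (σ:ℝ) * (τ * s) = μ * (τ * (σ * s)) := by ring
  have e2 : (σ:ℝ) * (τ * s) = τ * (σ * s) := by ring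
  rw [e1, e2]

theorem exists_H (m a : ℝ) (ha : 1 ≤ a) : ∃ H : ℝ → ℝ, ContDiffAt ℝ ω H 0 ∧ H 0 = 0 ∧
    ∃ r > 0, r < 1 ∧ ∀ μ : ℝ, |μ| < r →
      H μ = ∫ τ in (0:ℝ)..1, τ ^ (a - 1) * NN m a (μ * τ / (1 + μ * τ)) (H (μ * τ)) := by
  obtain ⟨ψ, hψ, hψ0, r, hr, hr1, hz, hu⟩ := exists_psi m a ha
  have hcont : ∀ᶠ μ in 𝓝 (0:ℝ), ‖ψ μ‖ < r := by
    have h1 : Tendsto (fun μ => ‖ψ μ‖) (𝓝 0) (𝓝 0) := by
      have h2 := hψ.continuousAt.norm
      have h3 : ‖ψ 0‖ = 0 := by rw [hψ0, norm_zero]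
      unfold ContinuousAt at h2
      simp only at h2
      rwa [h3] at h2
    exact h1.eventually (gt_mem_nhds hr)
  obtain ⟨r', hr', h'⟩ := Metric.eventually_nhds_iff.1 hcont
  have hone : (1:ℝ) ∈ Icc (0:ℝ) 1 := ⟨zero_le_one, le_rfl⟩
  refine ⟨fun μ => ψ μ ⟨1, hone⟩, ?_, by simp [hψ0], min r r', lt_min hr hr',
    lt_of_le_of_lt (min_le_left _ _) hr1, ?_⟩
  · have h1 : ContDiffAt ℝ ω (fun f : XX => f ⟨1, hone⟩) (ψ 0) :=
      (ContinuousMap.evalCLM (R := ℝ) (M := ℝ)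
        (⟨1, hone⟩ : ↥(Icc (0:ℝ) 1))).contDiff.contDiffAt
    exact h1.comp 0 hψ
  · intro μ hμ
    have hμr : |μ| < r := lt_of_lt_of_le hμ (min_le_left _ _)
    have hμ1 : |μ| < 1 := hμr.trans hr1
    have key : ∀ σ : ↥(Icc (0:ℝ) 1), ψ μ σ = ψ (μ * σ) ⟨1, hone⟩ := by
      intro σ
      have hs1 := σ.2.1
      have hs2 := σ.2.2
      have h1 := FF_resc m a ha hμ1 (ψ μ) (hz μ hμr) σ
      have hμσ : |μ * (σ:ℝ)| ≤ |μ| := by
        rw [abs_mul, abs_of_nonneg hs1]
        nlinarith only [hr, hr1, hs2, abs_nonneg μ]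
      have h2 := hu (μ * σ) (resc σ (ψ μ)) (lt_of_le_of_lt hμσ hμr)
        (lt_of_le_of_lt (norm_resc_le _ _)
          (h' (by rw [Real.dist_eq, sub_zero]; exact lt_of_lt_of_le hμ (min_le_right _ _)))) h1
      rw [← h2, resc_apply]
      congr 1
      rw [mul_one]
      exact (pr_coe σ).symm
    have h1 := congrArg (fun f : XX => f ⟨1, hone⟩) (hz μ hμr)
    unfold FF at h1
    simp only [ContinuousMap.sub_apply, ContinuousMap.zero_apply, op_apply] at h1
    simp only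
    rw [sub_eq_zero.1 h1]
    apply intervalIntegral.integral_congr
    intro τ hτ
    rw [uIcc_of_le zero_le_one] at hτ
    simp only
    rw [mul_one, Nop_apply m a hμ1, pr_val hτ.1 hτ.2, key, pr_val hτ.1 hτ.2]

theorem rescale_integral (a ζ : ℝ) (ha : 1 ≤ a) (hζ : 0 < ζ) (n : ℝ → ℝ) :
    (∫ τ in (0:ℝ)..1, τ ^ (a - 1) * n (ζ * τ)) * ζ ^ a = ∫ t in (0:ℝ)..ζ, t ^ (a - 1) * n t := by
  have h1 := intervalIntegral.integral_comp_mul_left (a := (0:ℝ)) (b := 1)
    (fun t => t ^ (a - 1) * n t) hζ.ne'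
  rw [mul_zero, mul_one, smul_eq_mul] at h1
  have h2 : ∫ t in (0:ℝ)..ζ, t ^ (a - 1) * n t =
      ζ * ∫ x in (0:ℝ)..1, (ζ * x) ^ (a - 1) * n (ζ * x) := by
    rw [h1, ← mul_assoc, mul_inv_cancel₀ hζ.ne', one_mul]
  rw [h2, ← intervalIntegral.integral_mul_const, ← intervalIntegral.integral_const_mul]
  apply intervalIntegral.integral_congr
  intro τ hτ
  rw [uIcc_of_le zero_le_one] at hτ
  simp only
  rw [Real.mul_rpow hζ.le hτ.1]
  have h3 : ζ ^ a = ζ * ζ ^ (a - 1) := by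
    rw [← Real.rpow_one_add' hζ.le]
    · congr 1; ring
    · intro h
      linarith only [ha, h]
  rw [h3]
  ring

theorem exists_y (m a : ℝ) (ha : 1 ≤ a) : ∃ y : ℝ → ℝ, y 0 = 0 ∧
    ∃ r > 0, r < 1 ∧ AnalyticOnNhd ℝ y (Metric.ball 0 r) ∧ ∀ ζ ∈ Ioo (0:ℝ) r,
      ζ * deriv y ζ + a * y ζ = NN m a (ζ / (1 + ζ)) (y ζ) := by
  obtain ⟨H, hH, hH0, r1, hr1, hr11, hint⟩ := exists_H m a ha
  obtain ⟨r2, hr2, han⟩ := hH.analyticAt.exists_ball_analyticOnNhd
  have hr : 0 < min r1 r2 := lt_min hr1 hr2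
  have hsub : Metric.ball (0:ℝ) (min r1 r2) ⊆ Metric.ball 0 r2 :=
    Metric.ball_subset_ball (min_le_right _ _)
  refine ⟨H, hH0, min r1 r2, hr, lt_of_le_of_lt (min_le_left _ _) hr11, han.mono hsub, ?_⟩
  intro ζ hζ
  set R := min r1 r2 with hR
  have hR1 : R ≤ r1 := min_le_left _ _
  set n : ℝ → ℝ := fun t => NN m a (t / (1 + t)) (H t) with hn
  have hmem : ∀ t ∈ Ioo (-R) R, t ∈ Metric.ball (0:ℝ) r2 := by
    intro t ht
    apply hsub
    rw [Metric.mem_ball, Real.dist_eq, sub_zero, abs_lt]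
    exact ht
  have hncont : ContinuousOn n (Ioo (-R) R) := by
    intro t ht
    have h1 : ContinuousAt H t := (han t (hmem t ht)).continuousAt
    have h2 : (1 + t) ≠ 0 := by
      have := ht.1
      linarith only [hr11, hR1, this]
    have h3 : ContinuousAt (fun t : ℝ => t / (1 + t)) t :=
      continuousAt_id.div (continuousAt_const.add continuousAt_id) h2
    apply ContinuousAt.continuousWithinAt
    change ContinuousAt (fun t => NN m a (t / (1 + t)) (H t)) t
    unfold NN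
    exact (((continuousAt_const.mul h3).mul (continuousAt_const.add (continuousAt_const.mul h1))).add
      ((continuousAt_const.mul (h1.add (h1.pow 2))).mul
        (h1.neg.add (h3.mul (continuousAt_const.add (continuousAt_const.mul h1))))))
  have hfcont : ContinuousOn (fun t : ℝ => t ^ (a - 1) * n t) (Ioo (-R) R) :=
    ((continuous_id.rpow_const (fun _ => Or.inr (by linarith only [ha]))).continuousOn).mul hncont
  have key : ∀ z ∈ Ioo (0:ℝ) R, H z * z ^ a = ∫ t in (0:ℝ)..z, t ^ (a - 1) * n t := by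
    intro z hz
    rw [← rescale_integral a z ha hz.1 n]
    congr 1
    apply hint
    rw [abs_of_pos hz.1]
    linarith only [hR1, hz, hz.2]
  have hζm : ζ ∈ Ioo (-R) R := ⟨by linarith only [hr, hζ, hζ.1], hζ.2⟩
  have hd1 : HasDerivAt (fun z => ∫ t in (0:ℝ)..z, t ^ (a - 1) * n t)
      (ζ ^ (a - 1) * n ζ) ζ := by
    apply intervalIntegral.integral_hasDerivAt_right
    · apply ContinuousOn.intervalIntegrable
      apply hfcont.mono
      rw [uIcc_of_le hζ.1.le]
      intro t ht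
      exact ⟨by linarith only [hr, ht, ht.1], by linarith only [hζ, ht, ht.2, hζ.2]⟩
    · exact hfcont.stronglyMeasurableAtFilter isOpen_Ioo ζ hζm
    · exact hfcont.continuousAt (isOpen_Ioo.mem_nhds hζm)
  have hHd : HasDerivAt H (deriv H ζ) ζ := (han ζ (hmem ζ hζm)).differentiableAt.hasDerivAt
  have hd2 : HasDerivAt (fun z => H z * z ^ a)
      (deriv H ζ * ζ ^ a + H ζ * (a * ζ ^ (a - 1))) ζ :=
    hHd.mul (Real.hasDerivAt_rpow_const (Or.inl hζ.1.ne'))
  have hd3 : HasDerivAt (fun z => H z * z ^ a) (ζ ^ (a - 1) * n ζ) ζ := by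
    apply hd1.congr_of_eventuallyEq
    filter_upwards [isOpen_Ioo.mem_nhds hζ] with z hz
    exact key z hz
  have h4 := hd2.unique hd3
  have h5 : ζ ^ a = ζ * ζ ^ (a - 1) := by
    rw [← Real.rpow_one_add' hζ.1.le]
    · congr 1; ring
    · intro h
      linarith only [ha, hr1, hr11, h]
  have h6 : 0 < ζ ^ (a - 1) := Real.rpow_pos_of_pos hζ.1 _
  rw [h5] at h4
  have h7 : ζ ^ (a - 1) * (ζ * deriv H ζ + a * H ζ) = ζ ^ (a - 1) * n ζ := by
    rw [← h4]; ring
  exact mul_left_cancel₀ h6.ne' h7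

theorem tanh_eq (u : ℝ) : Real.tanh u = (1 - Real.exp (-2 * u)) / (1 + Real.exp (-2 * u)) := by
  rw [Real.tanh_eq_sinh_div_cosh, Real.sinh_eq, Real.cosh_eq]
  have h1 : Real.exp (-2 * u) = Real.exp (-u) * Real.exp (-u) := by
    rw [← Real.exp_add]; congr 1; ring
  have h2 : Real.exp (-u) * Real.exp u = 1 := by
    rw [← Real.exp_add]; simp
  have h3 := Real.exp_pos u
  have h4 := Real.exp_pos (-u)
  rw [h1, div_eq_div_iff (by positivity) (by positivity)]
  have e1 : Real.exp u * (Real.exp (-u) * Real.exp (-u)) = Real.exp (-u) := by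
    calc Real.exp u * (Real.exp (-u) * Real.exp (-u)) =
          (Real.exp (-u) * Real.exp u) * Real.exp (-u) := by ring
      _ = _ := by rw [h2, one_mul]
  linear_combination e1

/-- The local solution at the tip, in the variable `u`. -/
theorem exists_local (m : ℝ) (hm : 6 ≤ m) : ∃ h : ℝ → ℝ, ∃ ε > 0,
    AnalyticOnNhd ℝ h (Ioo (-ε) ε) ∧ h 0 = 2 ∧ (∀ ζ ∈ Ioo (-ε) ε, 1 < h ζ ∧ h ζ < 3) ∧
    ∀ u, Real.exp (-2 * u) < ε →
      HasDerivAt (fun u => h (Real.exp (-2 * u))) (gRhs m u (h (Real.exp (-2 * u)))) u := by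
  have ha : (1:ℝ) ≤ (m - 2) / 4 := by linarith only [hm]
  obtain ⟨y, hy0, r, hr, hr1, han, hode⟩ := exists_y m ((m - 2) / 4) ha
  have hc : ContinuousAt y 0 := (han 0 (Metric.mem_ball_self hr)).continuousAt
  have hev : ∀ᶠ z in 𝓝 (0:ℝ), |y z| < 1 / 10 := by
    have h1 : Tendsto (fun z => |y z|) (𝓝 0) (𝓝 0) := by
      have h2 := hc.abs
      unfold ContinuousAt at h2
      simp only at h2
      rwa [hy0, abs_zero] at h2
    exact h1.eventually (gt_mem_nhds (by norm_num))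
  obtain ⟨r2, hr2, h2⟩ := Metric.eventually_nhds_iff.1 hev
  have hε : 0 < min r r2 := lt_min hr hr2
  have hmem : ∀ z ∈ Ioo (-(min r r2)) (min r r2), z ∈ Metric.ball (0:ℝ) r ∧ |y z| < 1 / 10 := by
    intro z hz
    have h3 : |z| < min r r2 := abs_lt.2 hz
    refine ⟨?_, h2 ?_⟩
    · rw [Metric.mem_ball, Real.dist_eq, sub_zero]
      exact lt_of_lt_of_le h3 (min_le_left _ _)
    · rw [Real.dist_eq, sub_zero]
      exact lt_of_lt_of_le h3 (min_le_right _ _)
  refine ⟨fun z => (1 / 2 + y z)⁻¹, min r r2, hε, ?_, ?_, ?_, ?_⟩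
  · intro z hz
    obtain ⟨h3, h4⟩ := hmem z hz
    have h5 := abs_lt.1 h4
    have h6 : AnalyticAt ℝ (fun z => (1:ℝ) / 2 + y z) z := analyticAt_const.add (han z h3)
    exact h6.inv (by linarith only [hr, hr1, h5, h5.1])
  · simp [hy0]
  · intro z hz
    obtain ⟨h3, h4⟩ := hmem z hz
    have h5 := abs_lt.1 h4
    have h6 : 0 < 1 / 2 + y z := by linarith only [hr, hr1, h5, h5.1]
    constructor
    · rw [lt_inv_comm₀ one_pos h6]
      linarith only [hr, hr1, h5, h5.2]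
    · rw [inv_lt_comm₀ h6 (by norm_num)]
      linarith only [hr, hr1, h5, h5.1]
  · intro u hu
    have hz0 := Real.exp_pos (-2 * u)
    have hz : Real.exp (-2 * u) ∈ Ioo (-(min r r2)) (min r r2) := ⟨by linarith only [hu, hz0], hu⟩
    obtain ⟨h3, h4⟩ := hmem _ hz
    have h5 := abs_lt.1 h4
    have h6 : 0 < 1 / 2 + y (Real.exp (-2 * u)) := by linarith only [hr, hr1, h5, h5.1]
    have hyd := hode (Real.exp (-2 * u)) ⟨hz0, lt_of_lt_of_le hu (min_le_left _ _)⟩
    have hexp : HasDerivAt (fun u : ℝ => Real.exp (-2 * u)) (Real.exp (-2 * u) * (-2)) u := by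
      have h7 : HasDerivAt (fun u : ℝ => -2 * u) (-2) u := by
        simpa using (hasDerivAt_id u).const_mul (-2)
      exact h7.exp
    have hyd1 : HasDerivAt y (deriv y (Real.exp (-2 * u))) (Real.exp (-2 * u)) :=
      (han _ h3).differentiableAt.hasDerivAt
    have h8 : HasDerivAt (fun u : ℝ => (1:ℝ) / 2 + y (Real.exp (-2 * u)))
        (deriv y (Real.exp (-2 * u)) * (Real.exp (-2 * u) * (-2))) u :=
      (hyd1.comp u hexp).const_add _
    have h9 := h8.inv h6.ne'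
    refine h9.congr_deriv ?_
    unfold gRhs qf
    rw [tanh_eq]
    unfold NN at hyd
    beta_reduce
    set ζ := Real.exp (-2 * u) with hζ
    set d := deriv y ζ with hd
    set w := y ζ with hw
    have h10 : (1 + ζ) ≠ 0 := by positivity
    have h11 : ζ * d = -((m - 2) / 4) * w + ((m - 2) / 4 * (ζ / (1 + ζ)) * (1 + 2 * w) +
      (m - 1) * (w + w ^ 2) * (-w + ζ / (1 + ζ) * (1 + 2 * w))) := by linarith only [hyd]
    have h12 : d * (ζ * -2) = -2 * (ζ * d) := by ring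
    have h13 : (1 + 2 * w) ≠ 0 := by linarith only [hr, hr1, h5]
    rw [h12, h11]
    have h14 : (1 / 2 + w) = (1 + 2 * w) / 2 := by ring
    rw [h14]
    field_simp
    ring

/-- Uniqueness of the solution with `g → 2`. -/
theorem unique_top (m : ℝ) (hm : 6 ≤ m) (g₁ g₂ : ℝ → ℝ) (U₀ : ℝ)
    (h₁ : ∀ u > U₀, HasDerivAt g₁ (gRhs m u (g₁ u)) u)
    (h₂ : ∀ u > U₀, HasDerivAt g₂ (gRhs m u (g₂ u)) u)
    (l₁ : Tendsto g₁ atTop (𝓝 2)) (l₂ : Tendsto g₂ atTop (𝓝 2)) :
    ∃ U₁ > U₀, ∀ u ≥ U₁, g₁ u = g₂ u := by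
  have lT : Tendsto Real.tanh atTop (𝓝 1) := by
    have h0 : Tendsto (fun u : ℝ => Real.exp (-2 * u)) atTop (𝓝 0) := by
      apply Real.tendsto_exp_atBot.comp
      exact tendsto_id.const_mul_atTop_of_neg (by norm_num)
    have h1 : Tendsto (fun u : ℝ => (1 - Real.exp (-2 * u)) / (1 + Real.exp (-2 * u))) atTop
        (𝓝 ((1 - 0) / (1 + 0))) := (tendsto_const_nhds.sub h0).div (tendsto_const_nhds.add h0)
        (by norm_num)
    simp only [sub_zero, add_zero, div_one] at h1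
    refine h1.congr ?_
    intro u
    exact (tanh_eq u).symm
  have lc : Tendsto (fun u => -(g₁ u + g₂ u) / 4 + 2 * Real.tanh u * (m - 1) / (g₁ u * g₂ u) +
      Real.tanh u / 2) atTop (𝓝 (-(2 + 2) / 4 + 2 * 1 * (m - 1) / (2 * 2) + 1 / 2)) := by
    refine ((l₁.add l₂).neg.div_const 4).add ?_ |>.add (lT.div_const 2)
    exact ((lT.const_mul 2).mul_const (m - 1)).div (l₁.mul l₂) (by norm_num)
  have e1 : ∀ᶠ u in atTop, 0 < -(g₁ u + g₂ u) / 4 + 2 * Real.tanh u * (m - 1) / (g₁ u * g₂ u) +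
      Real.tanh u / 2 := lc.eventually (lt_mem_nhds (by linarith only [hm]))
  have e2 : ∀ᶠ u in atTop, 1 < g₁ u := l₁.eventually (lt_mem_nhds (by norm_num))
  have e3 : ∀ᶠ u in atTop, 1 < g₂ u := l₂.eventually (lt_mem_nhds (by norm_num))
  obtain ⟨U, hU⟩ := eventually_atTop.1 (e1.and (e2.and e3))
  refine ⟨max U (U₀ + 1), lt_of_lt_of_le (by linarith only []) (le_max_right _ _), ?_⟩
  set V := max U (U₀ + 1) with hV
  have hder : ∀ u ≥ V, HasDerivAt (fun u => (g₁ u - g₂ u) ^ 2)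
      (2 * (g₁ u - g₂ u) ^ 2 * (-(g₁ u + g₂ u) / 4 + 2 * Real.tanh u * (m - 1) / (g₁ u * g₂ u) +
      Real.tanh u / 2)) u := by
    intro u hu
    have hu1 : u ≥ U := (le_max_left _ _).trans hu
    have hu2 : u > U₀ := by
      have := (le_max_right U (U₀ + 1)).trans hu
      linarith only [this]
    obtain ⟨c1, c2, c3⟩ := hU u hu1
    have hd := ((h₁ u hu2).sub (h₂ u hu2)).pow 2
    refine hd.congr_deriv ?_
    unfold gRhs qf
    simp only [Pi.sub_apply]
    have c4 : g₁ u ≠ 0 := by linarith only [c2]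
    have c5 : g₂ u ≠ 0 := by linarith only [c3]
    field_simp
    ring
  have hmono : MonotoneOn (fun u => (g₁ u - g₂ u) ^ 2) (Ici V) := by
    apply monotoneOn_of_deriv_nonneg (convex_Ici V)
    · intro u hu
      exact (hder u hu).continuousAt.continuousWithinAt
    · intro u hu
      rw [interior_Ici] at hu
      exact (hder u (le_of_lt hu)).differentiableAt.differentiableWithinAt
    · intro u hu
      rw [interior_Ici] at hu
      have hu' : u ≥ V := le_of_lt hu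
      rw [(hder u hu').deriv]
      have := (hU u ((le_max_left _ _).trans hu')).1
      positivity
  intro u hu
  have lim : Tendsto (fun u => (g₁ u - g₂ u) ^ 2) atTop (𝓝 0) := by
    have := (l₁.sub l₂).pow 2
    simpa using this
  have h0 : (g₁ u - g₂ u) ^ 2 ≤ 0 := by
    refine ge_of_tendsto lim ?_
    filter_upwards [eventually_ge_atTop u] with w hw
    exact hmono hu (le_trans hu hw) hw
  have h1 : g₁ u - g₂ u = 0 := by
    have := le_antisymm h0 (sq_nonneg _)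
    exact pow_eq_zero_iff (two_ne_zero) |>.1 this
  linarith only [h1]

/-- B2: smoothness (analyticity) at the tip of any solution with `g → 2`. -/
theorem tip_analytic (m : ℝ) (hm : 6 ≤ m) (g : ℝ → ℝ) (U₀ : ℝ)
    (hg : ∀ u > U₀, HasDerivAt g (gRhs m u (g u)) u) (hl : Tendsto g atTop (𝓝 2)) :
    ∃ h : ℝ → ℝ, ∃ ε > 0, AnalyticOnNhd ℝ h (Ioo (-ε) ε) ∧ h 0 = 2 ∧
      (∀ ζ ∈ Ioo (-ε) ε, 1 < h ζ ∧ h ζ < 3) ∧
      ∀ u, Real.exp (-2 * u) < ε → U₀ < u ∧ g u = h (Real.exp (-2 * u)) := by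
  obtain ⟨h, ε, hε, han, h0, hb, hd⟩ := exists_local m hm
  have hlim0 : Tendsto (fun u : ℝ => Real.exp (-2 * u)) atTop (𝓝 0) := by
    apply Real.tendsto_exp_atBot.comp
    exact tendsto_id.const_mul_atTop_of_neg (by norm_num)
  have l2 : Tendsto (fun u : ℝ => h (Real.exp (-2 * u))) atTop (𝓝 2) := by
    have h1 : ContinuousAt h 0 := (han 0 ⟨by linarith only [hε], hε⟩).continuousAt
    have h2 := h1.tendsto.comp hlim0
    rw [h0] at h2
    exact h2
  obtain ⟨V, hV⟩ := eventually_atTop.1 (hlim0.eventually (gt_mem_nhds hε))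
  obtain ⟨U₁, hU₁, heq⟩ := unique_top m hm g (fun u => h (Real.exp (-2 * u))) (max U₀ V)
    (fun u hu => hg u (lt_of_le_of_lt (le_max_left _ _) hu))
    (fun u hu => hd u (hV u (le_of_lt (lt_of_le_of_lt (le_max_right _ _) hu)))) hl l2
  have hsub : Ioo (-(min ε (Real.exp (-2 * U₁)))) (min ε (Real.exp (-2 * U₁))) ⊆ Ioo (-ε) ε := by
    intro z hz
    exact ⟨lt_of_le_of_lt (neg_le_neg (min_le_left _ _)) hz.1, lt_of_lt_of_le hz.2 (min_le_left _ _)⟩
  refine ⟨h, min ε (Real.exp (-2 * U₁)), lt_min hε (Real.exp_pos _), han.mono hsub, h0,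
    fun z hz => hb z (hsub hz), ?_⟩
  intro u hu
  have h1 : Real.exp (-2 * u) < Real.exp (-2 * U₁) := lt_of_lt_of_le hu (min_le_right _ _)
  have h2 := Real.exp_lt_exp.1 h1
  have h3 : U₁ < u := by linarith only [h2]
  refine ⟨?_, heq u h3.le⟩
  have := le_max_left U₀ V
  linarith only [hU₁, h3, this]

/-- The field `tip` of `IsBub`. -/
theorem tip_of (m : ℝ) (hm : 6 ≤ m) (g : ℝ → ℝ) (U₀ : ℝ)
    (hg : ∀ u > U₀, HasDerivAt g (gRhs m u (g u)) u) (hl : Tendsto g atTop (𝓝 2)) :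
    ∃ h : ℝ → ℝ, ∃ ε > 0, ContDiffOn ℝ ∞ h (Ioo (-ε) ε) ∧ h 0 = 2 ∧
      ∀ u, Real.exp (-2 * u) < ε → g u = h (Real.exp (-2 * u)) := by
  obtain ⟨h, ε, hε, han, h0, _, heq⟩ := tip_analytic m hm g U₀ hg hl
  exact ⟨h, ε, hε, han.contDiffOn isOpen_Ioo.uniqueDiffOn, h0, fun u hu => (heq u hu).2⟩

end Vale.Agent.P244.ST.BD.BubTip
end

section

/-!
# P244-ST, block B4 : curvature of the initial data in the `r`-gauge, pointwise algebra

`l = log r`; `u, Z = r_s²` are functions of `l`, `u1 = u_l`, `u2 = u_ll`, `z1 = Z_l`; `G = -u1`.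
`rRq = r² R / m`, `rVq = r² V` (formulas (E3), (F1), (E2) with `m = 40`).
-/

open Set Filter Topology Real
open scoped ContDiff

namespace Vale.Agent.P244.ST.BD


/-- `r² R / m`. -/
noncomputable def rRq (u u1 z z1 : ℝ) : ℝ := 39 * (cosh u - z) - z1 - z * u1 ^ 2 / 4

/-- `r² V`. -/
noncomputable def rVq (u u1 u2 z z1 : ℝ) : ℝ := z * u2 + (z1 / 2 + 39 * z) * u1 + 78 * sinh u

section bubble

variable {g : ℝ → ℝ} (hg : IsBub 40 g)
include hg

theorem IsBub.g_pos {u : ℝ} (hu : 0 < u) : 0 < g u := by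
  have h1 := hg.lower u hu
  have h2 : 0 < tanh u := by
    rw [tanh_eq_sinh_div_cosh]
    exact div_pos (sinh_pos_iff.2 hu) (cosh_pos u)
  linarith only [h1, h2]

theorem IsBub.qf_gt {u : ℝ} (hu : 0 < u) : 38 < qf 40 (g u) := by
  have h1 := hg.g_pos hu
  have h2 := hg.lt_two u hu
  unfold qf
  nlinarith only [h1, h2]

theorem IsBub.qf_lt {u : ℝ} (hu : 0 < u) : qf 40 (g u) < 39 := by
  have h1 := hg.g_pos hu
  unfold qf
  nlinarith only [h1]

theorem IsBub.Zs_ge {u : ℝ} (hu : 0 < u) : cosh u ≤ Zs 40 g u := by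
  have h1 := hg.qf_gt hu
  have h2 := hg.qf_lt hu
  have h3 := cosh_pos u
  unfold Zs
  rw [le_div_iff₀ (by linarith only [h1, h2])]
  nlinarith only [h2, h3]

theorem IsBub.Zs_le {u : ℝ} (hu : 0 < u) : Zs 40 g u ≤ cosh u * (39 / 38) := by
  have h1 := hg.qf_gt hu
  have h3 := cosh_pos u
  unfold Zs
  rw [div_le_iff₀ (by linarith only [h1])]
  nlinarith only [h1, h3]

theorem IsBub.hasDerivAt_Zs {u : ℝ} (hu : 0 < u) :
    HasDerivAt (Zs 40 g) (g u * Zs 40 g u / 2) u := by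
  have h1 := hg.deriv u hu
  have hgp := hg.g_pos hu
  have hq := hg.qf_gt hu
  have h2 : HasDerivAt (fun u => qf 40 (g u)) (-(2 * g u * gRhs 40 u (g u)) / 4) u := by
    have h3 := ((h1.pow 2).div_const 4).const_sub (40 - 1)
    refine h3.congr_deriv ?_
    simp
    ring
  have h4 : HasDerivAt (fun u => (40 - 1) * cosh u) ((40 - 1) * sinh u) u :=
    (hasDerivAt_cosh u).const_mul _
  refine (h4.div h2 (by linarith only [hq])).congr_deriv ?_
  have h5 : g u * gRhs 40 u (g u) = qf 40 (g u) * (g u - 2 * tanh u) := by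
    unfold gRhs
    field_simp
  have h6 : cosh u * tanh u = sinh u := by
    rw [tanh_eq_sinh_div_cosh]
    have := (cosh_pos u).ne'
    field_simp
  have h7 : (40 - 1) * cosh u * (-(2 * g u * gRhs 40 u (g u)) / 4) =
      -((40 - 1) / 2 * qf 40 (g u) * (cosh u * g u - 2 * (cosh u * tanh u))) := by
    have : (40 - 1) * cosh u * (-(2 * g u * gRhs 40 u (g u)) / 4) =
      -((40 - 1) / 2 * cosh u * (g u * gRhs 40 u (g u))) := by ring
    rw [this, h5]
    ring
  rw [h7, h6]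
  unfold Zs
  have hq' : qf 40 (g u) ≠ 0 := by linarith only [hq]
  field_simp
  ring

theorem IsBub.rRq_eq_zero {u : ℝ} (hu : 0 < u) :
    rRq u (-(g u)) (Zs 40 g u) (g u * Zs 40 g u / 2 * (-(g u))) = 0 := by
  have hq := hg.qf_gt hu
  have h1 : Zs 40 g u * qf 40 (g u) = 39 * cosh u := by
    unfold Zs
    have : qf 40 (g u) ≠ 0 := by linarith only [hq]
    field_simp
    ring
  have h2 : qf 40 (g u) = 39 - g u ^ 2 / 4 := by
    unfold qf
    ring
  unfold rRq
  rw [h2] at h1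
  linarith only [h1]

theorem IsBub.rVq_eq_zero {u : ℝ} (hu : 0 < u) :
    rVq u (-(g u)) (g u * gRhs 40 u (g u)) (Zs 40 g u) (g u * Zs 40 g u / 2 * (-(g u))) = 0 := by
  have hq := hg.qf_gt hu
  have hgp := hg.g_pos hu
  have h1 : Zs 40 g u * qf 40 (g u) = 39 * cosh u := by
    unfold Zs
    have : qf 40 (g u) ≠ 0 := by linarith only [hq]
    field_simp
    ring
  have h2 : qf 40 (g u) = 39 - g u ^ 2 / 4 := by
    unfold qf
    ring
  have h5 : g u * gRhs 40 u (g u) = qf 40 (g u) * (g u - 2 * tanh u) := by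
    unfold gRhs
    field_simp
  have h6 : cosh u * tanh u = sinh u := by
    rw [tanh_eq_sinh_div_cosh]
    have := (cosh_pos u).ne'
    field_simp
  have h8 : Zs 40 g u * (qf 40 (g u) * (g u - 2 * tanh u)) =
      39 * (cosh u * g u) - 78 * sinh u := by
    rw [← mul_assoc, h1, ← h6]
    ring
  unfold rVq
  rw [h5, h8]
  have h9 : (g u * Zs 40 g u / 2 * (-(g u)) / 2 + 39 * Zs 40 g u) * (-(g u)) =
      -(g u * (Zs 40 g u * (39 - g u ^ 2 / 4))) := by ring
  rw [h9, ← h2, h1]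
  ring

end bubble

theorem rRq_affine (u u1 z z1 z' z1' c c1 : ℝ) :
    rRq u u1 ((1 - c) * z + c * z') ((1 - c) * z1 + c * z1' + c1 * (z' - z)) =
      (1 - c) * rRq u u1 z z1 + c * rRq u u1 z' z1' + c1 * (z - z') := by
  unfold rRq
  ring

theorem rVq_affine (u u1 u2 z z1 z' z1' c c1 : ℝ) :
    rVq u u1 u2 ((1 - c) * z + c * z') ((1 - c) * z1 + c * z1' + c1 * (z' - z)) =
      (1 - c) * rVq u u1 u2 z z1 + c * rVq u u1 u2 z' z1' + c1 * (z' - z) * u1 / 2 := by
  unfold rVq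
  ring

/-- The outer metric: `Z = e^u (1 - s)`, `s = r²/Rc²`, `s_l = 2 s`. -/
theorem rRq_out (u u1 s : ℝ) :
    rRq u u1 (exp u * (1 - s)) (exp u * (u1 * (1 - s) - 2 * s)) =
      41 * exp u * s - 39 * sinh u - exp u * (1 - s) * (u1 + u1 ^ 2 / 4) := by
  unfold rRq
  have h := exp_sub_cosh u
  have h1 : exp u = cosh u + sinh u := by linarith only [h]
  rw [h1]
  ring

theorem rVq_out (u u1 u2 s : ℝ) :
    rVq u u1 u2 (exp u * (1 - s)) (exp u * (u1 * (1 - s) - 2 * s)) =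
      (u2 + 39 * u1 + 78 * u) + (exp u * (1 - s) - 1) * (u2 + 39 * u1) +
        exp u * (u1 * (1 - s) - 2 * s) / 2 * u1 + 78 * (sinh u - u) := by
  unfold rVq
  ring

theorem abs_exp_sub_one_le' {u : ℝ} (h : |u| ≤ 1) : |exp u - 1| ≤ 2 * |u| :=
  Real.abs_exp_sub_one_le h

theorem abs_sinh_le' {u : ℝ} (h : |u| ≤ 1) : |sinh u| ≤ 2 * |u| := by
  have h1 := abs_exp_sub_one_le' h
  have h2 := abs_exp_sub_one_le' (u := -u) (by rwa [abs_neg])
  rw [abs_neg] at h2
  rw [sinh_eq]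
  have h3 : (exp u - exp (-u)) / 2 = ((exp u - 1) - (exp (-u) - 1)) / 2 := by ring
  rw [h3, abs_div, abs_of_pos (two_pos : (0 : ℝ) < 2)]
  have h4 := abs_sub (exp u - 1) (exp (-u) - 1)
  linarith only [h1, h2, h4]

theorem exp_le_three {u : ℝ} (h : |u| ≤ 1) : exp u ≤ 3 := by
  have h1 : exp u ≤ exp 1 := exp_le_exp.2 (le_of_abs_le h)
  have h2 := exp_one_lt_d9
  linarith only [h1, h2]

/-- `|r² R/m - 41 s| ≤ 250 δ` for `|u|, |u_l| ≤ δ ≤ 1`. -/
theorem rRq_out_bound {u u1 s δ : ℝ} (hu : |u| ≤ δ) (hu1 : |u1| ≤ δ) (hδ : δ ≤ 1) (hs0 : 0 ≤ s)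
    (hs1 : s ≤ 1) :
    |rRq u u1 (exp u * (1 - s)) (exp u * (u1 * (1 - s) - 2 * s)) - 41 * s| ≤ 250 * δ := by
  have hδ0 : 0 ≤ δ := (abs_nonneg _).trans hu
  have h1 := abs_exp_sub_one_le' (hu.trans hδ)
  have h2 := abs_sinh_le' (hu.trans hδ)
  have h3 := exp_le_three (hu.trans hδ)
  have h4 := exp_pos u
  rw [rRq_out]
  have h5 : 41 * exp u * s - 39 * sinh u - exp u * (1 - s) * (u1 + u1 ^ 2 / 4) - 41 * s =
      41 * (s * (exp u - 1)) - 39 * sinh u - exp u * (1 - s) * (u1 + u1 ^ 2 / 4) := by ring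
  rw [h5]
  have h6 : |s * (exp u - 1)| ≤ 2 * δ := by
    rw [abs_mul, abs_of_nonneg hs0]
    calc s * |exp u - 1| ≤ 1 * (2 * |u|) := mul_le_mul hs1 h1 (abs_nonneg _) zero_le_one
      _ ≤ 2 * δ := by linarith only [hu]
  have h7 : |exp u * (1 - s) * (u1 + u1 ^ 2 / 4)| ≤ 3 * (2 * δ) := by
    rw [abs_mul, abs_mul, abs_of_pos h4, abs_of_nonneg (by linarith only [hs1] : 0 ≤ 1 - s)]
    have h8 : |u1 + u1 ^ 2 / 4| ≤ 2 * δ := by
      have h9 : |u1 ^ 2 / 4| ≤ δ := by
        rw [abs_of_nonneg (by positivity), ← sq_abs]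
        nlinarith only [hu1, hδ, hδ0, abs_nonneg u1]
      exact (abs_add_le _ _).trans (by linarith only [hu1, h9])
    refine mul_le_mul ?_ h8 (abs_nonneg _) (by norm_num)
    nlinarith only [hs0, h3, h4]
  have h10 := abs_sub (41 * (s * (exp u - 1)) - 39 * sinh u)
    (exp u * (1 - s) * (u1 + u1 ^ 2 / 4))
  have h11 := abs_sub (41 * (s * (exp u - 1))) (39 * sinh u)
  rw [abs_mul (41 : ℝ), abs_mul (39 : ℝ), abs_of_pos (by norm_num : (0 : ℝ) < 41),
    abs_of_pos (by norm_num : (0 : ℝ) < 39)] at h11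
  linarith only [hu, hδ0, h2, h6, h7, h10, h11]

/-- `|r² V - lin| ≤ ..` for `|u|, |u_l| ≤ δ ≤ 1`. -/
theorem rVq_out_bound {u u1 u2 s δ : ℝ} (hu : |u| ≤ δ) (hu1 : |u1| ≤ δ) (hδ : δ ≤ 1) (hs0 : 0 ≤ s)
    (hs1 : s ≤ 1) :
    |rVq u u1 u2 (exp u * (1 - s)) (exp u * (u1 * (1 - s) - 2 * s)) - (u2 + 39 * u1 + 78 * u)| ≤
      250 * (δ + s) * (|u| + |u1| + |u2|) := by
  have hδ0 : 0 ≤ δ := (abs_nonneg _).trans hu
  have h1 := abs_exp_sub_one_le' (hu.trans hδ)
  have h3 := exp_le_three (hu.trans hδ)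
  have h4 := exp_pos u
  rw [rVq_out]
  have h5 : u2 + 39 * u1 + 78 * u + (exp u * (1 - s) - 1) * (u2 + 39 * u1) +
        exp u * (u1 * (1 - s) - 2 * s) / 2 * u1 + 78 * (sinh u - u) - (u2 + 39 * u1 + 78 * u) =
      (exp u * (1 - s) - 1) * (u2 + 39 * u1) +
        exp u * (u1 * (1 - s) - 2 * s) / 2 * u1 + 78 * (sinh u - u) := by ring
  rw [h5]
  have h6 : |exp u * (1 - s) - 1| ≤ 2 * δ + 3 * s := by
    have h7 : exp u * (1 - s) - 1 = (exp u - 1) - exp u * s := by ring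
    rw [h7]
    refine (abs_sub _ _).trans ?_
    rw [abs_of_nonneg (by positivity : 0 ≤ exp u * s)]
    nlinarith only [hu, hs0, h1, h3]
  have h8 : |exp u * (u1 * (1 - s) - 2 * s) / 2| ≤ 3 * (δ + s) := by
    rw [abs_div, abs_mul, abs_of_pos h4, abs_of_pos (two_pos : (0 : ℝ) < 2)]
    have h9 : |u1 * (1 - s) - 2 * s| ≤ δ + 2 * s := by
      refine (abs_sub _ _).trans ?_
      rw [abs_mul, abs_of_nonneg (by linarith only [hs1] : 0 ≤ 1 - s), abs_of_nonneg (by linarith only [hs0] : 0 ≤ 2 * s)]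
      nlinarith only [hu1, hs0, hs1, hδ0, abs_nonneg u1]
    have h10 : exp u * |u1 * (1 - s) - 2 * s| ≤ 3 * (δ + 2 * s) :=
      mul_le_mul h3 h9 (abs_nonneg _) (by norm_num)
    linarith only [hδ0, h10]
  have h11 : |sinh u - u| ≤ δ * |u| := by
    have h12 : |sinh u - u| ≤ |u| ^ 2 := by
      have h13 := Real.abs_exp_sub_one_sub_id_le (hu.trans hδ)
      have h14 := Real.abs_exp_sub_one_sub_id_le (x := -u) (by rw [abs_neg]; exact hu.trans hδ)
      have h15 : sinh u - u = ((exp u - 1 - u) - (exp (-u) - 1 - -u)) / 2 := by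
        rw [sinh_eq]
        ring
      rw [h15, abs_div, abs_of_pos (two_pos : (0 : ℝ) < 2)]
      have h16 := abs_sub (exp u - 1 - u) (exp (-u) - 1 - -u)
      have h17 : (-u) ^ 2 = u ^ 2 := by ring
      rw [h17] at h14
      rw [sq_abs]
      linarith only [h13, h14, h16]
    refine h12.trans ?_
    rw [pow_two]
    exact mul_le_mul_of_nonneg_right hu (abs_nonneg _)
  have e1 : |(exp u * (1 - s) - 1) * (u2 + 39 * u1)| ≤ (2 * δ + 3 * s) * (|u2| + 39 * |u1|) := by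
    rw [abs_mul]
    refine mul_le_mul h6 ?_ (abs_nonneg _) (by positivity)
    refine (abs_add_le _ _).trans ?_
    rw [abs_mul (39 : ℝ), abs_of_pos (by norm_num : (0 : ℝ) < 39)]
  have e2 : |exp u * (u1 * (1 - s) - 2 * s) / 2 * u1| ≤ 3 * (δ + s) * |u1| := by
    rw [abs_mul]
    exact mul_le_mul_of_nonneg_right h8 (abs_nonneg _)
  have e3 : |78 * (sinh u - u)| ≤ 78 * (δ * |u|) := by
    rw [abs_mul, abs_of_pos (by norm_num : (0 : ℝ) < 78)]
    exact mul_le_mul_of_nonneg_left h11 (by norm_num)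
  refine (abs_add_le _ _).trans ((add_le_add ((abs_add_le _ _).trans (add_le_add e1 e2)) e3).trans ?_)
  have a1 := abs_nonneg u
  have a2 := abs_nonneg u1
  have a3 := abs_nonneg u2
  nlinarith only [hs0, hδ0, a1, a2, a3, mul_nonneg hδ0 a1, mul_nonneg hδ0 a2, mul_nonneg hδ0 a3, mul_nonneg hs0 a1,
    mul_nonneg hs0 a2, mul_nonneg hs0 a3]

end Vale.Agent.P244.ST.BD
end

section

/-!
# P244-ST, block B : calculus tools for the bubble profile

Derivative towers, Hadamard's lemma in one variable, derivative of `tanh`.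
-/

open Set Filter Topology Real
open scoped ContDiff

namespace Vale.Agent.P244.ST.BD.BT

/-- derivative of `tanh` -/
theorem bt_tanh_deriv (u : ℝ) : HasDerivAt tanh (1 - tanh u ^ 2) u := by
  have hc : cosh u ≠ 0 := (cosh_pos u).ne'
  have h : HasDerivAt (fun x => sinh x / cosh x)
      ((cosh u * cosh u - sinh u * sinh u) / cosh u ^ 2) u :=
    (hasDerivAt_sinh u).div (hasDerivAt_cosh u) hc
  have e : (tanh : ℝ → ℝ) = fun x => sinh x / cosh x := by
    funext x; exact tanh_eq_sinh_div_cosh x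
  rw [e]
  convert h using 1
  field_simp

/-- smoothness of `tanh` -/
theorem bt_tanh_contDiff {n : WithTop ℕ∞} : ContDiff ℝ n tanh := by
  have e : (tanh : ℝ → ℝ) = fun x => sinh x / cosh x := by
    funext x; exact tanh_eq_sinh_div_cosh x
  rw [e]
  exact contDiff_sinh.div contDiff_cosh fun x => (cosh_pos x).ne'

/-- A tower of successive derivatives on an open set is smooth. -/
theorem bt_tower {f : ℕ → ℝ → ℝ} {s : Set ℝ} (hs : IsOpen s)
    (h : ∀ n, ∀ x ∈ s, HasDerivAt (f n) (f (n + 1) x) x) (k : ℕ) : ContDiffOn ℝ ∞ (f k) s := by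
  have key : ∀ N : ℕ, ∀ k : ℕ, ContDiffOn ℝ (N : WithTop ℕ∞) (f k) s := by
    intro N
    induction N with
    | zero =>
      intro k
      have : ContinuousOn (f k) s := fun x hx => (h k x hx).continuousAt.continuousWithinAt
      simpa using (contDiffOn_zero (𝕜 := ℝ)).2 this
    | succ N ih =>
      intro k
      have e : ((N + 1 : ℕ) : WithTop ℕ∞) = (N : WithTop ℕ∞) + 1 := by push_cast; rfl
      rw [e, contDiffOn_succ_iff_deriv_of_isOpen hs]
      refine ⟨fun x hx => (h k x hx).differentiableAt.differentiableWithinAt, ?_, ?_⟩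
      · intro h0
        exact absurd h0 (by exact_mod_cast (WithTop.coe_ne_top (a := (N : ℕ∞))))
      · exact (ih (k + 1)).congr fun x hx => (h k x hx).deriv
  exact contDiffOn_infty.2 fun n => key n k

/-- derivatives of a smooth function on an open set, as a tower -/
theorem bt_iter {h : ℝ → ℝ} {s : Set ℝ} (hs : IsOpen s) (hh : ContDiffOn ℝ ∞ h s) (n : ℕ) :
    ∀ x ∈ s, HasDerivAt (iteratedDerivWithin n h s) (iteratedDerivWithin (n + 1) h s x) x := by
  intro x hx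
  have h1 : DifferentiableOn ℝ (iteratedDerivWithin n h s) s :=
    hh.differentiableOn_iteratedDerivWithin (by exact_mod_cast ENat.natCast_lt_top n)
      hs.uniqueDiffOn
  have h2 : DifferentiableAt ℝ (iteratedDerivWithin n h s) x :=
    (h1 x hx).differentiableAt (hs.mem_nhds hx)
  rw [iteratedDerivWithin_succ, derivWithin_of_isOpen hs hx]
  exact h2.hasDerivAt

theorem bt_mul_mem {ε t x : ℝ} (ht : t ∈ Icc (0 : ℝ) 1) (hx : x ∈ Ioo (-ε) ε) :
    t * x ∈ Ioo (-ε) ε := by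
  have h1 : |x| < ε := abs_lt.2 hx
  have h2 : |t * x| ≤ |x| := by
    rw [abs_mul, abs_of_nonneg ht.1]
    exact mul_le_of_le_one_left (abs_nonneg _) ht.2
  exact abs_lt.1 (lt_of_le_of_lt h2 h1)

/-- differentiation of the averages `∫ t^n H_{n+1}(t x)` -/
theorem bt_param {ε : ℝ} {H : ℕ → ℝ → ℝ}
    (hH : ∀ n, ∀ x ∈ Ioo (-ε) ε, HasDerivAt (H n) (H (n + 1) x) x) (n : ℕ) (x : ℝ)
    (hx : x ∈ Ioo (-ε) ε) :
    HasDerivAt (fun x => ∫ t in (0 : ℝ)..1, t ^ n * H (n + 1) (t * x))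
      (∫ t in (0 : ℝ)..1, t ^ (n + 1) * H (n + 1 + 1) (t * x)) x := by
  have hcont : ∀ k, ContinuousOn (H k) (Ioo (-ε) ε) := fun k y hy =>
    (hH k y hy).continuousAt.continuousWithinAt
  have hF : ∀ k j : ℕ, ∀ y ∈ Ioo (-ε) ε,
      ContinuousOn (fun t : ℝ => t ^ j * H k (t * y)) (Icc 0 1) := by
    intro k j y hy
    refine (continuousOn_id.pow j).mul ?_
    exact (hcont k).comp (continuousOn_id.mul continuousOn_const) fun t ht => bt_mul_mem ht hy
  have huIoc : uIoc (0 : ℝ) 1 ⊆ Icc 0 1 := by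
    rw [uIoc_of_le zero_le_one]; exact Ioc_subset_Icc_self
  have hmeas : ∀ k j : ℕ, ∀ y ∈ Ioo (-ε) ε, MeasureTheory.AEStronglyMeasurable
      (fun t : ℝ => t ^ j * H k (t * y)) (MeasureTheory.volume.restrict (uIoc 0 1)) := by
    intro k j y hy
    exact ((hF k j y hy).mono huIoc).aestronglyMeasurable measurableSet_uIoc
  obtain ⟨δ, hδ1, hδ2⟩ := exists_between (abs_lt.2 hx)
  have hK : Icc (-δ) δ ⊆ Ioo (-ε) ε := fun y hy => ⟨by linarith only [hδ2, hy, hy.1], by linarith only [hδ2, hy, hy.2]⟩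
  obtain ⟨C, hC⟩ := isCompact_Icc.exists_bound_of_continuousOn ((hcont (n + 1 + 1)).mono hK)
  have hs : Ioo (-δ) δ ∈ 𝓝 x := Ioo_mem_nhds (abs_lt.1 hδ1).1 (abs_lt.1 hδ1).2
  have hsub : Ioo (-δ) δ ⊆ Ioo (-ε) ε := Ioo_subset_Icc_self.trans hK
  refine (intervalIntegral.hasDerivAt_integral_of_dominated_loc_of_deriv_le
    (F := fun y t => t ^ n * H (n + 1) (t * y))
    (F' := fun y t => t ^ (n + 1) * H (n + 1 + 1) (t * y)) (bound := fun _ => C) hs
    ?_ ?_ (hmeas _ _ x hx) ?_ (intervalIntegrable_const) ?_).2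
  · filter_upwards [hs] with y hy
    exact hmeas _ _ y (hsub hy)
  · have := hF (n + 1) n x hx
    rw [← uIcc_of_le (zero_le_one' ℝ)] at this
    exact this.intervalIntegrable
  · refine Eventually.of_forall fun t ht y hy => ?_
    have ht' := huIoc ht
    have h1 : t * y ∈ Icc (-δ) δ := Ioo_subset_Icc_self (bt_mul_mem ht' hy)
    rw [norm_mul, norm_pow, Real.norm_of_nonneg ht'.1]
    have h2 := hC _ h1
    calc t ^ (n + 1) * ‖H (n + 1 + 1) (t * y)‖ ≤ 1 * C :=
          mul_le_mul (pow_le_one₀ ht'.1 ht'.2) h2 (norm_nonneg _) zero_le_one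
      _ = C := one_mul C
  · refine Eventually.of_forall fun t ht y hy => ?_
    have ht' := huIoc ht
    have h1 : t * y ∈ Ioo (-ε) ε := bt_mul_mem ht' (hsub hy)
    have h2 := (hH (n + 1) (t * y) h1).comp y ((hasDerivAt_id y).const_mul t)
    have h3 := h2.const_mul (t ^ n)
    refine h3.congr_deriv ?_
    simp only [mul_one]
    ring

/-- Hadamard's lemma: `h(x) = h(0) + x k(x)` with `k` smooth. -/
theorem bt_hadamard {ε : ℝ} {h : ℝ → ℝ} (hh : ContDiffOn ℝ ∞ h (Ioo (-ε) ε)) :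
    ∃ k : ℝ → ℝ, ContDiffOn ℝ ∞ k (Ioo (-ε) ε) ∧ ∀ x ∈ Ioo (-ε) ε, h x = h 0 + x * k x := by
  set H : ℕ → ℝ → ℝ := fun n => iteratedDerivWithin n h (Ioo (-ε) ε) with hHdef
  have hH : ∀ n, ∀ x ∈ Ioo (-ε) ε, HasDerivAt (H n) (H (n + 1) x) x := fun n =>
    bt_iter isOpen_Ioo hh n
  have hcont : ∀ k, ContinuousOn (H k) (Ioo (-ε) ε) := fun k y hy =>
    (hH k y hy).continuousAt.continuousWithinAt
  refine ⟨fun x => ∫ t in (0 : ℝ)..1, t ^ 0 * H (0 + 1) (t * x), ?_, ?_⟩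
  · exact bt_tower (f := fun n x => ∫ t in (0 : ℝ)..1, t ^ n * H (n + 1) (t * x)) isOpen_Ioo
      (fun n x hx => bt_param hH n x hx) 0
  · intro x hx
    have h1 : ∀ t ∈ uIcc (0 : ℝ) 1, HasDerivAt (fun t : ℝ => H 0 (t * x)) (x * H 1 (t * x)) t := by
      intro t ht
      rw [uIcc_of_le zero_le_one] at ht
      have h2 := (hH 0 (t * x) (bt_mul_mem ht hx)).comp t ((hasDerivAt_id t).mul_const x)
      refine h2.congr_deriv ?_
      simp only [one_mul, zero_add]
      ring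
    have h2 : ContinuousOn (fun t : ℝ => x * H 1 (t * x)) (uIcc (0 : ℝ) 1) := by
      rw [uIcc_of_le zero_le_one]
      exact continuousOn_const.mul ((hcont 1).comp (continuousOn_id.mul continuousOn_const)
        fun t ht => bt_mul_mem ht hx)
    have h3 := intervalIntegral.integral_eq_sub_of_hasDerivAt h1 h2.intervalIntegrable
    have h0 : H 0 = h := iteratedDerivWithin_zero
    simp only [h0, one_mul, zero_mul, intervalIntegral.integral_const_mul] at h3
    simp only [pow_zero, one_mul, zero_add]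
    linarith only [h3]

end Vale.Agent.P244.ST.BD.BT
end

section

/-!
# P244-ST, block B : elementary consequences of the structure `IsBub`

Numerical facts on `κ`, elementary bounds for `tanh`, cubic asymptotics of `g` at `0`.
-/

open Set Filter Topology Real
open scoped ContDiff

namespace Vale.Agent.P244.ST.BD.BA

open Vale.Agent.P244.ST.BD Vale.Agent.P244.ST.BD.BT

theorem ba_kap_bounds : 2.11 < kap 40 ∧ kap 40 < 2.12 := by
  have e : ((40 : ℝ) - 1) * (40 - 9) = 1209 := by norm_num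
  have h1 : sqrt 1209 < 34.78 := by
    rw [sqrt_lt' (by norm_num)]; norm_num
  have h2 : 34.76 < sqrt 1209 := by
    rw [lt_sqrt (by norm_num)]; norm_num
  unfold kap
  rw [e]
  constructor <;> linarith only [h1, h2]

theorem ba_kap_sq : kap 40 ^ 2 = 39 * kap 40 - 78 := by
  have e : ((40 : ℝ) - 1) * (40 - 9) = 1209 := by norm_num
  have h1 : sqrt 1209 ^ 2 = 1209 := sq_sqrt (by norm_num)
  unfold kap
  rw [e]
  linear_combination (1 / 4) * h1

theorem ba_kap_pos : 0 < kap 40 := by linarith only [ba_kap_bounds.1]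

theorem ba_tanh_nonneg {u : ℝ} (hu : 0 ≤ u) : 0 ≤ tanh u := by
  rw [tanh_eq_sinh_div_cosh]
  exact div_nonneg (sinh_nonneg_iff.2 hu) (cosh_pos u).le

theorem ba_tanh_pos {u : ℝ} (hu : 0 < u) : 0 < tanh u := by
  rw [tanh_eq_sinh_div_cosh]
  exact div_pos (sinh_pos_iff.2 hu) (cosh_pos u)

theorem ba_tanh_zero : tanh 0 = 0 := by simp

theorem ba_tanh_cont : Continuous tanh := bt_tanh_contDiff (n := 0).continuous

/-- `tanh u ≤ u` -/
theorem ba_tanh_le {u : ℝ} (hu : 0 ≤ u) : tanh u ≤ u := by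
  have hm : MonotoneOn (fun x : ℝ => x - tanh x) (Ici 0) := by
    refine monotoneOn_of_hasDerivWithinAt_nonneg (f' := fun x => tanh x ^ 2) (convex_Ici 0)
      ((continuous_id.sub ba_tanh_cont).continuousOn) ?_ ?_
    · intro x _
      have := ((hasDerivAt_id x).sub (bt_tanh_deriv x)).hasDerivWithinAt
        (s := interior (Ici (0 : ℝ)))
      exact this.congr_deriv (by ring)
    · intro x _; exact sq_nonneg _
  have := hm (mem_Ici.2 le_rfl) (mem_Ici.2 hu) hu
  simp only [ba_tanh_zero, sub_zero] at this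
  linarith only [this]

/-- `u - tanh u ≤ u^3/3` -/
theorem ba_tanh_ge {u : ℝ} (hu : 0 ≤ u) : u - tanh u ≤ u ^ 3 / 3 := by
  have hm : MonotoneOn (fun x : ℝ => x ^ 3 / 3 - (x - tanh x)) (Ici 0) := by
    refine monotoneOn_of_hasDerivWithinAt_nonneg (f' := fun x => x ^ 2 - tanh x ^ 2) (convex_Ici 0)
      ((((continuous_pow 3).div_const 3).sub (continuous_id.sub ba_tanh_cont)).continuousOn) ?_ ?_
    · intro x _
      have := (((hasDerivAt_pow 3 x).div_const 3).sub
        ((hasDerivAt_id x).sub (bt_tanh_deriv x))).hasDerivWithinAt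
        (s := interior (Ici (0 : ℝ)))
      refine this.congr_deriv ?_
      push_cast
      ring
    · intro x hx
      rw [interior_Ici] at hx
      have h1 := ba_tanh_le (le_of_lt hx)
      have h2 := ba_tanh_nonneg (le_of_lt hx)
      nlinarith only [h1, h2]
  have := hm (mem_Ici.2 le_rfl) (mem_Ici.2 hu) hu
  simp only [ba_tanh_zero] at this
  linarith only [this]

/-- `u ≤ (1+u) tanh u` -/
theorem ba_tanh_lower (u : ℝ) : u ≤ (1 + u) * tanh u := by
  have h1 : tanh u = (exp u - exp (-u)) / (exp u + exp (-u)) := by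
    rw [tanh_eq]
  have h2 : 0 < exp u + exp (-u) := by positivity
  rw [h1, mul_div_assoc', le_div_iff₀ h2]
  have h3 : exp u * exp (-u) = 1 := by rw [← exp_add]; simp
  have h4 : 1 + 2 * u ≤ exp u ^ 2 := by
    have := add_one_le_exp (2 * u)
    rw [← exp_nat_mul]
    push_cast
    linarith only [this]
  have h5 : 0 < exp u := exp_pos u
  have h6 : (1 + 2 * u) * exp (-u) ≤ exp u := by
    have := mul_le_mul_of_nonneg_right h4 (exp_pos (-u)).le
    calc (1 + 2 * u) * exp (-u) ≤ exp u ^ 2 * exp (-u) := this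
      _ = exp u * (exp u * exp (-u)) := by ring
      _ = exp u := by rw [h3, mul_one]
  linarith only [h6]

variable {g : ℝ → ℝ}

theorem ba_g_pos (hg : IsBub 40 g) {u : ℝ} (hu : 0 < u) : 0 < g u := by
  have := hg.lower u hu
  linarith only [hu, this, ba_tanh_pos hu]

theorem ba_q_pos (hg : IsBub 40 g) {u : ℝ} (hu : 0 < u) : 38 < qf 40 (g u) := by
  have h1 := ba_g_pos hg hu
  have h2 := hg.lt_two u hu
  unfold qf
  nlinarith only [h1, h2]

theorem ba_q_le (y : ℝ) : qf 40 y ≤ 39 := by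
  unfold qf
  nlinarith only [sq_nonneg y]

theorem ba_gRhs (hg : IsBub 40 g) {u : ℝ} (hu : 0 < u) :
    g u * gRhs 40 u (g u) = qf 40 (g u) * (g u - 2 * tanh u) := by
  unfold gRhs
  have := (ba_g_pos hg hu).ne'
  field_simp

theorem ba_g_lt (hg : IsBub 40 g) {u : ℝ} (hu : 0 < u) : g u < kap 40 * u := by
  have h1 := hg.upper u hu
  have h2 := ba_tanh_le hu.le
  have h3 := ba_kap_pos
  nlinarith only [h1, h2, h3]

/-- cubic asymptotics of `g`: `0 < κ u - g(u) ≤ C u³` for all `u > 0`. -/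
theorem ba_g_cubic (hg : IsBub 40 g) : ∃ C, 0 ≤ C ∧ ∀ u > 0, kap 40 * u - g u ≤ C * u ^ 3 := by
  obtain ⟨C, hC⟩ := hg.near_zero
  have hk := ba_kap_pos
  refine ⟨|C| + kap 40 / 3, by positivity, fun u hu => ?_⟩
  have h1 := hC u hu
  have hT := ba_tanh_pos hu
  have h2 : kap 40 * tanh u - g u ≤ C * tanh u ^ 3 := by
    have := mul_le_mul_of_nonneg_right h1 hT.le
    have e1 : (kap 40 - g u / tanh u) * tanh u = kap 40 * tanh u - g u := by
      field_simp
    rw [e1] at this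
    linarith only [this]
  have h3 : C * tanh u ^ 3 ≤ |C| * u ^ 3 := by
    have h4 : tanh u ^ 3 ≤ u ^ 3 := pow_le_pow_left₀ hT.le (ba_tanh_le hu.le) 3
    calc C * tanh u ^ 3 ≤ |C| * tanh u ^ 3 :=
          mul_le_mul_of_nonneg_right (le_abs_self C) (by positivity)
      _ ≤ |C| * u ^ 3 := mul_le_mul_of_nonneg_left h4 (abs_nonneg _)
  have h5 := mul_le_mul_of_nonneg_left (ba_tanh_ge hu.le) hk.le
  nlinarith only [h2, h3, h5]

end Vale.Agent.P244.ST.BD.BA
end

section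

/-!
# P244-ST, block B : existence of the bubble profile in the variable `l = log r`
-/

open Set Filter Topology Real MeasureTheory
open scoped ContDiff

namespace Vale.Agent.P244.ST.BD.BP

open Vale.Agent.P244.ST.BD Vale.Agent.P244.ST.BD.BT Vale.Agent.P244.ST.BD.BA

variable {g : ℝ → ℝ}

/-! ### the arrival time `L(u) = -(1/κ) log u + ∫_0^u (g - κ v)/(κ v g)` -/

/-- the integrand -/
noncomputable def bp_k (g : ℝ → ℝ) (v : ℝ) : ℝ := (g v - kap 40 * v) / (kap 40 * v * g v)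

/-- the regular part -/
noncomputable def bp_K (g : ℝ → ℝ) (u : ℝ) : ℝ := ∫ v in (0 : ℝ)..u, bp_k g v

/-- the arrival time -/
noncomputable def bp_L (g : ℝ → ℝ) (u : ℝ) : ℝ := -(log u) / kap 40 + bp_K g u

theorem bp_k_eq (hg : IsBub 40 g) {v : ℝ} (hv : 0 < v) :
    bp_k g v = 1 / (kap 40 * v) - 1 / g v := by
  have h1 := (ba_g_pos hg hv).ne'
  have h2 := ba_kap_pos.ne'
  unfold bp_k
  field_simp

theorem bp_k_zero : bp_k g 0 = 0 := by simp [bp_k]

theorem bp_k_bound (hg : IsBub 40 g) : ∃ C, 0 ≤ C ∧ ∀ v > 0, |bp_k g v| ≤ C * v * (1 + v) := by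
  obtain ⟨C, hC0, hC⟩ := ba_g_cubic hg
  have hk := ba_kap_pos
  refine ⟨C / kap 40, by positivity, fun v hv => ?_⟩
  have hgp := ba_g_pos hg hv
  have h1 := ba_g_lt hg hv
  have h2 := hC v hv
  have h3 : v ≤ (1 + v) * g v := by
    have a1 := hg.lower v hv
    have a2 := ba_tanh_lower v
    have a3 := ba_tanh_pos hv
    nlinarith only [hv, hgp, a1, a2, a3]
  have h4 : |bp_k g v| = (kap 40 * v - g v) / (kap 40 * v * g v) := by
    unfold bp_k
    rw [abs_div, abs_of_pos (by positivity : 0 < kap 40 * v * g v), abs_sub_comm,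
      abs_of_pos (by linarith only [h1])]
  rw [h4, div_le_iff₀ (by positivity)]
  calc kap 40 * v - g v ≤ C * v ^ 3 := h2
    _ = C * v ^ 2 * v := by ring
    _ ≤ C * v ^ 2 * ((1 + v) * g v) := mul_le_mul_of_nonneg_left h3 (by positivity)
    _ = C / kap 40 * v * (1 + v) * (kap 40 * v * g v) := by
      field_simp

theorem bp_k_contAt (hg : IsBub 40 g) {v : ℝ} (hv : 0 < v) : ContinuousAt (bp_k g) v := by
  have h1 : ContinuousAt g v := (hg.deriv v hv).continuousAt
  have h2 := (ba_g_pos hg hv).ne'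
  have h3 := ba_kap_pos.ne'
  unfold bp_k
  refine (h1.sub (continuousAt_const.mul continuousAt_id)).div
    ((continuousAt_const.mul continuousAt_id).mul h1) ?_
  have := hv.ne'
  positivity

theorem bp_k_contOn (hg : IsBub 40 g) : ContinuousOn (bp_k g) (Ici 0) := by
  intro v hv
  rcases eq_or_lt_of_le (mem_Ici.1 hv) with h | h
  · subst h
    obtain ⟨C, hC0, hC⟩ := bp_k_bound hg
    have h1 : Tendsto (fun v : ℝ => C * v * (1 + v)) (𝓝[Ici 0] 0) (𝓝 0) := by
      have : Continuous (fun v : ℝ => C * v * (1 + v)) := by fun_prop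
      have h2 := (this.tendsto 0).mono_left (nhdsWithin_le_nhds (s := Ici (0 : ℝ)))
      simpa using h2
    have h2 : Tendsto (bp_k g) (𝓝[Ici 0] 0) (𝓝 0) := by
      refine tendsto_zero_iff_norm_tendsto_zero.2 (squeeze_zero' (Eventually.of_forall fun _ =>
        norm_nonneg _) ?_ h1)
      filter_upwards [self_mem_nhdsWithin] with x hx
      rcases eq_or_lt_of_le (mem_Ici.1 hx) with h' | h'
      · subst h'; simp [bp_k_zero]
      · exact hC x h'
    unfold ContinuousWithinAt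
    rw [bp_k_zero]
    exact h2
  · exact (bp_k_contAt hg h).continuousWithinAt

theorem bp_K_bound (hg : IsBub 40 g) :
    ∃ C, 0 ≤ C ∧ ∀ u > 0, |bp_K g u| ≤ C * u ^ 2 * (1 + u) := by
  obtain ⟨C, hC0, hC⟩ := bp_k_bound hg
  refine ⟨C, hC0, fun u hu => ?_⟩
  have h1 : ∀ v ∈ uIoc 0 u, ‖bp_k g v‖ ≤ C * u * (1 + u) := by
    intro v hv
    rw [uIoc_of_le hu.le] at hv
    refine (hC v hv.1).trans ?_
    have := hv.1
    have := hv.2
    gcongr
  have h2 := intervalIntegral.norm_integral_le_of_norm_le_const h1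
  rw [Real.norm_eq_abs] at h2
  unfold bp_K
  refine h2.trans (le_of_eq ?_)
  rw [sub_zero, abs_of_pos hu]
  ring

theorem bp_K_deriv (hg : IsBub 40 g) {u : ℝ} (hu : 0 < u) :
    HasDerivAt (bp_K g) (bp_k g u) u := by
  unfold bp_K
  refine intervalIntegral.integral_hasDerivAt_right ?_ ?_ (bp_k_contAt hg hu)
  · refine ContinuousOn.intervalIntegrable ?_
    rw [uIcc_of_le hu.le]
    exact (bp_k_contOn hg).mono Icc_subset_Ici_self
  · have : ContinuousOn (bp_k g) (Ioi 0) := (bp_k_contOn hg).mono Ioi_subset_Ici_self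
    exact this.stronglyMeasurableAtFilter isOpen_Ioi u hu

theorem bp_L_deriv (hg : IsBub 40 g) {u : ℝ} (hu : 0 < u) :
    HasDerivAt (bp_L g) (-(1 / g u)) u := by
  have h1 := ((hasDerivAt_log hu.ne').neg.div_const (kap 40)).add (bp_K_deriv hg hu)
  refine h1.congr_deriv ?_
  rw [bp_k_eq hg hu]
  have := ba_kap_pos.ne'
  field_simp
  ring

/-- `φ(x) = - L(e^x)` -/
noncomputable def bp_phi (g : ℝ → ℝ) (x : ℝ) : ℝ := -(bp_L g (exp x))

theorem bp_phi_deriv (hg : IsBub 40 g) (x : ℝ) :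
    HasDerivAt (bp_phi g) (exp x / g (exp x)) x := by
  have h1 := ((bp_L_deriv hg (exp_pos x)).comp x (hasDerivAt_exp x)).neg
  refine h1.congr_deriv ?_
  ring

theorem bp_phi_slope (hg : IsBub 40 g) (x : ℝ) : 1 / kap 40 < exp x / g (exp x) := by
  have h1 := ba_g_lt hg (exp_pos x)
  have h2 := ba_g_pos hg (exp_pos x)
  rw [div_lt_div_iff₀ ba_kap_pos h2]
  linarith only [h1]

theorem bp_phi_mono (hg : IsBub 40 g) : Monotone (fun x => bp_phi g x - x / kap 40) := by
  have hd : ∀ x, HasDerivAt (fun x => bp_phi g x - x / kap 40)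
      (exp x / g (exp x) - 1 / kap 40) x := fun x =>
    (bp_phi_deriv hg x).sub ((hasDerivAt_id x).div_const _)
  refine monotone_of_deriv_nonneg (fun x => (hd x).differentiableAt) fun x => ?_
  rw [(hd x).deriv]
  linarith only [hg, bp_phi_slope hg x]

theorem bp_phi_strict (hg : IsBub 40 g) : StrictMono (bp_phi g) := by
  intro x y hxy
  have h1 := bp_phi_mono hg hxy.le
  have h2 : x / kap 40 < y / kap 40 := div_lt_div_of_pos_right hxy ba_kap_pos
  simp only at h1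
  linarith only [h1, h2]

theorem bp_phi_cont (hg : IsBub 40 g) : Continuous (bp_phi g) :=
  continuous_iff_continuousAt.2 fun x => (bp_phi_deriv hg x).continuousAt

theorem bp_phi_surj (hg : IsBub 40 g) : Function.Surjective (bp_phi g) := by
  have hk := ba_kap_pos
  refine (bp_phi_cont hg).surjective ?_ ?_
  · have h1 : Tendsto (fun x : ℝ => bp_phi g 0 + x / kap 40) atTop atTop :=
      tendsto_atTop_add_const_left _ _ (tendsto_id.atTop_div_const hk)
    refine tendsto_atTop_mono' _ ?_ h1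
    filter_upwards [eventually_ge_atTop 0] with x hx
    have := bp_phi_mono hg hx
    simp only [zero_div, sub_zero] at this
    linarith only [this]
  · have h1 : Tendsto (fun x : ℝ => bp_phi g 0 + x / kap 40) atBot atBot :=
      tendsto_atBot_add_const_left _ _ (tendsto_id.atBot_div_const hk)
    refine tendsto_atBot_mono' _ ?_ h1
    filter_upwards [eventually_le_atBot 0] with x hx
    have := bp_phi_mono hg hx
    simp only [zero_div, sub_zero] at this
    linarith only [this]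

/-- the order isomorphism `φ` -/
noncomputable def bp_iso (hg : IsBub 40 g) : ℝ ≃o ℝ :=
  (bp_phi_strict hg).orderIsoOfSurjective _ (bp_phi_surj hg)

theorem bp_iso_apply (hg : IsBub 40 g) (x : ℝ) : bp_iso hg x = bp_phi g x := rfl

/-- the profile -/
noncomputable def bp_Y (hg : IsBub 40 g) (l : ℝ) : ℝ := exp ((bp_iso hg).symm (-l))

theorem bp_Y_pos (hg : IsBub 40 g) (l : ℝ) : 0 < bp_Y hg l := exp_pos _

theorem bp_L_Y (hg : IsBub 40 g) (l : ℝ) : bp_L g (bp_Y hg l) = l := by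
  have h1 : bp_phi g ((bp_iso hg).symm (-l)) = -l := by
    rw [← bp_iso_apply hg]
    exact (bp_iso hg).apply_symm_apply (-l)
  unfold bp_phi at h1
  unfold bp_Y
  linarith only [hg, h1]

theorem bp_Y_deriv (hg : IsBub 40 g) (l : ℝ) :
    HasDerivAt (bp_Y hg) (-(g (bp_Y hg l))) l := by
  have hc : ContinuousAt (bp_iso hg).symm (-l) := (bp_iso hg).symm.continuous.continuousAt
  have h1 := bp_phi_deriv hg ((bp_iso hg).symm (-l))
  have hne : exp ((bp_iso hg).symm (-l)) / g (exp ((bp_iso hg).symm (-l))) ≠ 0 :=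
    (div_pos (exp_pos _) (ba_g_pos hg (exp_pos _))).ne'
  have h2 : HasDerivAt (bp_iso hg).symm
      (exp ((bp_iso hg).symm (-l)) / g (exp ((bp_iso hg).symm (-l))))⁻¹ (-l) :=
    h1.of_local_left_inverse hc hne
      (Eventually.of_forall fun y => by
        rw [← bp_iso_apply hg]; exact (bp_iso hg).apply_symm_apply y)
  have h3 : HasDerivAt (fun l : ℝ => (bp_iso hg).symm (-l))
      ((exp ((bp_iso hg).symm (-l)) / g (exp ((bp_iso hg).symm (-l))))⁻¹ * (-1)) l :=
    h2.comp l (hasDerivAt_neg l)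
  have h4 := h3.exp
  refine h4.congr_deriv ?_
  have h5 := (ba_g_pos hg (exp_pos ((bp_iso hg).symm (-l)))).ne'
  unfold bp_Y
  field_simp

theorem bp_Y_anti (hg : IsBub 40 g) : StrictAnti (bp_Y hg) := by
  intro a b hab
  unfold bp_Y
  exact exp_lt_exp.2 ((bp_iso hg).symm.strictMono (neg_lt_neg hab))

theorem bp_Y_top (hg : IsBub 40 g) : Tendsto (bp_Y hg) atBot atTop := by
  unfold bp_Y
  exact tendsto_exp_atTop.comp ((bp_iso hg).symm.tendsto_atTop.comp tendsto_neg_atBot_atTop)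

end Vale.Agent.P244.ST.BD.BP
end
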