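import Mathlib

set_option linter.all false

section

/-!
# P244-G3 : calculus on the space-time strip `[0,T) × [-1,1]`
-/

open Set Filter Topology MeasureTheory
open scoped ContDiff

namespace Vale.Agent.P244.Geo

/-- The space-time strip `[0,T) × [-1,1]`. -/
abbrev strip (T : ℝ) : Set (ℝ × ℝ) := Ico 0 T ×ˢ Icc (-1) 1

theorem uniqueDiffOn_II : UniqueDiffOn ℝ (Icc (-1 : ℝ) 1) := uniqueDiffOn_Icc (by norm_num)

theorem uniqueDiffOn_strip (T : ℝ) : UniqueDiffOn ℝ (strip T) :=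
  (uniqueDiffOn_Ico 0 T).prod uniqueDiffOn_II

/-- A function with partial derivatives on the strip, the `x`-derivative being continuous,
is differentiable. -/
theorem hasFDerivWithinAt_strip {T : ℝ} {G Gt Gx : ℝ → ℝ → ℝ}
    (ht : ∀ t ∈ Ico 0 T, ∀ x ∈ Icc (-1 : ℝ) 1,
      HasDerivWithinAt (fun s => G s x) (Gt t x) (Ico 0 T) t)
    (hx : ∀ t ∈ Ico 0 T, ∀ x ∈ Icc (-1 : ℝ) 1, HasDerivWithinAt (G t) (Gx t x) (Icc (-1) 1) x)
    (hGx : ContinuousOn (fun z : ℝ × ℝ => Gx z.1 z.2) (strip T)) {t x : ℝ} (htm : t ∈ Ico 0 T)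
    (hxm : x ∈ Icc (-1 : ℝ) 1) :
    HasFDerivWithinAt (fun z : ℝ × ℝ => G z.1 z.2)
      ((Gt t x) • ContinuousLinearMap.fst ℝ ℝ ℝ + (Gx t x) • ContinuousLinearMap.snd ℝ ℝ ℝ)
      (strip T) (t, x) := by
  rw [hasFDerivWithinAt_iff_isLittleO, Asymptotics.isLittleO_iff]
  intro c hc
  have h1 := (hasDerivWithinAt_iff_isLittleO.mp (ht t htm x hxm))
  rw [Asymptotics.isLittleO_iff] at h1
  have h1' := h1 (half_pos hc)
  have hfst : Tendsto (fun z : ℝ × ℝ => z.1) (𝓝[strip T] (t, x)) (𝓝[Ico 0 T] t) := by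
    refine tendsto_nhdsWithin_iff.mpr ⟨?_, ?_⟩
    · exact (continuous_fst.tendsto (t, x)).mono_left nhdsWithin_le_nhds
    · filter_upwards [self_mem_nhdsWithin] with z hz using hz.1
  have h2 := hfst.eventually h1'
  have h3 := (hGx (t, x) ⟨htm, hxm⟩)
  rw [Metric.continuousWithinAt_iff] at h3
  obtain ⟨δ, hδ, h3⟩ := h3 (c / 2) (half_pos hc)
  have h4 : ∀ᶠ z in 𝓝[strip T] (t, x), dist z (t, x) < δ :=
    nhdsWithin_le_nhds (Metric.ball_mem_nhds _ hδ)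
  filter_upwards [h2, h4, self_mem_nhdsWithin] with z hz2 hz4 hz
  obtain ⟨s, y⟩ := z
  simp only at hz2 hz4 hz ⊢
  have hsub : uIcc x y ⊆ Icc (-1 : ℝ) 1 := by
    intro ξ hξ
    exact (convex_Icc (-1 : ℝ) 1).ordConnected.uIcc_subset hxm hz.2 hξ
  have hmv : ‖(G s y - Gx t x * y) - (G s x - Gx t x * x)‖ ≤ c / 2 * ‖y - x‖ := by
    refine (convex_uIcc x y).norm_image_sub_le_of_norm_hasDerivWithin_le
      (f := fun ξ => G s ξ - Gx t x * ξ) (f' := fun ξ => Gx s ξ - Gx t x) ?_ ?_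
      left_mem_uIcc right_mem_uIcc
    · intro ξ hξ
      have e1 := (hx s hz.1 ξ (hsub hξ)).mono hsub
      have e2 : HasDerivWithinAt (fun ξ : ℝ => Gx t x * ξ) (Gx t x) (uIcc x y) ξ := by
        simpa using (hasDerivWithinAt_id ξ (uIcc x y)).const_mul (Gx t x)
      exact e1.sub e2
    · intro ξ hξ
      have hd : dist ((s, ξ) : ℝ × ℝ) (t, x) < δ := by
        refine lt_of_le_of_lt ?_ hz4
        rw [Prod.dist_eq, Prod.dist_eq]
        refine max_le_max le_rfl ?_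
        simp only [Real.dist_eq]
        exact abs_sub_left_of_mem_uIcc hξ
      have := h3 (x := (s, ξ)) ⟨hz.1, hsub hξ⟩ hd
      rw [Real.dist_eq] at this
      exact this.le
  have e : G s y - G t x - ((Gt t x) • ContinuousLinearMap.fst ℝ ℝ ℝ +
      (Gx t x) • ContinuousLinearMap.snd ℝ ℝ ℝ) ((s, y) - (t, x)) =
      ((G s y - Gx t x * y) - (G s x - Gx t x * x)) +
      (G s x - G t x - (s - t) • Gt t x) := by
    simp
    ring
  rw [e]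
  have n1 : ‖s - t‖ ≤ ‖((s, y) : ℝ × ℝ) - (t, x)‖ := norm_fst_le (((s, y) : ℝ × ℝ) - (t, x))
  have n2 : ‖y - x‖ ≤ ‖((s, y) : ℝ × ℝ) - (t, x)‖ := norm_snd_le (((s, y) : ℝ × ℝ) - (t, x))
  calc _ ≤ ‖(G s y - Gx t x * y) - (G s x - Gx t x * x)‖ + ‖G s x - G t x - (s - t) • Gt t x‖ :=
        norm_add_le _ _
    _ ≤ c / 2 * ‖y - x‖ + c / 2 * ‖s - t‖ := add_le_add hmv hz2
    _ ≤ c / 2 * ‖((s, y) : ℝ × ℝ) - (t, x)‖ + c / 2 * ‖((s, y) : ℝ × ℝ) - (t, x)‖ := by gcongr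
    _ = c * ‖((s, y) : ℝ × ℝ) - (t, x)‖ := by ring

/-- (D) continuous partial derivatives of class `C^n` give class `C^(n+1)` on the strip. -/
theorem contDiffOn_strip_succ {T : ℝ} {G Gt Gx : ℝ → ℝ → ℝ} (n : ℕ)
    (ht : ∀ t ∈ Ico 0 T, ∀ x ∈ Icc (-1 : ℝ) 1,
      HasDerivWithinAt (fun s => G s x) (Gt t x) (Ico 0 T) t)
    (hx : ∀ t ∈ Ico 0 T, ∀ x ∈ Icc (-1 : ℝ) 1, HasDerivWithinAt (G t) (Gx t x) (Icc (-1) 1) x)
    (hGt : ContDiffOn ℝ n (fun z : ℝ × ℝ => Gt z.1 z.2) (strip T))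
    (hGx : ContDiffOn ℝ n (fun z : ℝ × ℝ => Gx z.1 z.2) (strip T)) :
    ContDiffOn ℝ (n + 1) (fun z : ℝ × ℝ => G z.1 z.2) (strip T) := by
  have hF : ∀ z ∈ strip T, HasFDerivWithinAt (fun z : ℝ × ℝ => G z.1 z.2)
      ((Gt z.1 z.2) • ContinuousLinearMap.fst ℝ ℝ ℝ + (Gx z.1 z.2) • ContinuousLinearMap.snd ℝ ℝ ℝ)
      (strip T) z := fun z hz => hasFDerivWithinAt_strip ht hx hGx.continuousOn hz.1 hz.2
  rw [contDiffOn_succ_iff_fderivWithin (uniqueDiffOn_strip T)]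
  refine ⟨fun z hz => (hF z hz).differentiableWithinAt, by simp, ?_⟩
  refine ContDiffOn.congr (f := fun z : ℝ × ℝ => (Gt z.1 z.2) • ContinuousLinearMap.fst ℝ ℝ ℝ +
    (Gx z.1 z.2) • ContinuousLinearMap.snd ℝ ℝ ℝ) ?_ ?_
  · exact (hGt.smul contDiffOn_const).add (hGx.smul contDiffOn_const)
  · intro z hz
    exact (hF z hz).fderivWithin (uniqueDiffOn_strip T z hz)

/-! ### Partial derivatives -/

theorem strip_hasDeriv_x {T : ℝ} {U : ℝ × ℝ → ℝ} (h : DifferentiableOn ℝ U (strip T)) {t x : ℝ}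
    (ht : t ∈ Ico 0 T) (hx : x ∈ Icc (-1 : ℝ) 1) :
    HasDerivWithinAt (fun y => U (t, y)) (fderivWithin ℝ U (strip T) (t, x) (0, 1))
      (Icc (-1) 1) x := by
  have h1 : HasFDerivWithinAt U (fderivWithin ℝ U (strip T) (t, x)) (strip T) (t, x) :=
    (h (t, x) ⟨ht, hx⟩).hasFDerivWithinAt
  have h2 : HasDerivWithinAt (fun y : ℝ => ((t, y) : ℝ × ℝ)) ((0, 1) : ℝ × ℝ) (Icc (-1) 1) x :=
    (hasDerivWithinAt_const x _ t).prodMk (hasDerivWithinAt_id x _)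
  exact h1.comp_hasDerivWithinAt x h2 (fun y hy => ⟨ht, hy⟩)

theorem strip_hasDeriv_t {T : ℝ} {U : ℝ × ℝ → ℝ} (h : DifferentiableOn ℝ U (strip T)) {t x : ℝ}
    (ht : t ∈ Ico 0 T) (hx : x ∈ Icc (-1 : ℝ) 1) :
    HasDerivWithinAt (fun s => U (s, x)) (fderivWithin ℝ U (strip T) (t, x) (1, 0))
      (Ico 0 T) t := by
  have h1 : HasFDerivWithinAt U (fderivWithin ℝ U (strip T) (t, x)) (strip T) (t, x) :=
    (h (t, x) ⟨ht, hx⟩).hasFDerivWithinAt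
  have h2 : HasDerivWithinAt (fun s : ℝ => ((s, x) : ℝ × ℝ)) ((1, 0) : ℝ × ℝ) (Ico 0 T) t :=
    (hasDerivWithinAt_id t _).prodMk (hasDerivWithinAt_const t _ x)
  exact h1.comp_hasDerivWithinAt t h2 (fun s hs => (⟨hs, hx⟩ : ((s, x) : ℝ × ℝ) ∈ strip T))

/-- (P1) for finite smoothness -/
theorem strip_dx_nat {T : ℝ} {F : ℝ → ℝ → ℝ} {n m : WithTop ℕ∞} (hmn : m + 1 ≤ n)
    (hF : ContDiffOn ℝ n (fun z : ℝ × ℝ => F z.1 z.2) (strip T)) :
    ContDiffOn ℝ m (fun z : ℝ × ℝ => derivWithin (F z.1) (Icc (-1) 1) z.2) (strip T) ∧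
    ∀ t ∈ Ico 0 T, ∀ x ∈ Icc (-1 : ℝ) 1,
      HasDerivWithinAt (F t) (derivWithin (F t) (Icc (-1) 1) x) (Icc (-1) 1) x := by
  have hn : n ≠ 0 := by
    rintro rfl
    simp at hmn
  have hd : DifferentiableOn ℝ (fun z : ℝ × ℝ => F z.1 z.2) (strip T) :=
    hF.differentiableOn hn
  have key : ∀ t ∈ Ico 0 T, ∀ x ∈ Icc (-1 : ℝ) 1, HasDerivWithinAt (F t)
      (fderivWithin ℝ (fun z : ℝ × ℝ => F z.1 z.2) (strip T) (t, x) (0, 1)) (Icc (-1) 1) x :=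
    fun t ht x hx => strip_hasDeriv_x hd ht hx
  refine ⟨?_, fun t ht x hx => (key t ht x hx).differentiableWithinAt.hasDerivWithinAt⟩
  have h1 : ContDiffOn ℝ m (fderivWithin ℝ (fun z : ℝ × ℝ => F z.1 z.2) (strip T)) (strip T) :=
    ContDiffOn.fderivWithin hF (uniqueDiffOn_strip T) hmn
  have h2 := h1.clm_apply (contDiffOn_const (c := ((0, 1) : ℝ × ℝ)))
  refine ContDiffOn.congr h2 ?_
  rintro ⟨t, x⟩ ⟨ht, hx⟩
  exact (key t ht x hx).derivWithin (uniqueDiffOn_II x hx)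

/-- (P2) for finite smoothness -/
theorem strip_dt_nat {T : ℝ} {F : ℝ → ℝ → ℝ} {n m : WithTop ℕ∞} (hmn : m + 1 ≤ n)
    (hF : ContDiffOn ℝ n (fun z : ℝ × ℝ => F z.1 z.2) (strip T)) :
    ContDiffOn ℝ m (fun z : ℝ × ℝ => derivWithin (fun s => F s z.2) (Ico 0 T) z.1) (strip T) ∧
    ∀ t ∈ Ico 0 T, ∀ x ∈ Icc (-1 : ℝ) 1,
      HasDerivWithinAt (fun s => F s x) (derivWithin (fun s => F s x) (Ico 0 T) t) (Ico 0 T) t := by
  have hn : n ≠ 0 := by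
    rintro rfl
    simp at hmn
  have hd : DifferentiableOn ℝ (fun z : ℝ × ℝ => F z.1 z.2) (strip T) :=
    hF.differentiableOn hn
  have key : ∀ t ∈ Ico 0 T, ∀ x ∈ Icc (-1 : ℝ) 1, HasDerivWithinAt (fun s => F s x)
      (fderivWithin ℝ (fun z : ℝ × ℝ => F z.1 z.2) (strip T) (t, x) (1, 0)) (Ico 0 T) t :=
    fun t ht x hx => strip_hasDeriv_t (U := fun z : ℝ × ℝ => F z.1 z.2) hd ht hx
  refine ⟨?_, fun t ht x hx => (key t ht x hx).differentiableWithinAt.hasDerivWithinAt⟩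
  have h1 : ContDiffOn ℝ m (fderivWithin ℝ (fun z : ℝ × ℝ => F z.1 z.2) (strip T)) (strip T) :=
    ContDiffOn.fderivWithin hF (uniqueDiffOn_strip T) hmn
  have h2 := h1.clm_apply (contDiffOn_const (c := ((1, 0) : ℝ × ℝ)))
  refine ContDiffOn.congr h2 ?_
  rintro ⟨t, x⟩ ⟨ht, hx⟩
  exact (key t ht x hx).derivWithin (uniqueDiffOn_Ico 0 T t ht)

/-- (P1) space derivatives of a smooth function on the strip -/
theorem strip_dx {T : ℝ} {F : ℝ → ℝ → ℝ}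
    (hF : ContDiffOn ℝ ∞ (fun z : ℝ × ℝ => F z.1 z.2) (strip T)) :
    ContDiffOn ℝ ∞ (fun z : ℝ × ℝ => derivWithin (F z.1) (Icc (-1) 1) z.2) (strip T) ∧
    ∀ t ∈ Ico 0 T, ∀ x ∈ Icc (-1 : ℝ) 1,
      HasDerivWithinAt (F t) (derivWithin (F t) (Icc (-1) 1) x) (Icc (-1) 1) x :=
  strip_dx_nat (by simp) hF

/-- (P2) time derivatives of a smooth function on the strip -/
theorem strip_dt {T : ℝ} {F : ℝ → ℝ → ℝ}
    (hF : ContDiffOn ℝ ∞ (fun z : ℝ × ℝ => F z.1 z.2) (strip T)) :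
    ContDiffOn ℝ ∞ (fun z : ℝ × ℝ => derivWithin (fun s => F s z.2) (Ico 0 T) z.1) (strip T) ∧
    ∀ t ∈ Ico 0 T, ∀ x ∈ Icc (-1 : ℝ) 1,
      HasDerivWithinAt (fun s => F s x) (derivWithin (fun s => F s x) (Ico 0 T) t) (Ico 0 T) t :=
  strip_dt_nat (by simp) hF

/-! ### Clamping -/

/-- The retraction of the line on `[a,b]`. -/
def cl (a b x : ℝ) : ℝ := max a (min b x)

theorem cl_mem {a b : ℝ} (h : a ≤ b) (x : ℝ) : cl a b x ∈ Icc a b :=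
  ⟨le_max_left _ _, max_le h (min_le_left _ _)⟩

theorem cl_of_mem {a b x : ℝ} (h : x ∈ Icc a b) : cl a b x = x := by
  rw [cl, min_eq_right h.2, max_eq_right h.1]

theorem continuous_cl (a b : ℝ) : Continuous (cl a b) :=
  continuous_const.max (continuous_const.min continuous_id)

theorem cl_mem_strip {T T' : ℝ} (h0 : 0 ≤ T') (h : T' < T) (z : ℝ × ℝ) :
    ((cl 0 T' z.1, cl (-1) 1 z.2) : ℝ × ℝ) ∈ strip T :=
  ⟨⟨(cl_mem h0 _).1, (cl_mem h0 _).2.trans_lt h⟩, cl_mem (by norm_num) _⟩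

theorem continuous_clamp {T T' : ℝ} (h0 : 0 ≤ T') (h : T' < T) {F : ℝ × ℝ → ℝ}
    (hF : ContinuousOn F (strip T)) :
    Continuous (fun z : ℝ × ℝ => F (cl 0 T' z.1, cl (-1) 1 z.2)) := by
  refine hF.comp_continuous ?_ (fun z => cl_mem_strip h0 h z)
  exact ((continuous_cl _ _).comp continuous_fst).prodMk ((continuous_cl _ _).comp continuous_snd)

theorem continuous_clamp1 {T T' : ℝ} (h0 : 0 ≤ T') (h : T' < T) {c : ℝ → ℝ}
    (hc : ContinuousOn c (Ico 0 T)) : Continuous (fun s => c (cl 0 T' s)) :=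
  hc.comp_continuous (continuous_cl _ _) fun _ => ⟨(cl_mem h0 _).1, (cl_mem h0 _).2.trans_lt h⟩

/-- choice of an intermediate time -/
theorem exists_mid {T t : ℝ} (ht : t ∈ Ico 0 T) : ∃ T', 0 ≤ T' ∧ T' < T ∧ t < T' :=
  ⟨(t + T) / 2, by linarith only [ht.2, ht.1], by linarith only [ht, ht.2], by linarith only [ht, ht.2]⟩

theorem Ico_mem_nhdsWithin {T T' t : ℝ} (h1 : t < T') :
    Iio T' ∩ Ico 0 T ∈ 𝓝[Ico 0 T] t :=
  inter_mem (nhdsWithin_le_nhds (Iio_mem_nhds h1)) self_mem_nhdsWithin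

theorem integral_cl_congr {a b t : ℝ} {c : ℝ → ℝ} (h : uIcc 0 t ⊆ Icc a b) :
    ∫ s in (0 : ℝ)..t, c (cl a b s) = ∫ s in (0 : ℝ)..t, c s :=
  intervalIntegral.integral_congr fun s hs => by simp only [cl_of_mem (h hs)]

theorem uIcc_sub_time {T' t : ℝ} (h0 : 0 ≤ t) (h : t ≤ T') : uIcc 0 t ⊆ Icc 0 T' := by
  rw [uIcc_of_le h0]
  exact Icc_subset_Icc le_rfl h

theorem uIcc_sub_space {x : ℝ} (h : x ∈ Icc (-1 : ℝ) 1) : uIcc 0 x ⊆ Icc (-1) 1 :=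
  (convex_Icc (-1 : ℝ) 1).ordConnected.uIcc_subset ⟨by norm_num, by norm_num⟩ h

/-- Fundamental theorem of calculus in time. -/
theorem hasDerivWithinAt_integral_t {T : ℝ} {c : ℝ → ℝ} (hc : ContinuousOn c (Ico 0 T)) {t : ℝ}
    (ht : t ∈ Ico 0 T) :
    HasDerivWithinAt (fun t => ∫ s in (0 : ℝ)..t, c s) (c t) (Ico 0 T) t := by
  obtain ⟨T', h0, h1, h2⟩ := exists_mid ht
  have hcc := continuous_clamp1 h0 h1 hc
  have e := (intervalIntegral.integral_hasDerivAt_right (hcc.intervalIntegrable 0 t)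
    (hcc.stronglyMeasurableAtFilter _ _) hcc.continuousAt).hasDerivWithinAt (s := Ico 0 T)
  rw [cl_of_mem ⟨ht.1, h2.le⟩] at e
  refine e.congr_of_eventuallyEq ?_ ?_
  · filter_upwards [Ico_mem_nhdsWithin (T := T) h2] with s hs
    exact (integral_cl_congr (uIcc_sub_time hs.2.1 (le_of_lt hs.1))).symm
  · exact (integral_cl_congr (uIcc_sub_time ht.1 h2.le)).symm

/-- Fundamental theorem of calculus in space. -/
theorem hasDerivWithinAt_integral_x {c : ℝ → ℝ} (hc : ContinuousOn c (Icc (-1) 1)) {x : ℝ}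
    (hx : x ∈ Icc (-1 : ℝ) 1) :
    HasDerivWithinAt (fun x => ∫ s in (0 : ℝ)..x, c s) (c x) (Icc (-1) 1) x := by
  have hcc : Continuous (fun s => c (cl (-1) 1 s)) :=
    hc.comp_continuous (continuous_cl _ _) fun _ => cl_mem (by norm_num) _
  have e := (intervalIntegral.integral_hasDerivAt_right (hcc.intervalIntegrable 0 x)
    (hcc.stronglyMeasurableAtFilter _ _) hcc.continuousAt).hasDerivWithinAt (s := Icc (-1) 1)
  rw [cl_of_mem hx] at e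
  refine e.congr (fun s hs => ?_) ?_
  · exact (integral_cl_congr (uIcc_sub_space hs)).symm
  · exact (integral_cl_congr (uIcc_sub_space hx)).symm

/-- Continuity of the space primitive. -/
theorem continuousOn_integral_x {T : ℝ} {F : ℝ → ℝ → ℝ}
    (hF : ContinuousOn (fun z : ℝ × ℝ => F z.1 z.2) (strip T)) :
    ContinuousOn (fun z : ℝ × ℝ => ∫ y in (0 : ℝ)..z.2, F z.1 y) (strip T) := by
  intro z hz
  obtain ⟨T', h0, h1, h2⟩ := exists_mid hz.1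
  have hc := continuous_clamp h0 h1 hF
  have hc2 : Continuous fun z : ℝ × ℝ => ∫ y in (0 : ℝ)..z.2, F (cl 0 T' z.1) (cl (-1) 1 y) := by
    refine intervalIntegral.continuous_parametric_intervalIntegral_of_continuous
      (f := fun (z : ℝ × ℝ) (y : ℝ) => F (cl 0 T' z.1) (cl (-1) 1 y)) ?_ continuous_snd
    exact hc.comp ((continuous_fst.comp continuous_fst).prodMk continuous_snd)
  refine hc2.continuousWithinAt.congr_of_eventuallyEq ?_ ?_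
  · have : ∀ᶠ w in 𝓝[strip T] z, w.1 < T' :=
      nhdsWithin_le_nhds (continuous_fst.continuousAt (Iio_mem_nhds h2))
    filter_upwards [this, self_mem_nhdsWithin] with w hw1 hw2
    rw [cl_of_mem ⟨hw2.1.1, hw1.le⟩]
    exact (integral_cl_congr (c := F w.1) (uIcc_sub_space hw2.2)).symm
  · rw [cl_of_mem ⟨hz.1.1, h2.le⟩]
    exact (integral_cl_congr (c := F z.1) (uIcc_sub_space hz.2)).symm

/-- Continuity of the time primitive. -/
theorem continuousOn_integral_t {T : ℝ} {F : ℝ → ℝ → ℝ}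
    (hF : ContinuousOn (fun z : ℝ × ℝ => F z.1 z.2) (strip T)) :
    ContinuousOn (fun z : ℝ × ℝ => ∫ s in (0 : ℝ)..z.1, F s z.2) (strip T) := by
  intro z hz
  obtain ⟨T', h0, h1, h2⟩ := exists_mid hz.1
  have hc := continuous_clamp h0 h1 hF
  have hc2 : Continuous fun z : ℝ × ℝ => ∫ s in (0 : ℝ)..z.1, F (cl 0 T' s) (cl (-1) 1 z.2) := by
    refine intervalIntegral.continuous_parametric_intervalIntegral_of_continuous
      (f := fun (z : ℝ × ℝ) (s : ℝ) => F (cl 0 T' s) (cl (-1) 1 z.2)) ?_ continuous_fst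
    exact hc.comp (continuous_snd.prodMk (continuous_snd.comp continuous_fst))
  refine hc2.continuousWithinAt.congr_of_eventuallyEq ?_ ?_
  · have : ∀ᶠ w in 𝓝[strip T] z, w.1 < T' :=
      nhdsWithin_le_nhds (continuous_fst.continuousAt (Iio_mem_nhds h2))
    filter_upwards [this, self_mem_nhdsWithin] with w hw1 hw2
    rw [cl_of_mem hw2.2]
    exact (integral_cl_congr (c := fun s => F s w.2) (uIcc_sub_time hw2.1.1 hw1.le)).symm
  · rw [cl_of_mem hz.2]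
    exact (integral_cl_congr (c := fun s => F s z.2) (uIcc_sub_time hz.1.1 h2.le)).symm

theorem slice_x {T : ℝ} {F : ℝ → ℝ → ℝ}
    (hF : ContinuousOn (fun z : ℝ × ℝ => F z.1 z.2) (strip T)) {t : ℝ} (ht : t ∈ Ico 0 T) :
    ContinuousOn (F t) (Icc (-1) 1) :=
  hF.comp (f := fun x : ℝ => ((t, x) : ℝ × ℝ)) (by fun_prop) fun x hx => ⟨ht, hx⟩

theorem slice_t {T : ℝ} {F : ℝ → ℝ → ℝ}
    (hF : ContinuousOn (fun z : ℝ × ℝ => F z.1 z.2) (strip T)) {x : ℝ} (hx : x ∈ Icc (-1 : ℝ) 1) :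
    ContinuousOn (fun t => F t x) (Ico 0 T) :=
  hF.comp (f := fun t : ℝ => ((t, x) : ℝ × ℝ)) (by fun_prop)
    fun t ht => (⟨ht, hx⟩ : ((t, x) : ℝ × ℝ) ∈ strip T)

/-! ### Integration of partial derivatives -/

/-- A function with zero derivative on `[0,T)` is constant. -/
theorem const_of_deriv_zero {T : ℝ} {u : ℝ → ℝ}
    (hu : ∀ t ∈ Ico 0 T, HasDerivWithinAt u 0 (Ico 0 T) t) {t : ℝ} (ht : t ∈ Ico 0 T) :
    u t = u 0 := by
  have h := (convex_Ico (0 : ℝ) T).norm_image_sub_le_of_norm_hasDerivWithin_le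
    (f := u) (f' := fun _ => 0) (C := 0) (fun s hs => hu s hs) (fun s _ => by simp)
    (x := 0) (y := t) ⟨le_rfl, ht.1.trans_lt ht.2⟩ ht
  rw [zero_mul] at h
  exact sub_eq_zero.mp (norm_le_zero_iff.mp h)

theorem const_of_deriv_zero_x {u : ℝ → ℝ}
    (hu : ∀ x ∈ Icc (-1 : ℝ) 1, HasDerivWithinAt u 0 (Icc (-1) 1) x) {x : ℝ}
    (hx : x ∈ Icc (-1 : ℝ) 1) : u x = u 0 := by
  have h := (convex_Icc (-1 : ℝ) 1).norm_image_sub_le_of_norm_hasDerivWithin_le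
    (f := u) (f' := fun _ => 0) (C := 0) (fun s hs => hu s hs) (fun s _ => by simp)
    (x := 0) (y := x) ⟨by norm_num, by norm_num⟩ hx
  rw [zero_mul] at h
  exact sub_eq_zero.mp (norm_le_zero_iff.mp h)

theorem ftc_t {T : ℝ} {u c : ℝ → ℝ} (hc : ContinuousOn c (Ico 0 T))
    (hu : ∀ t ∈ Ico 0 T, HasDerivWithinAt u (c t) (Ico 0 T) t) {t : ℝ} (ht : t ∈ Ico 0 T) :
    u t = u 0 + ∫ s in (0 : ℝ)..t, c s := by
  have h := const_of_deriv_zero (u := fun t => u t - ∫ s in (0 : ℝ)..t, c s)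
    (fun t ht => by
      have := (hu t ht).sub (hasDerivWithinAt_integral_t hc ht)
      rw [sub_self] at this
      exact this) ht
  simp only [intervalIntegral.integral_same, sub_zero] at h
  linarith only [h]

theorem ftc_x {u c : ℝ → ℝ} (hc : ContinuousOn c (Icc (-1) 1))
    (hu : ∀ x ∈ Icc (-1 : ℝ) 1, HasDerivWithinAt u (c x) (Icc (-1) 1) x) {x : ℝ}
    (hx : x ∈ Icc (-1 : ℝ) 1) : u x = u 0 + ∫ y in (0 : ℝ)..x, c y := by
  have h := const_of_deriv_zero_x (u := fun x => u x - ∫ s in (0 : ℝ)..x, c s)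
    (fun x hx => by
      have := (hu x hx).sub (hasDerivWithinAt_integral_x hc hx)
      rw [sub_self] at this
      exact this) hx
  simp only [intervalIntegral.integral_same, sub_zero] at h
  linarith only [h]

theorem uIcc_sub_Ico {T t : ℝ} (ht : t ∈ Ico 0 T) : uIcc 0 t ⊆ Ico 0 T := by
  rw [uIcc_of_le ht.1]
  exact fun s hs => ⟨hs.1, hs.2.trans_lt ht.2⟩

theorem swap_strip {T : ℝ} {F : ℝ → ℝ → ℝ}
    (hF : ContinuousOn (fun z : ℝ × ℝ => F z.1 z.2) (strip T)) {t x : ℝ} (ht : t ∈ Ico 0 T)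
    (hx : x ∈ Icc (-1 : ℝ) 1) :
    ∫ s in (0 : ℝ)..t, ∫ y in (0 : ℝ)..x, F s y = ∫ y in (0 : ℝ)..x, ∫ s in (0 : ℝ)..t, F s y := by
  refine intervalIntegral_intervalIntegral_swap ?_
  have hsub : uIcc 0 t ×ˢ uIcc 0 x ⊆ strip T := prod_mono (uIcc_sub_Ico ht) (uIcc_sub_space hx)
  have h1 : IntegrableOn (fun z : ℝ × ℝ => F z.1 z.2) (uIcc 0 t ×ˢ uIcc 0 x) :=
    (hF.mono hsub).integrableOn_compact (isCompact_uIcc.prod isCompact_uIcc)
  exact h1.mono_set (prod_mono uIoc_subset_uIcc uIoc_subset_uIcc)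

theorem intble_t {T : ℝ} {c : ℝ → ℝ} (hc : ContinuousOn c (Ico 0 T)) {t : ℝ} (ht : t ∈ Ico 0 T) :
    IntervalIntegrable c volume 0 t := (hc.mono (uIcc_sub_Ico ht)).intervalIntegrable

theorem intble_x {c : ℝ → ℝ} (hc : ContinuousOn c (Icc (-1) 1)) {x : ℝ}
    (hx : x ∈ Icc (-1 : ℝ) 1) :
    IntervalIntegrable c volume 0 x := (hc.mono (uIcc_sub_space hx)).intervalIntegrable

theorem zero_mem_time {T t : ℝ} (ht : t ∈ Ico 0 T) : (0 : ℝ) ∈ Ico 0 T :=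
  ⟨le_rfl, ht.1.trans_lt ht.2⟩

theorem zero_mem_space : (0 : ℝ) ∈ Icc (-1 : ℝ) 1 := ⟨by norm_num, by norm_num⟩

/-- Time derivative of the space primitive. -/
theorem hasDeriv_t_integral_x {T : ℝ} {F Ft : ℝ → ℝ → ℝ}
    (hF : ContinuousOn (fun z : ℝ × ℝ => F z.1 z.2) (strip T))
    (hFt : ContinuousOn (fun z : ℝ × ℝ => Ft z.1 z.2) (strip T))
    (h : ∀ t ∈ Ico 0 T, ∀ x ∈ Icc (-1 : ℝ) 1,
      HasDerivWithinAt (fun s => F s x) (Ft t x) (Ico 0 T) t) {t x : ℝ} (ht : t ∈ Ico 0 T)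
    (hx : x ∈ Icc (-1 : ℝ) 1) :
    HasDerivWithinAt (fun t => ∫ y in (0 : ℝ)..x, F t y) (∫ y in (0 : ℝ)..x, Ft t y)
      (Ico 0 T) t := by
  have key : ∀ t ∈ Ico 0 T, ∫ y in (0 : ℝ)..x, F t y =
      (∫ y in (0 : ℝ)..x, F 0 y) + ∫ s in (0 : ℝ)..t, ∫ y in (0 : ℝ)..x, Ft s y := by
    intro t ht
    rw [swap_strip hFt ht hx, ← intervalIntegral.integral_add
      (intble_x (slice_x hF (zero_mem_time ht)) hx)]
    · refine intervalIntegral.integral_congr fun y hy => ?_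
      exact ftc_t (slice_t hFt (uIcc_sub_space hx hy))
        (fun t ht => h t ht y (uIcc_sub_space hx hy)) ht
    · exact intble_x (slice_x (F := fun t y => ∫ s in (0 : ℝ)..t, Ft s y)
        (continuousOn_integral_t hFt) ht) hx
  have hcont : ContinuousOn (fun s => ∫ y in (0 : ℝ)..x, Ft s y) (Ico 0 T) :=
    slice_t (F := fun s x => ∫ y in (0 : ℝ)..x, Ft s y) (continuousOn_integral_x hFt) hx
  have := (hasDerivWithinAt_integral_t hcont ht).const_add (∫ y in (0 : ℝ)..x, F 0 y)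
  exact this.congr key (key t ht)

/-- Space derivative of the time primitive. -/
theorem hasDeriv_x_integral_t {T : ℝ} {F Fx : ℝ → ℝ → ℝ}
    (hF : ContinuousOn (fun z : ℝ × ℝ => F z.1 z.2) (strip T))
    (hFx : ContinuousOn (fun z : ℝ × ℝ => Fx z.1 z.2) (strip T))
    (h : ∀ t ∈ Ico 0 T, ∀ x ∈ Icc (-1 : ℝ) 1,
      HasDerivWithinAt (F t) (Fx t x) (Icc (-1) 1) x) {t x : ℝ} (ht : t ∈ Ico 0 T)
    (hx : x ∈ Icc (-1 : ℝ) 1) :
    HasDerivWithinAt (fun x => ∫ s in (0 : ℝ)..t, F s x) (∫ s in (0 : ℝ)..t, Fx s x)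
      (Icc (-1) 1) x := by
  have key : ∀ x ∈ Icc (-1 : ℝ) 1, ∫ s in (0 : ℝ)..t, F s x =
      (∫ s in (0 : ℝ)..t, F s 0) + ∫ y in (0 : ℝ)..x, ∫ s in (0 : ℝ)..t, Fx s y := by
    intro x hx
    rw [← swap_strip hFx ht hx, ← intervalIntegral.integral_add
      (intble_t (slice_t hF zero_mem_space) ht)]
    · refine intervalIntegral.integral_congr fun s hs => ?_
      exact ftc_x (slice_x hFx (uIcc_sub_Ico ht hs))
        (fun x hx => h s (uIcc_sub_Ico ht hs) x hx) hx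
    · exact intble_t (slice_t (F := fun s x => ∫ y in (0 : ℝ)..x, Fx s y)
        (continuousOn_integral_x hFx) hx) ht
  have hcont : ContinuousOn (fun y => ∫ s in (0 : ℝ)..t, Fx s y) (Icc (-1) 1) :=
    slice_x (F := fun t y => ∫ s in (0 : ℝ)..t, Fx s y) (continuousOn_integral_t hFx) ht
  have := (hasDerivWithinAt_integral_x hcont hx).const_add (∫ s in (0 : ℝ)..t, F s 0)
  exact this.congr key (key x hx)

/-- (K1), finite smoothness -/
theorem strip_integral_x_nat {T : ℝ} (n : ℕ) : ∀ {F : ℝ → ℝ → ℝ},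
    ContDiffOn ℝ n (fun z : ℝ × ℝ => F z.1 z.2) (strip T) →
    ContDiffOn ℝ n (fun z : ℝ × ℝ => ∫ y in (0 : ℝ)..z.2, F z.1 y) (strip T) := by
  induction n with
  | zero =>
    intro F hF
    simp only [CharP.cast_eq_zero, contDiffOn_zero] at hF ⊢
    exact continuousOn_integral_x hF
  | succ n ih =>
    intro F hF
    have h2 := strip_dt_nat (n := ((n + 1 : ℕ) : WithTop ℕ∞)) (m := n) (by simp) hF
    have h3 : ContDiffOn ℝ n (fun z : ℝ × ℝ => F z.1 z.2) (strip T) := hF.of_le (by simp)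
    have := contDiffOn_strip_succ (G := fun t x => ∫ y in (0 : ℝ)..x, F t y)
      (Gt := fun t x => ∫ y in (0 : ℝ)..x, derivWithin (fun s => F s y) (Ico 0 T) t)
      (Gx := fun t x => F t x) n
      (fun t ht x hx => hasDeriv_t_integral_x hF.continuousOn h2.1.continuousOn h2.2 ht hx)
      (fun t ht x hx => hasDerivWithinAt_integral_x (slice_x hF.continuousOn ht) hx)
      (ih (F := fun t y => derivWithin (fun s => F s y) (Ico 0 T) t) h2.1) h3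
    exact_mod_cast this

/-- (K2), finite smoothness -/
theorem strip_integral_t_nat {T : ℝ} (n : ℕ) : ∀ {F : ℝ → ℝ → ℝ},
    ContDiffOn ℝ n (fun z : ℝ × ℝ => F z.1 z.2) (strip T) →
    ContDiffOn ℝ n (fun z : ℝ × ℝ => ∫ s in (0 : ℝ)..z.1, F s z.2) (strip T) := by
  induction n with
  | zero =>
    intro F hF
    simp only [CharP.cast_eq_zero, contDiffOn_zero] at hF ⊢
    exact continuousOn_integral_t hF
  | succ n ih =>
    intro F hF
    have h2 := strip_dx_nat (n := ((n + 1 : ℕ) : WithTop ℕ∞)) (m := n) (by simp) hF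
    have h3 : ContDiffOn ℝ n (fun z : ℝ × ℝ => F z.1 z.2) (strip T) := hF.of_le (by simp)
    have := contDiffOn_strip_succ (G := fun t x => ∫ s in (0 : ℝ)..t, F s x)
      (Gt := fun t x => F t x)
      (Gx := fun t x => ∫ s in (0 : ℝ)..t, derivWithin (F s) (Icc (-1) 1) x) n
      (fun t ht x hx => hasDerivWithinAt_integral_t (slice_t hF.continuousOn hx) ht)
      (fun t ht x hx => hasDeriv_x_integral_t hF.continuousOn h2.1.continuousOn h2.2 ht hx)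
      h3 (ih (F := fun s x => derivWithin (F s) (Icc (-1) 1) x) h2.1)
    exact_mod_cast this

/-- (K1) -/
theorem strip_integral_x {T : ℝ} {F : ℝ → ℝ → ℝ}
    (hF : ContDiffOn ℝ ∞ (fun z : ℝ × ℝ => F z.1 z.2) (strip T)) :
    ContDiffOn ℝ ∞ (fun z : ℝ × ℝ => ∫ y in (0 : ℝ)..z.2, F z.1 y) (strip T) := by
  rw [contDiffOn_infty] at hF ⊢
  exact fun n => strip_integral_x_nat n (hF n)

/-- (K2) -/
theorem strip_integral_t {T : ℝ} {F : ℝ → ℝ → ℝ}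
    (hF : ContDiffOn ℝ ∞ (fun z : ℝ × ℝ => F z.1 z.2) (strip T)) :
    ContDiffOn ℝ ∞ (fun z : ℝ × ℝ => ∫ s in (0 : ℝ)..z.1, F s z.2) (strip T) := by
  rw [contDiffOn_infty] at hF ⊢
  exact fun n => strip_integral_t_nat n (hF n)

end Vale.Agent.P244.Geo
end

section

/-!
# P244-ST block L : jets on `[-1,1]`

A smooth function on `I = [-1,1]` is represented by the sequence of its derivatives.
-/

open Set Filter Topology
open scoped ContDiff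

namespace Vale.Agent.P244.ST.L

/-- The interval `[-1,1]`. -/
abbrev II : Set ℝ := Icc (-1 : ℝ) 1

/-- `u j` is the `j`-th derivative of `u 0` on `[-1,1]` (one sided at the end points). -/
def Jet (u : ℕ → ℝ → ℝ) : Prop :=
  ∀ j, ∀ x ∈ II, HasDerivWithinAt (u j) (u (j + 1) x) II x

theorem zero_mem_II : (0 : ℝ) ∈ II := ⟨by norm_num, by norm_num⟩

theorem one_mem_II : (1 : ℝ) ∈ II := ⟨by norm_num, by norm_num⟩

theorem neg_one_mem_II : (-1 : ℝ) ∈ II := ⟨by norm_num, by norm_num⟩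

theorem convex_II : Convex ℝ II := convex_Icc _ _

theorem uniqueDiffOn_II : UniqueDiffOn ℝ II := uniqueDiffOn_Icc (by norm_num)

theorem isCompact_II : IsCompact II := isCompact_Icc

theorem Jet.continuousOn {u : ℕ → ℝ → ℝ} (hu : Jet u) (j : ℕ) : ContinuousOn (u j) II :=
  fun x hx => (hu j x hx).continuousWithinAt

theorem Jet.shift {u : ℕ → ℝ → ℝ} (hu : Jet u) (k : ℕ) : Jet (fun j => u (j + k)) := by
  intro j x hx
  have := hu (j + k) x hx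
  rwa [show j + k + 1 = j + 1 + k by ring] at this

theorem Jet.bdd {u : ℕ → ℝ → ℝ} (hu : Jet u) (j : ℕ) : ∃ K : ℝ, 0 ≤ K ∧ ∀ x ∈ II, |u j x| ≤ K := by
  obtain ⟨K, hK⟩ := isCompact_II.exists_bound_of_continuousOn (hu.continuousOn j)
  refine ⟨K, le_trans (norm_nonneg _) (hK 0 zero_mem_II), fun x hx => hK x hx⟩

theorem Jet.bdd_le {u : ℕ → ℝ → ℝ} (hu : Jet u) (j : ℕ) :
    ∃ K : ℝ, 0 ≤ K ∧ ∀ i ≤ j, ∀ x ∈ II, |u i x| ≤ K := by
  induction j with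
  | zero =>
    obtain ⟨K, h0, hK⟩ := hu.bdd 0
    exact ⟨K, h0, fun i hi x hx => by
      obtain rfl : i = 0 := by omega
      exact hK x hx⟩
  | succ j ih =>
    obtain ⟨K, h0, hK⟩ := ih
    obtain ⟨K', h0', hK'⟩ := hu.bdd (j + 1)
    refine ⟨max K K', le_max_of_le_left h0, fun i hi x hx => ?_⟩
    rcases Nat.lt_or_ge i (j + 1) with h | h
    · exact (hK i (by omega) x hx).trans (le_max_left _ _)
    · obtain rfl : i = j + 1 := by omega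
      exact (hK' x hx).trans (le_max_right _ _)

/-- Derivative of a limit of functions on `[-1,1]`. -/
theorem hasDerivWithinAt_of_unif {F F' : ℕ → ℝ → ℝ} {f g : ℝ → ℝ}
    (hF : ∀ n, ∀ x ∈ II, HasDerivWithinAt (F n) (F' n x) II x)
    (h1 : ∀ x ∈ II, Tendsto (fun n => F n x) atTop (𝓝 (f x)))
    (h2 : TendstoUniformlyOn F' g atTop II) :
    ∀ x ∈ II, HasDerivWithinAt f (g x) II x := by
  intro x hx
  rw [hasDerivWithinAt_iff_isLittleO, Asymptotics.isLittleO_iff]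
  intro c hc
  rw [Metric.tendstoUniformlyOn_iff] at h2
  obtain ⟨N, hN⟩ := eventually_atTop.1 (h2 (c / 6) (by positivity))
  have key : ∀ y ∈ II, |(f y - F N y) - (f x - F N x)| ≤ (c / 3) * |y - x| := by
    intro y hy
    have hm : ∀ m ≥ N, |(F m y - F N y) - (F m x - F N x)| ≤ (c / 3) * |y - x| := by
      intro m hm
      have hd : ∀ z ∈ II, HasDerivWithinAt (fun z => F m z - F N z) (F' m z - F' N z) II z :=
        fun z hz => (hF m z hz).sub (hF N z hz)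
      have hb : ∀ z ∈ II, ‖F' m z - F' N z‖ ≤ c / 3 := by
        intro z hz
        have a1 := hN m hm z hz
        have a2 := hN N le_rfl z hz
        rw [Real.dist_eq] at a1 a2
        rw [Real.norm_eq_abs]
        calc |F' m z - F' N z| = |(g z - F' N z) - (g z - F' m z)| := by congr 1; ring
          _ ≤ |g z - F' N z| + |g z - F' m z| := abs_sub _ _
          _ ≤ c / 6 + c / 6 := add_le_add a2.le a1.le
          _ = c / 3 := by ring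
      have := convex_II.norm_image_sub_le_of_norm_hasDerivWithin_le hd hb hx hy
      simpa [Real.norm_eq_abs] using this
    have ht : Tendsto (fun m => |(F m y - F N y) - (F m x - F N x)|) atTop
        (𝓝 |(f y - F N y) - (f x - F N x)|) :=
      (((h1 y hy).sub tendsto_const_nhds).sub ((h1 x hx).sub tendsto_const_nhds)).abs
    exact le_of_tendsto ht (eventually_atTop.2 ⟨N, hm⟩)
  have h3 := (hasDerivWithinAt_iff_isLittleO.1 (hF N x hx))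
  rw [Asymptotics.isLittleO_iff] at h3
  have h4 := h3 (show (0 : ℝ) < c / 3 by positivity)
  filter_upwards [h4, self_mem_nhdsWithin] with y h5 hy
  have h6 := key y hy
  have h7 := hN N le_rfl x hx
  rw [Real.dist_eq] at h7
  simp only [Real.norm_eq_abs, smul_eq_mul] at h5 ⊢
  have h8 : |(y - x) * (F' N x - g x)| ≤ (c / 3) * |y - x| := by
    rw [abs_mul, mul_comm]
    refine mul_le_mul_of_nonneg_right ?_ (abs_nonneg _)
    rw [abs_sub_comm]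
    linarith only [h7, hc]
  calc |f y - f x - (y - x) * g x|
      = |((f y - F N y) - (f x - F N x)) + ((F N y - F N x - (y - x) * F' N x)
          + (y - x) * (F' N x - g x))| := by congr 1; ring
    _ ≤ |(f y - F N y) - (f x - F N x)| + (|F N y - F N x - (y - x) * F' N x|
          + |(y - x) * (F' N x - g x)|) :=
        (abs_add_le _ _).trans (add_le_add le_rfl (abs_add_le _ _))
    _ ≤ (c / 3) * |y - x| + ((c / 3) * |y - x| + (c / 3) * |y - x|) :=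
        add_le_add h6 (add_le_add h5 h8)
    _ = c * |y - x| := by ring

/-- Uniform limits of jets are jets. -/
theorem Jet.of_unif {u : ℕ → ℕ → ℝ → ℝ} {U : ℕ → ℝ → ℝ} (hu : ∀ n, Jet (u n))
    (h : ∀ j, TendstoUniformlyOn (fun n => u n j) (U j) atTop II) : Jet U := by
  intro j
  refine hasDerivWithinAt_of_unif (F := fun n => u n j) (F' := fun n => u n (j + 1))
    (fun n x hx => hu n j x hx) (fun x hx => (h j).tendsto_at hx) (h (j + 1))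

/-! ### Bridge to `ContDiffOn` -/

theorem jet_iteratedDerivWithin {f : ℝ → ℝ} (hf : ContDiffOn ℝ ∞ f II) :
    Jet (fun j => iteratedDerivWithin j f II) := by
  intro j x hx
  have h1 := hf.differentiableOn_iteratedDerivWithin (m := j)
    (by exact_mod_cast ENat.natCast_lt_top j) uniqueDiffOn_II x hx
  have h2 := h1.hasDerivWithinAt
  rwa [← iteratedDerivWithin_succ] at h2

theorem Jet.iteratedDerivWithin_eq {u : ℕ → ℝ → ℝ} (hu : Jet u) (j : ℕ) :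
    ∀ x ∈ II, iteratedDerivWithin j (u 0) II x = u j x := by
  induction j with
  | zero => intro x _; simp
  | succ j ih =>
    intro x hx
    rw [iteratedDerivWithin_succ]
    rw [derivWithin_congr (fun y hy => ih y hy) (ih x hx)]
    exact (hu j x hx).derivWithin (uniqueDiffOn_II x hx)

theorem Jet.contDiffOn {u : ℕ → ℝ → ℝ} (hu : Jet u) : ContDiffOn ℝ ∞ (u 0) II := by
  refine contDiffOn_of_differentiableOn_deriv (n := ⊤) fun m _ => ?_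
  intro x hx
  have h1 : DifferentiableWithinAt ℝ (u m) II x := (hu m x hx).differentiableWithinAt
  exact h1.congr (fun y hy => hu.iteratedDerivWithin_eq m y hy) (hu.iteratedDerivWithin_eq m x hx)

theorem Jet.unique {u v : ℕ → ℝ → ℝ} (hu : Jet u) (hv : Jet v) (h : ∀ x ∈ II, u 0 x = v 0 x) :
    ∀ j, ∀ x ∈ II, u j x = v j x := by
  intro j
  induction j with
  | zero => exact h
  | succ j ih =>
    intro x hx
    have h1 := hu j x hx
    have h2 : HasDerivWithinAt (u j) (v (j + 1) x) II x :=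
      (hv j x hx).congr (fun y hy => ih y hy) (ih x hx)
    exact (uniqueDiffOn_II x hx).eq_deriv _ h1 h2

theorem Jet.congr {u v : ℕ → ℝ → ℝ} (hu : Jet u) (h : ∀ j, ∀ x ∈ II, v j x = u j x) : Jet v :=
  fun j x hx => by
    rw [h (j + 1) x hx]
    exact (hu j x hx).congr (fun y hy => h j y hy) (h j x hx)

/-! ### Algebra of jets -/

theorem Jet.add {u v : ℕ → ℝ → ℝ} (hu : Jet u) (hv : Jet v) : Jet (fun j x => u j x + v j x) :=
  fun j x hx => (hu j x hx).add (hv j x hx)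

theorem Jet.sub {u v : ℕ → ℝ → ℝ} (hu : Jet u) (hv : Jet v) : Jet (fun j x => u j x - v j x) :=
  fun j x hx => (hu j x hx).sub (hv j x hx)

theorem Jet.neg {u : ℕ → ℝ → ℝ} (hu : Jet u) : Jet (fun j x => - u j x) :=
  fun j x hx => (hu j x hx).neg

theorem Jet.smul {u : ℕ → ℝ → ℝ} (c : ℝ) (hu : Jet u) : Jet (fun j x => c * u j x) :=
  fun j x hx => (hu j x hx).const_mul c

/-- The jet of a constant. -/
def cst (c : ℝ) : ℕ → ℝ → ℝ
  | 0 => fun _ => c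
  | _ + 1 => fun _ => 0

theorem jet_cst (c : ℝ) : Jet (cst c) := by
  intro j x _
  cases j with
  | zero => exact hasDerivWithinAt_const _ _ _
  | succ j => exact hasDerivWithinAt_const _ _ _

/-- The jet of the identity. -/
def idj : ℕ → ℝ → ℝ
  | 0 => fun x => x
  | 1 => fun _ => 1
  | _ + 2 => fun _ => 0

theorem jet_idj : Jet idj := by
  intro j x _
  match j with
  | 0 => exact hasDerivWithinAt_id _ _
  | 1 => exact hasDerivWithinAt_const _ _ _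
  | _ + 2 => exact hasDerivWithinAt_const _ _ _

/-- Leibniz product of two jets. -/
def jmul (u v : ℕ → ℝ → ℝ) (j : ℕ) (x : ℝ) : ℝ :=
  ∑ i ∈ Finset.range (j + 1), (j.choose i : ℝ) * u i x * v (j - i) x

theorem jmul_succ (u v : ℕ → ℝ → ℝ) (j : ℕ) (x : ℝ) :
    jmul u v (j + 1) x =
      ∑ i ∈ Finset.range (j + 1), (j.choose i : ℝ) * (u (i + 1) x * v (j - i) x
        + u i x * v (j - i + 1) x) := by
  unfold jmul
  rw [Finset.sum_range_succ']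
  simp only [Nat.choose_succ_succ, Nat.cast_add, add_mul, Nat.choose_zero_right, Nat.cast_one,
    one_mul, Nat.sub_zero]
  rw [Finset.sum_add_distrib]
  have e1 : ∑ i ∈ Finset.range (j + 1), (j.choose (i + 1) : ℝ) * u (i + 1) x * v (j + 1 - (i + 1)) x
      + u 0 x * v (j + 1) x
      = ∑ i ∈ Finset.range (j + 1), (j.choose i : ℝ) * (u i x * v (j - i + 1) x) := by
    rw [Finset.sum_range_succ, Finset.sum_range_succ' (fun i => (j.choose i : ℝ) * (u i x * v (j - i + 1) x))]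
    simp only [Nat.choose_succ_self, Nat.cast_zero, zero_mul, add_zero, Nat.choose_zero_right,
      Nat.cast_one, one_mul, Nat.sub_zero]
    congr 1
    refine Finset.sum_congr rfl fun i hi => ?_
    have hi' : i < j := Finset.mem_range.1 hi
    rw [show j + 1 - (i + 1) = j - (i + 1) + 1 by omega]
    ring
  rw [add_assoc, e1]
  rw [← Finset.sum_add_distrib]
  refine Finset.sum_congr rfl fun i hi => ?_
  rw [show j + 1 - (i + 1) = j - i by omega]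
  ring

theorem Jet.mul {u v : ℕ → ℝ → ℝ} (hu : Jet u) (hv : Jet v) : Jet (jmul u v) := by
  intro j x hx
  rw [jmul_succ]
  have : (jmul u v j) = fun y => ∑ i ∈ Finset.range (j + 1), (j.choose i : ℝ) * (u i y * v (j - i) y) := by
    funext y
    unfold jmul
    refine Finset.sum_congr rfl fun i _ => by ring
  rw [this]
  refine HasDerivWithinAt.fun_sum fun i _ => ?_
  exact ((hu i x hx).mul (hv (j - i) x hx)).const_mul _

@[simp] theorem jmul_zero (u v : ℕ → ℝ → ℝ) (x : ℝ) : jmul u v 0 x = u 0 x * v 0 x := by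
  simp [jmul]

/-- Product bound. -/
theorem abs_jmul_le {u v : ℕ → ℝ → ℝ} {x A B : ℝ} (j : ℕ) (hA : 0 ≤ A) (hu : ∀ i ≤ j, |u i x| ≤ A)
    (hv : ∀ i ≤ j, |v i x| ≤ B) : |jmul u v j x| ≤ 2 ^ j * (A * B) := by
  unfold jmul
  refine (Finset.abs_sum_le_sum_abs _ _).trans ?_
  calc ∑ i ∈ Finset.range (j + 1), |(j.choose i : ℝ) * u i x * v (j - i) x|
      ≤ ∑ i ∈ Finset.range (j + 1), (j.choose i : ℝ) * (A * B) := by
        refine Finset.sum_le_sum fun i hi => ?_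
        have hi' : i ≤ j := by
          have := Finset.mem_range.1 hi
          omega
        rw [abs_mul, abs_mul, mul_assoc, Nat.abs_cast]
        exact mul_le_mul_of_nonneg_left (mul_le_mul (hu i hi') (hv (j - i) (Nat.sub_le _ _))
          (abs_nonneg _) hA) (Nat.cast_nonneg _)
    _ = 2 ^ j * (A * B) := by
        rw [← Finset.sum_mul]
        congr 1
        have := Nat.sum_range_choose j
        exact_mod_cast this

end Vale.Agent.P244.ST.L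
end

section

/-!
# P244-ST block L : the operator `Lap_d`, maximum principle and resolvent on jets
-/

open Set Filter Topology

namespace Vale.Agent.P244.ST.L

/-- `j`-th derivative of `Lap_d u = (1-x^2) u'' - d x u'` in terms of the jet of `u`. -/
def lapJ (d : ℝ) (u : ℕ → ℝ → ℝ) (j : ℕ) (x : ℝ) : ℝ :=
  (1 - x ^ 2) * u (j + 2) x - (d + 2 * j) * x * u (j + 1) x
    - ((j : ℝ) * d + (j : ℝ) * ((j : ℝ) - 1)) * u j x

theorem Jet.lap {u : ℕ → ℝ → ℝ} (d : ℝ) (hu : Jet u) : Jet (lapJ d u) := by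
  intro j x hx
  have h0 := hu j x hx
  have h1 := hu (j + 1) x hx
  have h2 := hu (j + 2) x hx
  have hid : HasDerivWithinAt (fun y : ℝ => y) 1 II x := hasDerivWithinAt_id _ _
  have hq : HasDerivWithinAt (fun y : ℝ => 1 - y ^ 2) (-(2 * x)) II x := by
    have := (hid.pow 2).const_sub 1
    simpa using this
  have hl : HasDerivWithinAt (fun y : ℝ => (d + 2 * j) * y) (d + 2 * j) II x := by
    simpa using hid.const_mul (d + 2 * (j : ℝ))
  have := ((hq.mul h2).sub (hl.mul h1)).sub (h0.const_mul ((j : ℝ) * d + (j : ℝ) * ((j : ℝ) - 1)))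
  refine (this.congr_deriv ?_)
  unfold lapJ
  push_cast
  ring

theorem sign_at_max {f : ℝ → ℝ} {f' x0 : ℝ} (h1 : HasDerivWithinAt f f' II x0)
    (hx0 : x0 ∈ II) (hm : ∀ x ∈ II, f x ≤ f x0) {y : ℝ} (hy : y ∈ II) : (y - x0) * f' ≤ 0 := by
  have hloc : IsLocalMaxOn f II x0 := by
    filter_upwards [self_mem_nhdsWithin] with x hx using hm x hx
  have hseg : segment ℝ x0 y ⊆ II := convex_II.segment_subset hx0 hy
  have := hloc.hasFDerivWithinAt_nonpos h1.hasFDerivWithinAt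
    (y := y - x0) (mem_posTangentConeAt_of_segment_subset (by simpa using hseg))
  simpa using this

/-- Values of the derivatives at a maximum point on `[-1,1]`. -/
theorem max_point {f f' f'' : ℝ → ℝ} (h1 : ∀ x ∈ II, HasDerivWithinAt f (f' x) II x)
    (h2 : ∀ x ∈ II, HasDerivWithinAt f' (f'' x) II x) {x0 : ℝ} (hx0 : x0 ∈ II)
    (hm : ∀ x ∈ II, f x ≤ f x0) :
    (1 - x0 ^ 2) * f' x0 = 0 ∧ ∀ e : ℝ, 0 ≤ e → (1 - x0 ^ 2) * f'' x0 - e * x0 * f' x0 ≤ 0 := by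
  have hs1 := sign_at_max (h1 x0 hx0) hx0 hm one_mem_II
  have hs2 := sign_at_max (h1 x0 hx0) hx0 hm neg_one_mem_II
  rcases eq_or_lt_of_le hx0.1 with h | hl
  · -- x0 = -1
    subst h
    refine ⟨by norm_num, fun e he => ?_⟩
    have : 0 ≤ e * (-f' (-1)) := mul_nonneg he (by linarith only [hs1])
    linarith only [this]
  rcases eq_or_lt_of_le hx0.2 with h | hr
  · subst h
    refine ⟨by norm_num, fun e he => ?_⟩
    have : 0 ≤ e * (f' 1) := mul_nonneg he (by linarith only [hs2])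
    nlinarith only [this]
  · have hd : f' x0 = 0 := by
      have a1 : f' x0 ≤ 0 := by
        by_contra hcon
        push Not at hcon
        have : 0 < (1 - x0) * f' x0 := mul_pos (by linarith only [hr]) hcon
        linarith only [hs1, this]
      have a2 : 0 ≤ f' x0 := by
        by_contra hcon
        push Not at hcon
        have : 0 < (-1 - x0) * f' x0 := mul_pos_of_neg_of_neg (by linarith only [hl]) hcon
        linarith only [hs2, this]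
      linarith only [a1, a2]
    refine ⟨by rw [hd]; ring, fun e _ => ?_⟩
    rw [hd]
    have hq : 0 < 1 - x0 ^ 2 := by nlinarith only [hl, hr]
    suffices hf'' : f'' x0 ≤ 0 by nlinarith only [hq, hf'']
    by_contra hcon
    push Not at hcon
    have hnhds : II ∈ 𝓝 x0 := Icc_mem_nhds hl hr
    have hda : HasDerivAt f' (f'' x0) x0 := (h2 x0 hx0).hasDerivAt hnhds
    have hsl := hda.tendsto_slope
    have hev : ∀ᶠ y in 𝓝[≠] x0, 0 < slope f' x0 y := hsl.eventually (lt_mem_nhds hcon)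
    have hev2 : ∀ᶠ y in 𝓝[>] x0, 0 < slope f' x0 y :=
      hev.filter_mono (nhdsWithin_mono _ (fun y hy => ne_of_gt hy))
    have hev3 : ∀ᶠ y in 𝓝[>] x0, 0 < f' y := by
      filter_upwards [hev2, self_mem_nhdsWithin] with y hy hy2
      rw [slope_def_field, hd, sub_zero] at hy
      have : (0 : ℝ) < y - x0 := sub_pos.2 hy2
      exact (div_pos_iff_of_pos_right this).1 hy
    obtain ⟨b, hb, hb2⟩ := (mem_nhdsGT_iff_exists_Ioo_subset.1 hev3)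
    set c := min b 1 with hc
    have hcx : x0 < c := lt_min hb hr
    have hcI : ∀ y ∈ Icc x0 c, y ∈ II := fun y hy =>
      ⟨by linarith only [hl, hy, hy.1], hy.2.trans (min_le_right _ _)⟩
    obtain ⟨z, hz, hz2⟩ := exists_hasDerivAt_eq_slope f f' hcx
      (fun y hy => ((h1 y (hcI y hy)).continuousWithinAt).mono hcI)
      (fun y hy => (h1 y (hcI y ⟨hy.1.le, hy.2.le⟩)).hasDerivAt
        (Icc_mem_nhds (by linarith only [hl, hy, hy.1]) (lt_of_lt_of_le hy.2 (min_le_right _ _))))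
    have hpos : 0 < f' z := hb2 ⟨hz.1, lt_of_lt_of_le hz.2 (min_le_left _ _)⟩
    rw [hz2] at hpos
    have := (div_pos_iff_of_pos_right (sub_pos.2 hcx)).1 hpos
    have h5 := hm c (hcI c ⟨hcx.le, le_rfl⟩)
    linarith only [this, h5]

/-- Upper bound through the maximum point. -/
theorem le_of_max {f f' f'' : ℝ → ℝ} (h1 : ∀ x ∈ II, HasDerivWithinAt f (f' x) II x)
    (h2 : ∀ x ∈ II, HasDerivWithinAt f' (f'' x) II x) {K : ℝ}
    (h : ∀ x0 ∈ II, (∀ x ∈ II, f x ≤ f x0) → (1 - x0 ^ 2) * f' x0 = 0 →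
      (∀ e : ℝ, 0 ≤ e → (1 - x0 ^ 2) * f'' x0 - e * x0 * f' x0 ≤ 0) → f x0 ≤ K) :
    ∀ x ∈ II, f x ≤ K := by
  obtain ⟨x0, hx0, hmax⟩ := isCompact_II.exists_isMaxOn ⟨0, zero_mem_II⟩
    (fun x hx => (h1 x hx).continuousWithinAt)
  have hm : ∀ x ∈ II, f x ≤ f x0 := fun x hx => hmax hx
  have := max_point h1 h2 hx0 hm
  intro x hx
  exact (hm x hx).trans (h x0 hx0 hm this.1 this.2)

/-- Bound of `|f|` through the extremum points. -/
theorem abs_le_of_max {f f' f'' : ℝ → ℝ} (h1 : ∀ x ∈ II, HasDerivWithinAt f (f' x) II x)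
    (h2 : ∀ x ∈ II, HasDerivWithinAt f' (f'' x) II x) {K : ℝ}
    (hp : ∀ x0 ∈ II, (∀ x ∈ II, f x ≤ f x0) → (1 - x0 ^ 2) * f' x0 = 0 →
      (∀ e : ℝ, 0 ≤ e → (1 - x0 ^ 2) * f'' x0 - e * x0 * f' x0 ≤ 0) → f x0 ≤ K)
    (hn : ∀ x0 ∈ II, (∀ x ∈ II, f x0 ≤ f x) → (1 - x0 ^ 2) * f' x0 = 0 →
      (∀ e : ℝ, 0 ≤ e → 0 ≤ (1 - x0 ^ 2) * f'' x0 - e * x0 * f' x0) → -K ≤ f x0) :
    ∀ x ∈ II, |f x| ≤ K := by
  have hA := le_of_max h1 h2 hp
  have hB := le_of_max (f := fun x => - f x) (f' := fun x => - f' x) (f'' := fun x => - f'' x)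
    (K := K) (fun x hx => (h1 x hx).neg) (fun x hx => (h2 x hx).neg)
    (by
      intro x0 hx0 hm e1 e2
      have := hn x0 hx0 (fun x hx => by have := hm x hx; linarith only [this]) (by linarith only [e1])
        (fun e he => by have := e2 e he; linarith only [this])
      linarith only [this])
  intro x hx
  rw [abs_le]
  exact ⟨by have := hB x hx; linarith only [this], hA x hx⟩

/-- Differentiated equation. -/
theorem eq_all {d mu h : ℝ} {u g : ℕ → ℝ → ℝ} (hu : Jet u) (hg : Jet g)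
    (he : ∀ x ∈ II, mu * u 0 x - h * lapJ d u 0 x = g 0 x) (j : ℕ) :
    ∀ x ∈ II, mu * u j x - h * lapJ d u j x = g j x := by
  have h1 : Jet (fun j x => mu * u j x - h * lapJ d u j x) :=
    (hu.smul mu).sub ((hu.lap d).smul h)
  exact h1.unique hg he j

/-- Bound of the solution of the constant coefficient equation, at every level. -/
theorem resolv_bound {d mu h : ℝ} (hd : 0 ≤ d) (hmu : 0 < mu) (hh : 0 ≤ h)
    {u g : ℕ → ℝ → ℝ} (hu : Jet u) (hg : Jet g)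
    (he : ∀ x ∈ II, mu * u 0 x - h * lapJ d u 0 x = g 0 x) (j : ℕ) {K : ℝ}
    (hK : ∀ x ∈ II, |g j x| ≤ K) : ∀ x ∈ II, |u j x| ≤ K / mu := by
  have he' := eq_all hu hg he j
  have hc : 0 ≤ (j : ℝ) * d + (j : ℝ) * ((j : ℝ) - 1) := by
    rcases Nat.eq_zero_or_pos j with h0 | h0
    · subst h0; simp
    · have : (1 : ℝ) ≤ j := by exact_mod_cast h0
      have h1 : 0 ≤ (j : ℝ) * d := by positivity
      have h2 : 0 ≤ (j : ℝ) * ((j : ℝ) - 1) := mul_nonneg (by positivity) (by linarith only [this])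
      linarith only [h1, h2]
  have hj : 0 ≤ d + 2 * (j : ℝ) := by positivity
  have hK0 : 0 ≤ K := le_trans (abs_nonneg _) (hK 0 zero_mem_II)
  refine abs_le_of_max (fun x hx => hu j x hx) (fun x hx => hu (j + 1) x hx) ?_ ?_
  · intro x0 hx0 _ _ h2
    have e1 := he' x0 hx0
    have e2 := h2 _ hj
    have e3 := (abs_le.1 (hK x0 hx0)).2
    unfold lapJ at e1
    rw [le_div_iff₀ hmu]
    by_contra hcon
    push Not at hcon
    have hpos : 0 < u j x0 := by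
      by_contra hc2
      push Not at hc2
      have : u j x0 * mu ≤ 0 := mul_nonpos_of_nonpos_of_nonneg hc2 hmu.le
      linarith only [hK0, hcon, this]
    have h3 : 0 ≤ h * (((j : ℝ) * d + (j : ℝ) * ((j : ℝ) - 1)) * u j x0) := by (clear * - hh hc hpos; positivity)
    have h4 : h * ((1 - x0 ^ 2) * u (j + 2) x0 - (d + 2 * (j : ℝ)) * x0 * u (j + 1) x0) ≤ 0 :=
      mul_nonpos_of_nonneg_of_nonpos hh e2
    linarith only [h4, h3, hcon, e3, e1]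
  · intro x0 hx0 _ _ h2
    have e1 := he' x0 hx0
    have e2 := h2 _ hj
    have e3 := (abs_le.1 (hK x0 hx0)).1
    unfold lapJ at e1
    rw [← neg_div, div_le_iff₀ hmu]
    by_contra hcon
    push Not at hcon
    have hneg : u j x0 < 0 := by
      by_contra hc2
      push Not at hc2
      have : 0 ≤ u j x0 * mu := mul_nonneg hc2 hmu.le
      linarith only [hK0, hcon, this]
    have h3 : h * (((j : ℝ) * d + (j : ℝ) * ((j : ℝ) - 1)) * u j x0) ≤ 0 :=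
      mul_nonpos_of_nonneg_of_nonpos hh (mul_nonpos_of_nonneg_of_nonpos hc hneg.le)
    have h4 : 0 ≤ h * ((1 - x0 ^ 2) * u (j + 2) x0 - (d + 2 * (j : ℝ)) * x0 * u (j + 1) x0) :=
      mul_nonneg hh e2
    linarith only [h4, h3, hcon, e3, e1]

end Vale.Agent.P244.ST.L
end

section

/-! Smooth functions on `[-1,1] x [0,T)` as a differential algebra, and first-touch lemmas. -/

open Set Topology Filter
open scoped ContDiff

namespace Vale.Agent.P244.BB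

/-- space-time domain -/
def dom (T : ℝ) : Set (ℝ × ℝ) := Icc (-1) 1 ×ˢ Ico 0 T

lemma dom_uniqueDiff (T : ℝ) : UniqueDiffOn ℝ (dom T) :=
  (uniqueDiffOn_Icc (by norm_num)).prod (uniqueDiffOn_Ico 0 T)

lemma mem_dom {T z t : ℝ} (hz : z ∈ Icc (-1 : ℝ) 1) (ht : t ∈ Ico 0 T) : (z, t) ∈ dom T :=
  ⟨hz, ht⟩

/-- smooth functions on the domain -/
def smoothAlg (T : ℝ) : Subalgebra ℝ (dom T → ℝ) where
  carrier := {f | ∃ F : ℝ × ℝ → ℝ, ContDiffOn ℝ ∞ F (dom T) ∧ ∀ p : dom T, f p = F p}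
  mul_mem' := by
    rintro f g ⟨F, hF, hfF⟩ ⟨G, hG, hgG⟩
    exact ⟨fun p => F p * G p, hF.mul hG, fun p => by simp [hfF p, hgG p]⟩
  add_mem' := by
    rintro f g ⟨F, hF, hfF⟩ ⟨G, hG, hgG⟩
    exact ⟨fun p => F p + G p, hF.add hG, fun p => by simp [hfF p, hgG p]⟩
  algebraMap_mem' := by
    intro r
    exact ⟨fun _ => r, contDiffOn_const, fun p => by simp⟩

variable {T : ℝ}

/-- extension by zero -/
noncomputable def ext (f : smoothAlg T) : ℝ × ℝ → ℝ :=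
  open Classical in fun p => if h : p ∈ dom T then f.1 ⟨p, h⟩ else 0

lemma ext_apply (f : smoothAlg T) {p : ℝ × ℝ} (h : p ∈ dom T) : ext f p = f.1 ⟨p, h⟩ := by
  simp [ext, h]

lemma ext_contDiffOn (f : smoothAlg T) : ContDiffOn ℝ ∞ (ext f) (dom T) := by
  obtain ⟨F, hF, hfF⟩ := f.2
  refine hF.congr fun p hp => ?_
  rw [ext_apply f hp, hfF]

lemma ext_diff (f : smoothAlg T) {p : ℝ × ℝ} (hp : p ∈ dom T) :
    DifferentiableWithinAt ℝ (ext f) (dom T) p :=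
  ((ext_contDiffOn f).differentiableOn (by simp)) p hp

lemma ext_add (f g : smoothAlg T) (p : ℝ × ℝ) : ext (f + g) p = ext f p + ext g p := by
  by_cases h : p ∈ dom T <;> simp [ext, h]

lemma ext_mul (f g : smoothAlg T) (p : ℝ × ℝ) : ext (f * g) p = ext f p * ext g p := by
  by_cases h : p ∈ dom T <;> simp [ext, h]

lemma ext_smul (c : ℝ) (f : smoothAlg T) (p : ℝ × ℝ) : ext (c • f) p = c * ext f p := by
  by_cases h : p ∈ dom T <;> simp [ext, h]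

lemma ext_sub (f g : smoothAlg T) (p : ℝ × ℝ) : ext (f - g) p = ext f p - ext g p := by
  by_cases h : p ∈ dom T <;> simp [ext, h]

lemma ext_neg (f : smoothAlg T) (p : ℝ × ℝ) : ext (-f) p = -ext f p := by
  by_cases h : p ∈ dom T <;> simp [ext, h]

lemma smooth_ext {f g : smoothAlg T} (h : ∀ p ∈ dom T, ext f p = ext g p) : f = g := by
  apply Subtype.ext
  funext p
  have := h p.1 p.2
  rwa [ext_apply f p.2, ext_apply g p.2] at this

/-- element of the algebra from a smooth function -/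
def mkS (F : ℝ × ℝ → ℝ) (hF : ContDiffOn ℝ ∞ F (dom T)) : smoothAlg T :=
  ⟨fun p => F p, F, hF, fun _ => rfl⟩

lemma ext_mkS {F : ℝ × ℝ → ℝ} (hF : ContDiffOn ℝ ∞ F (dom T)) {p : ℝ × ℝ} (hp : p ∈ dom T) :
    ext (mkS F hF) p = F p := by
  rw [ext_apply _ hp]; rfl

/-- partial derivative in direction `v` -/
noncomputable def pd (v : ℝ × ℝ) (f : smoothAlg T) : smoothAlg T :=
  mkS (fun p => fderivWithin ℝ (ext f) (dom T) p v)
    (((ext_contDiffOn f).fderivWithin (dom_uniqueDiff T) (by simp)).clm_apply contDiffOn_const)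

lemma ext_pd (v : ℝ × ℝ) (f : smoothAlg T) {p : ℝ × ℝ} (hp : p ∈ dom T) :
    ext (pd v f) p = fderivWithin ℝ (ext f) (dom T) p v := ext_mkS _ hp

/-- partial derivative as a derivation -/
noncomputable def pdD (v : ℝ × ℝ) : Derivation ℝ (smoothAlg T) (smoothAlg T) :=
  Derivation.mk'
    { toFun := pd v
      map_add' := by
        intro f g
        apply smooth_ext
        intro p hp
        rw [ext_pd v _ hp, ext_add, ext_pd v _ hp, ext_pd v _ hp]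
        have : ext (f + g) = fun p => ext f p + ext g p := by funext p; exact ext_add f g p
        rw [this, fderivWithin_fun_add (dom_uniqueDiff T p hp) (ext_diff f hp) (ext_diff g hp)]
        simp
      map_smul' := by
        intro c f
        apply smooth_ext
        intro p hp
        rw [ext_pd v _ hp, RingHom.id_apply, ext_smul, ext_pd v _ hp]
        have : ext (c • f) = fun p => c * ext f p := by funext p; exact ext_smul c f p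
        rw [this, fderivWithin_const_mul (dom_uniqueDiff T p hp) (ext_diff f hp) c]
        simp }
    (by
      intro f g
      apply smooth_ext
      intro p hp
      simp only [LinearMap.coe_mk, AddHom.coe_mk, smul_eq_mul]
      rw [ext_pd v _ hp, ext_add, ext_mul, ext_mul, ext_pd v _ hp, ext_pd v _ hp]
      have : ext (f * g) = fun p => ext f p * ext g p := by funext p; exact ext_mul f g p
      rw [this, fderivWithin_fun_mul (dom_uniqueDiff T p hp) (ext_diff f hp) (ext_diff g hp)]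
      simp)

lemma dom_subset_closure : dom T ⊆ closure (interior (dom T)) := by
  intro p hp
  have hT : 0 < T := lt_of_le_of_lt hp.2.1 hp.2.2
  have h1 : interior (dom T) = Ioo (-1) 1 ×ˢ Ioo 0 T := by
    rw [dom, interior_prod_eq, interior_Icc, interior_Ico]
  rw [h1, closure_prod_eq, closure_Ioo (by norm_num), closure_Ioo hT.ne]
  exact ⟨hp.1, ⟨hp.2.1, hp.2.2.le⟩⟩

lemma pd_comm (v w : ℝ × ℝ) (f : smoothAlg T) : pd v (pd w f) = pd w (pd v f) := by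
  apply smooth_ext
  intro p hp
  have hU := dom_uniqueDiff T
  have key : ∀ v w : ℝ × ℝ, ext (pd v (pd w f)) p =
      fderivWithin ℝ (fderivWithin ℝ (ext f) (dom T)) (dom T) p v w := by
    intro v w
    rw [ext_pd v _ hp]
    have e : EqOn (ext (pd w f)) (fun p => fderivWithin ℝ (ext f) (dom T) p w) (dom T) :=
      fun p hp => ext_pd w f hp
    rw [fderivWithin_congr e (e hp)]
    have hd : DifferentiableWithinAt ℝ (fderivWithin ℝ (ext f) (dom T)) (dom T) p :=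
      (((ext_contDiffOn f).fderivWithin (m := ∞) hU (by simp)).differentiableOn (by simp)) p hp
    rw [fderivWithin_clm_apply (hU p hp) hd (differentiableWithinAt_const w)]
    simp
  rw [key, key]
  have hs : IsSymmSndFDerivWithinAt ℝ (ext f) (dom T) p :=
    ((ext_contDiffOn f) p hp).isSymmSndFDerivWithinAt
      (by rw [minSmoothness_of_isRCLikeNormedField]; exact WithTop.coe_le_coe.2 le_top) hU (dom_subset_closure hp) hp
  exact hs v w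

/-- x-derivative -/
noncomputable def dz (f : smoothAlg T) : smoothAlg T := pd (1, 0) f

/-- t-derivative -/
noncomputable def dt (f : smoothAlg T) : smoothAlg T := pd (0, 1) f

lemma hasDerivWithinAt_z (f : smoothAlg T) {z t : ℝ} (hz : z ∈ Icc (-1 : ℝ) 1)
    (ht : t ∈ Ico 0 T) :
    HasDerivWithinAt (fun z => ext f (z, t)) (ext (dz f) (z, t)) (Icc (-1) 1) z := by
  have hp := mem_dom hz ht
  have h1 := (ext_diff f hp).hasFDerivWithinAt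
  have h2 : HasDerivWithinAt (fun z : ℝ => (z, t)) ((1 : ℝ), (0 : ℝ)) (Icc (-1) 1) z :=
    (hasDerivWithinAt_id z _).prodMk (hasDerivWithinAt_const z _ t)
  have h3 := h1.comp_hasDerivWithinAt z h2 (fun w hw => mem_dom hw ht)
  rw [dz, ext_pd _ _ hp]
  exact h3

lemma hasDerivWithinAt_t (f : smoothAlg T) {z t : ℝ} (hz : z ∈ Icc (-1 : ℝ) 1)
    (ht : t ∈ Ico 0 T) :
    HasDerivWithinAt (fun s => ext f (z, s)) (ext (dt f) (z, t)) (Ico 0 T) t := by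
  have hp := mem_dom hz ht
  have h1 := (ext_diff f hp).hasFDerivWithinAt
  have h2 : HasDerivWithinAt (fun s : ℝ => (z, s)) ((0 : ℝ), (1 : ℝ)) (Ico 0 T) t :=
    (hasDerivWithinAt_const t _ z).prodMk (hasDerivWithinAt_id t _)
  have h3 := h1.comp_hasDerivWithinAt t h2 (fun w hw => mem_dom hz hw)
  rw [dt, ext_pd _ _ hp]
  exact h3

lemma hasDerivAt_t (f : smoothAlg T) {z t : ℝ} (hz : z ∈ Icc (-1 : ℝ) 1)
    (ht : t ∈ Ioo 0 T) :
    HasDerivAt (fun s => ext f (z, s)) (ext (dt f) (z, t)) t :=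
  (hasDerivWithinAt_t f hz ⟨ht.1.le, ht.2⟩).hasDerivAt (Ico_mem_nhds ht.1 ht.2)

lemma hasDerivAt_z (f : smoothAlg T) {z t : ℝ} (hz : z ∈ Ioo (-1 : ℝ) 1)
    (ht : t ∈ Ico 0 T) :
    HasDerivAt (fun z => ext f (z, t)) (ext (dz f) (z, t)) z :=
  (hasDerivWithinAt_z f (Ioo_subset_Icc_self hz) ht).hasDerivAt (Icc_mem_nhds hz.1 hz.2)

lemma ext_continuousOn (f : smoothAlg T) : ContinuousOn (ext f) (dom T) :=
  (ext_contDiffOn f).continuousOn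

/-- First touch: if `u < φ` at time zero but not always, there is a first contact point. -/
lemma first_touch {u : ℝ × ℝ → ℝ} {φ : ℝ → ℝ} (hu : ContinuousOn u (dom T))
    (hφ : ContinuousOn φ (Ico 0 T)) (h0 : ∀ z ∈ Icc (-1 : ℝ) 1, u (z, 0) < φ 0)
    {z₁ t₁ : ℝ} (hz₁ : z₁ ∈ Icc (-1 : ℝ) 1) (ht₁ : t₁ ∈ Ico 0 T) (h1 : φ t₁ ≤ u (z₁, t₁)) :
    ∃ z₀ ∈ Icc (-1 : ℝ) 1, ∃ t₀ ∈ Ioc 0 t₁, u (z₀, t₀) = φ t₀ ∧
      (∀ z ∈ Icc (-1 : ℝ) 1, ∀ s ∈ Icc 0 t₀, u (z, s) ≤ φ s) ∧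
      (∀ z ∈ Icc (-1 : ℝ) 1, ∀ s ∈ Ico 0 t₀, u (z, s) < φ s) := by
  classical
  set K : Set (ℝ × ℝ) := Icc (-1) 1 ×ˢ Icc 0 t₁ with hK
  have hKd : K ⊆ dom T := fun p hp => ⟨hp.1, ⟨hp.2.1, lt_of_le_of_lt hp.2.2 ht₁.2⟩⟩
  have hKc : IsCompact K := isCompact_Icc.prod isCompact_Icc
  set w : ℝ × ℝ → ℝ := fun p => u p - φ p.2 with hw
  have hwc : ContinuousOn w K := by
    refine (hu.mono hKd).sub (hφ.comp continuousOn_snd ?_)
    intro p hp; exact (hKd hp).2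
  set B : Set (ℝ × ℝ) := K ∩ w ⁻¹' (Ici 0) with hB
  have hBc : IsCompact B := by
    have : IsClosed B := hwc.preimage_isClosed_of_isClosed hKc.isClosed isClosed_Ici
    exact hKc.of_isClosed_subset this inter_subset_left
  have hBn : B.Nonempty := ⟨(z₁, t₁), ⟨⟨hz₁, ⟨ht₁.1, le_rfl⟩⟩, by simp [hw]; linarith only [h1]⟩⟩
  obtain ⟨p₀, hp₀, hmin⟩ := hBc.exists_isMinOn hBn continuous_snd.continuousOn
  have hlt : ∀ z ∈ Icc (-1 : ℝ) 1, ∀ s ∈ Ico 0 p₀.2, u (z, s) < φ s := by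
    intro z hz s hs
    by_contra hcon
    push Not at hcon
    have hin : (z, s) ∈ B := by
      refine ⟨⟨hz, ⟨hs.1, (hs.2.trans_le hp₀.1.2.2).le⟩⟩, ?_⟩
      simp [hw]; linarith only [hcon]
    have := hmin hin
    simp at this
    exact absurd hs.2 (not_lt.2 this)
  have hpos : 0 < p₀.2 := by
    rcases hp₀.1.2.1.eq_or_lt with h | h
    · exfalso
      have h2 := h0 p₀.1 hp₀.1.1
      have h3 : 0 ≤ w p₀ := hp₀.2
      simp only [hw] at h3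
      have h4 : p₀ = (p₀.1, 0) := by rw [h]
      rw [← h] at h3
      rw [← h4] at h2
      linarith only [h2, h3]
    · exact h
  have hT0 : p₀.2 < T := lt_of_le_of_lt hp₀.1.2.2 ht₁.2
  have hle : ∀ z ∈ Icc (-1 : ℝ) 1, u (z, p₀.2) ≤ φ p₀.2 := by
    intro z hz
    by_contra hcon
    push Not at hcon
    have hc1 : ContinuousWithinAt (fun s => u (z, s) - φ s) (Icc 0 t₁) p₀.2 := by
      have h5 : ContinuousOn (fun s => w (z, s)) (Icc 0 t₁) := by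
        refine hwc.comp (by fun_prop) ?_
        intro s hs; exact ⟨hz, hs⟩
      exact h5 p₀.2 hp₀.1.2
    have hc2 : ContinuousWithinAt (fun s => u (z, s) - φ s) (Ico 0 p₀.2) p₀.2 :=
      hc1.mono (fun s hs => ⟨hs.1, (hs.2.trans_le hp₀.1.2.2).le⟩)
    have hcl : p₀.2 ∈ closure (Ico 0 p₀.2) := by
      rw [closure_Ico hpos.ne]; exact ⟨hpos.le, le_rfl⟩
    have : (𝓝[Ico 0 p₀.2] p₀.2).NeBot := mem_closure_iff_nhdsWithin_neBot.1 hcl
    have h6 : u (z, p₀.2) - φ p₀.2 ≤ 0 := by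
      refine le_of_tendsto hc2.tendsto ?_
      filter_upwards [self_mem_nhdsWithin] with s hs
      linarith only [hlt, hz, hs, hlt z hz s hs]
    linarith
  refine ⟨p₀.1, hp₀.1.1, p₀.2, ⟨hpos, hp₀.1.2.2⟩, ?_, ?_, hlt⟩
  · have h3 : 0 ≤ w p₀ := hp₀.2
    simp only [hw] at h3
    exact le_antisymm (hle _ hp₀.1.1) (by linarith only [h3])
  · intro z hz s hs
    rcases hs.2.eq_or_lt with h | h
    · rw [h]; exact hle z hz
    · exact (hlt z hz s ⟨hs.1, h⟩).le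

/-- time derivative at a touching point -/
lemma time_ineq (f : smoothAlg T) {φ : ℝ → ℝ} {φ' z t : ℝ} (hz : z ∈ Icc (-1 : ℝ) 1)
    (ht : t ∈ Ioo 0 T) (hφ : HasDerivAt φ φ' t) (h1 : ext f (z, t) = φ t)
    (h2 : ∀ᶠ s in 𝓝[<] t, ext f (z, s) ≤ φ s) : φ' ≤ ext (dt f) (z, t) := by
  have hd : HasDerivAt (fun s => φ s - ext f (z, s)) (φ' - ext (dt f) (z, t)) t :=
    hφ.sub (hasDerivAt_t f hz ht)
  have hd2 : HasDerivWithinAt (fun s => φ s - ext f (z, s)) (φ' - ext (dt f) (z, t)) (Iio t) t :=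
    hd.hasDerivWithinAt
  rw [hasDerivWithinAt_iff_tendsto_slope] at hd2
  have hne : (Iio t \ {t} : Set ℝ) = Iio t := by ext x; simp
  rw [hne] at hd2
  have : φ' - ext (dt f) (z, t) ≤ 0 := by
    refine le_of_tendsto hd2 ?_
    filter_upwards [h2, self_mem_nhdsWithin] with s hs hst
    rw [slope_def_field]
    have h3 : s - t < 0 := by have : s < t := hst; linarith only [this]
    apply div_nonpos_of_nonneg_of_nonpos
    · rw [h1]; linarith only [hs]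
    · exact h3.le
  linarith only [this]

/-- space derivatives at a local maximum -/
lemma space_ineq (f : smoothAlg T) {z t : ℝ} (hz : z ∈ Icc (-1 : ℝ) 1) (ht : t ∈ Ico 0 T)
    (h2 : ∀ᶠ w in 𝓝[Icc (-1) 1] z, ext f (w, t) ≤ ext f (z, t)) :
    (z = -1 ∧ ext (dz f) (z, t) ≤ 0) ∨ (z = 1 ∧ 0 ≤ ext (dz f) (z, t)) ∨
    (z ∈ Ioo (-1 : ℝ) 1 ∧ ext (dz f) (z, t) = 0 ∧ ext (dz (dz f)) (z, t) ≤ 0) := by
  have hd := hasDerivWithinAt_z f hz ht
  rcases hz.1.eq_or_lt with hl | hl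
  · left
    refine ⟨hl.symm, ?_⟩
    rw [hasDerivWithinAt_iff_tendsto_slope] at hd
    have hm : z ∈ closure (Icc (-1 : ℝ) 1 \ {z}) := by
      have h3 : Ioc z 1 ⊆ Icc (-1 : ℝ) 1 \ {z} := by
        intro x hx; exact ⟨⟨by linarith only [hl, hx, hx.1], hx.2⟩, by simp; exact (ne_of_gt hx.1)⟩
      refine closure_mono h3 ?_
      rw [closure_Ioc (by linarith only [hl])]; exact ⟨le_rfl, by linarith only [hl]⟩
    have : (𝓝[Icc (-1 : ℝ) 1 \ {z}] z).NeBot := mem_closure_iff_nhdsWithin_neBot.1 hm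
    refine le_of_tendsto hd ?_
    have h4 : ∀ᶠ w in 𝓝[Icc (-1) 1 \ {z}] z, ext f (w, t) ≤ ext f (z, t) :=
      h2.filter_mono (nhdsWithin_mono z sdiff_subset)
    filter_upwards [h4, self_mem_nhdsWithin] with w hw hwz
    rw [slope_def_field]
    have h5 : z < w := by
      rcases lt_or_eq_of_le (hl ▸ hwz.1.1 : z ≤ w) with h | h
      · exact h
      · exact absurd h.symm hwz.2
    apply div_nonpos_of_nonpos_of_nonneg <;> linarith only [hw, h5]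
  rcases hz.2.eq_or_lt with hr | hr
  · right; left
    refine ⟨hr, ?_⟩
    rw [hasDerivWithinAt_iff_tendsto_slope] at hd
    have hm : z ∈ closure (Icc (-1 : ℝ) 1 \ {z}) := by
      have h3 : Ico (-1) z ⊆ Icc (-1 : ℝ) 1 \ {z} := by
        intro x hx; exact ⟨⟨hx.1, by linarith only [hr, hx, hx.2]⟩, by simp; exact (ne_of_lt hx.2)⟩
      refine closure_mono h3 ?_
      rw [closure_Ico (by linarith only [hr])]; exact ⟨by linarith only [hr], le_rfl⟩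
    have : (𝓝[Icc (-1 : ℝ) 1 \ {z}] z).NeBot := mem_closure_iff_nhdsWithin_neBot.1 hm
    refine ge_of_tendsto hd ?_
    have h4 : ∀ᶠ w in 𝓝[Icc (-1) 1 \ {z}] z, ext f (w, t) ≤ ext f (z, t) :=
      h2.filter_mono (nhdsWithin_mono z sdiff_subset)
    filter_upwards [h4, self_mem_nhdsWithin] with w hw hwz
    rw [slope_def_field]
    have h5 : w < z := by
      rcases lt_or_eq_of_le (hr ▸ hwz.1.2 : w ≤ z) with h | h
      · exact h
      · exact absurd h hwz.2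
    apply div_nonneg_of_nonpos <;> linarith only [hw, h5]
  · right; right
    have hzo : z ∈ Ioo (-1 : ℝ) 1 := ⟨hl, hr⟩
    have hnh : Icc (-1 : ℝ) 1 ∈ 𝓝 z := Icc_mem_nhds hl hr
    have hmax : IsLocalMax (fun w => ext f (w, t)) z := by
      have : 𝓝[Icc (-1) 1] z = 𝓝 z := nhdsWithin_eq_nhds.2 hnh
      rw [this] at h2
      exact h2
    have h0 : ext (dz f) (z, t) = 0 := hmax.hasDerivAt_eq_zero (hasDerivAt_z f hzo ht)
    refine ⟨hzo, h0, ?_⟩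
    by_contra hcon
    push Not at hcon
    have hev : deriv (fun w => ext f (w, t)) =ᶠ[𝓝 z] fun w => ext (dz f) (w, t) := by
      filter_upwards [Ioo_mem_nhds hl hr] with w hw
      exact (hasDerivAt_z f hw ht).deriv
    have hdd : deriv (deriv (fun w => ext f (w, t))) z = ext (dz (dz f)) (z, t) := by
      rw [hev.deriv_eq]
      exact (hasDerivAt_z (dz f) hzo ht).deriv
    have hmin : IsLocalMin (fun w => ext f (w, t)) z := by
      refine isLocalMin_of_deriv_deriv_pos (by rw [hdd]; exact hcon) ?_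
        (hasDerivAt_z f hzo ht).continuousAt
      rw [hev.eq_of_nhds]; exact h0
    have hconst : (fun w => ext f (w, t)) =ᶠ[𝓝 z] fun _ => ext f (z, t) := by
      filter_upwards [hmax, hmin] with w h3 h4
      exact le_antisymm h3 h4
    have h5 : deriv (fun w => ext f (w, t)) =ᶠ[𝓝 z] fun _ => 0 := by
      have := hconst.deriv
      simpa using this
    have h6 : deriv (deriv (fun w => ext f (w, t))) z = 0 := by
      rw [h5.deriv_eq]; simp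
    rw [hdd] at h6
    linarith only [hcon, h6]

lemma ext_one {p : ℝ × ℝ} (hp : p ∈ dom T) : ext (1 : smoothAlg T) p = 1 := by
  rw [ext_apply _ hp]; rfl

lemma ext_zero (p : ℝ × ℝ) : ext (0 : smoothAlg T) p = 0 := by
  by_cases h : p ∈ dom T <;> simp [ext, h]

lemma dz_mul (f g : smoothAlg T) : dz (f * g) = f * dz g + g * dz f :=
  (pdD (T := T) (1, 0)).leibniz f g

lemma dt_mul (f g : smoothAlg T) : dt (f * g) = f * dt g + g * dt f :=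
  (pdD (T := T) (0, 1)).leibniz f g

lemma dt_one : dt (1 : smoothAlg T) = 0 := (pdD (T := T) (0, 1)).map_one_eq_zero

/-- evaluation at a point of the domain, as a ring homomorphism -/
def ev {p : ℝ × ℝ} (hp : p ∈ dom T) : smoothAlg T →+* ℝ where
  toFun f := f.1 ⟨p, hp⟩
  map_one' := rfl
  map_mul' _ _ := rfl
  map_zero' := rfl
  map_add' _ _ := rfl

lemma ev_eq {p : ℝ × ℝ} (hp : p ∈ dom T) (f : smoothAlg T) : ev hp f = ext f p := by
  rw [ext_apply f hp]; rfl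

/-- the constant function -/
def cst (c : ℝ) : smoothAlg T := algebraMap ℝ (smoothAlg T) c

lemma ext_cst (c : ℝ) {p : ℝ × ℝ} (hp : p ∈ dom T) : ext (cst c : smoothAlg T) p = c := by
  rw [ext_apply _ hp]; rfl

end Vale.Agent.P244.BB
end

section

/-!
# P244-ST, block M: differential identities in the conformal gauge (abstract form)

`A` a commutative ring with two commuting derivations `d` (space) and `D` (time).
-/

namespace Vale.Agent.P244.ST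

/-- The conformal gauge system in a differential ring. -/
structure GSys (A : Type*) [CommRing A] where
  d : Derivation ℤ A A
  D : Derivation ℤ A A
  comm : ∀ a, D (d a) = d (D a)
  p : A
  dp : d p = 0
  Dp : D p = 0
  X : A
  dX : d X = 1
  DX : D X = 0
  W : A
  F : A
  E : A
  G : A
  J : A
  dE : d E = -2 * E * d W
  DE : D E = -2 * E * D W
  dG : d G = -2 * G * d F
  DG : D G = -2 * G * D F
  dJ : d J = E * ((p - 1) * (d W) ^ 2 + p * (d F) ^ 2)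
  DW : D W = E * ((1 - X ^ 2) * d (d W) - (p + 1) * X * d W - p) + (X - (1 - X ^ 2) * d W) * J
  DF : D F = E * ((1 - X ^ 2) * d (d F) - (p + 1) * X * d F) - (p - 1) * G
    - (1 - X ^ 2) * d F * J

namespace GSys

variable {A : Type*} [CommRing A] (S : GSys A)

lemma d_two : S.d (2 : A) = 0 := by
  have := S.d.map_natCast 2
  simpa using this

lemma D_two : S.D (2 : A) = 0 := by
  have := S.D.map_natCast 2
  simpa using this

lemma d_mul (a b : A) : S.d (a * b) = a * S.d b + b * S.d a := by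
  simp [Derivation.leibniz]

lemma D_mul (a b : A) : S.D (a * b) = a * S.D b + b * S.D a := by
  simp [Derivation.leibniz]

lemma d_one : S.d (1 : A) = 0 := S.d.map_one_eq_zero

lemma D_one : S.D (1 : A) = 0 := S.D.map_one_eq_zero

lemma d_sq (a : A) : S.d (a ^ 2) = 2 * a * S.d a := by
  rw [pow_two, d_mul]; ring

lemma D_sq (a : A) : S.D (a ^ 2) = 2 * a * S.D a := by
  rw [pow_two, D_mul]; ring

lemma D_w1 : S.D (S.d S.W) =
    -2 * S.E * S.d S.W * ((1 - S.X ^ 2) * S.d (S.d S.W) - (S.p + 1) * S.X * S.d S.W - S.p)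
    + S.E * ((1 - S.X ^ 2) * S.d (S.d (S.d S.W)) - 2 * S.X * S.d (S.d S.W)
      - (S.p + 1) * S.d S.W - (S.p + 1) * S.X * S.d (S.d S.W))
    + (1 + 2 * S.X * S.d S.W - (1 - S.X ^ 2) * S.d (S.d S.W)) * S.J
    + (S.X - (1 - S.X ^ 2) * S.d S.W) * (S.E * ((S.p - 1) * (S.d S.W) ^ 2
      + S.p * (S.d S.F) ^ 2)) := by
  rw [S.comm, S.DW]
  simp only [map_add, map_sub, d_mul, d_sq, S.dp, S.dX, S.dE, S.dJ, d_one]
  ring

lemma D_f1 : S.D (S.d S.F) =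
    -2 * S.E * S.d S.W * ((1 - S.X ^ 2) * S.d (S.d S.F) - (S.p + 1) * S.X * S.d S.F)
    + S.E * ((1 - S.X ^ 2) * S.d (S.d (S.d S.F)) - 2 * S.X * S.d (S.d S.F)
      - (S.p + 1) * S.d S.F - (S.p + 1) * S.X * S.d (S.d S.F))
    + 2 * (S.p - 1) * S.G * S.d S.F
    + (2 * S.X * S.d S.F - (1 - S.X ^ 2) * S.d (S.d S.F)) * S.J
    - (1 - S.X ^ 2) * S.d S.F * (S.E * ((S.p - 1) * (S.d S.W) ^ 2
      + S.p * (S.d S.F) ^ 2)) := by
  rw [S.comm, S.DF]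
  simp only [map_add, map_sub, d_mul, d_sq, S.dp, S.dX, S.dE, S.dG, S.dJ, d_one]
  ring

/-- spherical Laplacian -/
def L (h : A) : A := (1 - S.X ^ 2) * S.d (S.d h) - (S.p + 1) * S.X * S.d h

def gx : A := (S.p - 1) * S.d S.W + S.p * S.d S.F

def ric1 : A := -(S.E * (S.L S.F + (1 - S.X ^ 2) * S.d S.F * S.gx)) + (S.p - 1) * S.G

def ric2 : A :=
  -(S.E * (S.L S.W - S.p - S.X * S.gx + (1 - S.X ^ 2) * S.d S.W * S.gx))

def ric0 : A := S.ric2 - S.E * (1 - S.X ^ 2) *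
    ((S.p - 1) * (S.d (S.d S.W) - (S.d S.W) ^ 2)
      + S.p * (S.d (S.d S.F) + (S.d S.F) ^ 2 - 2 * S.d S.W * S.d S.F))

def R : A := S.ric0 + S.p * S.ric1 + S.p * S.ric2

lemma R_eq : S.R = -S.E * (2 * S.p * (1 - S.X ^ 2) * (S.d (S.d S.W) + S.d (S.d S.F))
      - (S.p + 1) ^ 2 * S.X * S.d S.W - S.p * (S.p + 1)
      - (S.p + 1) * S.X * ((S.p - 1) * S.d S.W + S.p * S.d S.F) - S.p * (S.p + 1) * S.X * S.d S.F
      + (1 - S.X ^ 2) * (((S.p - 1) * S.d S.W + S.p * S.d S.F) *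
        ((S.p + 1) * S.d S.W + S.p * S.d S.F)
        - (S.p - 1) * (S.d S.W) ^ 2 + S.p * (S.d S.F) ^ 2 - 2 * S.p * S.d S.W * S.d S.F))
      + S.p * (S.p - 1) * S.G := by
  simp only [R, ric0, ric1, ric2, gx, L]
  ring

set_option maxRecDepth 16000 in
set_option maxHeartbeats 4000000 in
theorem D_R : S.D S.R = S.E * S.L S.R - (1 - S.X ^ 2) * S.J * S.d S.R
    + 2 * (S.ric0 ^ 2 + S.p * S.ric1 ^ 2 + S.p * S.ric2 ^ 2) := by
  have hw2 : S.D (S.d (S.d S.W)) = S.d (S.D (S.d S.W)) := S.comm _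
  have hf2 : S.D (S.d (S.d S.F)) = S.d (S.D (S.d S.F)) := S.comm _
  rw [S.D_w1] at hw2
  rw [S.D_f1] at hf2
  simp only [map_add, map_sub, d_mul, d_sq, S.dp, S.dX, S.dE, S.dG, S.dJ, d_one, map_neg,
    d_two] at hw2 hf2
  simp only [S.R_eq, L]
  simp only [map_add, map_sub, d_mul, d_sq, S.dp, S.dX, S.dE, S.dG, d_one, map_neg,
    d_two, D_mul, D_sq, S.Dp, S.DX, S.DE, S.DG, D_one, D_two, map_zero, mul_zero,
    add_zero, zero_add, sub_zero, neg_zero, mul_one]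
  rw [hw2, hf2, S.D_w1, S.D_f1, S.DW, S.DF]
  simp only [ric0, ric1, ric2, gx, L]
  generalize S.d (S.d (S.d (S.d S.W))) = w4
  generalize S.d (S.d (S.d (S.d S.F))) = f4
  generalize S.d (S.d (S.d S.W)) = w3
  generalize S.d (S.d (S.d S.F)) = f3
  generalize S.d (S.d S.W) = w2
  generalize S.d (S.d S.F) = f2
  generalize S.d S.W = w1
  generalize S.d S.F = f1
  generalize S.E = E
  generalize S.G = G
  generalize S.X = X
  generalize S.J = J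
  generalize S.p = p
  ring

end GSys

end Vale.Agent.P244.ST
end

section

/-!
# P244-ST, block M: weak maximum principles on `[0,1]` and `[-1,1]`

The inequality is only asked where `u > 0`.  The diffusion coefficient has to vanish at the pole
`x = 1` (and at `x = -1`), where the first order coefficient has to point inwards.
-/

open Set Topology Filter
open scoped ContDiff

namespace Vale.Agent.P244.ST

open Vale.Agent.P244.BB

variable {T : ℝ}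

/-- the local form of the differential inequality `u_t ≤ a u_xx + b u_x + k u` -/
def SubAt (u : smoothAlg T) (k x t : ℝ) : Prop :=
  ∃ a b : ℝ, 0 ≤ a ∧ (x = 1 → a = 0 ∧ b ≤ 0) ∧ (x = -1 → a = 0 ∧ 0 ≤ b) ∧
    ext (dt u) (x, t) ≤ a * ext (dz (dz u)) (x, t) + b * ext (dz u) (x, t) + k * ext u (x, t)

/-- space part of the contact argument: at a spatial maximum the operator part is `≤ 0` -/
lemma op_nonpos (u : smoothAlg T) {x t a b : ℝ} (hx : x ∈ Icc (-1 : ℝ) 1) (ht : t ∈ Ico 0 T)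
    (ha : 0 ≤ a) (h1 : x = 1 → a = 0 ∧ b ≤ 0) (h2 : x = -1 → a = 0 ∧ 0 ≤ b)
    (hm : ∀ᶠ y in 𝓝[Icc (-1) 1] x, ext u (y, t) ≤ ext u (x, t)) :
    a * ext (dz (dz u)) (x, t) + b * ext (dz u) (x, t) ≤ 0 := by
  rcases space_ineq u hx ht hm with ⟨hx1, h3⟩ | ⟨hx1, h3⟩ | ⟨-, h3, h4⟩
  · obtain ⟨h5, h6⟩ := h2 hx1
    rw [h5, zero_mul, zero_add]
    exact mul_nonpos_of_nonneg_of_nonpos h6 h3
  · obtain ⟨h5, h6⟩ := h1 hx1
    rw [h5, zero_mul, zero_add]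
    exact mul_nonpos_of_nonpos_of_nonneg h6 h3
  · rw [h3, mul_zero, add_zero]
    exact mul_nonpos_of_nonneg_of_nonpos ha h4

/-- Weak maximum principle on `[-1,1]`, local in time. -/
theorem weak_max_loc (u : smoothAlg T) {T' k : ℝ} (hT' : T' < T)
    (h0 : ∀ x ∈ Icc (-1 : ℝ) 1, ext u (x, 0) ≤ 0)
    (hk : ∀ x ∈ Icc (-1 : ℝ) 1, ∀ t ∈ Ioc 0 T', 0 < ext u (x, t) → SubAt u k x t) :
    ∀ t ∈ Icc 0 T', ∀ x ∈ Icc (-1 : ℝ) 1, ext u (x, t) ≤ 0 := by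
  intro t₁ ht₁' x₁ hx₁
  have ht₁ : t₁ ∈ Ico 0 T := ⟨ht₁'.1, lt_of_le_of_lt ht₁'.2 hT'⟩
  rcases ht₁.1.eq_or_lt with h01 | h01
  · rw [← h01]; exact h0 x₁ hx₁
  by_contra hcon
  push Not at hcon
  -- compare with `φ s = ε exp ((k+1) s)`
  set ε : ℝ := ext u (x₁, t₁) * Real.exp (-(k + 1) * t₁) with hε
  have hεp : 0 < ε := mul_pos hcon (Real.exp_pos _)
  set φ : ℝ → ℝ := fun s => ε * Real.exp ((k + 1) * s) with hφ
  have hφp : ∀ s, 0 < φ s := fun s => mul_pos hεp (Real.exp_pos _)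
  have hφc : Continuous φ := by fun_prop
  have hφd : ∀ s, HasDerivAt φ ((k + 1) * φ s) s := by
    intro s
    have h1 : HasDerivAt (fun s : ℝ => (k + 1) * s) (k + 1) s := by
      simpa using (hasDerivAt_id s).const_mul (k + 1)
    have h2 := (h1.exp).const_mul ε
    exact h2.congr_deriv (by simp only [hφ]; ring)
  have h1 : φ t₁ ≤ ext u (x₁, t₁) := by
    simp only [hφ, hε]
    rw [mul_assoc, ← Real.exp_add, show -(k + 1) * t₁ + (k + 1) * t₁ = 0 by ring,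
      Real.exp_zero, mul_one]
  obtain ⟨z, hz, s, hs, hcontact, hle, hlt⟩ := first_touch (ext_continuousOn u)
    (φ := φ) hφc.continuousOn (fun x hx => (h0 x hx).trans_lt (hφp 0)) hx₁ ht₁ h1
  have hsT : s < T := lt_of_le_of_lt hs.2 ht₁.2
  have htime : (k + 1) * φ s ≤ ext (dt u) (z, s) := by
    refine time_ineq u hz ⟨hs.1, hsT⟩ (hφd s) hcontact ?_
    filter_upwards [Ioo_mem_nhdsLT hs.1] with r hr
    exact hle z hz r ⟨hr.1.le, hr.2.le⟩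
  obtain ⟨a, b, ha, hb1, hb2, hineq⟩ := hk z hz s ⟨hs.1, hs.2.trans ht₁'.2⟩
    (by rw [hcontact]; exact hφp s)
  have hop := op_nonpos u hz ⟨hs.1.le, hsT⟩ ha hb1 hb2 (by
    filter_upwards [self_mem_nhdsWithin] with y hy
    rw [hcontact]
    exact hle y hy s ⟨hs.1.le, le_rfl⟩)
  rw [hcontact] at hineq
  have := hφp s
  linarith only [this, hop, hineq, htime]

/-- Weak maximum principle on `[-1,1]`. -/
theorem weak_max (u : smoothAlg T)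
    (h0 : ∀ x ∈ Icc (-1 : ℝ) 1, 0 < T → ext u (x, 0) ≤ 0)
    (h : ∀ T' ∈ Ioo 0 T, ∃ k : ℝ, ∀ x ∈ Icc (-1 : ℝ) 1, ∀ t ∈ Ioc 0 T', 0 < ext u (x, t) →
      SubAt u k x t) :
    ∀ t ∈ Ico 0 T, ∀ x ∈ Icc (-1 : ℝ) 1, ext u (x, t) ≤ 0 := by
  intro t ht x hx
  have hT : 0 < T := lt_of_le_of_lt ht.1 ht.2
  rcases ht.1.eq_or_lt with h01 | h01
  · rw [← h01]; exact h0 x hx hT
  obtain ⟨k, hk⟩ := h t ⟨h01, ht.2⟩
  exact weak_max_loc u ht.2 (fun y hy => h0 y hy hT) hk t ⟨ht.1, le_rfl⟩ x hx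

/-- Weak maximum principle on `[0,1]` with the boundary condition `u ≤ 0` at `x = 0`, local in
time. -/
theorem weak_max01_loc (u : smoothAlg T) {T' k : ℝ} (hT' : T' < T)
    (h0 : ∀ x ∈ Icc (0 : ℝ) 1, ext u (x, 0) ≤ 0)
    (hb : ∀ t ∈ Icc 0 T', ext u (0, t) ≤ 0)
    (hk : ∀ x ∈ Ioc (0 : ℝ) 1, ∀ t ∈ Ioc 0 T', 0 < ext u (x, t) → SubAt u k x t) :
    ∀ t ∈ Icc 0 T', ∀ x ∈ Icc (0 : ℝ) 1, ext u (x, t) ≤ 0 := by
  intro t₁ ht₁' x₁ hx₁
  have ht₁ : t₁ ∈ Ico 0 T := ⟨ht₁'.1, lt_of_le_of_lt ht₁'.2 hT'⟩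
  rcases ht₁.1.eq_or_lt with h01 | h01
  · rw [← h01]; exact h0 x₁ hx₁
  by_contra hcon
  push Not at hcon
  set ε : ℝ := ext u (x₁, t₁) * Real.exp (-(k + 1) * t₁) with hε
  have hεp : 0 < ε := mul_pos hcon (Real.exp_pos _)
  set φ : ℝ → ℝ := fun s => ε * Real.exp ((k + 1) * s) with hφ
  have hφp : ∀ s, 0 < φ s := fun s => mul_pos hεp (Real.exp_pos _)
  have hφc : Continuous φ := by fun_prop
  have hφd : ∀ s, HasDerivAt φ ((k + 1) * φ s) s := by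
    intro s
    have h1 : HasDerivAt (fun s : ℝ => (k + 1) * s) (k + 1) s := by
      simpa using (hasDerivAt_id s).const_mul (k + 1)
    have h2 := (h1.exp).const_mul ε
    exact h2.congr_deriv (by simp only [hφ]; ring)
  have h1 : φ t₁ ≤ ext u (|x₁|, t₁) := by
    rw [abs_of_nonneg hx₁.1]
    simp only [hφ, hε]
    rw [mul_assoc, ← Real.exp_add, show -(k + 1) * t₁ + (k + 1) * t₁ = 0 by ring,
      Real.exp_zero, mul_one]
  have habs : ∀ {z : ℝ}, z ∈ Icc (-1 : ℝ) 1 → |z| ∈ Icc (0 : ℝ) 1 := by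
    intro z hz
    exact ⟨abs_nonneg z, abs_le.2 ⟨hz.1, hz.2⟩⟩
  have h01' : ∀ {z : ℝ}, z ∈ Icc (0 : ℝ) 1 → z ∈ Icc (-1 : ℝ) 1 := by
    intro z hz
    exact ⟨by linarith only [hz, hz.1], hz.2⟩
  have hcont : ContinuousOn (fun p : ℝ × ℝ => ext u (|p.1|, p.2)) (dom T) := by
    refine (ext_continuousOn u).comp (f := fun p : ℝ × ℝ => (|p.1|, p.2)) ?_ ?_
    · exact (continuous_fst.abs.prodMk continuous_snd).continuousOn
    · intro p hp
      exact ⟨h01' (habs hp.1), hp.2⟩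
  obtain ⟨z, hz, s, hs, hcontact, hle, hlt⟩ := first_touch hcont
    (φ := φ) hφc.continuousOn (fun x hx => (h0 |x| (habs hx)).trans_lt (hφp 0))
    (h01' hx₁) ht₁ h1
  have hsT : s < T := lt_of_le_of_lt hs.2 ht₁.2
  set y := |z| with hy
  have hy01 : y ∈ Icc (0 : ℝ) 1 := habs hz
  have hle' : ∀ x ∈ Icc (0 : ℝ) 1, ∀ r ∈ Icc 0 s, ext u (x, r) ≤ φ r := by
    intro x hx r hr
    have := hle x (h01' hx) r hr
    simpa [abs_of_nonneg hx.1] using this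
  have hypos : 0 < y := by
    rcases hy01.1.eq_or_lt with h5 | h5
    · exfalso
      have h6 := hb s ⟨hs.1.le, hs.2.trans ht₁'.2⟩
      simp only at hcontact
      rw [← h5] at hcontact
      rw [hcontact] at h6
      exact absurd h6 (not_le.2 (hφp s))
    · exact h5
  simp only at hcontact
  have htime : (k + 1) * φ s ≤ ext (dt u) (y, s) := by
    refine time_ineq u (h01' hy01) ⟨hs.1, hsT⟩ (hφd s) hcontact ?_
    filter_upwards [Ioo_mem_nhdsLT hs.1] with r hr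
    exact hle' y hy01 r ⟨hr.1.le, hr.2.le⟩
  obtain ⟨a, b, ha, hb1, hb2, hineq⟩ := hk y ⟨hypos, hy01.2⟩ s ⟨hs.1, hs.2.trans ht₁'.2⟩
    (by rw [hcontact]; exact hφp s)
  have hop := op_nonpos u (h01' hy01) ⟨hs.1.le, hsT⟩ ha hb1 hb2 (by
    have h7 : ∀ᶠ x in 𝓝[Icc (-1) 1] y, 0 < x :=
      mem_nhdsWithin_of_mem_nhds (Ioi_mem_nhds hypos)
    filter_upwards [self_mem_nhdsWithin, h7] with x hx hx0
    rw [hcontact]
    exact hle' x ⟨hx0.le, hx.2⟩ s ⟨hs.1.le, le_rfl⟩)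
  rw [hcontact] at hineq
  have := hφp s
  linarith only [this, hop, hineq, htime]

/-- Weak maximum principle on `[0,1]` with the boundary condition `u ≤ 0` at `x = 0`. -/
theorem weak_max01 (u : smoothAlg T)
    (h0 : ∀ x ∈ Icc (0 : ℝ) 1, 0 < T → ext u (x, 0) ≤ 0)
    (hb : ∀ t ∈ Ico 0 T, ext u (0, t) ≤ 0)
    (h : ∀ T' ∈ Ioo 0 T, ∃ k : ℝ, ∀ x ∈ Ioc (0 : ℝ) 1, ∀ t ∈ Ioc 0 T', 0 < ext u (x, t) →
      SubAt u k x t) :
    ∀ t ∈ Ico 0 T, ∀ x ∈ Icc (0 : ℝ) 1, ext u (x, t) ≤ 0 := by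
  intro t ht x hx
  have hT : 0 < T := lt_of_le_of_lt ht.1 ht.2
  rcases ht.1.eq_or_lt with h01 | h01
  · rw [← h01]; exact h0 x hx hT
  obtain ⟨k, hk⟩ := h t ⟨h01, ht.2⟩
  exact weak_max01_loc u ht.2 (fun y hy => h0 y hy hT)
    (fun s hs => hb s ⟨hs.1, lt_of_le_of_lt hs.2 ht.2⟩) hk t ⟨ht.1, le_rfl⟩ x hx

/-- elements of the algebra are bounded on `[-1,1] × [0,T']` -/
lemma ext_bound (f : smoothAlg T) {T' : ℝ} (hT' : T' < T) :
    ∃ C : ℝ, 0 ≤ C ∧ ∀ x ∈ Icc (-1 : ℝ) 1, ∀ t ∈ Icc 0 T', |ext f (x, t)| ≤ C := by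
  have hK : IsCompact (Icc (-1 : ℝ) 1 ×ˢ Icc 0 T') := isCompact_Icc.prod isCompact_Icc
  have hc : ContinuousOn (ext f) (Icc (-1 : ℝ) 1 ×ˢ Icc 0 T') :=
    (ext_continuousOn f).mono (fun p hp => ⟨hp.1, ⟨hp.2.1, lt_of_le_of_lt hp.2.2 hT'⟩⟩)
  obtain ⟨C, hC⟩ := hK.exists_bound_of_continuousOn hc
  refine ⟨max C 0, le_max_right _ _, fun x hx t ht => ?_⟩
  have := hC (x, t) ⟨hx, ht⟩
  rw [Real.norm_eq_abs] at this
  exact this.trans (le_max_left _ _)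

/-- an element vanishing at `x = 0` is `O(x)` on `[0,1] × [0,T']` -/
lemma ext_bound_x (f : smoothAlg T) (h0 : ∀ t ∈ Ico 0 T, ext f (0, t) = 0) {T' : ℝ}
    (hT' : T' < T) :
    ∃ C : ℝ, 0 ≤ C ∧ ∀ x ∈ Icc (0 : ℝ) 1, ∀ t ∈ Icc 0 T', |ext f (x, t)| ≤ C * x := by
  obtain ⟨C, hC, hb⟩ := ext_bound (dz f) hT'
  refine ⟨C, hC, fun x hx t ht => ?_⟩
  have htT : t ∈ Ico 0 T := ⟨ht.1, lt_of_le_of_lt ht.2 hT'⟩
  have hd : ∀ y ∈ Icc (0 : ℝ) 1, HasDerivWithinAt (fun z => ext f (z, t))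
      (ext (dz f) (y, t)) (Icc 0 1) y := fun y hy =>
    (hasDerivWithinAt_z f ⟨by linarith only [hy, hy.1], hy.2⟩ htT).mono
      (Icc_subset_Icc (by norm_num) le_rfl)
  have := (convex_Icc (0 : ℝ) 1).norm_image_sub_le_of_norm_hasDerivWithin_le hd
    (C := C) (fun y hy => by
      rw [Real.norm_eq_abs]; exact hb y ⟨by linarith only [hy, hy.1], hy.2⟩ t ht)
    (left_mem_Icc.2 zero_le_one) hx
  rw [Real.norm_eq_abs, Real.norm_eq_abs, h0 t htT, sub_zero, sub_zero,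
    abs_of_nonneg hx.1] at this
  exact this

end Vale.Agent.P244.ST
end

section

/-!
# P244-ST, block M7 : maximum principle on a parabolic window (r-gauge coordinates `(t, ρ)`)

The window is `{0 ≤ t ≤ t₁, y₀ √(1-t) ≤ e^ρ ≤ y₁ √(1-t)}`.
-/

open Set Filter Topology

namespace Vale.Agent.P244.ST

/-- parabolic window, `y = e^ρ / √(1-t)` between `y₀` and `y₁`. -/
def Win (y₀ y₁ t₁ : ℝ) : Set (ℝ × ℝ) :=
  {q | q.1 ∈ Icc 0 t₁ ∧ y₀ * Real.sqrt (1 - q.1) ≤ Real.exp q.2 ∧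
    Real.exp q.2 ≤ y₁ * Real.sqrt (1 - q.1)}

lemma Win_isCompact {y₀ y₁ t₁ : ℝ} (hy₀ : 0 < y₀) (hy₁ : 0 < y₁) (ht₁ : t₁ < 1) :
    IsCompact (Win y₀ y₁ t₁) := by
  have hc1 : Continuous fun q : ℝ × ℝ => y₀ * Real.sqrt (1 - q.1) := by fun_prop
  have hc2 : Continuous fun q : ℝ × ℝ => y₁ * Real.sqrt (1 - q.1) := by fun_prop
  have hc3 : Continuous fun q : ℝ × ℝ => Real.exp q.2 := by fun_prop
  have hclosed : IsClosed (Win y₀ y₁ t₁) := by
    have : Win y₀ y₁ t₁ = (Prod.fst ⁻¹' (Icc 0 t₁)) ∩ {q | y₀ * Real.sqrt (1 - q.1) ≤ Real.exp q.2}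
        ∩ {q | Real.exp q.2 ≤ y₁ * Real.sqrt (1 - q.1)} := by
      ext q; simp only [Win, Set.mem_ofPred_eq, mem_inter_iff, mem_preimage]; tauto
    rw [this]
    exact ((isClosed_Icc.preimage continuous_fst).inter (isClosed_le hc1 hc3)).inter
      (isClosed_le hc3 hc2)
  have hsub : Win y₀ y₁ t₁ ⊆ Icc 0 t₁ ×ˢ
      Icc (Real.log (y₀ * Real.sqrt (1 - t₁))) (Real.log y₁) := by
    rintro ⟨t, ρ⟩ ⟨ht, h1, h2⟩
    have ht' : 0 ≤ t ∧ t ≤ t₁ := ht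
    have hs1 : Real.sqrt (1 - t₁) ≤ Real.sqrt (1 - t) := Real.sqrt_le_sqrt (by linarith only [ht', ht'.2])
    have hs2 : Real.sqrt (1 - t) ≤ 1 := Real.sqrt_le_one.2 (by linarith only [ht', ht'.1])
    have hs0 : 0 < Real.sqrt (1 - t₁) := Real.sqrt_pos.2 (by linarith only [ht₁])
    refine ⟨ht, ?_, ?_⟩
    · show Real.log (y₀ * Real.sqrt (1 - t₁)) ≤ ρ
      rw [Real.log_le_iff_le_exp (by positivity)]
      exact (mul_le_mul_of_nonneg_left hs1 hy₀.le).trans h1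
    · show ρ ≤ Real.log y₁
      rw [Real.le_log_iff_exp_le hy₁]
      refine h2.trans ?_
      simpa using mul_le_mul_of_nonneg_left hs2 hy₁.le
  exact (isCompact_Icc.prod isCompact_Icc).of_isClosed_subset hclosed hsub

/-- left difference quotient at a left-maximum -/
lemma deriv_nonneg_of_left_max {F : ℝ → ℝ} {F' t : ℝ} (hd : HasDerivAt F F' t)
    (h : ∀ᶠ s in 𝓝[<] t, F s ≤ F t) : 0 ≤ F' := by
  have hd2 : HasDerivWithinAt F F' (Iio t) t := hd.hasDerivWithinAt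
  rw [hasDerivWithinAt_iff_tendsto_slope] at hd2
  have hne : (Iio t \ {t} : Set ℝ) = Iio t := by ext x; simp
  rw [hne] at hd2
  refine ge_of_tendsto hd2 ?_
  filter_upwards [h, self_mem_nhdsWithin] with s hs hst
  rw [slope_def_field]
  have h3 : s - t < 0 := by have : s < t := hst; linarith only [this]
  exact div_nonneg_of_nonpos (by linarith only [hs]) h3.le

/-- second derivative at a local maximum -/
lemma second_deriv_nonpos {F F1 : ℝ → ℝ} {F2 x : ℝ} (hm : IsLocalMax F x)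
    (h1 : ∀ᶠ z in 𝓝 x, HasDerivAt F (F1 z) z) (h2 : HasDerivAt F1 F2 x) :
    F1 x = 0 ∧ F2 ≤ 0 := by
  have hx : HasDerivAt F (F1 x) x := h1.self_of_nhds
  have h0 : F1 x = 0 := hm.hasDerivAt_eq_zero hx
  refine ⟨h0, ?_⟩
  by_contra hcon
  push Not at hcon
  have hev : deriv F =ᶠ[𝓝 x] F1 := by
    filter_upwards [h1] with z hz using hz.deriv
  have hdd : deriv (deriv F) x = F2 := by
    rw [hev.deriv_eq]; exact h2.deriv
  have hmin : IsLocalMin F x := by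
    refine isLocalMin_of_deriv_deriv_pos (by rw [hdd]; exact hcon) ?_ hx.continuousAt
    rw [hev.eq_of_nhds]; exact h0
  have hconst : F =ᶠ[𝓝 x] fun _ => F x := by
    filter_upwards [hm, hmin] with w h3 h4
    exact le_antisymm h3 h4
  have h5 : deriv F =ᶠ[𝓝 x] fun _ => 0 := by
    have := hconst.deriv
    simpa using this
  have h6 : deriv (deriv F) x = 0 := by
    rw [h5.deriv_eq]; simp
  rw [hdd] at h6
  linarith only [hcon, h6]

/-- Maximum principle on a parabolic window. -/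
theorem win_max {y₀ y₁ t₁ B : ℝ} (hy₀ : 0 < y₀) (hy₁ : 0 < y₁) (ht₁ : t₁ < 1)
    {N N1 N2 Nt : ℝ → ℝ → ℝ}
    (hc : ContinuousOn (fun q : ℝ × ℝ => N q.1 q.2) (Win y₀ y₁ t₁))
    (h1 : ∀ q ∈ Win y₀ y₁ t₁, 0 < q.1 → HasDerivAt (N q.1) (N1 q.1 q.2) q.2)
    (h2 : ∀ q ∈ Win y₀ y₁ t₁, 0 < q.1 → HasDerivAt (N1 q.1) (N2 q.1 q.2) q.2)
    (ht : ∀ q ∈ Win y₀ y₁ t₁, 0 < q.1 → HasDerivAt (fun t => N t q.2) (Nt q.1 q.2) q.1)
    (hb : ∀ q ∈ Win y₀ y₁ t₁, (q.1 = 0 ∨ Real.exp q.2 = y₀ * Real.sqrt (1 - q.1) ∨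
      Real.exp q.2 = y₁ * Real.sqrt (1 - q.1)) → N q.1 q.2 ≤ B)
    (hi : ∀ q ∈ Win y₀ y₁ t₁, 0 < q.1 → N1 q.1 q.2 = 0 → N2 q.1 q.2 ≤ 0 → 0 ≤ Nt q.1 q.2 →
      N q.1 q.2 ≤ B) :
    ∀ q ∈ Win y₀ y₁ t₁, N q.1 q.2 ≤ B := by
  intro q hq
  obtain ⟨q₀, hq₀, hmax⟩ := (Win_isCompact hy₀ hy₁ ht₁).exists_isMaxOn ⟨q, hq⟩ hc
  have hle : ∀ q' ∈ Win y₀ y₁ t₁, N q'.1 q'.2 ≤ N q₀.1 q₀.2 := fun q' hq' => hmax hq'
  refine (hle q hq).trans ?_
  by_cases hbd : q₀.1 = 0 ∨ Real.exp q₀.2 = y₀ * Real.sqrt (1 - q₀.1) ∨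
      Real.exp q₀.2 = y₁ * Real.sqrt (1 - q₀.1)
  · exact hb q₀ hq₀ hbd
  · push Not at hbd
    obtain ⟨hb0, hb1, hb2⟩ := hbd
    obtain ⟨⟨ht0, ht1'⟩, hl, hr⟩ := hq₀
    have hpos : 0 < q₀.1 := lt_of_le_of_ne ht0 (Ne.symm hb0)
    have hl' : y₀ * Real.sqrt (1 - q₀.1) < Real.exp q₀.2 := lt_of_le_of_ne hl (Ne.symm hb1)
    have hr' : Real.exp q₀.2 < y₁ * Real.sqrt (1 - q₀.1) := lt_of_le_of_ne hr hb2
    have hq₀' : q₀ ∈ Win y₀ y₁ t₁ := ⟨⟨ht0, ht1'⟩, hl, hr⟩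
    -- nearby points of the slice
    have hev : ∀ᶠ z in 𝓝 q₀.2, (q₀.1, z) ∈ Win y₀ y₁ t₁ := by
      have e1 : ∀ᶠ z in 𝓝 q₀.2, y₀ * Real.sqrt (1 - q₀.1) < Real.exp z :=
        Real.continuous_exp.continuousAt.eventually_const_lt hl'
      have e2 : ∀ᶠ z in 𝓝 q₀.2, Real.exp z < y₁ * Real.sqrt (1 - q₀.1) :=
        Real.continuous_exp.continuousAt.eventually_lt_const hr'
      filter_upwards [e1, e2] with z hz1 hz2
      exact ⟨⟨ht0, ht1'⟩, hz1.le, hz2.le⟩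
    have hlm : IsLocalMax (N q₀.1) q₀.2 := by
      filter_upwards [hev] with z hz using hle _ hz
    have hD := second_deriv_nonpos hlm (F1 := N1 q₀.1)
      (by filter_upwards [hev] with z hz using h1 _ hz hpos) (h2 _ hq₀' hpos)
    have hevt : ∀ᶠ s in 𝓝[<] q₀.1, (s, q₀.2) ∈ Win y₀ y₁ t₁ := by
      have c1 : Continuous fun s : ℝ => y₀ * Real.sqrt (1 - s) := by fun_prop
      have c2 : Continuous fun s : ℝ => y₁ * Real.sqrt (1 - s) := by fun_prop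
      have e1 : ∀ᶠ s in 𝓝 q₀.1, y₀ * Real.sqrt (1 - s) < Real.exp q₀.2 :=
        c1.continuousAt.eventually_lt_const hl'
      have e2 : ∀ᶠ s in 𝓝 q₀.1, Real.exp q₀.2 < y₁ * Real.sqrt (1 - s) :=
        c2.continuousAt.eventually_const_lt hr'
      have e3 : ∀ᶠ s in 𝓝 q₀.1, 0 < s := lt_mem_nhds hpos
      filter_upwards [nhdsWithin_le_nhds e1, nhdsWithin_le_nhds e2, nhdsWithin_le_nhds e3,
        self_mem_nhdsWithin] with s hs1 hs2 hs3 hs4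
      exact ⟨⟨hs3.le, (le_of_lt hs4).trans ht1'⟩, hs1.le, hs2.le⟩
    have hDt : 0 ≤ Nt q₀.1 q₀.2 := deriv_nonneg_of_left_max (ht _ hq₀' hpos)
      (by filter_upwards [hevt] with s hs using hle _ hs)
    exact hi q₀ hq₀' hpos hD.1 hD.2 hDt

end Vale.Agent.P244.ST
end

section

/-!
# P244-ST : the doubly warped Ricci flow in an abstract differential ring (`p = 20`, `m = 40`)

Two derivations `Ds` (arclength) and `Dt` (material time derivative) of a commutative `ℝ`-algebra,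
elements `u = log(φ/ψ)`, `ρ = log r`, `sinh u`, `cosh u`, `r²`, `r⁻²`.
Note P244-0: identities (F2)-(F7), (E1)-(E4), (TH), (ET), (FF).
-/

set_option linter.unusedSimpArgs false

namespace Vale.Agent.P244.ST

/-- the frame -/
structure Frame (R : Type*) [CommRing R] [Algebra ℝ R] where
  Ds : Derivation ℝ R R
  Dt : Derivation ℝ R R
  u : R
  ρ : R
  sh : R
  ch : R
  r2 : R
  ir : R
  ch_sh : ch ^ 2 - sh ^ 2 = 1
  Ds_sh : Ds sh = ch * Ds u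
  Ds_ch : Ds ch = sh * Ds u
  Dt_sh : Dt sh = ch * Dt u
  Dt_ch : Dt ch = sh * Dt u
  r2_ir : r2 * ir = 1
  Ds_r2 : Ds r2 = 2 * r2 * Ds ρ
  Dt_r2 : Dt r2 = 2 * r2 * Dt ρ
  A1 : Dt ρ = Ds (Ds ρ) + 40 * Ds ρ ^ 2 - 39 * ch * ir
  A2 : Dt u = Ds (Ds u) + 40 * Ds ρ * Ds u + 78 * sh * ir
  A3 : ∀ h, Dt (Ds h) = Ds (Dt h) + (-40 * Ds (Ds ρ) - 40 * Ds ρ ^ 2 - 10 * Ds u ^ 2) * Ds h

lemma two_cancel {R : Type*} [CommRing R] [Algebra ℝ R] {a b : R} (h : 2 * a = 2 * b) : a = b := by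
  have h1 : algebraMap ℝ R (1 / 2) * 2 = 1 := by
    have : (2 : R) = algebraMap ℝ R 2 := (map_ofNat _ 2).symm
    rw [this, ← map_mul]
    norm_num
  linear_combination algebraMap ℝ R (1 / 2) * h - (a - b) * h1

namespace Frame

variable {R : Type*} [CommRing R] [Algebra ℝ R] (A : Frame R)

/-- `Ric(∂_s,∂_s)` -/
def E0 : R := -40 * A.Ds (A.Ds A.ρ) - 40 * A.Ds A.ρ ^ 2 - 10 * A.Ds A.u ^ 2

/-- `D_t ρ` -/
def yt : R := A.Dt A.ρ

/-- `D_t u` -/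
def V : R := A.Dt A.u

/-- `u_s` -/
def P : R := A.Ds A.u

/-- `ρ_s` -/
def ρs : R := A.Ds A.ρ

/-- scalar curvature -/
def Rs : R := A.E0 - 40 * A.yt

/-- Laplacian -/
def Lap (h : R) : R := A.Ds (A.Ds h) + 40 * A.ρs * A.Ds h

lemma Ds_mul (h k : R) : A.Ds (h * k) = h * A.Ds k + k * A.Ds h := A.Ds.leibniz h k
lemma Dt_mul (h k : R) : A.Dt (h * k) = h * A.Dt k + k * A.Dt h := A.Dt.leibniz h k

lemma Ds_sq (h : R) : A.Ds (h ^ 2) = 2 * h * A.Ds h := by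
  rw [pow_two, Ds_mul]; ring

lemma Dt_sq (h : R) : A.Dt (h ^ 2) = 2 * h * A.Dt h := by
  rw [pow_two, Dt_mul]; ring

lemma Ds_cube (h : R) : A.Ds (h ^ 3) = 3 * h ^ 2 * A.Ds h := by
  rw [pow_succ, Ds_mul, Ds_sq]; ring

lemma Ds_ofNat (n : ℕ) [n.AtLeastTwo] : A.Ds (ofNat(n) : R) = 0 := A.Ds.map_natCast n
lemma Dt_ofNat (n : ℕ) [n.AtLeastTwo] : A.Dt (ofNat(n) : R) = 0 := A.Dt.map_natCast n
lemma Ds_one : A.Ds (1 : R) = 0 := A.Ds.map_one_eq_zero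
lemma Dt_one : A.Dt (1 : R) = 0 := A.Dt.map_one_eq_zero

lemma Ds_ir : A.Ds A.ir = -2 * A.ir * A.Ds A.ρ := by
  have h := congrArg A.Ds A.r2_ir
  rw [Ds_mul, A.Ds_r2, Ds_one] at h
  have h2 := A.r2_ir
  linear_combination A.ir * h - (A.Ds A.ir + 2 * A.ir * A.Ds A.ρ) * h2

lemma Dt_ir : A.Dt A.ir = -2 * A.ir * A.Dt A.ρ := by
  have h := congrArg A.Dt A.r2_ir
  rw [Dt_mul, A.Dt_r2, Dt_one] at h
  have h2 := A.r2_ir
  linear_combination A.ir * h - (A.Dt A.ir + 2 * A.ir * A.Dt A.ρ) * h2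

/-- commutator -/
lemma comm (h : R) : A.Dt (A.Ds h) = A.Ds (A.Dt h) + A.E0 * A.Ds h := A.A3 h

lemma yt_eq : A.yt = A.Ds A.ρs + 40 * A.ρs ^ 2 - 39 * A.ch * A.ir := A.A1

lemma V_eq : A.V = A.Ds A.P + 40 * A.ρs * A.P + 78 * A.sh * A.ir := A.A2

lemma E0_eq : A.E0 = -40 * A.Ds A.ρs - 40 * A.ρs ^ 2 - 10 * A.P ^ 2 := rfl

lemma Rs_eq : A.Rs = -80 * A.Ds A.ρs - 1640 * A.ρs ^ 2 - 10 * A.P ^ 2 + 1560 * A.ch * A.ir := by
  rw [Rs, E0_eq, yt_eq]; ring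

/-- `(F3)`, multiplied by two -/
lemma F3 : 2 * A.Ds A.E0 + 82 * A.ρs * A.E0 + 20 * A.P * A.V = A.Ds A.Rs + 2 * A.ρs * A.Rs := by
  have e1 : A.Ds A.ch = A.sh * A.P := A.Ds_ch
  have e2 : A.Ds A.ir = -2 * A.ir * A.ρs := A.Ds_ir
  rw [Rs_eq, E0_eq, V_eq]
  simp only [map_add, map_sub, map_neg, Ds_mul, Ds_sq, Ds_ofNat, e1, e2]
  ring

/-- `(F4)` -/
lemma F4 (h : R) : A.Dt (A.Lap h) = A.Lap (A.Dt h) + 2 * A.E0 * A.Lap h +
    (2 * A.Ds A.E0 - A.Ds A.Rs) * A.Ds h := by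
  have e1 : A.Dt A.ρs = A.Ds A.yt + A.E0 * A.ρs := A.comm A.ρ
  simp only [Lap, map_add, Dt_mul, comm, Ds_mul, Dt_ofNat, e1, Rs, map_sub, Ds_ofNat]
  ring

/-- evolution of `ρ_s`, `(F6)` -/
lemma F6ρ : A.Dt A.ρs = A.Lap A.ρs + (78 * A.ch * A.ir - 40 * A.ρs ^ 2 - 10 * A.P ^ 2) * A.ρs -
    39 * A.sh * A.ir * A.P := by
  have e1 : A.Ds A.ch = A.sh * A.P := A.Ds_ch
  have e2 : A.Ds A.ir = -2 * A.ir * A.ρs := A.Ds_ir
  have e3 : A.Dt A.ρs = A.Ds A.yt + A.E0 * A.ρs := A.comm A.ρ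
  rw [e3, yt_eq, E0_eq]
  simp only [Lap, map_add, map_sub, Ds_mul, Ds_sq, Ds_ofNat, e1, e2]
  ring

/-- evolution of `P = u_s`, `(F6)` -/
lemma F6P : A.Dt A.P = A.Lap A.P + (78 * A.ch * A.ir - 40 * A.ρs ^ 2 - 10 * A.P ^ 2) * A.P -
    156 * A.sh * A.ir * A.ρs := by
  have e1 : A.Ds A.sh = A.ch * A.P := A.Ds_sh
  have e2 : A.Ds A.ir = -2 * A.ir * A.ρs := A.Ds_ir
  have e3 : A.Dt A.P = A.Ds A.V + A.E0 * A.P := A.comm A.u
  rw [e3, V_eq, E0_eq]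
  simp only [Lap, map_add, map_sub, Ds_mul, Ds_sq, Ds_ofNat, e1, e2]
  ring

/-- `20 b`, `b = [-r² ρ_s P - (78/40) sinh u]/r²` -/
def b20 : R := -20 * A.ρs * A.P - 39 * A.sh * A.ir

/-- `(F5)`, multiplied by ten -/
lemma F5 : 10 * A.Dt A.V = 10 * A.Lap A.V +
    10 * (78 * A.ch * A.ir - 20 * A.P ^ 2 + 2 * A.E0) * A.V + A.b20 * (41 * A.E0 - A.Rs) := by
  have e1 : A.V = A.Lap A.u + 78 * A.sh * A.ir := A.V_eq
  have e2 : A.Dt A.ir = -2 * A.ir * A.yt := A.Dt_ir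
  have e3 : A.Dt A.sh = A.ch * A.V := A.Dt_sh
  have e4 : A.Dt A.V = A.Dt (A.Lap A.u) + 78 * A.Dt A.sh * A.ir + 78 * A.sh * A.Dt A.ir := by
    conv_lhs => rw [e1]
    simp only [map_add, Dt_mul, Dt_ofNat]; ring
  have e5 := A.F4 A.u
  have e6 : A.Lap A.u = A.V - 78 * A.sh * A.ir := by rw [e1]; ring
  have e7 := A.F3
  have e8 : A.Rs = A.E0 - 40 * A.yt := rfl
  have e9 : A.Ds A.u = A.P := rfl
  have e10 : A.Dt A.u = A.V := rfl
  rw [e4, e5, e6, e2, e3, e9, e10, b20]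
  linear_combination 10 * A.P * e7 - (39 * A.sh * A.ir) * e8

/-- `(F2)`, multiplied by `20`: `20 (D_t R - Lap R) = 20 · 2|Ric|²` -/
lemma F2 : 20 * (A.Dt A.Rs - A.Lap A.Rs) =
    40 * A.E0 ^ 2 + (A.Rs - A.E0) ^ 2 + 400 * A.V ^ 2 := by
  have c1 : A.Ds A.ch = A.sh * A.P := A.Ds_ch
  have c2 : A.Ds A.sh = A.ch * A.P := A.Ds_sh
  have c3 : A.Ds A.ir = -2 * A.ir * A.ρs := A.Ds_ir
  have c4 : A.Dt A.ir = -2 * A.ir * A.yt := A.Dt_ir
  have c5 : A.Dt A.ch = A.sh * A.V := A.Dt_ch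
  have e1 : A.Dt A.Rs = -80 * A.Dt (A.Ds A.ρs) - 3280 * A.ρs * A.Dt A.ρs - 20 * A.P * A.Dt A.P +
      1560 * A.sh * A.V * A.ir - 3120 * A.ch * A.ir * A.yt := by
    rw [Rs_eq]
    simp only [map_add, map_sub, map_neg, Dt_mul, Dt_sq, Dt_ofNat, c4, c5]
    ring
  have e2 : A.Ds A.Rs = -80 * A.Ds (A.Ds A.ρs) - 3280 * A.ρs * A.Ds A.ρs - 20 * A.P * A.Ds A.P +
      1560 * A.sh * A.P * A.ir - 3120 * A.ch * A.ir * A.ρs := by
    rw [Rs_eq]
    simp only [map_add, map_sub, map_neg, Ds_mul, Ds_sq, Ds_ofNat, c1, c3]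
    ring
  have e3 : A.Dt (A.Ds A.ρs) = A.Ds (A.Dt A.ρs) + A.E0 * A.Ds A.ρs := A.comm _
  rw [Lap, e1, e3, e2]
  simp only [F6ρ, F6P, Lap, E0_eq, V_eq, yt_eq, Rs_eq, map_add, map_sub, map_neg, Ds_mul, Ds_sq,
    Ds_cube, Ds_ofNat, c1, c2, c3]
  ring

/-! ### general functions of `ρ` and of `u` -/

/-! ### the `r`-gauge: `κ` is the inverse of `ρ_s` -/

section Gauge

variable (κ : R)

/-- `r ∂_r` at fixed time -/
def Dr (h : R) : R := κ * A.Ds h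

/-- `∂_t` at fixed `r` -/
def Tr (h : R) : R := A.Dt h - A.yt * (κ * A.Ds h)

/-- `G = -Dr u` -/
def G : R := -(κ * A.P)

/-- `Z = r_s²` -/
def Z : R := A.r2 * A.ρs ^ 2

lemma Dr_mul (h k : R) : A.Dr κ (h * k) = h * A.Dr κ k + k * A.Dr κ h := by
  simp only [Dr, Ds_mul]; ring

lemma Dr_add (h k : R) : A.Dr κ (h + k) = A.Dr κ h + A.Dr κ k := by
  simp only [Dr, map_add]; ring

lemma Dr_sub (h k : R) : A.Dr κ (h - k) = A.Dr κ h - A.Dr κ k := by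
  simp only [Dr, map_sub]; ring

lemma Dr_neg (h : R) : A.Dr κ (-h) = -A.Dr κ h := by
  simp only [Dr, map_neg]; ring

lemma Dr_sq (h : R) : A.Dr κ (h ^ 2) = 2 * h * A.Dr κ h := by
  simp only [Dr, Ds_sq]; ring

lemma Dr_ofNat (n : ℕ) [n.AtLeastTwo] : A.Dr κ (ofNat(n) : R) = 0 := by
  rw [Dr, Ds_ofNat, mul_zero]

lemma Tr_mul (h k : R) : A.Tr κ (h * k) = h * A.Tr κ k + k * A.Tr κ h := by
  simp only [Tr, Ds_mul, Dt_mul]; ring

lemma Tr_sub (h k : R) : A.Tr κ (h - k) = A.Tr κ h - A.Tr κ k := by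
  simp only [Tr, map_sub]; ring

lemma Dr_u : A.Dr κ A.u = -A.G κ := by
  simp only [Dr, G, P]; ring

variable {κ}

lemma P_eq (hκ : κ * A.ρs = 1) : A.P = -A.G κ * A.ρs := by
  rw [G]; linear_combination -A.P * hκ

lemma Dr_r2 (hκ : κ * A.ρs = 1) : A.Dr κ A.r2 = 2 * A.r2 := by
  have h : A.Ds A.r2 = 2 * A.r2 * A.ρs := A.Ds_r2
  rw [Dr, h]; linear_combination 2 * A.r2 * hκ

lemma Dr_ir (hκ : κ * A.ρs = 1) : A.Dr κ A.ir = -2 * A.ir := by
  have h : A.Ds A.ir = -2 * A.ir * A.ρs := A.Ds_ir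
  rw [Dr, h]; linear_combination -2 * A.ir * hκ

lemma Tr_r2 (hκ : κ * A.ρs = 1) : A.Tr κ A.r2 = 0 := by
  have h : A.Ds A.r2 = 2 * A.r2 * A.ρs := A.Ds_r2
  have h2 : A.Dt A.r2 = 2 * A.r2 * A.yt := A.Dt_r2
  rw [Tr, h, h2]; linear_combination -2 * A.r2 * A.yt * hκ

lemma Tr_ir (hκ : κ * A.ρs = 1) : A.Tr κ A.ir = 0 := by
  have h : A.Ds A.ir = -2 * A.ir * A.ρs := A.Ds_ir
  have h2 : A.Dt A.ir = -2 * A.ir * A.yt := A.Dt_ir
  rw [Tr, h, h2]; linear_combination 2 * A.ir * A.yt * hκ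

lemma Ds_kap (hκ : κ * A.ρs = 1) : A.Ds κ = -κ ^ 2 * A.Ds A.ρs := by
  have h1 := congrArg A.Ds hκ
  rw [Ds_mul, Ds_one] at h1
  linear_combination κ * h1 - A.Ds κ * hκ

lemma Dt_kap (hκ : κ * A.ρs = 1) : A.Dt κ = -κ ^ 2 * A.Dt A.ρs := by
  have h1 := congrArg A.Dt hκ
  rw [Dt_mul, Dt_one] at h1
  linear_combination κ * h1 - A.Dt κ * hκ

/-- the derivatives `Dr`, `Tr` commute -/
lemma Tr_Dr (hκ : κ * A.ρs = 1) (h : R) : A.Tr κ (A.Dr κ h) = A.Dr κ (A.Tr κ h) := by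
  have e3 : A.Dt A.ρs = A.Ds A.yt + A.E0 * A.ρs := A.comm A.ρ
  simp only [Tr, Dr, Dt_mul, Ds_mul, map_sub, comm, A.Dt_kap hκ, A.Ds_kap hκ, e3]
  linear_combination (-κ * A.E0 * A.Ds h) * hκ

lemma Dr_Z (hκ : κ * A.ρs = 1) : A.Dr κ A.Z = 2 * A.Z + 2 * A.r2 * A.Ds A.ρs := by
  have h : A.Ds A.r2 = 2 * A.r2 * A.ρs := A.Ds_r2
  rw [Dr, Z, Ds_mul, Ds_sq, h]
  linear_combination (2 * A.r2 * A.ρs ^ 2 + 2 * A.r2 * A.Ds A.ρs) * hκ

/-- `(E2)` -/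
lemma E2 (hκ : κ * A.ρs = 1) (h : R) : 2 * A.r2 * A.Lap h =
    2 * A.Z * A.Dr κ (A.Dr κ h) + (A.Dr κ A.Z + 78 * A.Z) * A.Dr κ h := by
  rw [A.Dr_Z hκ]
  simp only [Dr, Lap, Z, Ds_mul, A.Ds_kap hκ]
  linear_combination (-(2 * A.r2 * A.Ds (A.Ds h)) * (κ * A.ρs + 1) -
    80 * A.r2 * A.ρs * A.Ds h + 2 * A.r2 * A.Ds A.ρs * κ * A.Ds h * (κ * A.ρs + 1)) * hκ

/-- `(E2)`, second part -/
lemma E2y (hκ : κ * A.ρs = 1) : 2 * A.r2 * A.yt = A.Dr κ A.Z + 78 * A.Z - 78 * A.ch := by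
  rw [A.Dr_Z hκ, yt_eq, Z]
  linear_combination (-78 * A.ch) * A.r2_ir

/-- `(E1)` -/
lemma E1 (hκ : κ * A.ρs = 1) : A.r2 * A.Tr κ A.u = A.Z * A.Dr κ (A.Dr κ A.u) +
    39 * A.ch * A.Dr κ A.u + 78 * A.sh := by
  have h1 := A.E2 hκ A.u
  have h2 := A.E2y hκ
  have h3 : A.V = A.Lap A.u + 78 * A.sh * A.ir := A.V_eq
  have h4 : A.Tr κ A.u = A.V - A.yt * A.Dr κ A.u := rfl
  refine two_cancel ?_
  rw [h4]
  linear_combination 2 * A.r2 * h3 + h1 - A.Dr κ A.u * h2 + 156 * A.sh * A.r2_ir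

/-- `(E3)` -/
lemma E3 (hκ : κ * A.ρs = 1) : A.r2 * A.Rs =
    40 * (39 * (A.ch - A.Z) - A.Dr κ A.Z) - 10 * A.Z * A.G κ ^ 2 := by
  have h1 := A.P_eq hκ
  rw [A.Dr_Z hκ, Rs_eq, Z]
  rw [h1]
  linear_combination (1560 * A.ch) * A.r2_ir

end Gauge

end Frame

end Vale.Agent.P244.ST
end

section

/-!
# P244-ST : from the coordinate form of the system to a `Frame` (abstract algebra)
-/

namespace Vale.Agent.P244.ST

/-- coordinate description of the conformal gauge system in an abstract differential ring: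
`X` the coordinate, `s = sqrt(1-X²)`, `i = 1/s`, `e = exp(-W)`, `H = exp(-2F)`. -/
structure Conf0 (R : Type*) [CommRing R] [Algebra ℝ R] where
  D : Derivation ℝ R R
  D' : Derivation ℝ R R
  X : R
  s : R
  i : R
  e : R
  H : R
  J : R
  W : R
  F : R
  u : R
  ρ : R
  sh : R
  ch : R
  r2 : R
  ir : R
  comm : ∀ h, D' (D h) = D (D' h)
  s2 : s ^ 2 = 1 - X ^ 2
  si : s * i = 1
  DX : D X = 1
  TX : D' X = 0
  Ds : D s = -(X * i)
  Ts : D' s = 0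
  De : D e = -(e * D W)
  Te : D' e = -(e * D' W)
  DJ : D J = e ^ 2 * (19 * D W ^ 2 + 20 * D F ^ 2)
  eqW : D' W = e ^ 2 * ((1 - X ^ 2) * D (D W) - 21 * X * D W - 20) + (X - (1 - X ^ 2) * D W) * J
  eqF : D' F = e ^ 2 * ((1 - X ^ 2) * D (D F) - 21 * X * D F) - 19 * H - (1 - X ^ 2) * D F * J
  Du : D u = D F - D W + X * i ^ 2
  Tu : D' u = D' F - D' W
  Dρ : 2 * D ρ = D F + D W - X * i ^ 2
  Tρ : 2 * D' ρ = D' F + D' W
  ch_sh : ch ^ 2 - sh ^ 2 = 1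
  Dsh : D sh = ch * D u
  Dch : D ch = sh * D u
  Tsh : D' sh = ch * D' u
  Tch : D' ch = sh * D' u
  r2_ir : r2 * ir = 1
  Dr2 : D r2 = 2 * r2 * D ρ
  Tr2 : D' r2 = 2 * r2 * D' ρ
  chi : 78 * ch * ir = 19 * (e ^ 2 * i ^ 2 + H)
  shi : 78 * sh * ir = 19 * (e ^ 2 * i ^ 2 - H)

namespace Conf0

variable {R : Type*} [CommRing R] [Algebra ℝ R] (C : Conf0 R)

/-- `a = 19 W_x + 20 F_x` -/
def a : R := 19 * C.D C.W + 20 * C.D C.F

/-- arclength derivative -/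
noncomputable def dS : Derivation ℝ R R := (-(C.s * C.e)) • C.D

/-- material derivative -/
noncomputable def dM : Derivation ℝ R R := C.D' + (C.s ^ 2 * (C.e ^ 2 * C.a + C.J)) • C.D

lemma dS_apply (h : R) : C.dS h = -(C.s * C.e) * C.D h := rfl

lemma dM_apply (h : R) : C.dM h = C.D' h + C.s ^ 2 * (C.e ^ 2 * C.a + C.J) * C.D h := rfl

lemma D_mul (h k : R) : C.D (h * k) = h * C.D k + k * C.D h := C.D.leibniz h k
lemma T_mul (h k : R) : C.D' (h * k) = h * C.D' k + k * C.D' h := C.D'.leibniz h k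
lemma D_ofNat (n : ℕ) [n.AtLeastTwo] : C.D (ofNat(n) : R) = 0 := C.D.map_natCast n
lemma D_one : C.D (1 : R) = 0 := C.D.map_one_eq_zero
lemma D_sq (h : R) : C.D (h ^ 2) = 2 * h * C.D h := by rw [pow_two, D_mul]; ring

lemma Ki : C.i ^ 2 * (1 - C.X ^ 2) = 1 := by
  have h1 := C.s2
  have h2 := C.si
  linear_combination (-C.i ^ 2) * h1 + (C.s * C.i + 1) * h2

lemma Di : C.D C.i = C.X * C.i ^ 3 := by
  have h := congrArg C.D C.si
  rw [D_mul, C.Ds, D_one] at h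
  linear_combination C.i * h - (C.D C.i) * C.si

lemma DDu : C.D (C.D C.u) = C.D (C.D C.F) - C.D (C.D C.W) + C.i ^ 2 +
    2 * C.X ^ 2 * C.i ^ 4 := by
  rw [C.Du, map_add, map_sub, D_mul, D_sq, C.Di, C.DX]; ring

lemma DDρ : 2 * C.D (C.D C.ρ) = C.D (C.D C.F) + C.D (C.D C.W) - C.i ^ 2 -
    2 * C.X ^ 2 * C.i ^ 4 := by
  have h := congrArg C.D C.Dρ
  rw [D_mul, D_ofNat, map_sub, map_add, D_mul, D_sq, C.Di, C.DX] at h
  linear_combination h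

lemma dSdS (h : R) : C.dS (C.dS h) = C.e ^ 2 * ((1 - C.X ^ 2) * C.D (C.D h) - C.X * C.D h -
    (1 - C.X ^ 2) * C.D C.W * C.D h) := by
  rw [dS_apply, dS_apply, D_mul, map_neg, D_mul, C.Ds, C.De]
  linear_combination (-C.X * C.e ^ 2 * C.D h) * C.si +
    (C.e ^ 2 * C.D (C.D h) - C.e ^ 2 * C.D C.W * C.D h) * C.s2

lemma dS_mul_dS (h k : R) : C.dS h * C.dS k = C.e ^ 2 * (1 - C.X ^ 2) * (C.D h * C.D k) := by
  rw [dS_apply, dS_apply]
  linear_combination (C.e ^ 2 * C.D h * C.D k) * C.s2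

lemma A2 : C.dM C.u = C.dS (C.dS C.u) + 40 * C.dS C.ρ * C.dS C.u + 78 * C.sh * C.ir := by
  have e1 : 40 * C.dS C.ρ * C.dS C.u =
      20 * C.e ^ 2 * (1 - C.X ^ 2) * ((C.D C.F + C.D C.W - C.X * C.i ^ 2) * C.D C.u) := by
    rw [mul_assoc, dS_mul_dS]
    linear_combination (20 * C.e ^ 2 * (1 - C.X ^ 2) * C.D C.u) * C.Dρ
  rw [dSdS, e1, C.shi, dM_apply, C.Tu, C.DDu, C.Du, C.eqW, C.eqF, a]
  linear_combination ((C.e ^ 2 * (19 * C.D C.W + 20 * C.D C.F) + C.J) *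
      (C.D C.F - C.D C.W + C.X * C.i ^ 2)) * C.s2 +
    (C.X * (C.e ^ 2 * (19 * C.D C.W + 20 * C.D C.F) + C.J) -
      (20 * C.e ^ 2 - 18 * C.X ^ 2 * C.i ^ 2 * C.e ^ 2 + 39 * C.X * C.e ^ 2 * C.D C.W)) * C.Ki

lemma A1' : 2 * C.dM C.ρ = 2 * (C.dS (C.dS C.ρ) + 40 * C.dS C.ρ ^ 2 - 39 * C.ch * C.ir) := by
  have e1 : 80 * C.dS C.ρ ^ 2 =
      20 * C.e ^ 2 * (1 - C.X ^ 2) * (C.D C.F + C.D C.W - C.X * C.i ^ 2) ^ 2 := by
    rw [pow_two, dS_mul_dS]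
    linear_combination (20 * C.e ^ 2 * (1 - C.X ^ 2) *
      (2 * C.D C.ρ + (C.D C.F + C.D C.W - C.X * C.i ^ 2))) * C.Dρ
  have e2 : 2 * C.dS (C.dS C.ρ) = C.e ^ 2 * ((1 - C.X ^ 2) * (C.D (C.D C.F) + C.D (C.D C.W) -
      C.i ^ 2 - 2 * C.X ^ 2 * C.i ^ 4) - C.X * (C.D C.F + C.D C.W - C.X * C.i ^ 2) -
      (1 - C.X ^ 2) * C.D C.W * (C.D C.F + C.D C.W - C.X * C.i ^ 2)) := by
    rw [dSdS]
    linear_combination (C.e ^ 2 * (1 - C.X ^ 2)) * C.DDρ -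
      (C.e ^ 2 * (C.X + (1 - C.X ^ 2) * C.D C.W)) * C.Dρ
  have e3 : 2 * C.dM C.ρ = C.D' C.F + C.D' C.W + C.s ^ 2 * (C.e ^ 2 * C.a + C.J) *
      (C.D C.F + C.D C.W - C.X * C.i ^ 2) := by
    rw [dM_apply]
    linear_combination C.Tρ + (C.s ^ 2 * (C.e ^ 2 * C.a + C.J)) * C.Dρ
  have e4 : 2 * (C.dS (C.dS C.ρ) + 40 * C.dS C.ρ ^ 2 - 39 * C.ch * C.ir) =
      2 * C.dS (C.dS C.ρ) + 80 * C.dS C.ρ ^ 2 - 78 * C.ch * C.ir := by ring
  rw [e3, e4, e2, e1, C.chi, C.eqW, C.eqF, a]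
  linear_combination ((C.e ^ 2 * (19 * C.D C.W + 20 * C.D C.F) + C.J) *
      (C.D C.F + C.D C.W - C.X * C.i ^ 2)) * C.s2 +
    (-C.X * (C.e ^ 2 * (19 * C.D C.W + 20 * C.D C.F) + C.J) -
      C.e ^ 2 * (-20 + 18 * C.X ^ 2 * C.i ^ 2 + C.X * C.D C.W -
        40 * C.X * (C.D C.F + C.D C.W))) * C.Ki

lemma A1 : C.dM C.ρ = C.dS (C.dS C.ρ) + 40 * C.dS C.ρ ^ 2 - 39 * C.ch * C.ir :=
  two_cancel C.A1'

/-- the curvature term -/
lemma E_eq : -40 * C.dS (C.dS C.ρ) - 40 * C.dS C.ρ ^ 2 - 10 * C.dS C.u ^ 2 =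
    -(C.e ^ 2 * (20 * (1 - C.X ^ 2) * (C.D (C.D C.F) + C.D (C.D C.W)) - 20 -
      20 * C.X * C.D C.F - 40 * C.X * C.D C.W - 20 * (1 - C.X ^ 2) * C.D C.W * C.D C.F +
      20 * (1 - C.X ^ 2) * C.D C.F ^ 2)) := by
  have e1 : 40 * C.dS C.ρ ^ 2 =
      10 * C.e ^ 2 * (1 - C.X ^ 2) * (C.D C.F + C.D C.W - C.X * C.i ^ 2) ^ 2 := by
    rw [pow_two, dS_mul_dS]
    linear_combination (10 * C.e ^ 2 * (1 - C.X ^ 2) *
      (2 * C.D C.ρ + (C.D C.F + C.D C.W - C.X * C.i ^ 2))) * C.Dρ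
  have e2 : 2 * C.dS (C.dS C.ρ) = C.e ^ 2 * ((1 - C.X ^ 2) * (C.D (C.D C.F) + C.D (C.D C.W) -
      C.i ^ 2 - 2 * C.X ^ 2 * C.i ^ 4) - C.X * (C.D C.F + C.D C.W - C.X * C.i ^ 2) -
      (1 - C.X ^ 2) * C.D C.W * (C.D C.F + C.D C.W - C.X * C.i ^ 2)) := by
    rw [dSdS]
    linear_combination (C.e ^ 2 * (1 - C.X ^ 2)) * C.DDρ -
      (C.e ^ 2 * (C.X + (1 - C.X ^ 2) * C.D C.W)) * C.Dρ
  have e3 : C.dS C.u ^ 2 = C.e ^ 2 * (1 - C.X ^ 2) * (C.D C.F - C.D C.W + C.X * C.i ^ 2) ^ 2 := by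
    rw [pow_two, dS_mul_dS, C.Du]; ring
  linear_combination (-20) * e2 - e1 - 10 * e3 +
    (C.e ^ 2 * (20 - 20 * C.X * C.D C.W + 40 * C.X ^ 2 * C.i ^ 2 + 40 * C.X * C.D C.W -
      20 * C.X ^ 2 * C.i ^ 2)) * C.Ki

lemma Da : C.D C.a = 19 * C.D (C.D C.W) + 20 * C.D (C.D C.F) := by
  rw [a, map_add, D_mul, D_mul, D_ofNat, D_ofNat]; ring

/-- the commutator -/
lemma A3 (h : R) : C.dM (C.dS h) = C.dS (C.dM h) +
    (-40 * C.dS (C.dS C.ρ) - 40 * C.dS C.ρ ^ 2 - 10 * C.dS C.u ^ 2) * C.dS h := by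
  rw [E_eq, dM_apply, dS_apply, dS_apply, dM_apply]
  have e1 : C.D' (-(C.s * C.e) * C.D h) = -(C.s * C.e) * C.D (C.D' h) +
      C.s * C.e * C.D' C.W * C.D h := by
    rw [T_mul, map_neg, T_mul, C.Te, C.Ts, C.comm]; ring
  have e2 : C.D (-(C.s * C.e) * C.D h) = -(C.s * C.e) * C.D (C.D h) +
      (C.X * C.i * C.e + C.s * C.e * C.D C.W) * C.D h := by
    rw [D_mul, map_neg, D_mul, C.De, C.Ds]; ring
  have e3 : C.D (C.D' h + C.s ^ 2 * (C.e ^ 2 * C.a + C.J) * C.D h) = C.D (C.D' h) +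
      C.s ^ 2 * (C.e ^ 2 * C.a + C.J) * C.D (C.D h) +
      (-2 * C.s * C.X * C.i * (C.e ^ 2 * C.a + C.J) + C.s ^ 2 * (-2 * C.e ^ 2 * C.D C.W * C.a +
        C.e ^ 2 * (19 * C.D (C.D C.W) + 20 * C.D (C.D C.F)) +
        C.e ^ 2 * (19 * C.D C.W ^ 2 + 20 * C.D C.F ^ 2))) * C.D h := by
    rw [map_add, D_mul, D_mul, D_sq, map_add, D_mul, D_sq, C.De, C.Ds, C.DJ, C.Da]; ring
  rw [e1, e2, e3, C.eqW, a]
  linear_combination (-(C.s * C.X * (C.e ^ 2 * (19 * C.D C.W + 20 * C.D C.F) + C.J) * C.e *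
      C.D h)) * C.si +
    (C.s * C.e * C.D h * (C.D C.W * (C.e ^ 2 * (19 * C.D C.W + 20 * C.D C.F) + C.J) +
      C.e ^ 2 * (-2 * C.D C.W * (19 * C.D C.W + 20 * C.D C.F) + 19 * C.D (C.D C.W) +
        20 * C.D (C.D C.F) + 19 * C.D C.W ^ 2 + 20 * C.D C.F ^ 2))) * C.s2

/-- the frame -/
noncomputable def frame : Frame R where
  Ds := C.dS
  Dt := C.dM
  u := C.u
  ρ := C.ρ
  sh := C.sh
  ch := C.ch
  r2 := C.r2
  ir := C.ir
  ch_sh := C.ch_sh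
  Ds_sh := by rw [dS_apply, dS_apply, C.Dsh]; ring
  Ds_ch := by rw [dS_apply, dS_apply, C.Dch]; ring
  Dt_sh := by rw [dM_apply, dM_apply, C.Dsh, C.Tsh]; ring
  Dt_ch := by rw [dM_apply, dM_apply, C.Dch, C.Tch]; ring
  r2_ir := C.r2_ir
  Ds_r2 := by rw [dS_apply, dS_apply, C.Dr2]; ring
  Dt_r2 := by rw [dM_apply, dM_apply, C.Dr2, C.Tr2]; ring
  A1 := C.A1
  A2 := C.A2
  A3 := C.A3

end Conf0

end Vale.Agent.P244.ST
end

section

/-!
# P244-ST / block M3 : the closure inequality for `f` in region I (helper288)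

Pure inequality at a touching point, all quantities divided by `cosh u`:
`T = tanh u`, `c = cosh u`, `k = g/T`, `g = k T`, `q = 39 - g²/4`, `κ₀ = 1 - 2/k = c₀/c`,
`g₁ = g' = q κ₀`, `z = Z_s/c = 39/q`, `a = 1/20`, `l = h'/h = a/T - T` for
`h = T^a c^{-(1-a)}`.
-/

namespace Vale.Agent.P244.ST.ClF

lemma ab {x y X Y : ℝ} (hx : |x| ≤ X) (hy : |y| ≤ Y) : |x * y| ≤ X * Y := by
  rw [abs_mul]
  exact mul_le_mul hx hy (abs_nonneg _) ((abs_nonneg _).trans hx)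

lemma ad {x y X Y : ℝ} (hx : |x| ≤ X) (hy : |y| ≤ Y) : |x + y| ≤ X + Y :=
  (abs_add_le _ _).trans (add_le_add hx hy)

lemma as {x y X Y : ℝ} (hx : |x| ≤ X) (hy : |y| ≤ Y) : |x - y| ≤ X + Y :=
  (abs_sub _ _).trans (add_le_add hx hy)

/-- the quantities at a point -/
structure Pt where
  T : ℝ
  c : ℝ
  k : ℝ

namespace Pt

variable (P : Pt)

noncomputable section

def g : ℝ := P.k * P.T
def q : ℝ := 39 - P.g ^ 2 / 4
def ka : ℝ := 1 - 2 / P.k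
def g1 : ℝ := P.q * P.ka
def z : ℝ := 39 / P.q
/-- `g h'/h` -/
def gl : ℝ := P.k * (1 / 20 - P.T ^ 2)
def al : ℝ := 4 - 4 * P.g1 / P.k - P.k * P.T ^ 2
def mu : ℝ := P.k ^ 2 * (1 - P.T ^ 2) * (P.T ^ 2 + 1 / 20)
def nu : ℝ := P.k * P.T ^ 2 - 2 + 2 * P.g1 / P.k

end

/-- the constraints -/
structure Ok : Prop where
  T0 : 0 < P.T
  T1 : P.T < 1
  c0 : 0 < P.c
  c2 : P.c ^ 2 * (1 - P.T ^ 2) = 1
  k2 : 2 < P.k
  kk : P.k < 2.1147
  g2 : P.k * P.T < 2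
  mono : P.g1 ≤ P.k * (1 - P.T ^ 2)

variable {P}

theorem Ok.TT (h : P.Ok) : 0 < P.T ^ 2 ∧ P.T ^ 2 < 1 := by
  have h0 := h.T0
  have h1 := h.T1
  constructor
  · positivity
  · (by_contra nlg; linarith [mul_pos (sub_pos.2 h1) (sub_pos.2 h1), mul_pos (sub_pos.2 h0) (sub_pos.2 h1), mul_nonneg (sub_nonneg.2 (not_lt.1 nlg)) (le_of_lt (sub_pos.2 h1)), mul_nonneg (sub_nonneg.2 (not_lt.1 nlg)) (le_of_lt (sub_pos.2 h0))])

theorem Ok.gpos (h : P.Ok) : 0 < P.g := mul_pos (by have := h.k2; linarith only [this]) h.T0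

theorem Ok.g_lt (h : P.Ok) : P.g < 2 := h.g2

theorem Ok.gsq (h : P.Ok) : 0 < P.g ^ 2 ∧ P.g ^ 2 < 4 := by
  have h0 := h.gpos
  have h1 := h.g_lt
  constructor
  · positivity
  · (by_contra nlg; linarith only [nlg, mul_pos (sub_pos.2 h1) (sub_pos.2 h1), mul_pos (sub_pos.2 h0) (sub_pos.2 h1), mul_nonneg (sub_nonneg.2 (not_lt.1 nlg)) (le_of_lt (sub_pos.2 h1)), mul_nonneg (sub_nonneg.2 (not_lt.1 nlg)) (le_of_lt (sub_pos.2 h0))])

theorem Ok.q_bd (h : P.Ok) : 38 < P.q ∧ P.q < 39 := by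
  have h0 := h.gsq
  simp only [q]
  constructor <;> linarith only [h0]

theorem Ok.ka_bd (h : P.Ok) : 0 < P.ka ∧ P.ka < 0.05424 := by
  have h0 := h.k2
  have h1 := h.kk
  have hk : 0 < P.k := by linarith only [h0, h1]
  simp only [ka]
  constructor
  · rw [sub_pos, div_lt_one hk]; exact h0
  · rw [sub_lt_iff_lt_add, ← sub_lt_iff_lt_add', lt_div_iff₀ hk]; linarith only [h1, h0]

theorem Ok.g1_bd (h : P.Ok) : 0 < P.g1 ∧ P.g1 < 2.1147 := by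
  have h0 := h.q_bd
  have h1 := h.ka_bd
  have h2 := h.mono
  have h3 := h.TT
  have h4 := h.kk
  have h5 := h.k2
  constructor
  · exact mul_pos (by linarith only [h0, h1]) h1.1
  · have : P.k * (1 - P.T ^ 2) ≤ P.k * 1 := by
      apply mul_le_mul_of_nonneg_left <;> linarith only [h3, h1, h5]
    linarith only [h2, h4, this]

/-- `κ₀ ≤ k (1 - T²)/q` -/
theorem Ok.ka_le (h : P.Ok) : P.ka * P.c ^ 2 ≤ 0.05566 := by
  have h0 := h.q_bd
  have h2 := h.mono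
  have h4 := h.kk
  have h5 := h.k2
  have h6 := h.c2
  have hc := h.c0
  have h7 : P.q * P.ka * P.c ^ 2 ≤ P.k := by
    have : P.g1 * P.c ^ 2 ≤ P.k * (1 - P.T ^ 2) * P.c ^ 2 :=
      mul_le_mul_of_nonneg_right h2 (by positivity)
    have e : P.k * (1 - P.T ^ 2) * P.c ^ 2 = P.k := by linear_combination P.k * h6
    rw [e] at this
    exact this
  have h8 : 38 * (P.ka * P.c ^ 2) ≤ P.q * (P.ka * P.c ^ 2) :=
    mul_le_mul_of_nonneg_right h0.1.le (mul_nonneg h.ka_bd.1.le (by positivity))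
  have : P.q * (P.ka * P.c ^ 2) = P.q * P.ka * P.c ^ 2 := by ring
  linarith only [h4, h5, h7, h8]

theorem Ok.z_bd (h : P.Ok) : 1 < P.z ∧ P.z < 1.0264 := by
  have h0 := h.q_bd
  have hq : 0 < P.q := by linarith only [h0]
  simp only [z]
  constructor
  · rw [one_lt_div hq]; exact h0.2
  · rw [div_lt_iff₀ hq]; linarith only [h0]

theorem Ok.gl_abs (h : P.Ok) : |P.gl| ≤ 2.1147 := by
  have h3 := h.TT
  have h4 := h.kk
  have h5 := h.k2
  rw [gl, abs_mul, abs_of_pos (by linarith only [h4, h5] : 0 < P.k)]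
  have : |1 / 20 - P.T ^ 2| ≤ 1 := by rw [abs_le]; constructor <;> linarith only [h3, h4, h5]
  calc P.k * |1 / 20 - P.T ^ 2| ≤ 2.1147 * 1 := by
        apply mul_le_mul h4.le this (abs_nonneg _) (by norm_num)
    _ = _ := by norm_num

theorem Ok.gl_le (h : P.Ok) : P.gl ≤ 2.1147 / 20 := by
  have h3 := h.TT
  have h4 := h.kk
  have h5 := h.k2
  rw [gl]
  have : P.k * (1 / 20 - P.T ^ 2) ≤ P.k * (1 / 20) :=
    mul_le_mul_of_nonneg_left (by linarith only [h3]) (by linarith only [h4, h5])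
  linarith only [h4, this]

theorem Ok.g1k (h : P.Ok) : 0 < P.g1 / P.k ∧ P.g1 / P.k ≤ 1 - P.T ^ 2 := by
  have h2 := h.mono
  have h5 := h.k2
  have hk : 0 < P.k := by linarith only [h5]
  refine ⟨div_pos h.g1_bd.1 hk, ?_⟩
  rw [div_le_iff₀ hk]; linarith only [h2]

theorem Ok.nu_abs (h : P.Ok) : |P.nu| * P.c ^ 2 ≤ 2 := by
  have h1 := h.g1k
  have h3 := h.TT
  have h4 := h.kk
  have h5 := h.k2
  have hk : 0 < P.k := by linarith only [h4, h5]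
  have e : P.nu = P.k * P.T ^ 2 - 2 + 2 * (P.g1 / P.k) := by rw [nu]; ring
  have hlow : -(2 * (1 - P.T ^ 2)) ≤ P.nu := by
    rw [e]
    have : 2 * P.T ^ 2 ≤ P.k * P.T ^ 2 := by linarith only [mul_nonneg (sq_nonneg (P.T : ℝ)) (le_of_lt (sub_pos.2 h5))]
    linarith only [h1.1, this]
  have hka := h.ka_le
  -- `(k-2) T² = k κ₀ T² = (k/q) g₁ T² ≤ 2 (1-T²)`
  have hup : P.nu ≤ 2 * (1 - P.T ^ 2) := by
    rw [e]
    have h6 : P.ka * P.k = P.k - 2 := by rw [ka]; field_simp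
    have h7 : P.q * P.ka ≤ P.k * (1 - P.T ^ 2) := h.mono
    have h8 : (P.k - 2) * P.T ^ 2 ≤ 2 * (1 - P.T ^ 2) := by
      have h9 : 38 * (P.k - 2) ≤ P.q * (P.k - 2) :=
        mul_le_mul_of_nonneg_right h.q_bd.1.le (by linarith only [h5])
      have h10 : P.q * (P.k - 2) = P.q * P.ka * P.k := by rw [← h6]; ring
      have h11 : P.q * P.ka * P.k ≤ P.k * (1 - P.T ^ 2) * P.k :=
        mul_le_mul_of_nonneg_right h7 hk.le
      have h12 : P.k * (1 - P.T ^ 2) * P.k ≤ 4.5 * (1 - P.T ^ 2) := by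
        have : P.k * P.k ≤ 4.5 := by nlinarith only [h1, h3, h4, h5]
        nlinarith only [h1, this]
      have h13 : (P.k - 2) * P.T ^ 2 ≤ P.k - 2 := by nlinarith only [h1, h5]
      nlinarith only [h1, h9, h10, h11, h12, h13]
    -- now need k T² - 2 + 2 g1/k ≤ (k-2) T²
    have : P.k * P.T ^ 2 - 2 + 2 * (P.g1 / P.k) ≤ (P.k - 2) * P.T ^ 2 := by
      linarith only [h1.2]
    linarith only [h1, h8]
  have h6 := h.c2
  have hc := h.c0
  have : |P.nu| ≤ 2 * (1 - P.T ^ 2) := abs_le.2 ⟨hlow, hup⟩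
  calc |P.nu| * P.c ^ 2 ≤ 2 * (1 - P.T ^ 2) * P.c ^ 2 :=
        mul_le_mul_of_nonneg_right this (by positivity)
    _ = 2 := by linear_combination 2 * h6

theorem Ok.nu_abs' (h : P.Ok) : |P.nu| ≤ 2 := by
  have h1 := h.nu_abs
  have h6 := h.c2
  have hc := h.c0
  have h3 := h.TT
  have : 1 ≤ P.c ^ 2 := by (by_contra nlg; linarith [mul_eq_zero_of_left (sub_eq_zero.2 h6) (1 - (P.c ^ 2)), mul_pos (sub_pos.2 (not_le.1 nlg)) (sub_pos.2 (not_le.1 nlg)), mul_eq_zero_of_left (sub_eq_zero.2 h6) (0 - (0 - P.c ^ 2)), mul_nonneg (sq_nonneg (P.c : ℝ)) (le_of_lt (sub_pos.2 (not_le.1 nlg))), mul_nonneg (sq_nonneg (P.c : ℝ)) (sq_nonneg (P.T : ℝ))])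
  have h7 := abs_nonneg P.nu
  (by_contra nlg; linarith [mul_eq_zero_of_left (sub_eq_zero.2 h6) (P.c ^ 2 - (1)), mul_nonneg (le_of_lt (sub_pos.2 (not_le.1 nlg))) (sub_nonneg.2 this), mul_eq_zero_of_left (sub_eq_zero.2 h6) (0 - (0 - P.c ^ 2)), mul_nonneg (sq_nonneg (P.c : ℝ)) (sq_nonneg (P.T : ℝ)), h1])

theorem Ok.al_abs (h : P.Ok) : |P.al| ≤ 4 := by
  have h1 := h.g1k
  have h3 := h.TT
  have h4 := h.kk
  have h5 := h.k2
  have e : P.al = 4 - 4 * (P.g1 / P.k) - P.k * P.T ^ 2 := by rw [al]; ring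
  rw [e, abs_le]
  constructor
  · nlinarith only [h1, h3, h4, h5]
  · nlinarith only [h1, h3, h5]

theorem Ok.mu_bd (h : P.Ok) : 0 ≤ P.mu ∧ P.mu ≤ 2 := by
  have h3 := h.TT
  have h4 := h.kk
  have h5 := h.k2
  have hk2 : P.k ^ 2 ≤ 4.5 := by nlinarith only [h3, h4, h5]
  rw [mu]
  constructor
  · have : 0 ≤ 1 - P.T ^ 2 := by linarith only [h3]
    (clear * - h5 this; positivity)
  · have h6 : (1 - P.T ^ 2) * (P.T ^ 2 + 1 / 20) ≤ 0.28 := by linarith only [sq_nonneg (P.T ^ 2 - 19 / 40), h5, h4]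
    have h7 : 0 ≤ (1 - P.T ^ 2) * (P.T ^ 2 + 1 / 20) := mul_nonneg (by linarith only [h3]) (by linarith only [h3, h4, h5])
    calc P.k ^ 2 * (1 - P.T ^ 2) * (P.T ^ 2 + 1 / 20)
        = P.k ^ 2 * ((1 - P.T ^ 2) * (P.T ^ 2 + 1 / 20)) := by ring
      _ ≤ 4.5 * 0.28 := mul_le_mul hk2 h6 h7 (by norm_num)
      _ ≤ 2 := by norm_num

/-- the unperturbed part -/
noncomputable def M (P : Pt) : ℝ :=
  P.gl * (P.z * (2 - P.gl) + 39 * (4 / P.k - 1)) + P.z * (P.g ^ 2 / 2) * (2 - P.gl) +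
    P.z * (P.mu - P.g1 * P.gl) + 39 * P.al

theorem Ok.M_ge (h : P.Ok) : 3.86 ≤ P.M := by
  have hk : 0 < P.k := by have := h.k2; linarith only [this]
  have hq := h.q_bd
  have hq0 : 0 < P.q := by linarith only [hq]
  have h3 := h.TT
  have hw : 0 ≤ P.k * (1 - P.T ^ 2) - P.g1 := by linarith only [h, h.mono]
  have hg1 := h.g1_bd
  -- 39 g X'
  have hX : P.M - 1 / 20 * P.k * (P.z * (2 - P.gl) + 39 * (4 / P.k - 1)) =
      39 * (P.k * (P.k * (1 - P.T ^ 2) - P.g1) * (1 / 20 / P.q + 4 / P.k ^ 2 - P.T ^ 2 / P.q) +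
        (2 - 1 / 20 * P.k) * P.k ^ 2 * P.T ^ 2 * P.g1 / (2 * P.q ^ 2) +
        2 * P.k ^ 2 * P.T ^ 2 * (1 - P.T ^ 2) / P.q +
        P.k ^ 3 * P.T ^ 4 * P.g1 / (2 * P.q ^ 2)) := by
    have hg : P.g1 = P.q * P.ka := rfl
    have hka : P.ka = (P.k - 2) / P.k := by rw [ka]; field_simp
    have hqq : P.q = 39 - (P.k * P.T) ^ 2 / 4 := rfl
    have hqne : P.q ≠ 0 := hq0.ne'
    have hkne : P.k ≠ 0 := hk.ne'
    simp only [M, mu, al, gl, z, g]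
    rw [hg, hka]
    generalize P.q = q at hqq hqne ⊢
    have hT2 : P.T ^ 2 = (156 - 4 * q) / P.k ^ 2 := by
      rw [hqq]; field_simp; ring
    have hT4 : P.T ^ 4 = ((156 - 4 * q) / P.k ^ 2) ^ 2 := by rw [← hT2]; ring
    rw [mul_pow, hT4, hT2]
    field_simp
    ring
  have hpos : 0 ≤ P.k * (P.k * (1 - P.T ^ 2) - P.g1) * (1 / 20 / P.q + 4 / P.k ^ 2 - P.T ^ 2 / P.q) +
        (2 - 1 / 20 * P.k) * P.k ^ 2 * P.T ^ 2 * P.g1 / (2 * P.q ^ 2) +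
        2 * P.k ^ 2 * P.T ^ 2 * (1 - P.T ^ 2) / P.q +
        P.k ^ 3 * P.T ^ 4 * P.g1 / (2 * P.q ^ 2) := by
    have h4 := h.kk
    have i1 : P.T ^ 2 / P.q ≤ 1 / 38 := by
      rw [div_le_div_iff₀ hq0 (by norm_num)]; nlinarith only [hq, h3]
    have i2 : 0.8 ≤ 4 / P.k ^ 2 := by
      rw [le_div_iff₀ (by positivity)]; nlinarith only [hk, hq, h4]
    have i3 : 0 < 1 / 20 / P.q := by positivity
    have i4 : 0 ≤ 1 / 20 / P.q + 4 / P.k ^ 2 - P.T ^ 2 / P.q := by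
      have : (1 : ℝ) / 38 ≤ 0.8 := by norm_num
      linarith only [hq, i1, i2, i3]
    have i5 : 0 ≤ 2 - 1 / 20 * P.k := by linarith only [h4]
    have i6 : 0 ≤ 1 - P.T ^ 2 := by linarith only [h3]
    have j1 := mul_nonneg (mul_nonneg hk.le hw) i4
    have j2 : 0 ≤ (2 - 1 / 20 * P.k) * P.k ^ 2 * P.T ^ 2 * P.g1 / (2 * P.q ^ 2) := by
      have := hg1.1.le
      (clear * - i5 hk this hq0; positivity)
    have j3 : 0 ≤ 2 * P.k ^ 2 * P.T ^ 2 * (1 - P.T ^ 2) / P.q := by (clear * - hk i6 hq0; positivity)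
    have j4 : 0 ≤ P.k ^ 3 * P.T ^ 4 * P.g1 / (2 * P.q ^ 2) := by
      have := hg1.1.le
      positivity
    linarith only [j4, j3, j2, j1]
  have hlow : 3.86 ≤ 1 / 20 * P.k * (P.z * (2 - P.gl) + 39 * (4 / P.k - 1)) := by
    have h5 := h.k2
    have h4 := h.kk
    have hz := h.z_bd
    have hgl := h.gl_le
    have e : 1 / 20 * P.k * (P.z * (2 - P.gl) + 39 * (4 / P.k - 1)) =
        1 / 20 * (P.k * (P.z * (2 - P.gl)) + 39 * (4 - P.k)) := by field_simp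
    rw [e]
    have i1 : 1.894 ≤ P.z * (2 - P.gl) := by
      have : 1 * (1.894 : ℝ) ≤ P.z * (2 - P.gl) := by
        apply mul_le_mul hz.1.le _ (by norm_num) (by linarith only [hz])
        norm_num at hgl ⊢
        linarith only [hz, hgl]
      linarith only [this]
    have i2 : 2 * 1.894 ≤ P.k * (P.z * (2 - P.gl)) :=
      mul_le_mul h5.le i1 (by norm_num) hk.le
    norm_num at i2 h4 ⊢
    linarith only [h4, i2]
  linarith only [hX, hpos, hlow]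

/-! ## the perturbed expression -/

/-- small quantities at the point: `e`, `θ`, `D_r θ` -/
structure Sm where
  e : ℝ
  th : ℝ
  Dth : ℝ

/-- `g l (Λ + Q) - D_r Λ - (D_r Q - 2 Q)/e`, divided by `c` -/
noncomputable def EE (P : Pt) (S : Sm) : ℝ :=
  P.M + (P.gl * P.z * ((1 + S.th) * (2 - (1 - S.e) * P.gl) - (2 - P.gl)) +
    P.gl * 39 * P.ka * (S.e ^ 2 + S.th * (1 - S.e) ^ 2) -
    P.z * S.Dth * (2 - (1 - S.e) * P.gl) +
    P.z * (P.g ^ 2 / 2) * ((1 + S.th) * (1 - S.e) * (2 - (1 - S.e) * P.gl) - (2 - P.gl)) +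
    P.z * ((1 + S.th) * (1 - S.e) ^ 2 - 1) * (P.mu - P.g1 * P.gl) -
    P.z * (1 + S.th) * P.gl * (S.e * (2 - (1 - S.e) * P.gl)) -
    39 * S.e * P.al +
    39 * (1 - S.e) * P.nu * (S.e + S.th / S.e * (1 - S.e) ^ 2) -
    39 * P.ka * (2 * (S.e * (2 - (1 - S.e) * P.gl)) + (1 - S.e) ^ 2 * (S.Dth / S.e) -
      2 * (1 - S.e) * (S.th / S.e) * (S.e * (2 - (1 - S.e) * P.gl))) +
    78 * P.ka * (S.e + S.th / S.e * (1 - S.e) ^ 2))

/-- smallness hypotheses: `|e| ≤ 10⁻³`, and `ω = θ/e`, `σ = D_rθ/e` small against `c²` -/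
structure SmOk (P : Pt) (S : Sm) : Prop where
  e0 : S.e ≠ 0
  e1 : |S.e| ≤ 1 / 1000
  th1 : |S.th| ≤ 1 / 1000
  D1 : |S.Dth| ≤ 1 / 20
  om : |S.th / S.e| ≤ (1 / 100) * P.c ^ 2
  sg : |S.Dth / S.e| ≤ (1 / 2) * P.c ^ 2

theorem EE_pos (h : P.Ok) {S : Sm} (hS : SmOk P S) : 0 < EE P S := by
  have hM := h.M_ge
  have he := hS.e1
  have ht := hS.th1
  have hgl := h.gl_abs
  have hz : |P.z| ≤ 1.0264 := by
    rw [abs_of_pos (by linarith only [h, h.z_bd.1])]; exact h.z_bd.2.le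
  have h1e : |1 - S.e| ≤ 1.001 := by
    have := as (x := 1) (y := S.e) (X := 1) (by norm_num) he
    refine this.trans (by norm_num)
  have h1t : |1 + S.th| ≤ 1.001 := by
    have := ad (x := 1) (y := S.th) (X := 1) (by norm_num) ht
    refine this.trans (by norm_num)
  have hGl : |(1 - S.e) * P.gl| ≤ 2.117 := (ab h1e hgl).trans (by norm_num)
  have h2G : |2 - (1 - S.e) * P.gl| ≤ 4.117 :=
    (as (X := 2) (by norm_num) hGl).trans (by norm_num)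
  have hka : |P.ka| ≤ 0.05424 := by
    rw [abs_of_pos h.ka_bd.1]; exact h.ka_bd.2.le
  have hg1 : |P.g1| ≤ 2.1147 := by
    rw [abs_of_pos h.g1_bd.1]; exact h.g1_bd.2.le
  have hmu : |P.mu| ≤ 2 := by rw [abs_of_nonneg h.mu_bd.1]; exact h.mu_bd.2
  have hal := h.al_abs
  have hg2 : |P.g ^ 2 / 2| ≤ 2 := by
    rw [abs_of_pos (by have := h.gsq.1; positivity)]; linarith only [h, h.gsq.2]
  have hc := h.c0
  have hc2 : 0 < P.c ^ 2 := by positivity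
  -- bounds of the products with ω, σ
  have hq : |(1 - S.e) ^ 2| ≤ 1.003 := by
    rw [abs_pow]
    calc |1 - S.e| ^ 2 ≤ 1.001 ^ 2 := pow_le_pow_left₀ (abs_nonneg _) h1e 2
      _ ≤ 1.003 := by norm_num
  have hee : |S.e ^ 2| ≤ 0.000001 := by
    rw [abs_pow]
    calc |S.e| ^ 2 ≤ (1 / 1000) ^ 2 := pow_le_pow_left₀ (abs_nonneg _) he 2
      _ ≤ _ := by norm_num
  have hkc := h.ka_le
  have hnc := h.nu_abs
  have hkom : |P.ka * (S.th / S.e)| ≤ 0.0006 := by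
    rw [abs_mul]
    calc |P.ka| * |S.th / S.e| ≤ |P.ka| * ((1 / 100) * P.c ^ 2) :=
          mul_le_mul_of_nonneg_left hS.om (abs_nonneg _)
      _ = (1 / 100) * (P.ka * P.c ^ 2) := by rw [abs_of_pos h.ka_bd.1]; ring
      _ ≤ 0.0006 := by linarith only [hkc]
  have hksg : |P.ka * (S.Dth / S.e)| ≤ 0.028 := by
    rw [abs_mul]
    calc |P.ka| * |S.Dth / S.e| ≤ |P.ka| * ((1 / 2) * P.c ^ 2) :=
          mul_le_mul_of_nonneg_left hS.sg (abs_nonneg _)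
      _ = (1 / 2) * (P.ka * P.c ^ 2) := by rw [abs_of_pos h.ka_bd.1]; ring
      _ ≤ 0.028 := by linarith only [hkc]
  have hnom : |P.nu * (S.th / S.e)| ≤ 0.02 := by
    rw [abs_mul]
    calc |P.nu| * |S.th / S.e| ≤ |P.nu| * ((1 / 100) * P.c ^ 2) :=
          mul_le_mul_of_nonneg_left hS.om (abs_nonneg _)
      _ = (1 / 100) * (|P.nu| * P.c ^ 2) := by ring
      _ ≤ 0.02 := by linarith only [hnc]
  -- the pieces
  have b1 : |(1 + S.th) * (2 - (1 - S.e) * P.gl) - (2 - P.gl)| ≤ 0.0063 := by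
    have e1 : (1 + S.th) * (2 - (1 - S.e) * P.gl) - (2 - P.gl) =
        S.th * (2 - (1 - S.e) * P.gl) + S.e * P.gl := by ring
    rw [e1]
    exact (ad (ab ht h2G) (ab he hgl)).trans (by norm_num)
  have p1 := ab (ab hgl hz) b1
  have b2 : |S.e ^ 2 + S.th * (1 - S.e) ^ 2| ≤ 0.00101 :=
    (ad hee (ab ht hq)).trans (by norm_num)
  have p2 := ab (ab (ab hgl (y := 39) (Y := 39) (by norm_num)) hka) b2
  have p3 := ab (ab hz hS.D1) h2G
  have b4 : |(1 + S.th) * (1 - S.e) * (2 - (1 - S.e) * P.gl) - (2 - P.gl)| ≤ 0.0105 := by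
    have e1 : (1 + S.th) * (1 - S.e) * (2 - (1 - S.e) * P.gl) - (2 - P.gl) =
        (S.th * (1 - S.e) - S.e) * (2 - (1 - S.e) * P.gl) + S.e * P.gl := by ring
    rw [e1]
    exact (ad (ab (as (ab ht h1e) he) h2G) (ab he hgl)).trans (by norm_num)
  have p4 := ab (ab hz hg2) b4
  have b5 : |(1 + S.th) * (1 - S.e) ^ 2 - 1| ≤ 0.0031 := by
    have e1 : (1 + S.th) * (1 - S.e) ^ 2 - 1 = S.th * (1 - S.e) ^ 2 - S.e * (1 + (1 - S.e)) := by
      ring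
    rw [e1]
    exact (as (ab ht hq) (ab he (ad (X := 1) (by norm_num) h1e))).trans (by norm_num)
  have p5 := ab (ab hz b5) (as hmu (ab hg1 hgl))
  have p6 := ab (ab (ab hz h1t) hgl) (ab he h2G)
  have p7 := ab (ab (x := 39) (X := 39) (by norm_num) he) hal
  have p8 : |39 * (1 - S.e) * P.nu * (S.e + S.th / S.e * (1 - S.e) ^ 2)| ≤ 0.87 := by
    have e1 : 39 * (1 - S.e) * P.nu * (S.e + S.th / S.e * (1 - S.e) ^ 2) =
        39 * (1 - S.e) * (P.nu * S.e + P.nu * (S.th / S.e) * (1 - S.e) ^ 2) := by ring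
    rw [e1]
    exact (ab (ab (x := 39) (X := 39) (by norm_num) h1e)
      (ad (ab h.nu_abs' he) (ab hnom hq))).trans (by norm_num)
  have p9 : |39 * P.ka * (2 * (S.e * (2 - (1 - S.e) * P.gl)) + (1 - S.e) ^ 2 * (S.Dth / S.e) -
      2 * (1 - S.e) * (S.th / S.e) * (S.e * (2 - (1 - S.e) * P.gl)))| ≤ 1.13 := by
    have e1 : 39 * P.ka * (2 * (S.e * (2 - (1 - S.e) * P.gl)) + (1 - S.e) ^ 2 * (S.Dth / S.e) -
      2 * (1 - S.e) * (S.th / S.e) * (S.e * (2 - (1 - S.e) * P.gl))) =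
      39 * (P.ka * (2 * (S.e * (2 - (1 - S.e) * P.gl))) +
        (1 - S.e) ^ 2 * (P.ka * (S.Dth / S.e)) -
      2 * (1 - S.e) * (P.ka * (S.th / S.e)) * (S.e * (2 - (1 - S.e) * P.gl))) := by ring
    rw [e1]
    have i1 := ab hka (ab (x := 2) (X := 2) (by norm_num) (ab he h2G))
    have i2 := ab hq hksg
    have i3 := ab (ab (ab (x := 2) (X := 2) (by norm_num) h1e) hkom) (ab he h2G)
    exact (ab (x := 39) (X := 39) (by norm_num) (as (ad i1 i2) i3)).trans (by norm_num)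
  have p10 : |78 * P.ka * (S.e + S.th / S.e * (1 - S.e) ^ 2)| ≤ 0.06 := by
    have e1 : 78 * P.ka * (S.e + S.th / S.e * (1 - S.e) ^ 2) =
        78 * (P.ka * S.e + P.ka * (S.th / S.e) * (1 - S.e) ^ 2) := by ring
    rw [e1]
    exact (ab (x := 78) (X := 78) (by norm_num)
      (ad (ab hka he) (ab hkom hq))).trans (by norm_num)
  have htot := ad (as (ad (as (as (ad (ad (as (ad p1 p2) p3) p4) p5) p6) p7) p8) p9) p10
  have hfin := (abs_le.1 htot).1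
  unfold EE
  have hnum : (2.1147 * 1.0264 * 0.0063 + 2.1147 * 39 * 0.05424 * 0.00101 +
      1.0264 * (1 / 20) * 4.117 + 1.0264 * 2 * 0.0105 +
      1.0264 * 0.0031 * (2 + 2.1147 * 2.1147) + 1.0264 * 1.001 * 2.1147 * (1 / 1000 * 4.117) +
      39 * (1 / 1000) * 4 + 0.87 + 1.13 + 0.06 : ℝ) < 3.86 := by norm_num
  linarith only [hM, hfin]

end Pt

end Vale.Agent.P244.ST.ClF
end

section

/-!
# P244-ST : the bubble part of the frame identities: (TH), (E4), (ET), (FF)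

Everything is written with `h = g/2`: `g = 2 h`, `q = 39 - g²/4 = 39 - h²`, `Zs = 39 cosh u / q`,
`g g' = q (g - 2 tanh u)` becomes `2 h h₁ cosh u = q (h cosh u - sinh u)`.
`e = 1 - G/g`, i.e. `G = 2 h (1 - e)`, `f = e/r²`, `th = Z/Zs - 1`, `η = Tr u / g`.
-/

namespace Vale.Agent.P244.ST

noncomputable section

/-- bubble elements over a frame with gauge `κ = 1/ρ_s` -/
structure Bub {R : Type*} [CommRing R] [Algebra ℝ R] (A : Frame R) (κ : R) where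
  /-- `g/2` -/
  h : R
  /-- `g'/2` -/
  h1 : R
  /-- `1/h = 2/g` -/
  ih : R
  /-- `1/q` -/
  iq : R
  /-- `1/cosh u` -/
  ich : R
  /-- `e = 1 - G/g` -/
  e : R
  hk : κ * A.ρs = 1
  h_ih : h * ih = 1
  q_iq : (39 - h ^ 2) * iq = 1
  ch_ich : A.ch * ich = 1
  Ds_h : A.Ds h = h1 * A.P
  Dt_h : A.Dt h = h1 * A.V
  ode : 2 * h * h1 * A.ch = (39 - h ^ 2) * (h * A.ch - A.sh)
  G_eq : A.G κ = 2 * h * (1 - e)

namespace Bub

variable {R : Type*} [CommRing R] [Algebra ℝ R] {A : Frame R} {κ : R} (b : Bub A κ)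

/-- `q = 39 - g²/4` -/
def q : R := 39 - b.h ^ 2

/-- `Zs = 39 cosh u / q` -/
def Zs : R := 39 * A.ch * b.iq

/-- `1/Zs = q / (39 cosh u)` -/
def iZs : R := algebraMap ℝ R (1 / 39) * b.q * b.ich

/-- `c₀ = cosh u - 2 sinh u / g` -/
def c0 : R := A.ch - A.sh * b.ih

/-- `A = 39 cosh u - 2 Z g'` -/
def AA : R := 39 * A.ch - 4 * A.Z * b.h1

/-- `f = e/r²` -/
def f : R := b.e * A.ir

/-- `th = Z/Zs - 1` -/
def th : R := A.Z * b.iZs - 1

/-- `η = Tr u / g` -/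
def eta : R := algebraMap ℝ R (1 / 2) * A.Tr κ A.u * b.ih

lemma c39 : algebraMap ℝ R (1 / 39) * 39 = 1 := by
  have : (39 : R) = algebraMap ℝ R 39 := (map_ofNat _ 39).symm
  rw [this, ← map_mul]
  norm_num

lemma c2 : algebraMap ℝ R (1 / 2) * 2 = 1 := by
  have : (2 : R) = algebraMap ℝ R 2 := (map_ofNat _ 2).symm
  rw [this, ← map_mul]
  norm_num

lemma Zs_iZs : b.Zs * b.iZs = 1 := by
  have h1 := b.q_iq
  have h2 := b.ch_ich
  have h3 := c39 (R := R)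
  rw [Zs, iZs, q]
  linear_combination (algebraMap ℝ R (1 / 39) * 39 * A.ch * b.ich) * h1 + (A.ch * b.ich) * h3 + h2

lemma Zs_q : b.Zs * b.q = 39 * A.ch := by
  rw [Zs, q]; linear_combination (39 * A.ch) * b.q_iq

lemma iZs_ch : 39 * A.ch * b.iZs = b.q := by
  have h1 := b.Zs_iZs
  have h2 := b.Zs_q
  linear_combination b.q * h1 - b.iZs * h2

lemma Z_eq : A.Z = b.Zs * (1 + b.th) := by
  have h1 := b.Zs_iZs
  rw [th]; linear_combination -A.Z * h1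

/-- `2 h₁ Zs = 39 c₀` -/
lemma h1_Zs : 2 * b.h1 * b.Zs = 39 * b.c0 := by
  have h1 := b.q_iq
  have h2 := b.ode
  have h3 := b.h_ih
  rw [Zs, c0]
  linear_combination (39 * b.ih * b.iq) * h2 + (39 * A.ch * b.h * b.ih - 39 * b.ih * A.sh) * h1 +
    (39 * A.ch - 78 * b.h1 * A.ch * b.iq) * h3

/-! ### `Dr` and `Tr` of the elements -/

/-- functions of `u` in the `r`-gauge -/
lemma Dr_of_u {k k1 : R} (hs : A.Ds k = k1 * A.P) : A.Dr κ k = -k1 * A.G κ := by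
  rw [Frame.Dr, hs, Frame.G]; ring

lemma Tr_of_u {k k1 : R} (hs : A.Ds k = k1 * A.P) (ht : A.Dt k = k1 * A.V) :
    A.Tr κ k = k1 * A.Tr κ A.u := by
  have h3 : A.Tr κ A.u = A.V - A.yt * (κ * A.P) := rfl
  rw [h3, Frame.Tr, hs, ht]; ring

lemma Dr_h : A.Dr κ b.h = -b.h1 * A.G κ := Dr_of_u b.Ds_h

lemma Tr_h : A.Tr κ b.h = b.h1 * A.Tr κ A.u := Tr_of_u b.Ds_h b.Dt_h

/-- derivative of an inverse -/
lemma inv_Ds {x y dx : R} (h : x * y = 1) (hx : A.Ds x = dx) : A.Ds y = -y ^ 2 * dx := by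
  have h1 := congrArg A.Ds h
  rw [Frame.Ds_mul, Frame.Ds_one, hx] at h1
  linear_combination y * h1 - A.Ds y * h

lemma Ds_ih : A.Ds b.ih = (-b.ih ^ 2 * b.h1) * A.P := by
  rw [inv_Ds b.h_ih b.Ds_h]; ring

lemma Ds_q : A.Ds (39 - b.h ^ 2) = (-2 * b.h * b.h1) * A.P := by
  rw [map_sub, Frame.Ds_sq, Frame.Ds_ofNat, b.Ds_h]; ring

lemma Ds_iq : A.Ds b.iq = (2 * b.iq ^ 2 * b.h * b.h1) * A.P := by
  rw [inv_Ds b.q_iq b.Ds_q]; ring

/-- `Zs' = g Zs / 2` -/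
lemma Ds_Zs : A.Ds b.Zs = (b.h * b.Zs) * A.P := by
  have h1 : A.Ds A.ch = A.sh * A.P := A.Ds_ch
  rw [Zs]
  simp only [Frame.Ds_mul, Frame.Ds_ofNat, h1, b.Ds_iq]
  have h2 := b.ode
  have h3 := b.q_iq
  linear_combination (39 * b.iq ^ 2 * A.P) * h2 + (39 * b.iq * A.P * (b.h * A.ch - A.sh)) * h3

lemma Ds_iZs : A.Ds b.iZs = (-b.h * b.iZs) * A.P := by
  rw [inv_Ds b.Zs_iZs b.Ds_Zs]
  linear_combination (-b.iZs * b.h * A.P) * b.Zs_iZs

lemma Dr_Zs : A.Dr κ b.Zs = -(b.h * b.Zs) * A.G κ := Dr_of_u b.Ds_Zs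

lemma Dr_iZs : A.Dr κ b.iZs = (b.h * b.iZs) * A.G κ := by
  rw [Dr_of_u b.Ds_iZs]; ring

lemma Ds_c0 : A.Ds b.c0 = (A.sh - A.ch * b.ih + A.sh * b.ih ^ 2 * b.h1) * A.P := by
  have h1 : A.Ds A.ch = A.sh * A.P := A.Ds_ch
  have h2 : A.Ds A.sh = A.ch * A.P := A.Ds_sh
  rw [c0, map_sub, Frame.Ds_mul, h1, h2, b.Ds_ih]; ring

lemma Dr_c0 : A.Dr κ b.c0 = -(A.sh - A.ch * b.ih + A.sh * b.ih ^ 2 * b.h1) * A.G κ :=
  Dr_of_u b.Ds_c0

/-- `Dr² u` -/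
lemma Dr_G : A.Dr κ (A.G κ) = -4 * b.h * b.h1 * (1 - b.e) ^ 2 - 2 * b.h * A.Dr κ b.e := by
  have h1 : A.Dr κ (A.G κ) = A.Dr κ (2 * b.h * (1 - b.e)) := by rw [← b.G_eq]
  have h2 := b.Dr_h
  have h3 : A.Dr κ (1 : R) = 0 := by rw [Frame.Dr, Frame.Ds_one, mul_zero]
  rw [h1, Frame.Dr_mul, Frame.Dr_mul, Frame.Dr_sub, Frame.Dr_ofNat, h2, h3, b.G_eq]
  ring

/-! ### (TH) and (E4) -/

include b in
/-- `Dr Z` -/
lemma Dr_Z' : 40 * A.Dr κ A.Z = 1560 * (A.ch - A.Z) - 10 * A.Z * A.G κ ^ 2 - A.r2 * A.Rs := by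
  have h := A.E3 b.hk
  linear_combination h

/-- **(TH)**, multiplied by `40`:
`Dr th = - th [39 - g²/4 + δ²/4] - δ²/4 - r² R/(40 Zs)`, `δ = -g e` -/
theorem TH : 40 * A.Dr κ b.th =
    -(40 * b.th * (39 - b.h ^ 2 + b.h ^ 2 * b.e ^ 2)) - 40 * b.h ^ 2 * b.e ^ 2 -
      A.r2 * A.Rs * b.iZs := by
  have h1 := b.Dr_Z'
  have h3 : A.Dr κ (1 : R) = 0 := by rw [Frame.Dr, Frame.Ds_one, mul_zero]
  have h4 : A.Dr κ b.th = A.Z * A.Dr κ b.iZs + b.iZs * A.Dr κ A.Z := by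
    rw [th, Frame.Dr_sub, Frame.Dr_mul, h3, sub_zero]
  rw [h4, b.Dr_iZs]
  have h5 := b.iZs_ch
  rw [q] at h5
  have h6 := b.G_eq
  have h7 : b.th = A.Z * b.iZs - 1 := rfl
  rw [h6] at h1 ⊢
  rw [h7]
  linear_combination b.iZs * h1 + 40 * h5

/-! ### (ET) and (FF) -/

/-- `g η = Tr u` -/
lemma g_eta : 2 * b.h * b.eta = A.Tr κ A.u := by
  have h1 := b.h_ih
  have h2 := c2 (R := R)
  rw [eta]
  linear_combination (algebraMap ℝ R (1 / 2) * 2 * A.Tr κ A.u) * h1 + A.Tr κ A.u * h2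

/-- **(ET)**: `r² η = Z Dr e + A e + Z g' e² + 39 th c₀` -/
theorem ET : A.r2 * b.eta =
    A.Z * A.Dr κ b.e + b.AA * b.e + 2 * A.Z * b.h1 * b.e ^ 2 + 39 * b.th * b.c0 := by
  have h1 := A.E1 b.hk
  have h2 : A.Dr κ A.u = -A.G κ := A.Dr_u κ
  rw [h2, Frame.Dr_neg, b.Dr_G, b.G_eq, ← b.g_eta] at h1
  -- divide by `2 h`
  have h3 := b.h_ih
  have h4 : A.r2 * b.eta = A.Z * (2 * b.h1 * (1 - b.e) ^ 2 + A.Dr κ b.e) -
      39 * A.ch * (1 - b.e) + 39 * A.sh * b.ih := by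
    refine two_cancel ?_
    linear_combination b.ih * h1 - (2 * A.r2 * b.eta - 4 * A.Z * b.h1 * (1 - b.e) ^ 2 -
      2 * A.Z * A.Dr κ b.e + 78 * A.ch * (1 - b.e)) * h3
  have h5 := b.h1_Zs
  have h6 := b.Z_eq
  rw [h4, AA]
  have h7 : 39 * b.c0 = 39 * A.ch - 39 * A.sh * b.ih := by rw [c0]; ring
  linear_combination (2 * b.h1) * h6 + (1 + b.th) * h5 + h7

/-- **(ET)**, second part: `Tr e = Dr η` -/
theorem Tr_e : A.Tr κ b.e = A.Dr κ b.eta := by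
  have h1 := A.Tr_Dr b.hk A.u
  have h2 : A.Dr κ A.u = -A.G κ := A.Dr_u κ
  have h4 : A.Tr κ (-A.G κ) = A.Tr κ (2 * b.h * (b.e - 1)) := by
    congr 1; rw [b.G_eq]; ring
  have h5 : A.Tr κ (1 : R) = 0 := by
    rw [Frame.Tr, Frame.Dt_one, Frame.Ds_one]; ring
  have h6 : A.Tr κ (2 : R) = 0 := by
    rw [Frame.Tr, Frame.Dt_ofNat, Frame.Ds_ofNat]; ring
  rw [h2, h4, ← b.g_eta] at h1
  simp only [Frame.Tr_mul, Frame.Tr_sub, Frame.Dr_mul, Frame.Dr_ofNat, h5, h6, b.Tr_h, b.Dr_h,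
    b.G_eq] at h1
  rw [← b.g_eta] at h1
  have h3 := b.h_ih
  refine two_cancel ?_
  linear_combination b.ih * h1 - (2 * A.Tr κ b.e - 2 * A.Dr κ b.eta) * h3

/-- `Tr e = r² Tr f` -/
lemma r2_Tr_f : A.r2 * A.Tr κ b.f = A.Tr κ b.e := by
  rw [f, Frame.Tr_mul, A.Tr_ir b.hk]
  linear_combination A.Tr κ b.e * A.r2_ir

/-- `Dr e = r² (Dr f + 2 f)` -/
lemma Dr_e : A.Dr κ b.e = A.r2 * (A.Dr κ b.f + 2 * b.f) := by
  rw [f, Frame.Dr_mul, A.Dr_ir b.hk]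
  linear_combination -A.Dr κ b.e * A.r2_ir

lemma e_eq : b.e = A.r2 * b.f := by
  rw [f]; linear_combination -b.e * A.r2_ir

/-- the flux -/
def Fl : R := A.Z * A.Dr κ b.f + (2 * A.Z + b.AA) * b.f + 2 * A.Z * b.h1 * A.r2 * b.f ^ 2 +
  39 * b.th * b.c0 * A.ir

lemma eta_eq : b.eta = b.Fl := by
  have h1 := b.ET
  have h2 := b.Dr_e
  have h3 := b.e_eq
  have h4 := A.r2_ir
  have h5 : b.eta = A.ir * (A.r2 * b.eta) := by linear_combination -b.eta * h4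
  rw [h5, h1, h2, Fl]
  have h6 : b.AA * b.e = b.AA * (A.r2 * b.f) := by rw [← h3]
  have h7 : b.e ^ 2 = (A.r2 * b.f) ^ 2 := by rw [← h3]
  rw [h6, h7]
  linear_combination (A.Z * (A.Dr κ b.f + 2 * b.f) + b.AA * b.f +
    2 * A.Z * b.h1 * A.r2 * b.f ^ 2) * h4

/-- **(FF)**: `r² Tr f = Dr { Z Dr f + (2 Z + A) f + Z g' r² f² + 39 th c₀ / r² }` -/
theorem FF : A.r2 * A.Tr κ b.f = A.Dr κ b.Fl := by
  rw [b.r2_Tr_f, b.Tr_e, b.eta_eq]

end Bub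

end

end Vale.Agent.P244.ST
end

section

/-!
# P244-ST, block M7a : the pointwise inequality of the first Bernstein estimate
-/

namespace Vale.Agent.P244.ST.M7a

/-- the algebraic combination of the three touching conditions -/
lemma bern_comb {m1 lam y2 z z' z'' A1 v w w1 w2 Z Zr ch c NL NLr : ℝ} (hZ : 0 ≤ Z)
    (E1 : 2 * z * z' * w ^ 2 + 2 * z ^ 2 * (w * w1) + 2 * A1 * (v * w) = 0)
    (E2 : (2 * z' ^ 2 + 2 * z * z'') * w ^ 2 + 8 * z * z' * (w * w1) +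
      2 * z ^ 2 * (w1 ^ 2 + w * w2) + 2 * A1 * (w ^ 2 + v * w1) ≤ 0)
    (E3 : 0 ≤ 2 * lam * y2 * (z ^ 2 * w ^ 2 + A1 * v ^ 2) + y2 * z * z' * w ^ 2 +
      2 * z ^ 2 * w * (Z * w2 + (Zr + m1 * ch - 2 * Z) * w1 + c * w - 4 * m1 * v + NLr) +
      2 * A1 * v * (Z * w1 + m1 * ch * w + 2 * m1 * v + NL)) :
    2 * Z * A1 * w ^ 2 ≤ (2 * lam * y2 * z ^ 2 + y2 * z * z' - Z * (2 * z' ^ 2 + 2 * z * z'') -
      2 * (Zr + m1 * ch - 2 * Z) * z * z' + 2 * z ^ 2 * c + 8 * Z * z' ^ 2) * w ^ 2 +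
      (2 * A1 * (2 * Z - Zr) - 8 * m1 * z ^ 2) * (v * w) + 2 * z ^ 2 * (w * NLr) +
      A1 * (4 * m1 + 2 * lam * y2) * v ^ 2 + 2 * A1 * (v * NL) := by
  have h1 := mul_le_mul_of_nonneg_left E2 hZ
  have h2 : 0 ≤ 2 * Z * (z * w1 + 2 * z' * w) ^ 2 := by positivity
  have h3 : (Zr + m1 * ch - 2 * Z) * (2 * z * z' * w ^ 2 + 2 * z ^ 2 * (w * w1) +
      2 * A1 * (v * w)) = 0 := by rw [E1, mul_zero]
  linarith only [E3, h1, h2, h3, h1, h2, h3, E3]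

lemma abs_mul_le' {a b A B : ℝ} (ha : |a| ≤ A) (hb : |b| ≤ B) : |a * b| ≤ A * B := by
  rw [abs_mul]
  exact mul_le_mul ha hb (abs_nonneg _) ((abs_nonneg _).trans ha)

lemma bern_K {lam y2 z z' z'' Z b c D Bb Cc : ℝ}
    (hlam : 0 ≤ lam) (hy0 : 0 ≤ y2) (hy : y2 ≤ D)
    (hz : |z| ≤ D) (hz' : |z'| ≤ D) (hz'' : |z''| ≤ D)
    (hZ1 : 0 ≤ Z) (hZ2 : Z ≤ 2) (hb : |b| ≤ Bb) (hc : |c| ≤ Cc) :
    2 * lam * y2 * z ^ 2 + y2 * z * z' - Z * (2 * z' ^ 2 + 2 * z * z'') -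
      2 * b * z * z' + 2 * z ^ 2 * c + 8 * Z * z' ^ 2 ≤
      (2 * lam + 1) * D ^ 3 + (24 + 2 * Bb + 2 * Cc) * D ^ 2 := by
  have zz : |z ^ 2| ≤ D ^ 2 := by rw [abs_pow]; exact pow_le_pow_left₀ (abs_nonneg _) hz 2
  have zz' : |z * z'| ≤ D ^ 2 := by rw [sq]; exact abs_mul_le' hz hz'
  have zz'' : |z * z''| ≤ D ^ 2 := by rw [sq]; exact abs_mul_le' hz hz''
  have z'2 : |z' ^ 2| ≤ D ^ 2 := by rw [abs_pow]; exact pow_le_pow_left₀ (abs_nonneg _) hz' 2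
  have ay : |y2| ≤ D := by rw [abs_of_nonneg hy0]; exact hy
  have aZ : |Z| ≤ 2 := by rw [abs_of_nonneg hZ1]; exact hZ2
  have t1 : |y2 * z ^ 2| ≤ D * D ^ 2 := abs_mul_le' ay zz
  have t2 : |y2 * (z * z')| ≤ D * D ^ 2 := abs_mul_le' ay zz'
  have t3 : |Z * z' ^ 2| ≤ 2 * D ^ 2 := abs_mul_le' aZ z'2
  have t4 : |Z * (z * z'')| ≤ 2 * D ^ 2 := abs_mul_le' aZ zz''
  have t5 : |b * (z * z')| ≤ Bb * D ^ 2 := abs_mul_le' hb zz'
  have t6 : |z ^ 2 * c| ≤ D ^ 2 * Cc := abs_mul_le' zz hc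
  have s1 := mul_le_mul_of_nonneg_left (abs_le.1 t1).2 (by linarith only [hlam] : (0:ℝ) ≤ 2 * lam)
  have s2 := (abs_le.1 t2).2
  have s3 := (abs_le.1 t3).2
  have s4 := (abs_le.1 t4).1
  have s5 := (abs_le.1 t5).1
  have s6 := (abs_le.1 t6).2
  clear t1 t2 t3 t4 t5 t6 zz zz' zz'' z'2 ay aZ hb hc hz hz' hz''
  have e : 2 * lam * y2 * z ^ 2 + y2 * z * z' - Z * (2 * z' ^ 2 + 2 * z * z'') -
      2 * b * z * z' + 2 * z ^ 2 * c + 8 * Z * z' ^ 2 =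
      2 * lam * (y2 * z ^ 2) + y2 * (z * z') + 6 * (Z * z' ^ 2) - 2 * (Z * (z * z'')) -
      2 * (b * (z * z')) + 2 * (z ^ 2 * c) := by ring
  have e2 : (2 * lam + 1) * D ^ 3 + (24 + 2 * Bb + 2 * Cc) * D ^ 2 =
      2 * lam * (D * D ^ 2) + D * D ^ 2 + 12 * D ^ 2 + 12 * D ^ 2 + 2 * (Bb * D ^ 2) +
      2 * (D ^ 2 * Cc) := by ring
  rw [e, e2]
  generalize D * D ^ 2 = X1 at *
  generalize y2 * z ^ 2 = X2 at *
  generalize y2 * (z * z') = X3 at *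
  generalize Z * z' ^ 2 = X4 at *
  generalize Z * (z * z'') = X5 at *
  generalize b * (z * z') = X6 at *
  generalize z ^ 2 * c = X7 at *
  generalize Bb * D ^ 2 = X8 at *
  generalize D ^ 2 * Cc = X9 at *
  have : 0 ≤ D ^ 2 := sq_nonneg D
  generalize D ^ 2 = X10 at *
  linarith only [s1, s2, s5, s6, s3, s4, this]

lemma bern_L1 {m1 A1 z Z Zr v w D e0 : ℝ} (hm1 : 0 ≤ m1) (hz : |z| ≤ D)
    (hZ1 : 1 / 2 ≤ Z) (hZ2 : Z ≤ 2) (hZr : |Zr| ≤ 1) (hv : |v| ≤ e0) (hA : 0 ≤ A1)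
    (hA2 : m1 * D ^ 2 ≤ A1) :
    (2 * A1 * (2 * Z - Zr) - 8 * m1 * z ^ 2) * (v * w) ≤ A1 * (w ^ 2 / 8 + 648 * e0 ^ 2) := by
  have zz : |z ^ 2| ≤ D ^ 2 := by rw [abs_pow]; exact pow_le_pow_left₀ (abs_nonneg _) hz 2
  have b1 : |2 * A1 * (2 * Z - Zr) - 8 * m1 * z ^ 2| ≤ 18 * A1 := by
    have c1 : |2 * A1 * (2 * Z - Zr)| ≤ 10 * A1 := by
      have : |2 * Z - Zr| ≤ 5 := by
        rw [abs_le] at hZr ⊢; constructor <;> linarith only [hZ1, hZr, hZ2, hZr.1, hZr.2]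
      have := abs_mul_le' (by rw [abs_of_nonneg (by linarith only [hA])] : |2 * A1| ≤ 2 * A1) this
      linarith only [this]
    have c2 : |8 * m1 * z ^ 2| ≤ 8 * A1 := by
      have := abs_mul_le' (by rw [abs_of_nonneg (by linarith only [hm1])] : |8 * m1| ≤ 8 * m1) zz
      calc _ ≤ 8 * m1 * D ^ 2 := this
        _ ≤ 8 * A1 := by linarith only [hA2]
    exact (abs_sub _ _).trans (by linarith only [c1, c2])
  have b2 : |v * w| ≤ e0 * |w| := by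
    rw [abs_mul]; exact mul_le_mul_of_nonneg_right hv (abs_nonneg w)
  have := (le_abs_self _).trans (abs_mul_le' b1 b2)
  have h9 : 18 * e0 * |w| ≤ w ^ 2 / 8 + 648 * e0 ^ 2 := by
    linarith only [sq_abs w, sq_nonneg (|w| - 72 * e0)]
  calc _ ≤ 18 * A1 * (e0 * |w|) := this
    _ = A1 * (18 * e0 * |w|) := by ring
    _ ≤ _ := mul_le_mul_of_nonneg_left h9 hA

lemma bern_L2 {A1 z w D NLr e1 e2 : ℝ} (hz : |z| ≤ D) (hNLr : |NLr| ≤ e1 + e2 * |w|)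
    (hA0 : D ^ 2 ≤ A1) :
    2 * z ^ 2 * (w * NLr) ≤ A1 * (w ^ 2 / 8 + 8 * e1 ^ 2) + 2 * D ^ 2 * e2 * w ^ 2 := by
  have zz : |z ^ 2| ≤ D ^ 2 := by rw [abs_pow]; exact pow_le_pow_left₀ (abs_nonneg _) hz 2
  have b1 : |w * NLr| ≤ |w| * (e1 + e2 * |w|) := by
    rw [abs_mul]; exact mul_le_mul_of_nonneg_left hNLr (abs_nonneg w)
  have h1 := (le_abs_self _).trans (abs_mul_le' zz b1)
  have h6 : 2 * (e1 * |w|) ≤ w ^ 2 / 8 + 8 * e1 ^ 2 := by
    linarith only [sq_abs w, sq_nonneg (|w| - 8 * e1)]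
  have h7 : 0 ≤ w ^ 2 / 8 + 8 * e1 ^ 2 := by positivity
  calc 2 * z ^ 2 * (w * NLr) = 2 * (z ^ 2 * (w * NLr)) := by ring
    _ ≤ 2 * (D ^ 2 * (|w| * (e1 + e2 * |w|))) := by linarith only [h1]
    _ = D ^ 2 * (2 * (e1 * |w|)) + 2 * D ^ 2 * e2 * |w| ^ 2 := by ring
    _ = D ^ 2 * (2 * (e1 * |w|)) + 2 * D ^ 2 * e2 * w ^ 2 := by rw [sq_abs w]
    _ ≤ D ^ 2 * (w ^ 2 / 8 + 8 * e1 ^ 2) + 2 * D ^ 2 * e2 * w ^ 2 := by
        gcongr
    _ ≤ A1 * (w ^ 2 / 8 + 8 * e1 ^ 2) + 2 * D ^ 2 * e2 * w ^ 2 := by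
        gcongr

lemma bern_L3 {m1 lam y2 A1 v D e0 : ℝ} (hm1 : 0 ≤ m1) (hlam : 0 ≤ lam) (hy0 : 0 ≤ y2)
    (hy : y2 ≤ D) (hv : |v| ≤ e0) (hA : 0 ≤ A1) :
    A1 * (4 * m1 + 2 * lam * y2) * v ^ 2 ≤ A1 * ((4 * m1 + 2 * lam * D) * e0 ^ 2) := by
  have vv : v ^ 2 ≤ e0 ^ 2 := by
    rw [← sq_abs v]; exact pow_le_pow_left₀ (abs_nonneg _) hv 2
  have hD : 0 ≤ D := hy0.trans hy
  have b1 : (4 * m1 + 2 * lam * y2) * v ^ 2 ≤ (4 * m1 + 2 * lam * D) * e0 ^ 2 := by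
    refine mul_le_mul ?_ vv (sq_nonneg _) (by positivity)
    have := mul_le_mul_of_nonneg_left hy hlam
    linarith only [this]
  calc _ = A1 * ((4 * m1 + 2 * lam * y2) * v ^ 2) := by ring
    _ ≤ _ := mul_le_mul_of_nonneg_left b1 hA

lemma bern_L4 {A1 v NL e0 e1 : ℝ} (hv : |v| ≤ e0) (hNL : |NL| ≤ e1) (hA : 0 ≤ A1) :
    2 * A1 * (v * NL) ≤ A1 * (e0 ^ 2 + e1 ^ 2) := by
  have := (le_abs_self _).trans (abs_mul_le' hv hNL)
  have h5 : 2 * (v * NL) ≤ e0 ^ 2 + e1 ^ 2 := by linarith only [sq_nonneg (e0 - e1), this]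
  calc 2 * A1 * (v * NL) = A1 * (2 * (v * NL)) := by ring
    _ ≤ _ := mul_le_mul_of_nonneg_left h5 hA

/-- the pointwise estimate -/
lemma bern_pt {m1 lam y2 z z' z'' A1 v w w1 w2 Z Zr ch c NL NLr D Bb Cc e0 e1 e2 : ℝ}
    (hm1 : 0 ≤ m1) (hlam : 0 ≤ lam) (hD : 1 ≤ D) (hy0 : 0 ≤ y2) (hy : y2 ≤ D)
    (hz : |z| ≤ D) (hz' : |z'| ≤ D) (hz'' : |z''| ≤ D)
    (hZ1 : 1 / 2 ≤ Z) (hZ2 : Z ≤ 2) (hZr : |Zr| ≤ 1) (hb : |Zr + m1 * ch - 2 * Z| ≤ Bb)
    (hc : |c| ≤ Cc) (hv : |v| ≤ e0) (hNL : |NL| ≤ e1) (hNLr : |NLr| ≤ e1 + e2 * |w|)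
    (he2 : 0 ≤ e2)
    (hA1 : 4 * ((2 * lam + 1) * D ^ 3 + (24 + 2 * Bb + 2 * Cc + 2 * e2) * D ^ 2) ≤ A1)
    (hA2 : m1 * D ^ 2 ≤ A1)
    (E1 : 2 * z * z' * w ^ 2 + 2 * z ^ 2 * (w * w1) + 2 * A1 * (v * w) = 0)
    (E2 : (2 * z' ^ 2 + 2 * z * z'') * w ^ 2 + 8 * z * z' * (w * w1) +
      2 * z ^ 2 * (w1 ^ 2 + w * w2) + 2 * A1 * (w ^ 2 + v * w1) ≤ 0)
    (E3 : 0 ≤ 2 * lam * y2 * (z ^ 2 * w ^ 2 + A1 * v ^ 2) + y2 * z * z' * w ^ 2 +
      2 * z ^ 2 * w * (Z * w2 + (Zr + m1 * ch - 2 * Z) * w1 + c * w - 4 * m1 * v + NLr) +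
      2 * A1 * v * (Z * w1 + m1 * ch * w + 2 * m1 * v + NL)) :
    w ^ 2 ≤ (1298 + 8 * m1 + 4 * lam * D) * e0 ^ 2 + 18 * e1 ^ 2 := by
  have hBb : 0 ≤ Bb := (abs_nonneg _).trans hb
  have hCc : 0 ≤ Cc := (abs_nonneg _).trans hc
  have hD2 : 0 ≤ D ^ 2 := sq_nonneg D
  have hA0 : D ^ 2 ≤ A1 := by
    have i1 : 0 ≤ Bb * D ^ 2 := by positivity
    have i2 : 0 ≤ Cc * D ^ 2 := by positivity
    have i3 : 0 ≤ e2 * D ^ 2 := by positivity
    have i4 : 0 ≤ lam * D ^ 3 := by positivity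
    have i5 : 0 ≤ D ^ 3 := by positivity
    linarith only [hA1, hD2, i1, i2, i3, i4, i5]
  have hA : 0 ≤ A1 := by linarith only [hD2, hA0]
  have hApos : 0 < A1 := by
    have : 0 < D ^ 2 := by positivity
    linarith only [hA0, this]
  have H := bern_comb (by linarith only [hZ1] : (0:ℝ) ≤ Z) E1 E2 E3
  have K := bern_K (lam := lam) hlam hy0 hy hz hz' hz'' (by linarith only [hZ1] : (0:ℝ) ≤ Z) hZ2 hb hc
  have L1 := bern_L1 (w := w) hm1 hz hZ1 hZ2 hZr hv hA hA2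
  have L2 := bern_L2 hz hNLr hA0
  have L3 := bern_L3 hm1 hlam hy0 hy hv hA
  have L4 := bern_L4 hv hNL hA
  have w0 : 0 ≤ w ^ 2 := sq_nonneg w
  have L0 : A1 * w ^ 2 ≤ 2 * Z * A1 * w ^ 2 := by
    have : 0 ≤ (2 * Z - 1) * (A1 * w ^ 2) := mul_nonneg (by linarith only [hZ1]) (by positivity)
    linarith only [this]
  have LK := mul_le_mul_of_nonneg_right K w0
  have S1 : ((2 * lam + 1) * D ^ 3 + (24 + 2 * Bb + 2 * Cc) * D ^ 2) * w ^ 2 +
      2 * D ^ 2 * e2 * w ^ 2 ≤ A1 / 4 * w ^ 2 := by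
    have h : (2 * lam + 1) * D ^ 3 + (24 + 2 * Bb + 2 * Cc + 2 * e2) * D ^ 2 ≤ A1 / 4 := by
      linarith only [hA1]
    have := mul_le_mul_of_nonneg_right h w0
    calc _ = ((2 * lam + 1) * D ^ 3 + (24 + 2 * Bb + 2 * Cc + 2 * e2) * D ^ 2) * w ^ 2 := by ring
      _ ≤ _ := this
  have fin0 : A1 * w ^ 2 ≤ A1 / 4 * w ^ 2 + A1 * (w ^ 2 / 8 + 648 * e0 ^ 2) +
      A1 * (w ^ 2 / 8 + 8 * e1 ^ 2) + A1 * ((4 * m1 + 2 * lam * D) * e0 ^ 2) +
      A1 * (e0 ^ 2 + e1 ^ 2) := by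
    have H' := L0.trans H
    clear H L0 E1 E2 E3 K hA1 hA2 hb
    generalize (2 * lam * y2 * z ^ 2 + y2 * z * z' - Z * (2 * z' ^ 2 + 2 * z * z'') -
      2 * (Zr + m1 * ch - 2 * Z) * z * z' + 2 * z ^ 2 * c + 8 * Z * z' ^ 2) * w ^ 2 = X1 at *
    generalize ((2 * lam + 1) * D ^ 3 + (24 + 2 * Bb + 2 * Cc) * D ^ 2) * w ^ 2 = X2 at *
    generalize (2 * A1 * (2 * Z - Zr) - 8 * m1 * z ^ 2) * (v * w) = X3 at *
    generalize 2 * z ^ 2 * (w * NLr) = X4 at *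
    generalize A1 * (4 * m1 + 2 * lam * y2) * v ^ 2 = X5 at *
    generalize 2 * A1 * (v * NL) = X6 at *
    generalize 2 * D ^ 2 * e2 * w ^ 2 = X7 at *
    generalize A1 * (w ^ 2 / 8 + 648 * e0 ^ 2) = X8 at *
    generalize A1 * (w ^ 2 / 8 + 8 * e1 ^ 2) = X9 at *
    generalize A1 * ((4 * m1 + 2 * lam * D) * e0 ^ 2) = X10 at *
    generalize A1 * (e0 ^ 2 + e1 ^ 2) = X11 at *
    generalize A1 / 4 * w ^ 2 = X12 at *
    linarith only [LK, H', L1, L2, L3, L4, S1]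
  have fin : A1 * w ^ 2 ≤ A1 * (w ^ 2 / 2 + (649 + 4 * m1 + 2 * lam * D) * e0 ^ 2 +
      9 * e1 ^ 2) := by
    refine fin0.trans (le_of_eq ?_)
    ring
  have fin2 := le_of_mul_le_mul_left fin hApos
  linarith only [fin2]

end Vale.Agent.P244.ST.M7a
end

section

/-!
# P244-ST, block M7 : the equations of `p = Dr u` and `Q = r² V` in the `r`-gauge (abstract)
-/

set_option linter.all false

namespace Vale.Agent.P244.ST

namespace Frame

variable {R : Type*} [CommRing R] [Algebra ℝ R] (A : Frame R) {κ : R}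

lemma Dr_ch : A.Dr κ A.ch = A.sh * A.Dr κ A.u := by
  have h : A.Ds A.ch = A.sh * A.Ds A.u := A.Ds_ch
  rw [Dr, Dr, h]; ring

lemma Dr_sh : A.Dr κ A.sh = A.ch * A.Dr κ A.u := by
  have h : A.Ds A.sh = A.ch * A.Ds A.u := A.Ds_sh
  rw [Dr, Dr, h]; ring

/-- the equation of `p = Dr u` -/
lemma Tr_p (hκ : κ * A.ρs = 1) : A.r2 * A.Tr κ (A.Dr κ A.u) =
    A.Z * A.Dr κ (A.Dr κ (A.Dr κ A.u)) +
      (A.Dr κ A.Z + 39 * A.ch - 2 * A.Z) * A.Dr κ (A.Dr κ A.u) +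
      39 * A.sh * (A.Dr κ A.u ^ 2 - 4) := by
  have h1 := congrArg (A.Dr κ) (A.E1 hκ)
  rw [A.Tr_Dr hκ A.u]
  simp only [Dr_mul, Dr_add, Dr_ofNat, Dr_ch, Dr_sh, A.Dr_r2 hκ] at h1
  have h2 := A.E1 hκ
  linear_combination h1 - 2 * h2

/-- `Q = r² V` in the `r`-gauge -/
lemma Q_eq (hκ : κ * A.ρs = 1) : 2 * (A.r2 * A.V) =
    2 * (A.Z * A.Dr κ (A.Dr κ A.u) + 39 * A.ch * A.Dr κ A.u + 78 * A.sh) +
      (A.Dr κ A.Z + 78 * A.Z - 78 * A.ch) * A.Dr κ A.u := by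
  have h1 := A.E1 hκ
  have h2 : A.Tr κ A.u = A.V - A.yt * A.Dr κ A.u := rfl
  have h3 := A.E2y hκ
  rw [h2] at h1
  linear_combination 2 * h1 + A.Dr κ A.u * h3

/-- the equation of `Q = r² V` -/
lemma Tr_Q (hκ : κ * A.ρs = 1) : 10 * (A.r2 * A.Tr κ (A.r2 * A.V)) =
    10 * (A.Z * A.Dr κ (A.Dr κ (A.r2 * A.V)) + (39 * A.ch - 4 * A.Z) * A.Dr κ (A.r2 * A.V) +
      (4 * A.Z - 20 * A.Z * A.G κ ^ 2 + 2 * (A.r2 * A.E0)) * (A.r2 * A.V)) +
      (20 * A.Z * A.G κ - 39 * A.sh) * (A.r2 * (41 * A.E0 - A.Rs)) := by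
  have h1 : A.Dt A.V = A.Tr κ A.V + A.yt * A.Dr κ A.V := by
    rw [Tr, Dr]; ring
  have h2 := A.F5
  rw [h1] at h2
  have h3 := A.E2 hκ A.V
  have h4 := A.E2y hκ
  have h5 := A.r2_ir
  have h6 : A.P = -A.G κ * A.ρs := A.P_eq hκ
  have hb : A.b20 = -20 * A.ρs * A.P - 39 * A.sh * A.ir := rfl
  have hZ : A.Z = A.r2 * A.ρs ^ 2 := rfl
  have hD1 : A.Dr κ (A.r2 * A.V) = A.r2 * A.Dr κ A.V + 2 * A.r2 * A.V := by
    rw [Dr_mul, A.Dr_r2 hκ]; ring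
  have hD2 : A.Dr κ (A.Dr κ (A.r2 * A.V)) = A.r2 * A.Dr κ (A.Dr κ A.V) +
      4 * A.r2 * A.Dr κ A.V + 4 * A.r2 * A.V := by
    rw [hD1]
    simp only [Dr_mul, Dr_add, Dr_ofNat, A.Dr_r2 hκ]; ring
  have hT : A.Tr κ (A.r2 * A.V) = A.r2 * A.Tr κ A.V := by
    rw [Tr_mul, A.Tr_r2 hκ]; ring
  rw [hT, hD2, hD1]
  rw [hb, h6] at h2
  rw [← sub_eq_zero]
  have key : 10 * (A.r2 * A.Tr κ A.V) = 10 * (A.Z * A.Dr κ (A.Dr κ A.V) + 39 * A.ch * A.Dr κ A.V) +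
      10 * (78 * A.ch - 20 * A.Z * A.G κ ^ 2 + 2 * (A.r2 * A.E0)) * A.V +
      (20 * A.Z * A.G κ - 39 * A.sh) * (41 * A.E0 - A.Rs) := by
    linear_combination A.r2 * h2 + 5 * h3 - 5 * A.Dr κ A.V * h4 +
      (780 * A.ch * A.V - 39 * A.sh * (41 * A.E0 - A.Rs)) * h5 +
      (200 * A.G κ ^ 2 * A.V - 20 * A.G κ * (41 * A.E0 - A.Rs)) * hZ
  linear_combination A.r2 * key

end Frame

end Vale.Agent.P244.ST
end

section

/-!
# P244-ST, block M7 : cut-off and amplitude in r-gauge coordinates `(t, ρ)`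

`Y = y² = e^{2ρ}/(1-t)`; cut-off `ζ = (Y - y₀²)(y₁² - Y)`.  `Kw y₁` bounds `1, Y, ζ, ζ_ρ, r²ζ_t, ζ_ρρ`
on the window.
-/

set_option linter.all false

open Set Filter Topology

namespace Vale.Agent.P244.ST

/-- `Y = y²` -/
noncomputable def Yw (t ρ : ℝ) : ℝ := Real.exp (2 * ρ) / (1 - t)

/-- the cut-off -/
noncomputable def zw (y₀ y₁ t ρ : ℝ) : ℝ := (Yw t ρ - y₀ ^ 2) * (y₁ ^ 2 - Yw t ρ)

/-- bound of the cut-off and its derivatives -/
noncomputable def Kw (y₁ : ℝ) : ℝ := 20 * (1 + y₁ ^ 2) ^ 3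

/-- the amplitude -/
structure IsAmp (A : ℝ → ℝ) (l : ℝ) : Prop where
  l0 : 0 ≤ l
  l2 : l ≤ 2
  pos : ∀ t < 1, 0 < A t
  der : ∀ t < 1, HasDerivAt A (-(l * A t / (1 - t))) t

/-- `ζ_ρ` -/
noncomputable def zwr (y₀ y₁ t ρ : ℝ) : ℝ := 2 * Yw t ρ * (y₀ ^ 2 + y₁ ^ 2 - 2 * Yw t ρ)

/-- `ζ_ρρ` -/
noncomputable def zwrr (y₀ y₁ t ρ : ℝ) : ℝ :=
  4 * Yw t ρ * (y₀ ^ 2 + y₁ ^ 2) - 16 * Yw t ρ ^ 2

/-- `r² ζ_t` -/
noncomputable def zwt (y₀ y₁ t ρ : ℝ) : ℝ := Yw t ρ ^ 2 * (y₀ ^ 2 + y₁ ^ 2 - 2 * Yw t ρ)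

lemma Yw_rho (t ρ : ℝ) : HasDerivAt (fun z => Yw t z) (2 * Yw t ρ) ρ := by
  unfold Yw
  have h1 : HasDerivAt (fun z : ℝ => 2 * z) 2 ρ := by simpa using (hasDerivAt_id ρ).const_mul 2
  have h := (h1.exp).div_const (1 - t)
  refine HasDerivAt.congr_deriv h ?_
  ring

lemma Yw_t {t : ℝ} (ht : t < 1) (ρ : ℝ) :
    HasDerivAt (fun s => Yw s ρ) (Real.exp (-2 * ρ) * Yw t ρ ^ 2) t := by
  unfold Yw
  have h1 : HasDerivAt (fun s : ℝ => 1 - s) (-1) t := by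
    simpa using (hasDerivAt_id t).const_sub 1
  have hne : (1 - t) ≠ 0 := by linarith
  have h2 := (h1.inv hne).const_mul (Real.exp (2 * ρ))
  have e : Real.exp (-2 * ρ) * (Real.exp (2 * ρ) / (1 - t)) ^ 2 =
      Real.exp (2 * ρ) * (-(-1) / (1 - t) ^ 2) := by
    have e1 : Real.exp (-2 * ρ) * Real.exp (2 * ρ) = 1 := by
      rw [← Real.exp_add]; simp
    calc Real.exp (-2 * ρ) * (Real.exp (2 * ρ) / (1 - t)) ^ 2
        = (Real.exp (-2 * ρ) * Real.exp (2 * ρ)) * (Real.exp (2 * ρ) / (1 - t) ^ 2) := by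
          rw [div_pow]; ring
      _ = Real.exp (2 * ρ) * (-(-1) / (1 - t) ^ 2) := by rw [e1]; ring
  rw [e]
  simpa [div_eq_mul_inv] using h2

lemma zw_rho (y₀ y₁ t ρ : ℝ) :
    HasDerivAt (fun z => zw y₀ y₁ t z) (zwr y₀ y₁ t ρ) ρ := by
  unfold zw zwr
  have h := ((Yw_rho t ρ).sub_const (y₀ ^ 2)).mul ((Yw_rho t ρ).const_sub (y₁ ^ 2))
  refine HasDerivAt.congr_deriv h ?_
  ring

lemma zwr_rho (y₀ y₁ t ρ : ℝ) :
    HasDerivAt (fun z => zwr y₀ y₁ t z) (zwrr y₀ y₁ t ρ) ρ := by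
  unfold zwr zwrr
  have h := ((Yw_rho t ρ).const_mul 2).mul
    (((Yw_rho t ρ).const_mul 2).const_sub (y₀ ^ 2 + y₁ ^ 2))
  refine HasDerivAt.congr_deriv h ?_
  ring

lemma zw_t (y₀ y₁ : ℝ) {t : ℝ} (ht : t < 1) (ρ : ℝ) :
    HasDerivAt (fun s => zw y₀ y₁ s ρ) (Real.exp (-2 * ρ) * zwt y₀ y₁ t ρ) t := by
  unfold zw zwt
  have h := ((Yw_t ht ρ).sub_const (y₀ ^ 2)).mul ((Yw_t ht ρ).const_sub (y₁ ^ 2))
  refine HasDerivAt.congr_deriv h ?_
  ring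

lemma exp_mul_Yw {t : ℝ} (ht : t < 1) (ρ : ℝ) :
    Real.exp (-2 * ρ) * Yw t ρ = 1 / (1 - t) := by
  unfold Yw
  have e1 : Real.exp (-2 * ρ) * Real.exp (2 * ρ) = 1 := by
    rw [← Real.exp_add]; simp
  rw [← mul_div_assoc, e1]

section bounds

variable {y₀ y₁ t₁ : ℝ}

lemma Win_lt {q : ℝ × ℝ} (ht₁ : t₁ < 1) (hq : q ∈ Win y₀ y₁ t₁) : q.1 < 1 :=
  lt_of_le_of_lt hq.1.2 ht₁

lemma Yw_bd (hy₀ : 0 < y₀) (hy : y₀ < y₁) (ht₁ : t₁ < 1) {q : ℝ × ℝ} (hq : q ∈ Win y₀ y₁ t₁) :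
    y₀ ^ 2 ≤ Yw q.1 q.2 ∧ Yw q.1 q.2 ≤ y₁ ^ 2 := by
  have h1 : 0 < 1 - q.1 := by linarith [Win_lt ht₁ hq]
  obtain ⟨-, hl, hr⟩ := hq
  have hs := Real.sq_sqrt h1.le
  have hs0 := Real.sqrt_pos.2 h1
  have he : Real.exp (2 * q.2) = Real.exp q.2 ^ 2 := by
    rw [← Real.exp_nat_mul]; norm_num
  unfold Yw
  rw [he, le_div_iff₀ h1, div_le_iff₀ h1]
  constructor
  · calc y₀ ^ 2 * (1 - q.1) = (y₀ * Real.sqrt (1 - q.1)) ^ 2 := by rw [mul_pow, hs]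
      _ ≤ Real.exp q.2 ^ 2 := pow_le_pow_left₀ (by positivity) hl 2
  · calc Real.exp q.2 ^ 2 ≤ (y₁ * Real.sqrt (1 - q.1)) ^ 2 :=
        pow_le_pow_left₀ (Real.exp_pos _).le hr 2
      _ = y₁ ^ 2 * (1 - q.1) := by rw [mul_pow, hs]

lemma Kw_ge (y₁ : ℝ) : 20 ≤ Kw y₁ := by
  unfold Kw
  have h1 : 1 ≤ (1 + y₁ ^ 2) ^ 3 := one_le_pow₀ (by linarith only [sq_nonneg y₁])
  linarith

lemma Kw_ge1 (y₁ : ℝ) : y₁ ^ 2 ≤ Kw y₁ := by
  unfold Kw
  have h1 : 0 ≤ y₁ ^ 2 := sq_nonneg y₁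
  linarith only [pow_nonneg h1 3, pow_nonneg h1 2, h1]

lemma Kw_ge2 (y₁ : ℝ) : 20 * (y₁ ^ 2) ^ 2 ≤ Kw y₁ := by
  unfold Kw
  have h1 : 0 ≤ y₁ ^ 2 := sq_nonneg y₁
  linarith only [pow_nonneg h1 3, pow_nonneg h1 2, h1]

lemma Kw_ge3 (y₁ : ℝ) : 20 * (y₁ ^ 2) ^ 3 ≤ Kw y₁ := by
  unfold Kw
  have h1 : 0 ≤ y₁ ^ 2 := sq_nonneg y₁
  linarith only [pow_nonneg h1 2, h1]

lemma zw_bds (hy₀ : 0 < y₀) (hy : y₀ < y₁) (ht₁ : t₁ < 1) {q : ℝ × ℝ}
    (hq : q ∈ Win y₀ y₁ t₁) :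
    0 < Yw q.1 q.2 ∧ Yw q.1 q.2 ≤ Kw y₁ ∧ 0 ≤ zw y₀ y₁ q.1 q.2 ∧ zw y₀ y₁ q.1 q.2 ≤ Kw y₁ ∧
      |zwr y₀ y₁ q.1 q.2| ≤ Kw y₁ ∧ |zwrr y₀ y₁ q.1 q.2| ≤ Kw y₁ ∧
      |zwt y₀ y₁ q.1 q.2| ≤ Kw y₁ := by
  obtain ⟨ha, hb⟩ := Yw_bd hy₀ hy ht₁ hq
  have k1 := Kw_ge1 y₁
  have k2 := Kw_ge2 y₁
  have k3 := Kw_ge3 y₁
  have ha0 : 0 < y₀ ^ 2 := by positivity
  have hab : y₀ ^ 2 < y₁ ^ 2 := pow_lt_pow_left₀ hy hy₀.le (by norm_num)
  unfold zw zwr zwrr zwt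
  generalize Yw q.1 q.2 = Y at *
  generalize y₀ ^ 2 = a at *
  generalize y₁ ^ 2 = b at *
  generalize Kw y₁ = K at *
  have hY : 0 < Y := by linarith
  have hY2 : Y ^ 2 ≤ b ^ 2 := pow_le_pow_left₀ hY.le hb 2
  have hb0 : 0 < b := by linarith
  have hY3 : Y ^ 2 * b ≤ b ^ 3 := by (by_contra nlg; linarith only [nlg, mul_pos (sub_pos.2 (not_le.1 nlg)) (sub_pos.2 hab), mul_pos (sub_pos.2 (not_le.1 nlg)) (sub_pos.2 ha0), mul_nonneg (sq_nonneg (b : ℝ)) (sub_nonneg.2 hY2)])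
  refine ⟨hY, by linarith, mul_nonneg (by linarith) (by linarith), ?_, ?_, ?_, ?_⟩
  · (by_contra nlg; linarith only [nlg, mul_nonneg (sub_nonneg.2 (mul_nonneg (by linarith : 0 ≤ b - Y) (by linarith : (0 : ℝ) ≤ a))) (le_of_lt (sub_pos.2 (mul_pos hb0 hb0))), mul_pos (sub_pos.2 hb0) (sub_pos.2 (mul_pos hb0 hb0)), mul_pos (sub_pos.2 hY) (sub_pos.2 (mul_pos hb0 hb0)), mul_nonneg (le_of_lt (sub_pos.2 hY)) (sub_nonneg.2 (mul_nonneg (by linarith : 0 ≤ b - Y) (by linarith : (0 : ℝ) ≤ a))), mul_nonneg (sub_nonneg.2 k3) (le_of_lt (sub_pos.2 hY)), mul_nonneg (sub_nonneg.2 k1) (le_of_lt (sub_pos.2 (mul_pos hb0 hb0))), mul_nonneg (sub_nonneg.2 hb) (sub_nonneg.2 hY2), mul_pos (sub_pos.2 (not_le.1 nlg)) (sub_pos.2 (mul_pos hb0 hb0)), mul_pos (sub_pos.2 (not_le.1 nlg)) (sub_pos.2 hY), mul_nonneg (sq_nonneg (Y : ℝ)) (le_of_lt (sub_pos.2 (mul_pos hb0 hb0)))])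
  · rw [abs_le]
    constructor
    · linarith only [hY2, mul_pos hY ha0, mul_nonneg hY.le (by linarith : 0 ≤ b - Y), k2, k1, hab, ha0]
    · (by_contra nlg; linarith only [nlg, mul_nonneg (sq_nonneg b) (sub_nonneg.2 hY2), mul_nonneg (le_of_lt (sub_pos.2 (mul_pos hY ha0))) (sub_nonneg.2 hY2), mul_pos (sub_pos.2 (mul_pos hY ha0)) (sub_pos.2 (mul_pos hY ha0)), mul_nonneg (sub_nonneg.2 (mul_nonneg hY.le (by linarith : 0 ≤ b - Y))) (sub_nonneg.2 (mul_nonneg hY.le (by linarith : 0 ≤ b - Y))), mul_nonneg (sub_nonneg.2 (mul_nonneg hY.le (by linarith : 0 ≤ Y - a))) (sub_nonneg.2 hY2), mul_nonneg (sub_nonneg.2 (mul_nonneg hY.le (by linarith : 0 ≤ Y - a))) (sq_nonneg b), mul_nonneg (sub_nonneg.2 (mul_nonneg hY.le (by linarith : 0 ≤ Y - a))) (le_of_lt (sub_pos.2 (mul_pos hY ha0))), mul_nonneg (sub_nonneg.2 k2) (sq_nonneg b), mul_nonneg (sub_nonneg.2 hb) (sub_nonneg.2 hY3), mul_nonneg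 (le_of_lt (sub_pos.2 (not_le.1 nlg))) (sq_nonneg b)])
  · rw [abs_le]
    constructor
    · linarith only [hY2, mul_pos hY hb0, mul_pos hY ha0, k2, k1, hab, ha0]
    · nlinarith [mul_nonneg hY.le (by linarith : 0 ≤ Y - a), mul_nonneg hY.le (by linarith : 0 ≤ b - Y),
        mul_pos hY ha0, mul_nonneg hY.le (by linarith : 0 ≤ b - a), sq_nonneg b, hY2]
  · have c1 : a + b - 2 * Y ≤ b := by linarith
    have c2 : -b ≤ a + b - 2 * Y := by linarith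
    have hb3 : 0 < b ^ 3 := by positivity
    rw [abs_le]
    constructor
    · linarith only [mul_nonneg (sq_nonneg Y) (by linarith : 0 ≤ a + b - 2 * Y + b), hb3, hY3, k3]
    · linarith only [mul_nonneg (sq_nonneg Y) (by linarith : 0 ≤ b - (a + b - 2 * Y)), hb3, hY3, k3]

lemma zw_lat (hy₀ : 0 < y₀) (hy : y₀ < y₁) (ht₁ : t₁ < 1) {q : ℝ × ℝ} (hq : q ∈ Win y₀ y₁ t₁)
    (h : Real.exp q.2 = y₀ * Real.sqrt (1 - q.1) ∨ Real.exp q.2 = y₁ * Real.sqrt (1 - q.1)) :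
    zw y₀ y₁ q.1 q.2 = 0 := by
  have h1 : 0 < 1 - q.1 := by linarith [Win_lt ht₁ hq]
  have hs := Real.sq_sqrt h1.le
  have he : Real.exp (2 * q.2) = Real.exp q.2 ^ 2 := by
    rw [← Real.exp_nat_mul]; norm_num
  unfold zw Yw
  rcases h with h | h
  · have : Real.exp (2 * q.2) / (1 - q.1) = y₀ ^ 2 := by
      rw [he, h, mul_pow, hs]; field_simp
    rw [this]; ring
  · have : Real.exp (2 * q.2) / (1 - q.1) = y₁ ^ 2 := by
      rw [he, h, mul_pow, hs]; field_simp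
    rw [this]; ring

lemma zw_cont (ht₁ : t₁ < 1) :
    ContinuousOn (fun q : ℝ × ℝ => zw y₀ y₁ q.1 q.2) (Win y₀ y₁ t₁) := by
  unfold zw Yw
  have hne : ∀ q ∈ Win y₀ y₁ t₁, (1 - q.1) ≠ 0 := fun q hq => by
    have := Win_lt ht₁ hq; intro h; linarith
  have h1 : ContinuousOn (fun q : ℝ × ℝ => Real.exp (2 * q.2) / (1 - q.1)) (Win y₀ y₁ t₁) :=
    ContinuousOn.div (by fun_prop) (by fun_prop) hne
  exact (h1.sub continuousOn_const).mul (continuousOn_const.sub h1)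

lemma IsAmp.cont {A : ℝ → ℝ} {l : ℝ} (hA : IsAmp A l) (ht₁ : t₁ < 1) :
    ContinuousOn (fun q : ℝ × ℝ => A q.1) (Win y₀ y₁ t₁) := by
  intro q hq
  have h : ContinuousAt A q.1 := (hA.der _ (Win_lt ht₁ hq)).continuousAt
  exact (ContinuousAt.comp (f := Prod.fst) h continuousAt_fst).continuousWithinAt

end bounds

end Vale.Agent.P244.ST
end
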