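import Mathlib
import Vale.Agent.P244.Bd3.B2
import Vale.Agent.P244.Bd3.B1
import Vale.Agent.P244.Bd3.B3

set_option linter.all false

section

set_option linter.all false

/-! # P244: product with a circle, coordinate side -/

open scoped ContDiff
open Set
open Vale.Agent.P244.Flow (pd christoffel ricci)

namespace Vale.Agent.P244.GeoP

open Vale.Agent.P244.Geo

variable {V : Type*} [NormedAddCommGroup V] [NormedSpace ℝ V] {n : ℕ}

/-- the product frame -/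
noncomputable def pframe (v : Fin n → V) : Fin (n + 1) → V × EE 1 :=
  Fin.addCases (fun i => (v i, 0)) (fun j => (0, EuclideanSpace.single j 1))

/-- the product metric -/
noncomputable def pmet (G : V → Matrix (Fin n) (Fin n) ℝ) (y : V × EE 1) :
    Matrix (Fin (n + 1)) (Fin (n + 1)) ℝ :=
  blk (fun i j => G y.1 i j) (fun a b => rho y.2 ^ 2 * dl a b)

variable (v : Fin n → V) (G : V → Matrix (Fin n) (Fin n) ℝ)

lemma pframe_left (i : Fin n) : pframe v (Fin.castAdd 1 i) = (v i, 0) := by simp [pframe]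

lemma pframe_right (a : Fin 1) :
    pframe v (Fin.natAdd n a) = (0, EuclideanSpace.single a 1) := by simp [pframe]

lemma pmet_ll (y : V × EE 1) (i j : Fin n) :
    pmet G y (Fin.castAdd 1 i) (Fin.castAdd 1 j) = G y.1 i j := by unfold pmet; rw [blk_ll]

lemma pmet_lr (y : V × EE 1) (i : Fin n) (a : Fin 1) :
    pmet G y (Fin.castAdd 1 i) (Fin.natAdd n a) = 0 := by unfold pmet; rw [blk_lr]

lemma pmet_rl (y : V × EE 1) (i : Fin n) (a : Fin 1) :
    pmet G y (Fin.natAdd n a) (Fin.castAdd 1 i) = 0 := by unfold pmet; rw [blk_rl]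

lemma pmet_rr (y : V × EE 1) (a b : Fin 1) :
    pmet G y (Fin.natAdd n a) (Fin.natAdd n b) = rho y.2 ^ 2 * dl a b := by
  unfold pmet; rw [blk_rr]

/-! ### partial derivatives of functions of one factor -/

lemma fderiv_fst {W : Type*} [NormedAddCommGroup W] [NormedSpace ℝ W] (f : V → ℝ) (y : V × W) :
    fderiv ℝ (fun z : V × W => f z.1) y =
      (fderiv ℝ f y.1).comp (ContinuousLinearMap.fst ℝ V W) := by
  by_cases h : DifferentiableAt ℝ f y.1
  · exact (h.hasFDerivAt.comp y hasFDerivAt_fst).fderiv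
  · have h2 : ¬ DifferentiableAt ℝ (fun z : V × W => f z.1) y := by
      intro h3
      apply h
      have h4 : DifferentiableAt ℝ (fun x : V => ((x, y.2) : V × W)) y.1 :=
        differentiableAt_id.prodMk (differentiableAt_const _)
      exact DifferentiableAt.comp (g := fun z : V × W => f z.1) y.1 h3 h4
    rw [fderiv_zero_of_not_differentiableAt h2, fderiv_zero_of_not_differentiableAt h]
    simp

lemma fderiv_snd' {W : Type*} [NormedAddCommGroup W] [NormedSpace ℝ W] (f : W → ℝ) (y : V × W) :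
    fderiv ℝ (fun z : V × W => f z.2) y =
      (fderiv ℝ f y.2).comp (ContinuousLinearMap.snd ℝ V W) := by
  by_cases h : DifferentiableAt ℝ f y.2
  · exact (h.hasFDerivAt.comp y hasFDerivAt_snd).fderiv
  · have h2 : ¬ DifferentiableAt ℝ (fun z : V × W => f z.2) y := by
      intro h3
      apply h
      have h4 : DifferentiableAt ℝ (fun x : W => ((y.1, x) : V × W)) y.2 :=
        (differentiableAt_const _).prodMk differentiableAt_id
      exact DifferentiableAt.comp (g := fun z : V × W => f z.2) y.2 h3 h4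
    rw [fderiv_zero_of_not_differentiableAt h2, fderiv_zero_of_not_differentiableAt h]
    simp

lemma pd_fst_l (f : V → ℝ) (y : V × EE 1) (i : Fin n) :
    pd (pframe v) (Fin.castAdd 1 i) (fun z => f z.1) y = pd v i f y.1 := by
  unfold pd
  rw [fderiv_fst, pframe_left]
  rfl

lemma pd_fst_r (f : V → ℝ) (y : V × EE 1) (a : Fin 1) :
    pd (pframe v) (Fin.natAdd n a) (fun z => f z.1) y = 0 := by
  unfold pd
  rw [fderiv_fst, pframe_right]
  simp

lemma pd_snd_l (f : EE 1 → ℝ) (y : V × EE 1) (i : Fin n) :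
    pd (pframe v) (Fin.castAdd 1 i) (fun z => f z.2) y = 0 := by
  unfold pd
  rw [fderiv_snd', pframe_left]
  simp

lemma pd_snd_r (f : EE 1 → ℝ) (y : V × EE 1) (a : Fin 1) :
    pd (pframe v) (Fin.natAdd n a) (fun z => f z.2) y =
      fderiv ℝ f y.2 (EuclideanSpace.single a 1) := by
  unfold pd
  rw [fderiv_snd', pframe_right]
  rfl

lemma pd_congr {n' : ℕ} {W : Type*} [NormedAddCommGroup W] [NormedSpace ℝ W] (w : Fin n' → W)
    (i : Fin n') {f g : W → ℝ} {y : W} (h : f =ᶠ[nhds y] g) : pd w i f y = pd w i g y := by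
  unfold pd
  rw [h.fderiv_eq]

lemma pd_g_ll (i j : Fin n) (y : V × EE 1) (k : Fin n) :
    pd (pframe v) (Fin.castAdd 1 k) (fun z => pmet G z (Fin.castAdd 1 i) (Fin.castAdd 1 j)) y =
      pd v k (fun z => G z i j) y.1 := by
  simp only [pmet_ll]
  exact pd_fst_l v (fun z => G z i j) y k

lemma pd_g_ll' (i j : Fin n) (y : V × EE 1) (a : Fin 1) :
    pd (pframe v) (Fin.natAdd n a) (fun z => pmet G z (Fin.castAdd 1 i) (Fin.castAdd 1 j)) y =
      0 := by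
  simp only [pmet_ll]
  exact pd_fst_r v (fun z => G z i j) y a

lemma pd_zero {n' : ℕ} {W : Type*} [NormedAddCommGroup W] [NormedSpace ℝ W] (w : Fin n' → W)
    (i : Fin n') (y : W) : pd w i (fun _ => (0 : ℝ)) y = 0 := by
  unfold pd; simp

lemma pd_g_lr (i : Fin n) (a : Fin 1) (y : V × EE 1) (K : Fin (n + 1)) :
    pd (pframe v) K (fun z => pmet G z (Fin.castAdd 1 i) (Fin.natAdd n a)) y = 0 := by
  simp only [pmet_lr]
  exact pd_zero _ _ _

lemma pd_g_rl (i : Fin n) (a : Fin 1) (y : V × EE 1) (K : Fin (n + 1)) :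
    pd (pframe v) K (fun z => pmet G z (Fin.natAdd n a) (Fin.castAdd 1 i)) y = 0 := by
  simp only [pmet_rl]
  exact pd_zero _ _ _

lemma pd_g_rr (a b : Fin 1) (y : V × EE 1) (k : Fin n) :
    pd (pframe v) (Fin.castAdd 1 k) (fun z => pmet G z (Fin.natAdd n a) (Fin.natAdd n b)) y =
      0 := by
  simp only [pmet_rr]
  exact pd_snd_l v (fun z => rho z ^ 2 * dl a b) y k

variable {G}

/-- the inverse of the product metric -/
lemma pmet_inv {y : V × EE 1} (hdet : IsUnit (G y.1).det) :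
    (pmet G y)⁻¹ = blk (fun i j => (G y.1)⁻¹ i j) (fun a b => (rho y.2 ^ 2)⁻¹ * dl a b) := by
  unfold pmet
  refine blk_inv (fun i j => ?_) (fun a b => ?_)
  · have h := congrFun (congrFun (Matrix.mul_nonsing_inv (G y.1) hdet) i) j
    rw [Matrix.mul_apply] at h
    rw [h, Matrix.one_apply]
    rfl
  · have hr := (rho_pos y.2).ne'
    have h1 : ∀ c, rho y.2 ^ 2 * dl a c * ((rho y.2 ^ 2)⁻¹ * dl c b) = dl a c * dl c b := by
      intro c
      field_simp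
    simp only [h1]
    rw [sum_dl]

variable {v}

lemma pc_lll {y : V × EE 1} (hdet : IsUnit (G y.1).det) (k i j : Fin n) :
    christoffel (pframe v) (pmet G) (Fin.castAdd 1 k) (Fin.castAdd 1 i) (Fin.castAdd 1 j) y =
      christoffel v G k i j y.1 := by
  unfold christoffel
  rw [pmet_inv hdet, Fin.sum_univ_add]
  simp only [blk_ll, blk_lr, pd_g_ll, zero_mul, Finset.sum_const_zero, add_zero]

lemma pc_llr {y : V × EE 1} (hdet : IsUnit (G y.1).det) (k i : Fin n) (a : Fin 1) :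
    christoffel (pframe v) (pmet G) (Fin.castAdd 1 k) (Fin.castAdd 1 i) (Fin.natAdd n a) y =
      0 := by
  unfold christoffel
  rw [pmet_inv hdet, Fin.sum_univ_add]
  simp only [blk_ll, blk_lr, pd_g_ll', pd_g_lr, pd_g_rl, zero_mul, Finset.sum_const_zero,
    add_zero, sub_zero, mul_zero]

lemma pc_lrl {y : V × EE 1} (hdet : IsUnit (G y.1).det) (k i : Fin n) (a : Fin 1) :
    christoffel (pframe v) (pmet G) (Fin.castAdd 1 k) (Fin.natAdd n a) (Fin.castAdd 1 i) y =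
      0 := by
  unfold christoffel
  rw [pmet_inv hdet, Fin.sum_univ_add]
  simp only [blk_ll, blk_lr, pd_g_ll', pd_g_lr, pd_g_rl, zero_mul, Finset.sum_const_zero,
    add_zero, sub_zero, mul_zero]

lemma pc_lrr {y : V × EE 1} (hdet : IsUnit (G y.1).det) (k : Fin n) (a b : Fin 1) :
    christoffel (pframe v) (pmet G) (Fin.castAdd 1 k) (Fin.natAdd n a) (Fin.natAdd n b) y =
      0 := by
  unfold christoffel
  rw [pmet_inv hdet, Fin.sum_univ_add]
  simp only [blk_ll, blk_lr, pd_g_rr, pd_g_lr, pd_g_rl, zero_mul, Finset.sum_const_zero,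
    add_zero, sub_zero, mul_zero]

lemma pc_rll {y : V × EE 1} (hdet : IsUnit (G y.1).det) (a : Fin 1) (i j : Fin n) :
    christoffel (pframe v) (pmet G) (Fin.natAdd n a) (Fin.castAdd 1 i) (Fin.castAdd 1 j) y =
      0 := by
  unfold christoffel
  rw [pmet_inv hdet, Fin.sum_univ_add]
  simp only [blk_rl, blk_rr, pd_g_ll', pd_g_lr, pd_g_rl, zero_mul, Finset.sum_const_zero,
    add_zero, sub_zero, mul_zero]

lemma pc_rlr {y : V × EE 1} (hdet : IsUnit (G y.1).det) (a b : Fin 1) (i : Fin n) :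
    christoffel (pframe v) (pmet G) (Fin.natAdd n a) (Fin.castAdd 1 i) (Fin.natAdd n b) y =
      0 := by
  unfold christoffel
  rw [pmet_inv hdet, Fin.sum_univ_add]
  simp only [blk_rl, blk_rr, pd_g_rr, pd_g_lr, pd_g_rl, zero_mul, Finset.sum_const_zero,
    add_zero, sub_zero, mul_zero]

lemma pc_rrl {y : V × EE 1} (hdet : IsUnit (G y.1).det) (a b : Fin 1) (i : Fin n) :
    christoffel (pframe v) (pmet G) (Fin.natAdd n a) (Fin.natAdd n b) (Fin.castAdd 1 i) y =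
      0 := by
  unfold christoffel
  rw [pmet_inv hdet, Fin.sum_univ_add]
  simp only [blk_rl, blk_rr, pd_g_rr, pd_g_lr, pd_g_rl, zero_mul, Finset.sum_const_zero,
    add_zero, sub_zero, mul_zero, zero_add]

/-- the Christoffel symbol of the circle factor depends on the second variable only -/
lemma pc_rrr {y : V × EE 1} (hdet : IsUnit (G y.1).det) (a b c : Fin 1) :
    christoffel (pframe v) (pmet G) (Fin.natAdd n a) (Fin.natAdd n b) (Fin.natAdd n c) y =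
      uu 0 y.2 := by
  have ha : a = 0 := Subsingleton.elim _ _
  have hb : b = 0 := Subsingleton.elim _ _
  have hc : c = 0 := Subsingleton.elim _ _
  subst ha; subst hb; subst hc
  unfold christoffel
  rw [pmet_inv hdet, Fin.sum_univ_add]
  simp only [blk_rl, blk_rr, zero_mul, Finset.sum_const_zero, zero_add, Fin.sum_univ_one]
  have h1 : pd (pframe v) (Fin.natAdd n 0) (fun z => pmet G z (Fin.natAdd n 0) (Fin.natAdd n 0)) y
      = 2 * rho y.2 * (rho y.2 * uu 0 y.2) := by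
    simp only [pmet_rr, dl_self, mul_one]
    rw [pd_snd_r v (fun z => rho z ^ 2)]
    have h2 : HD (fun z : EE 1 => rho z ^ 2) (fun j => 2 * rho y.2 * (rho y.2 * uu j y.2)) y.2 :=
      (((HD_rho y.2).mul (HD_rho y.2)).congr fun j => by ring).of_eq fun z => by ring
    exact h2.2 0
  rw [h1, dl_self]
  have hr := (rho_pos y.2).ne'
  field_simp
  ring

/-! ### Ricci tensor -/

lemma ev {U : Set V} (hU : IsOpen U) {y : V × EE 1} (hy : y.1 ∈ U) :
    ∀ᶠ z : V × EE 1 in nhds y, z.1 ∈ U :=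
  (hU.preimage continuous_fst).mem_nhds hy

/-- RESULT: the Ricci tensor of the product with a circle -/
theorem ricci_pmet' {U : Set V} (hU : IsOpen U) (hdet : ∀ y ∈ U, IsUnit (G y).det)
    {y : V × EE 1} (hy : y.1 ∈ U) (I J : Fin (n + 1)) :
    ricci (pframe v) (pmet G) I J y = blk (fun i j => ricci v G i j y.1) (fun _ _ => 0) I J := by
  have hd := hdet _ hy
  -- derivatives of the Christoffel symbols
  have p1 : ∀ k i j l, pd (pframe v) (Fin.castAdd 1 l) (christoffel (pframe v) (pmet G)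
      (Fin.castAdd 1 k) (Fin.castAdd 1 i) (Fin.castAdd 1 j)) y = pd v l (christoffel v G k i j) y.1 := by
    intro k i j l
    have e : christoffel (pframe v) (pmet G) (Fin.castAdd 1 k) (Fin.castAdd 1 i) (Fin.castAdd 1 j) =ᶠ[nhds y] (fun z => christoffel v G k i j z.1) :=
      (ev hU hy).mono fun z hz => pc_lll (hdet _ hz) k i j
    rw [pd_congr (pframe v) (Fin.castAdd 1 l) e]
    exact pd_fst_l v (christoffel v G k i j) y l
  have p1' : ∀ k i j a, pd (pframe v) (Fin.natAdd n a) (christoffel (pframe v) (pmet G)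
      (Fin.castAdd 1 k) (Fin.castAdd 1 i) (Fin.castAdd 1 j)) y = 0 := by
    intro k i j a
    have e : christoffel (pframe v) (pmet G) (Fin.castAdd 1 k) (Fin.castAdd 1 i) (Fin.castAdd 1 j) =ᶠ[nhds y] (fun z => christoffel v G k i j z.1) :=
      (ev hU hy).mono fun z hz => pc_lll (hdet _ hz) k i j
    rw [pd_congr (pframe v) (Fin.natAdd n a) e]
    exact pd_fst_r v (christoffel v G k i j) y a
  have p2 : ∀ k i a L, pd (pframe v) L (christoffel (pframe v) (pmet G)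
      (Fin.castAdd 1 k) (Fin.castAdd 1 i) (Fin.natAdd n a)) y = 0 := by
    intro k i a L
    have e : christoffel (pframe v) (pmet G) (Fin.castAdd 1 k) (Fin.castAdd 1 i) (Fin.natAdd n a) =ᶠ[nhds y] (fun z => 0) :=
      (ev hU hy).mono fun z hz => pc_llr (hdet _ hz) k i a
    rw [pd_congr (pframe v) L e]
    exact pd_zero _ _ _
  have p3 : ∀ k i a L, pd (pframe v) L (christoffel (pframe v) (pmet G)
      (Fin.castAdd 1 k) (Fin.natAdd n a) (Fin.castAdd 1 i)) y = 0 := by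
    intro k i a L
    have e : christoffel (pframe v) (pmet G) (Fin.castAdd 1 k) (Fin.natAdd n a) (Fin.castAdd 1 i) =ᶠ[nhds y] (fun z => 0) :=
      (ev hU hy).mono fun z hz => pc_lrl (hdet _ hz) k i a
    rw [pd_congr (pframe v) L e]
    exact pd_zero _ _ _
  have p4 : ∀ k a b L, pd (pframe v) L (christoffel (pframe v) (pmet G)
      (Fin.castAdd 1 k) (Fin.natAdd n a) (Fin.natAdd n b)) y = 0 := by
    intro k a b L
    have e : christoffel (pframe v) (pmet G) (Fin.castAdd 1 k) (Fin.natAdd n a) (Fin.natAdd n b) =ᶠ[nhds y] (fun z => 0) :=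
      (ev hU hy).mono fun z hz => pc_lrr (hdet _ hz) k a b
    rw [pd_congr (pframe v) L e]
    exact pd_zero _ _ _
  have p5 : ∀ a i j L, pd (pframe v) L (christoffel (pframe v) (pmet G)
      (Fin.natAdd n a) (Fin.castAdd 1 i) (Fin.castAdd 1 j)) y = 0 := by
    intro a i j L
    have e : christoffel (pframe v) (pmet G) (Fin.natAdd n a) (Fin.castAdd 1 i) (Fin.castAdd 1 j) =ᶠ[nhds y] (fun z => 0) :=
      (ev hU hy).mono fun z hz => pc_rll (hdet _ hz) a i j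
    rw [pd_congr (pframe v) L e]
    exact pd_zero _ _ _
  have p6 : ∀ a b i L, pd (pframe v) L (christoffel (pframe v) (pmet G)
      (Fin.natAdd n a) (Fin.castAdd 1 i) (Fin.natAdd n b)) y = 0 := by
    intro a b i L
    have e : christoffel (pframe v) (pmet G) (Fin.natAdd n a) (Fin.castAdd 1 i) (Fin.natAdd n b) =ᶠ[nhds y] (fun z => 0) :=
      (ev hU hy).mono fun z hz => pc_rlr (hdet _ hz) a b i
    rw [pd_congr (pframe v) L e]
    exact pd_zero _ _ _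
  have p7 : ∀ a b i L, pd (pframe v) L (christoffel (pframe v) (pmet G)
      (Fin.natAdd n a) (Fin.natAdd n b) (Fin.castAdd 1 i)) y = 0 := by
    intro a b i L
    have e : christoffel (pframe v) (pmet G) (Fin.natAdd n a) (Fin.natAdd n b) (Fin.castAdd 1 i) =ᶠ[nhds y] (fun z => 0) :=
      (ev hU hy).mono fun z hz => pc_rrl (hdet _ hz) a b i
    rw [pd_congr (pframe v) L e]
    exact pd_zero _ _ _
  have p8 : ∀ a b c l, pd (pframe v) (Fin.castAdd 1 l) (christoffel (pframe v) (pmet G)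
      (Fin.natAdd n a) (Fin.natAdd n b) (Fin.natAdd n c)) y = 0 := by
    intro a b c l
    have e : christoffel (pframe v) (pmet G) (Fin.natAdd n a) (Fin.natAdd n b) (Fin.natAdd n c) =ᶠ[nhds y] (fun z => uu 0 z.2) :=
      (ev hU hy).mono fun z hz => pc_rrr (hdet _ hz) a b c
    rw [pd_congr (pframe v) (Fin.castAdd 1 l) e]
    exact pd_snd_l v (uu 0) y l
  unfold ricci
  refine Fin.addCases (fun i => ?_) (fun a => ?_) I <;>
  refine Fin.addCases (fun j => ?_) (fun b => ?_) J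
  · simp only [Fin.sum_univ_add, p1, p1', p5, p6, pc_lll hd, pc_llr hd, pc_lrl hd, pc_rll hd,
      pc_rlr hd, pc_rrl hd, blk_ll, mul_zero, zero_mul, sub_zero, Finset.sum_const_zero,
      add_zero]
  · simp only [Fin.sum_univ_add, p2, p1', p6, pc_lll hd, pc_llr hd, pc_lrl hd, pc_rll hd,
      pc_rlr hd, pc_rrl hd, pc_lrr hd, pc_rrr hd, blk_lr, mul_zero, zero_mul, sub_zero,
      Finset.sum_const_zero, add_zero]
  · simp only [Fin.sum_univ_add, p3, p7, p8, pc_lll hd, pc_llr hd, pc_lrl hd, pc_rll hd,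
      pc_rlr hd, pc_rrl hd, pc_lrr hd, pc_rrr hd, blk_rl, mul_zero, zero_mul, sub_zero,
      Finset.sum_const_zero, add_zero]
  · have ha : a = 0 := Subsingleton.elim _ _
    have hb : b = 0 := Subsingleton.elim _ _
    subst ha; subst hb
    simp only [Fin.sum_univ_add, Fin.sum_univ_one, p4, p3, pc_lll hd, pc_llr hd, pc_lrl hd,
      pc_rll hd, pc_rlr hd, pc_rrl hd, pc_lrr hd, pc_rrr hd, blk_rr, mul_zero, zero_mul, sub_zero,
      Finset.sum_const_zero, add_zero, zero_add, sub_self]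

theorem ricci_pmet {U : Set V} (hU : IsOpen U)
    (_hG : ∀ i j, ContDiffOn ℝ ∞ (fun y => G y i j) U) (hdet : ∀ y ∈ U, IsUnit (G y).det)
    {y : V × EE 1} (hy : y.1 ∈ U) (I J : Fin (n + 1)) :
    ricci (pframe v) (pmet G) I J y = blk (fun i j => ricci v G i j y.1) (fun _ _ => 0) I J :=
  ricci_pmet' hU hdet hy I J

/-- RESULT: the scalar curvature of the product with a circle -/
theorem scal_pmet' {U : Set V} (hU : IsOpen U) (hdet : ∀ y ∈ U, IsUnit (G y).det)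
    {y : V × EE 1} (hy : y.1 ∈ U) :
    ∑ I, ∑ J, (pmet G y)⁻¹ I J * ricci (pframe v) (pmet G) I J y =
      ∑ i, ∑ j, (G y.1)⁻¹ i j * ricci v G i j y.1 := by
  simp only [ricci_pmet' hU hdet hy, pmet_inv (hdet _ hy), Fin.sum_univ_add, blk_ll, blk_lr,
    blk_rl, blk_rr, mul_zero, Finset.sum_const_zero, add_zero]

theorem scal_pmet {U : Set V} (hU : IsOpen U)
    (_hG : ∀ i j, ContDiffOn ℝ ∞ (fun y => G y i j) U) (hdet : ∀ y ∈ U, IsUnit (G y).det)
    {y : V × EE 1} (hy : y.1 ∈ U) :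
    ∑ I, ∑ J, (pmet G y)⁻¹ I J * ricci (pframe v) (pmet G) I J y =
      ∑ i, ∑ j, (G y.1)⁻¹ i j * ricci v G i j y.1 :=
  scal_pmet' hU hdet hy

end Vale.Agent.P244.GeoP
end

section

open scoped Manifold ContDiff RealInnerProductSpace Topology
open Set Metric Module

namespace Vale.Agent.P244.GeoP

open Vale.Agent.P244.Geo (EE rho)
open Vale.Agent.P244.GeoM (Sph innerBil factFin par norm_par)

attribute [local instance] factFin

section congr

variable {V : Type*} [NormedAddCommGroup V] [NormedSpace ℝ V] {n : ℕ} (v : Fin n → V)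
  {G G' : V → Matrix (Fin n) (Fin n) ℝ} {y : V}

theorem pd_congr'' {f f' : V → ℝ} (h : f =ᶠ[𝓝 y] f') (i : Fin n) :
    Flow.pd v i f y = Flow.pd v i f' y := by
  unfold Flow.pd
  rw [h.fderiv_eq]

theorem christoffel_congr (h : G =ᶠ[𝓝 y] G') (k i j : Fin n) :
    Flow.christoffel v G k i j y = Flow.christoffel v G' k i j y := by
  have h1 : ∀ a b : Fin n, (fun z => G z a b) =ᶠ[𝓝 y] fun z => G' z a b := fun a b => by
    filter_upwards [h] with z hz
    rw [hz]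
  unfold Flow.christoffel
  rw [h.eq_of_nhds]
  congr 1
  refine Finset.sum_congr rfl (fun l _ => ?_)
  rw [pd_congr'' v (h1 j l), pd_congr'' v (h1 i l), pd_congr'' v (h1 i j)]

theorem ricci_congr (h : G =ᶠ[𝓝 y] G') (i j : Fin n) :
    Flow.ricci v G i j y = Flow.ricci v G' i j y := by
  have h1 : ∀ k a b : Fin n, Flow.christoffel v G k a b =ᶠ[𝓝 y] Flow.christoffel v G' k a b :=
    fun k a b => by
      filter_upwards [h.eventuallyEq_nhds] with z hz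
      exact christoffel_congr v hz k a b
  unfold Flow.ricci
  congr 1
  · refine Finset.sum_congr rfl (fun k _ => ?_)
    rw [pd_congr'' v (h1 k i j), pd_congr'' v (h1 k i k)]
  · refine Finset.sum_congr rfl (fun k _ => Finset.sum_congr rfl (fun l _ => ?_))
    rw [(h1 k k l).eq_of_nhds, (h1 l i j).eq_of_nhds, (h1 k j l).eq_of_nhds,
      (h1 l i k).eq_of_nhds]

end congr

variable {V : Type*} [NormedAddCommGroup V] [NormedSpace ℝ V] {n : ℕ}
  {M : Type*} [TopologicalSpace M] [ChartedSpace V M]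

/-- The product manifold structure of `M × S^1`. -/
@[reducible] noncomputable def pcharted (V M : Type*) [NormedAddCommGroup V] [NormedSpace ℝ V]
    [TopologicalSpace M] [ChartedSpace V M] : ChartedSpace (V × EE 1) (M × Sph 1) :=
  inferInstanceAs (ChartedSpace (ModelProd V (EE 1)) (M × Sph 1))

attribute [local instance] pcharted

theorem pmanifold [IsManifold 𝓘(ℝ, V) ∞ M] :
    IsManifold 𝓘(ℝ, V × EE 1) ∞ (M × Sph 1) := by
  have h : IsManifold (𝓘(ℝ, V).prod (𝓡 1)) ∞ (M × Sph 1) := by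
    have h2 : IsManifold (𝓡 1) ∞ (Sph 1) := IsManifold.of_le (n := ω) le_top
    exact IsManifold.prod _ _
  rw [← modelWithCornersSelf_prod] at h
  exact h

/-- derivative of the inclusion of the circle -/
noncomputable def dcirc (x : Sph 1) : EE 1 →L[ℝ] EE 2 :=
  mfderiv (𝓡 1) 𝓘(ℝ, EE 2) ((↑) : Sph 1 → EE 2) x

/-- The product metric `g + dθ^2` on `M × S^1`. -/
noncomputable def pform (g : Flow.Tensor V M) (x : M × Sph 1) :
    (V × EE 1) →L[ℝ] (V × EE 1) →L[ℝ] ℝ :=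
  (show V →L[ℝ] V →L[ℝ] ℝ from g x.1).bilinearComp (ContinuousLinearMap.fst ℝ V (EE 1))
    (ContinuousLinearMap.fst ℝ V (EE 1)) +
  (innerBil (EE 2)).bilinearComp ((dcirc x.2).comp (ContinuousLinearMap.snd ℝ V (EE 1)))
    ((dcirc x.2).comp (ContinuousLinearMap.snd ℝ V (EE 1)))

/-- The product metric as a tensor field. -/
noncomputable def ptens (g : Flow.Tensor V M) : Flow.Tensor (V × EE 1) (M × Sph 1) :=
  fun x => pform g x

theorem mem_patlas {e : OpenPartialHomeomorph (M × Sph 1) (V × EE 1)}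
    (he : e ∈ atlas (V × EE 1) (M × Sph 1)) : ∃ e1 ∈ atlas V M, ∃ s : Sph 1,
      e.target = e1.target ×ˢ univ ∧
      (∀ y : V × EE 1, e.symm y = (e1.symm y.1, (stereographic' 1 s).symm y.2)) := by
  obtain ⟨e1, h1, e2, ⟨s, rfl⟩, rfl⟩ := he
  refine ⟨e1, h1, s, ?_, fun y => rfl⟩
  change e1.target ×ˢ (stereographic' 1 s).target = _
  simp


theorem mdiff_symm' [IsManifold 𝓘(ℝ, V) ∞ M] {e1 : OpenPartialHomeomorph M V}
    (h1 : e1 ∈ atlas V M) {y : V} (hy : y ∈ e1.target) :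
    MDifferentiableAt 𝓘(ℝ, V) 𝓘(ℝ, V) e1.symm y := by
  have h2 : e1 ∈ IsManifold.maximalAtlas 𝓘(ℝ, V) ∞ M := IsManifold.subset_maximalAtlas h1
  have h3 := contMDiffOn_symm_of_mem_maximalAtlas h2
  exact (h3.contMDiffAt (e1.open_target.mem_nhds hy)).mdifferentiableAt (by simp)

theorem mdiff_circ (s : Sph 1) (y : EE 1) :
    MDifferentiableAt (𝓡 1) (𝓡 1) (stereographic' 1 s).symm y := by
  have h1 : stereographic' 1 s ∈ atlas (EE 1) (Sph 1) := ⟨s, rfl⟩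
  have h2 : stereographic' 1 s ∈ IsManifold.maximalAtlas (𝓡 1) ω (Sph 1) :=
    IsManifold.subset_maximalAtlas h1
  have h3 := contMDiffOn_symm_of_mem_maximalAtlas h2
  exact (h3.contMDiffAt ((stereographic' 1 s).open_target.mem_nhds
    (by simp))).mdifferentiableAt (by simp)

theorem mfderiv_psymm [IsManifold 𝓘(ℝ, V) ∞ M] {e1 : OpenPartialHomeomorph M V}
    (h1 : e1 ∈ atlas V M) {y : V × EE 1} (hy : y.1 ∈ e1.target) (s : Sph 1)
    {e : OpenPartialHomeomorph (M × Sph 1) (V × EE 1)}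
    (he : ∀ y : V × EE 1, e.symm y = (e1.symm y.1, (stereographic' 1 s).symm y.2))
    (u : V × EE 1) :
    mfderiv 𝓘(ℝ, V × EE 1) 𝓘(ℝ, V × EE 1) e.symm y u =
      ((mfderiv 𝓘(ℝ, V) 𝓘(ℝ, V) e1.symm y.1 u.1 : V),
        (mfderiv (𝓡 1) (𝓡 1) (stereographic' 1 s).symm y.2 u.2 : EE 1)) := by
  have h2 := mfderiv_prodMap (p := y) (mdiff_symm' h1 hy) (mdiff_circ s y.2)
  have h3 : (e.symm : V × EE 1 → M × Sph 1) = Prod.map e1.symm (stereographic' 1 s).symm := by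
    funext z; exact he z
  rw [h3]
  rw [← modelWithCornersSelf_prod, chartedSpaceSelf_prod] at h2
  have h4 := congrArg (fun L : (V × EE 1) →L[ℝ] (V × EE 1) => L u) h2
  exact h4


theorem dcirc_symm (s : Sph 1) (y w : EE 1) :
    dcirc ((stereographic' 1 s).symm y)
      (mfderiv (𝓡 1) (𝓡 1) (stereographic' 1 s).symm y w : EE 1) = fderiv ℝ (par s) y w := by
  have h0 : ContMDiff (𝓡 1) 𝓘(ℝ, EE 2) ∞ ((↑) : Sph 1 → EE 2) := contMDiff_coe_sphere
  have h1 : MDifferentiableAt (𝓡 1) 𝓘(ℝ, EE 2) ((↑) : Sph 1 → EE 2)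
      ((stereographic' 1 s).symm y) := h0.mdifferentiableAt (by simp)
  have h3 := mfderiv_comp y h1 (mdiff_circ s y)
  have h4 : ((↑) : Sph 1 → EE 2) ∘ (stereographic' 1 s).symm = par s := rfl
  rw [h4, mfderiv_eq_fderiv] at h3
  have h6 := congrArg (fun L : EE 1 →L[ℝ] EE 2 => L w) h3
  exact h6.symm

/-- value of a tensor, with the tangent space replaced by the model space -/
def gAt (g : Flow.Tensor V M) (x : M) : V →L[ℝ] V →L[ℝ] ℝ := g x

/-- derivative of the inverse chart -/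
noncomputable def dsym (e1 : OpenPartialHomeomorph M V) (y : V) : V →L[ℝ] V :=
  mfderiv 𝓘(ℝ, V) 𝓘(ℝ, V) e1.symm y

theorem comp_eq_gAt (v : Fin n → V) (g : Flow.Tensor V M) (e1 : OpenPartialHomeomorph M V)
    (y : V) (i j : Fin n) : Flow.comp v g e1 y i j =
      gAt g (e1.symm y) (dsym e1 y (v i)) (dsym e1 y (v j)) := rfl

theorem val_psymm [IsManifold 𝓘(ℝ, V) ∞ M] {e1 : OpenPartialHomeomorph M V}
    (h1 : e1 ∈ atlas V M) {y : V × EE 1} (hy : y.1 ∈ e1.target) (s : Sph 1)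
    {e : OpenPartialHomeomorph (M × Sph 1) (V × EE 1)}
    (he : ∀ y : V × EE 1, e.symm y = (e1.symm y.1, (stereographic' 1 s).symm y.2))
    (g : Flow.Tensor V M) (u w : V × EE 1) :
    gAt (ptens g) (e.symm y) (dsym e y u) (dsym e y w) =
    gAt g (e1.symm y.1) (dsym e1 y.1 u.1) (dsym e1 y.1 w.1) + rho y.2 ^ 2 * ⟪u.2, w.2⟫ := by
  have a1 := mfderiv_psymm h1 hy s he u
  have a2 := mfderiv_psymm h1 hy s he w
  have key : ∀ (x : M × Sph 1) (U W : V × EE 1),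
      x = (e1.symm y.1, (stereographic' 1 s).symm y.2) →
      U = (dsym e1 y.1 u.1,
        (mfderiv (𝓡 1) (𝓡 1) (stereographic' 1 s).symm y.2 u.2 : EE 1)) →
      W = (dsym e1 y.1 w.1,
        (mfderiv (𝓡 1) (𝓡 1) (stereographic' 1 s).symm y.2 w.2 : EE 1)) →
      gAt (ptens g) x U W = gAt g (e1.symm y.1) (dsym e1 y.1 u.1) (dsym e1 y.1 w.1) +
        rho y.2 ^ 2 * ⟪u.2, w.2⟫ := by
    rintro x U W rfl rfl rfl
    have b1 := (congrArg₂ (fun a b : EE 2 => ⟪a, b⟫) (dcirc_symm s y.2 u.2)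
      (dcirc_symm s y.2 w.2)).trans (GeoM.inner_fderiv_par s y.2 u.2 w.2)
    refine (congrArg (fun z => gAt g (e1.symm y.1) (dsym e1 y.1 u.1) (dsym e1 y.1 w.1) + z)
      b1)
  exact key _ _ _ (he y) a1 a2

/-- components of the product metric in a product chart -/
theorem comp_ptens [IsManifold 𝓘(ℝ, V) ∞ M] (v : Fin n → V) {e1 : OpenPartialHomeomorph M V}
    (h1 : e1 ∈ atlas V M) {y : V × EE 1} (hy : y.1 ∈ e1.target) (s : Sph 1)
    {e : OpenPartialHomeomorph (M × Sph 1) (V × EE 1)}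
    (he : ∀ y : V × EE 1, e.symm y = (e1.symm y.1, (stereographic' 1 s).symm y.2))
    (g : Flow.Tensor V M) : Flow.comp (pframe v) (ptens g) e y =
      Geo.blk (fun i j => Flow.comp v g e1 y.1 i j) (fun a b => rho y.2 ^ 2 * Geo.dl a b) := by
  ext I J
  rw [comp_eq_gAt, val_psymm h1 hy s he]
  refine Fin.addCases (fun i => ?_) (fun i => ?_) I <;>
  refine Fin.addCases (fun j => ?_) (fun j => ?_) J
  · rw [Geo.blk_ll, comp_eq_gAt]
    simp [pframe, Fin.addCases_left]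
  · rw [Geo.blk_lr]
    simp only [pframe, Fin.addCases_left, Fin.addCases_right, inner_zero_left, mul_zero,
      add_zero, map_zero]
  · rw [Geo.blk_rl]
    simp only [pframe, Fin.addCases_left, Fin.addCases_right, inner_zero_right, mul_zero,
      add_zero, map_zero]
    simp
  · rw [Geo.blk_rr]
    simp only [pframe, Fin.addCases_right, map_zero]
    obtain rfl : i = j := Subsingleton.elim _ _
    rw [GeoM.inner_e]
    simp [Geo.dl]


theorem chart_psymm (x : M × Sph 1) : ∃ s : Sph 1,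
    (chartAt (V × EE 1) x).target = (chartAt V x.1).target ×ˢ univ ∧
    (∀ y : V × EE 1, (chartAt (V × EE 1) x).symm y =
      ((chartAt V x.1).symm y.1, (stereographic' 1 s).symm y.2)) ∧
    ((chartAt (V × EE 1) x) x).1 = chartAt V x.1 x.1 := by
  refine ⟨-x.2, ?_, fun y => rfl, rfl⟩
  change (chartAt V x.1).target ×ˢ (stereographic' 1 (-x.2)).target = _
  simp

theorem exists_symm_eq' [IsManifold 𝓘(ℝ, V) ∞ M] (x : M) (w : V) :
    ∃ w' : V, dsym (chartAt V x) (chartAt V x x) w' = w := by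
  have h0 : IsManifold 𝓘(ℝ, V) 1 M := IsManifold.of_le (n := ∞) (by simp)
  have h1 := (mdifferentiable_chart (I := 𝓘(ℝ, V)) x).symm_comp_deriv
    (mem_chart_source V x)
  refine ⟨mfderiv 𝓘(ℝ, V) 𝓘(ℝ, V) (chartAt V x) x w, ?_⟩
  have h2 := congrArg (fun L => L w) h1
  exact h2

/-- positivity of the product metric -/
theorem ptens_pos [IsManifold 𝓘(ℝ, V) ∞ M] (g : Flow.Tensor V M)
    (hg : ∀ x w, w ≠ 0 → 0 < Flow.val g x w w) (x : M × Sph 1) (w : V × EE 1) (hw : w ≠ 0) :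
    0 < gAt (ptens g) x w w := by
  have hm := pmanifold (V := V) (M := M)
  obtain ⟨w', rfl⟩ := exists_symm_eq' x w
  obtain ⟨s, ht, hs, hx⟩ := chart_psymm (V := V) x
  have hmem : ((chartAt (V × EE 1) x) x).1 ∈ (chartAt V x.1).target := by
    rw [hx]; exact mem_chart_target V x.1
  have h1 := val_psymm (chart_mem_atlas V x.1) hmem s hs g w' w'
  have h2 := (chartAt (V × EE 1) x).left_inv (mem_chart_source (V × EE 1) x)
  rw [h2] at h1
  rw [h1]
  have hr : 0 < rho ((chartAt (V × EE 1) x) x).2 ^ 2 := by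
    unfold rho; positivity
  have h3 : 0 ≤ ⟪w'.2, w'.2⟫ := real_inner_self_nonneg
  have h4 : ∀ z : V, z ≠ 0 → 0 < gAt g ((chartAt V x.1).symm ((chartAt (V × EE 1) x) x).1) z z :=
    fun z hz => hg _ z hz
  have h5 : ∀ z : V, 0 ≤ gAt g ((chartAt V x.1).symm ((chartAt (V × EE 1) x) x).1) z z := by
    intro z
    rcases eq_or_ne z 0 with rfl | hz
    · simp
    · exact (h4 z hz).le
  by_cases h6 : w'.2 = 0
  · have h7 : dsym (chartAt V x.1) ((chartAt (V × EE 1) x) x).1 w'.1 ≠ 0 := by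
      intro h8
      apply hw
      have h9 := mfderiv_psymm (chart_mem_atlas V x.1) hmem s hs w'
      have h10 : dsym (chartAt (V × EE 1) x) ((chartAt (V × EE 1) x) x) w' =
        (dsym (chartAt V x.1) ((chartAt (V × EE 1) x) x).1 w'.1,
          (mfderiv (𝓡 1) (𝓡 1) (stereographic' 1 s).symm ((chartAt (V × EE 1) x) x).2 w'.2 : EE 1)) := h9
      rw [h10, h8, h6]
      exact Prod.ext rfl (map_zero _)
    have := h4 _ h7
    (clear * - this hr h3; positivity)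
  · have h7 : 0 < ⟪w'.2, w'.2⟫ := by
      rw [real_inner_self_eq_norm_sq]; positivity
    have := h5 (dsym (chartAt V x.1) ((chartAt (V × EE 1) x) x).1 w'.1)
    positivity


theorem dsym_injective [IsManifold 𝓘(ℝ, V) ∞ M] {e : OpenPartialHomeomorph M V}
    (he : e ∈ atlas V M) {y : V} (hy : y ∈ e.target) : Function.Injective (dsym e y) := by
  have h0 : IsManifold 𝓘(ℝ, V) 1 M := IsManifold.of_le (n := ∞) (by simp)
  have h1 := (mdifferentiable_of_mem_atlas (I := 𝓘(ℝ, V)) he).comp_symm_deriv hy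
  intro a b hab
  have h2 : ∀ z : V, (show V →L[ℝ] V from mfderiv 𝓘(ℝ, V) 𝓘(ℝ, V) e (e.symm y))
      (dsym e y z) = z := fun z => congrArg (fun L : V →L[ℝ] V => L z) h1
  rw [← h2 a, ← h2 b, hab]

/-- the components of a metric form an invertible matrix -/
theorem isUnit_comp [IsManifold 𝓘(ℝ, V) ∞ M] (v : Basis (Fin n) ℝ V) (g : Flow.Tensor V M)
    (hg : ∀ x w, w ≠ 0 → 0 < Flow.val g x w w) {e : OpenPartialHomeomorph M V}
    (he : e ∈ atlas V M) {y : V} (hy : y ∈ e.target) : IsUnit (Flow.comp v g e y).det := by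
  rw [isUnit_iff_ne_zero]
  intro hdet
  obtain ⟨x, hx, hAx⟩ := Matrix.exists_mulVec_eq_zero_iff.mpr hdet
  set z : V := ∑ i, x i • v i with hz
  have h1 : gAt g (e.symm y) (dsym e y z) (dsym e y z) = 0 := by
    have h2 : gAt g (e.symm y) (dsym e y z) (dsym e y z) =
        ∑ i, x i * (Matrix.mulVec (Flow.comp v g e y) x i) := by
      rw [hz]
      simp only [map_sum, map_smul, sum_apply, smul_apply,
        smul_eq_mul, Matrix.mulVec, dotProduct, comp_eq_gAt, Finset.mul_sum]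
      rw [Finset.sum_comm]
      refine Finset.sum_congr rfl (fun i _ => Finset.sum_congr rfl (fun j _ => ?_))
      ring
    rw [h2, hAx]
    simp
  have h3 : z ≠ 0 := by
    intro h4
    apply hx
    have h5 := (Fintype.linearIndependent_iff.mp v.linearIndependent) x h4
    funext i
    exact h5 i
  have h4 : dsym e y z ≠ 0 := by
    intro h5
    exact h3 (dsym_injective he hy (by rw [h5, map_zero]))
  have h5 : 0 < gAt g (e.symm y) (dsym e y z) (dsym e y z) := hg _ _ h4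
  rw [h1] at h5
  exact lt_irrefl _ h5

/-- the basis of the product -/
noncomputable def pbasis (v : Basis (Fin n) ℝ V) : Basis (Fin (n + 1)) ℝ (V × EE 1) :=
  (v.prod (EuclideanSpace.basisFun (Fin 1) ℝ).toBasis).reindex finSumFinEquiv

theorem pbasis_eq (v : Basis (Fin n) ℝ V) : (pbasis v : Fin (n + 1) → V × EE 1) = pframe v := by
  funext I
  refine Fin.addCases (fun i => ?_) (fun i => ?_) I
  · simp [pbasis, pframe]
  · simp [pbasis, pframe]


/-! ### product flow -/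

theorem slice_smooth {T : ℝ} {g : ℝ → Flow.Tensor V M} {v : Fin n → V}
    (h : Flow.IsRicciFlow v g T) {e : OpenPartialHomeomorph M V} (he : e ∈ atlas V M) {t : ℝ}
    (ht : t ∈ Ico 0 T) (i j : Fin n) :
    ContDiffOn ℝ ∞ (fun y => Flow.comp v (g t) e y i j) e.target := by
  have h1 := h.smooth e he i j
  have h2 : ContDiffOn ℝ ∞ (fun y : V => ((t, y) : ℝ × V)) e.target :=
    contDiffOn_const.prodMk contDiffOn_id
  exact h1.comp h2 (fun y hy => ⟨ht, hy⟩)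

theorem comp_event [IsManifold 𝓘(ℝ, V) ∞ M] (v : Fin n → V) {e1 : OpenPartialHomeomorph M V}
    (h1 : e1 ∈ atlas V M) {y : V × EE 1} (hy : y.1 ∈ e1.target) (s : Sph 1)
    {e : OpenPartialHomeomorph (M × Sph 1) (V × EE 1)}
    (he : ∀ y : V × EE 1, e.symm y = (e1.symm y.1, (stereographic' 1 s).symm y.2))
    (g : Flow.Tensor V M) :
    Flow.comp (pframe v) (ptens g) e =ᶠ[𝓝 y] pmet (Flow.comp v g e1) := by
  have h2 : e1.target ×ˢ (univ : Set (EE 1)) ∈ 𝓝 y :=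
    (e1.open_target.prod isOpen_univ).mem_nhds ⟨hy, trivial⟩
  filter_upwards [h2] with z hz
  exact comp_ptens v h1 hz.1 s he g

theorem pflow [IsManifold 𝓘(ℝ, V) ∞ M] (v : Basis (Fin n) ℝ V) {g : ℝ → Flow.Tensor V M} {T : ℝ}
    (h : Flow.IsRicciFlow v g T) :
    Flow.IsRicciFlow (pframe v) (fun t => ptens (g t)) T where
  symm t ht x u w := by
    have key : ∀ u w : V × EE 1, gAt (ptens (g t)) x u w = gAt (ptens (g t)) x w u := by
      intro u w
      have h1 : gAt (g t) x.1 u.1 w.1 = gAt (g t) x.1 w.1 u.1 := h.symm t ht x.1 u.1 w.1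
      have h2 := real_inner_comm (dcirc x.2 w.2) (dcirc x.2 u.2)
      exact congrArg₂ (fun a b : ℝ => a + b) h1 h2
    exact key u w
  pos t ht x w hw := ptens_pos (g t) (h.pos t ht) x w hw
  smooth e he I J := by
    obtain ⟨e1, h1, s, ht, hs⟩ := mem_patlas he
    have key : ∀ z ∈ Ico 0 T ×ˢ e.target, Flow.comp (pframe v) (ptens (g z.1)) e z.2 I J =
        Geo.blk (fun i j => Flow.comp v (g z.1) e1 z.2.1 i j)
          (fun a b => rho z.2.2 ^ 2 * Geo.dl a b) I J := by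
      intro z hz
      rw [ht] at hz
      rw [comp_ptens (v : Fin n → V) h1 hz.2.1 s hs (g z.1)]
    refine ContDiffOn.congr ?_ key
    rw [ht]
    refine Fin.addCases (fun i => ?_) (fun i => ?_) I <;>
    refine Fin.addCases (fun j => ?_) (fun j => ?_) J
    · simp only [Geo.blk_ll]
      have h2 := h.smooth e1 h1 i j
      have h3 : ContDiffOn ℝ ∞ (fun z : ℝ × (V × EE 1) => ((z.1, z.2.1) : ℝ × V))
          (Ico 0 T ×ˢ (e1.target ×ˢ univ)) := by fun_prop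
      exact h2.comp h3 (fun z hz => ⟨hz.1, hz.2.1⟩)
    · simp only [Geo.blk_lr]; exact contDiffOn_const
    · simp only [Geo.blk_rl]; exact contDiffOn_const
    · simp only [Geo.blk_rr]
      have h4 : ContDiff ℝ ∞ (fun z : ℝ × (V × EE 1) => rho z.2.2 ^ 2 * Geo.dl i j) := by
        unfold rho
        refine ContDiff.mul (ContDiff.pow (ContDiff.div contDiff_const ?_ ?_) 2) contDiff_const
        · exact ((contDiff_norm_sq ℝ).comp (contDiff_snd.comp contDiff_snd)).add contDiff_const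
        · intro z; positivity
      exact h4.contDiffOn
  flow e he y hy I J t ht := by
    obtain ⟨e1, h1, s, htg, hs⟩ := mem_patlas he
    rw [htg] at hy
    have key : ∀ r, Flow.comp (pframe v) (ptens (g r)) e y I J =
        Geo.blk (fun i j => Flow.comp v (g r) e1 y.1 i j)
          (fun a b => rho y.2 ^ 2 * Geo.dl a b) I J := by
      intro r
      rw [comp_ptens (v : Fin n → V) h1 hy.1 s hs (g r)]
    have hric : Flow.ricci (pframe v) (Flow.comp (pframe v) (ptens (g t)) e) I J y =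
        Geo.blk (fun i j => Flow.ricci v (Flow.comp v (g t) e1) i j y.1) (fun _ _ => 0) I J := by
      rw [ricci_congr (pframe v) (comp_event (v : Fin n → V) h1 hy.1 s hs (g t))]
      exact ricci_pmet e1.open_target (slice_smooth h h1 ht)
        (fun z hz => isUnit_comp v (g t) (h.pos t ht) h1 hz) hy.1 I J
    simp only [key]
    rw [hric]
    refine Fin.addCases (fun i => ?_) (fun i => ?_) I <;>
    refine Fin.addCases (fun j => ?_) (fun j => ?_) J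
    · simp only [Geo.blk_ll]
      exact h.flow e1 h1 y.1 hy.1 i j t ht
    · simp only [Geo.blk_lr, mul_zero]; exact hasDerivWithinAt_const _ _ _
    · simp only [Geo.blk_rl, mul_zero]; exact hasDerivWithinAt_const _ _ _
    · simp only [Geo.blk_rr, mul_zero]; exact hasDerivWithinAt_const _ _ _

theorem pscal [IsManifold 𝓘(ℝ, V) ∞ M] (v : Basis (Fin n) ℝ V) {g : ℝ → Flow.Tensor V M} {T : ℝ}
    (h : Flow.IsRicciFlow v g T) {t : ℝ} (ht : t ∈ Ico 0 T) (x : M × Sph 1) :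
    Flow.scalarCurvature (pframe v) (ptens (g t)) x = Flow.scalarCurvature v (g t) x.1 := by
  obtain ⟨s, htg, hs, hx⟩ := chart_psymm (V := V) x
  have hmem : ((chartAt (V × EE 1) x) x).1 ∈ (chartAt V x.1).target := by
    rw [hx]; exact mem_chart_target V x.1
  have h1 := comp_event (v : Fin n → V) (chart_mem_atlas V x.1) hmem s hs (g t)
  have h2 := scal_pmet (v := v) (chartAt V x.1).open_target (slice_smooth h (chart_mem_atlas V x.1) ht)
        (fun z hz => isUnit_comp v (g t) (h.pos t ht) (chart_mem_atlas V x.1) hz) hmem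
  unfold Flow.scalarCurvature
  rw [h1.eq_of_nhds]
  simp only [ricci_congr (pframe v) h1]
  rw [h2, hx]


/-- If a component of the metric has infimum `0` the flow does not extend. -/
theorem not_extends_of_degenerate [IsManifold 𝓘(ℝ, V) ∞ M] (v : Basis (Fin n) ℝ V)
    {g : ℝ → Flow.Tensor V M} {T : ℝ} (hT : 0 < T)
    (hd : ∃ e ∈ atlas V M, ∃ y ∈ e.target, ∃ i : Fin n, ∀ δ > 0, ∃ t ∈ Ico 0 T,
      Flow.comp v (g t) e y i i < δ) : ¬ Flow.ExtendsPast v g T := by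
  rintro ⟨ε, hε, g', hg', hext⟩
  obtain ⟨e, he, y, hy, i, hd⟩ := hd
  have hcont : ContinuousOn (fun t : ℝ => Flow.comp v (g' t) e y i i) (Icc 0 T) := by
    have h1 := (hg'.smooth e he i i).continuousOn
    have h2 : ContinuousOn (fun t : ℝ => (t, y)) (Icc 0 T) := by fun_prop
    refine h1.comp h2 ?_
    intro t ht'
    exact ⟨⟨ht'.1, by have := ht'.2; linarith only [hε, this]⟩, hy⟩
  have hpos : ∀ t ∈ Icc 0 T, 0 < Flow.comp v (g' t) e y i i := by
    intro t ht'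
    refine hg'.pos t ⟨ht'.1, by have := ht'.2; linarith⟩ _ _ ?_
    intro h0
    have h1 : dsym e y (v i) = dsym e y 0 := Eq.trans h0 (map_zero _).symm
    exact v.ne_zero i (dsym_injective he hy h1)
  obtain ⟨t0, ht0, hmin⟩ := (isCompact_Icc (a := (0 : ℝ)) (b := T)).exists_isMinOn
    (nonempty_Icc.mpr hT.le) hcont
  obtain ⟨t, ht', hlt⟩ := hd _ (hpos t0 ht0)
  have h1 : Flow.comp v (g' t0) e y i i ≤ Flow.comp v (g' t) e y i i :=
    hmin (show t ∈ Icc 0 T from ⟨ht'.1, ht'.2.le⟩)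
  rw [hext t ht'] at h1
  exact absurd h1 (not_le.mpr hlt)

end Vale.Agent.P244.GeoP
end

section

/-!
# P244-ST block L, a priori estimates: calculus on `[0,T) × [-1,1]`
-/

open Set
open scoped ContDiff Topology

namespace Vale.Agent.P244.ST.Apr

/-- Jointly smooth functions on `[0,T) × [-1,1]`. -/
def Sm (T : ℝ) (h : ℝ → ℝ → ℝ) : Prop :=
  ContDiffOn ℝ ∞ (fun z : ℝ × ℝ => h z.1 z.2) (Ico 0 T ×ˢ Icc (-1) 1)

/-- Smooth functions on `[-1,1]`. -/
def Sx (h : ℝ → ℝ) : Prop := ContDiffOn ℝ ∞ h (Icc (-1) 1)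

lemma uI : UniqueDiffOn ℝ (Icc (-1 : ℝ) 1) := uniqueDiffOn_Icc (by norm_num)

lemma uS (T : ℝ) : UniqueDiffOn ℝ (Ico 0 T ×ˢ Icc (-1 : ℝ) 1) :=
  (uniqueDiffOn_Ico 0 T).prod uI

lemma Sx.dx {h : ℝ → ℝ} (hh : Sx h) : Sx (dx h) :=
  hh.derivWithin uI (by norm_cast)

lemma Sx.cont {h : ℝ → ℝ} (hh : Sx h) : ContinuousOn h (Icc (-1) 1) := hh.continuousOn

lemma Sx.hasDeriv {h : ℝ → ℝ} (hh : Sx h) {x : ℝ} (hx : x ∈ Icc (-1 : ℝ) 1) :
    HasDerivWithinAt h (ST.dx h x) (Icc (-1) 1) x :=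
  ((hh.differentiableOn (by norm_cast)) x hx).hasDerivWithinAt

lemma Sx.add {f g : ℝ → ℝ} (hf : Sx f) (hg : Sx g) : Sx (fun x => f x + g x) :=
  ContDiffOn.add hf hg
lemma Sx.mul {f g : ℝ → ℝ} (hf : Sx f) (hg : Sx g) : Sx (fun x => f x * g x) :=
  ContDiffOn.mul hf hg
lemma Sx.const (c : ℝ) : Sx (fun _ => c) := contDiffOn_const
lemma Sx.id : Sx (fun x => x) := contDiffOn_id
lemma Sx.exp {f : ℝ → ℝ} (hf : Sx f) : Sx (fun x => Real.exp (f x)) :=
  ContDiffOn.exp hf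
lemma Sx.congr {f g : ℝ → ℝ} (hf : Sx f) (h : ∀ x ∈ Icc (-1 : ℝ) 1, g x = f x) : Sx g :=
  ContDiffOn.congr hf h

lemma dx_of {h : ℝ → ℝ} {h' x : ℝ} (hx : x ∈ Icc (-1 : ℝ) 1)
    (H : HasDerivWithinAt h h' (Icc (-1) 1) x) : ST.dx h x = h' := H.derivWithin (uI x hx)

lemma dx_congr {f g : ℝ → ℝ} (h : ∀ x ∈ Icc (-1 : ℝ) 1, f x = g x) {x : ℝ}
    (hx : x ∈ Icc (-1 : ℝ) 1) : ST.dx f x = ST.dx g x :=
  derivWithin_congr h (h x hx)

lemma slice {T : ℝ} {h : ℝ → ℝ → ℝ} (hh : Sm T h) {t : ℝ} (ht : t ∈ Ico 0 T) : Sx (h t) := by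
  have h1 : ContDiffOn ℝ ∞ (fun y : ℝ => ((t, y) : ℝ × ℝ)) (Icc (-1) 1) :=
    contDiffOn_const.prodMk contDiffOn_id
  have := ContDiffOn.comp (g := fun z : ℝ × ℝ => h z.1 z.2) hh h1 (fun y hy => ⟨ht, hy⟩)
  exact this

section
variable {T : ℝ} {h : ℝ → ℝ → ℝ}

lemma sm_fd (hh : Sm T h) {t x : ℝ} (ht : t ∈ Ico 0 T) (hx : x ∈ Icc (-1 : ℝ) 1) :
    HasFDerivWithinAt (fun z : ℝ × ℝ => h z.1 z.2)
      (fderivWithin ℝ (fun z : ℝ × ℝ => h z.1 z.2) (Ico 0 T ×ˢ Icc (-1) 1) (t, x))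
      (Ico 0 T ×ˢ Icc (-1) 1) (t, x) :=
  ((ContDiffOn.differentiableOn hh (by norm_cast)) (t, x) ⟨ht, hx⟩).hasFDerivWithinAt

/-- `x`-slice derivative of a vector valued function differentiable on the strip. -/
lemma fd_x {E : Type*} [NormedAddCommGroup E] [NormedSpace ℝ E] {H : ℝ × ℝ → E}
    {H' : ℝ × ℝ →L[ℝ] E} {t x : ℝ} (ht : t ∈ Ico 0 T)
    (hH : HasFDerivWithinAt H H' (Ico 0 T ×ˢ Icc (-1) 1) (t, x)) :
    HasDerivWithinAt (fun y => H (t, y)) (H' (0, 1)) (Icc (-1) 1) x := by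
  have h1 : HasDerivWithinAt (fun y : ℝ => ((t, y) : ℝ × ℝ)) (0, 1) (Icc (-1) 1) x :=
    (hasDerivWithinAt_const x _ t).prodMk (hasDerivWithinAt_id x _)
  have h2 : MapsTo (fun y : ℝ => ((t, y) : ℝ × ℝ)) (Icc (-1) 1) (Ico 0 T ×ˢ Icc (-1) 1) :=
    fun y hy => ⟨ht, hy⟩
  exact hH.comp_hasDerivWithinAt x h1 h2

lemma fd_t {E : Type*} [NormedAddCommGroup E] [NormedSpace ℝ E] {H : ℝ × ℝ → E}
    {H' : ℝ × ℝ →L[ℝ] E} {t x : ℝ} (hx : x ∈ Icc (-1 : ℝ) 1)
    (hH : HasFDerivWithinAt H H' (Ico 0 T ×ˢ Icc (-1) 1) (t, x)) :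
    HasDerivWithinAt (fun s => H (s, x)) (H' (1, 0)) (Ico 0 T) t := by
  have h1 : HasDerivWithinAt (fun s : ℝ => ((s, x) : ℝ × ℝ)) (1, 0) (Ico 0 T) t :=
    (hasDerivWithinAt_id t _).prodMk (hasDerivWithinAt_const t _ x)
  have h2 : MapsTo (fun s : ℝ => ((s, x) : ℝ × ℝ)) (Ico 0 T) (Ico 0 T ×ˢ Icc (-1) 1) :=
    fun y hy => ⟨hy, hx⟩
  exact hH.comp_hasDerivWithinAt t h1 h2

lemma sm_dx_eq (hh : Sm T h) {t x : ℝ} (ht : t ∈ Ico 0 T) (hx : x ∈ Icc (-1 : ℝ) 1) :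
    dx (h t) x =
      fderivWithin ℝ (fun z : ℝ × ℝ => h z.1 z.2) (Ico 0 T ×ˢ Icc (-1) 1) (t, x) (0, 1) :=
  dx_of hx (fd_x ht (sm_fd hh ht hx))

lemma sm_dt (hh : Sm T h) {t x : ℝ} (ht : t ∈ Ico 0 T) (hx : x ∈ Icc (-1 : ℝ) 1) :
    HasDerivWithinAt (fun s => h s x)
      (fderivWithin ℝ (fun z : ℝ × ℝ => h z.1 z.2) (Ico 0 T ×ˢ Icc (-1) 1) (t, x) (1, 0))
      (Ico 0 T) t :=
  fd_t hx (sm_fd hh ht hx)

lemma sm_fderiv (hh : Sm T h) :
    ContDiffOn ℝ ∞ (fderivWithin ℝ (fun z : ℝ × ℝ => h z.1 z.2) (Ico 0 T ×ˢ Icc (-1) 1))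
      (Ico 0 T ×ˢ Icc (-1) 1) :=
  ContDiffOn.fderivWithin hh (uS T) (by norm_cast)

lemma sm_dx (hh : Sm T h) : Sm T (fun t x => dx (h t) x) := by
  have h1 : ContDiffOn ℝ ∞ (fun z : ℝ × ℝ =>
      fderivWithin ℝ (fun z : ℝ × ℝ => h z.1 z.2) (Ico 0 T ×ˢ Icc (-1) 1) z (0, 1))
      (Ico 0 T ×ˢ Icc (-1) 1) := (sm_fderiv hh).clm_apply contDiffOn_const
  exact h1.congr (fun z hz => sm_dx_eq hh hz.1 hz.2)

lemma sm_congr {k : ℝ → ℝ → ℝ} (hh : Sm T h)
    (hk : ∀ t ∈ Ico 0 T, ∀ x ∈ Icc (-1 : ℝ) 1, k t x = h t x) : Sm T k :=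
  ContDiffOn.congr hh (fun z hz => hk z.1 hz.1 z.2 hz.2)

lemma mem_cl_int {z : ℝ × ℝ} (hz : z ∈ Ico 0 T ×ˢ Icc (-1 : ℝ) 1) :
    z ∈ closure (interior (Ico 0 T ×ˢ Icc (-1 : ℝ) 1)) := by
  have hT : (0 : ℝ) ≠ T := (lt_of_le_of_lt hz.1.1 hz.1.2).ne
  rw [interior_prod_eq, interior_Ico, interior_Icc, closure_prod_eq, closure_Ioo hT,
    closure_Ioo (by norm_num)]
  exact ⟨⟨hz.1.1, hz.1.2.le⟩, hz.2⟩

/-- commutation of the derivatives -/
lemma comm {k : ℝ → ℝ → ℝ} (hh : Sm T h)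
    (hk : ∀ t ∈ Ico 0 T, ∀ x ∈ Icc (-1 : ℝ) 1,
      HasDerivWithinAt (fun s => h s x) (k t x) (Ico 0 T) t) {t x : ℝ} (ht : t ∈ Ico 0 T)
    (hx : x ∈ Icc (-1 : ℝ) 1) :
    HasDerivWithinAt (fun s => dx (h s) x) (dx (k t) x) (Ico 0 T) t := by
  set S : Set (ℝ × ℝ) := Ico 0 T ×ˢ Icc (-1) 1 with hS
  set H : ℝ × ℝ → ℝ := fun z => h z.1 z.2 with hH
  have hz : ((t, x) : ℝ × ℝ) ∈ S := ⟨ht, hx⟩
  have h2 : HasFDerivWithinAt (fderivWithin ℝ H S) (fderivWithin ℝ (fderivWithin ℝ H S) S (t, x))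
      S (t, x) := ((sm_fderiv hh).differentiableOn (by norm_cast) (t, x) hz).hasFDerivWithinAt
  have hsym : IsSymmSndFDerivWithinAt ℝ H S (t, x) :=
    ContDiffWithinAt.isSymmSndFDerivWithinAt (n := ∞) (hh (t, x) hz) (by simp; norm_cast)
      (uS T) (mem_cl_int hz) hz
  have e1 : dx (k t) x = fderivWithin ℝ (fderivWithin ℝ H S) S (t, x) (0, 1) (1, 0) := by
    have h3 : HasDerivWithinAt (fun y => fderivWithin ℝ H S (t, y) (1, 0))
        (fderivWithin ℝ (fderivWithin ℝ H S) S (t, x) (0, 1) (1, 0)) (Icc (-1) 1) x := by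
      have := (fd_x ht h2)
      have h4 := this.clm_apply (hasDerivWithinAt_const x (Icc (-1 : ℝ) 1) ((1, 0) : ℝ × ℝ))
      simpa using h4
    rw [← dx_of hx h3]
    exact dx_congr (fun y hy => (uniqueDiffOn_Ico 0 T t ht).eq_deriv _ (hk t ht y hy)
      (sm_dt hh ht hy)) hx
  have h5 : HasDerivWithinAt (fun s => fderivWithin ℝ H S (s, x) (0, 1))
      (fderivWithin ℝ (fderivWithin ℝ H S) S (t, x) (1, 0) (0, 1)) (Ico 0 T) t := by
    have := (fd_t hx h2)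
    have h4 := this.clm_apply (hasDerivWithinAt_const t (Ico 0 T) ((0, 1) : ℝ × ℝ))
    simpa using h4
  rw [e1, hsym (0, 1) (1, 0)]
  exact h5.congr (fun s hs => sm_dx_eq hh hs hx) (sm_dx_eq hh ht hx)

end

/-- iterated `x`-derivative -/
noncomputable def Dn (j : ℕ) (h : ℝ → ℝ) : ℝ → ℝ := dx^[j] h

@[simp] lemma Dn_zero (h : ℝ → ℝ) : Dn 0 h = h := rfl

lemma Dn_succ (j : ℕ) (h : ℝ → ℝ) : Dn (j + 1) h = dx (Dn j h) := by
  unfold Dn; exact Function.iterate_succ_apply' _ _ _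

lemma sm_Dn {T : ℝ} {h : ℝ → ℝ → ℝ} (hh : Sm T h) (j : ℕ) : Sm T (fun t x => Dn j (h t) x) := by
  induction j with
  | zero => exact hh
  | succ j ih =>
    have := sm_dx ih
    exact sm_congr this (fun t _ x _ => by rw [Dn_succ])

lemma Sx.Dn {h : ℝ → ℝ} (hh : Sx h) (j : ℕ) : Sx (Dn j h) := by
  induction j with
  | zero => exact hh
  | succ j ih => rw [Dn_succ]; exact ih.dx

lemma comm_Dn {T : ℝ} {h k : ℝ → ℝ → ℝ} (hh : Sm T h)
    (hk : ∀ t ∈ Ico 0 T, ∀ x ∈ Icc (-1 : ℝ) 1,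
      HasDerivWithinAt (fun s => h s x) (k t x) (Ico 0 T) t) (j : ℕ) :
    ∀ t ∈ Ico 0 T, ∀ x ∈ Icc (-1 : ℝ) 1,
      HasDerivWithinAt (fun s => Dn j (h s) x) (Dn j (k t) x) (Ico 0 T) t := by
  induction j with
  | zero => exact hk
  | succ j ih =>
    intro t ht x hx
    have := comm (sm_Dn hh j) (k := fun t x => Dn j (k t) x) ih ht hx
    simp only [Dn_succ]
    exact this

end Vale.Agent.P244.ST.Apr
end

section

/-!
# P244-ST block L, a priori estimates: the maximum principle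
-/

open Set Filter
open scoped ContDiff Topology

namespace Vale.Agent.P244.ST.Apr

/-- Laplacian with a real dimension parameter. -/
noncomputable def lapR (e : ℝ) (h : ℝ → ℝ) (x : ℝ) : ℝ :=
  (1 - x ^ 2) * dx (dx h) x - e * x * dx h x

lemma deriv_nonneg_of_max_left {k : ℝ → ℝ} {k' t : ℝ} {s : Set ℝ}
    (hk : HasDerivWithinAt k k' s t) {t0 : ℝ} (h0 : t0 < t) (hs : Ico t0 t ⊆ s)
    (hmax : ∀ r ∈ Ico t0 t, k r ≤ k t) : 0 ≤ k' := by
  have h1 : HasDerivWithinAt k k' (Ico t0 t) t := hk.mono hs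
  rw [hasDerivWithinAt_iff_tendsto_slope' (by simp)] at h1
  have : (𝓝[Ico t0 t] t).NeBot := by
    rw [← mem_closure_iff_nhdsWithin_neBot, closure_Ico h0.ne]
    exact ⟨h0.le, le_rfl⟩
  refine ge_of_tendsto h1 ?_
  filter_upwards [self_mem_nhdsWithin] with r hr
  rw [slope_def_field]
  exact div_nonneg_of_nonpos (by linarith only [hmax, hr, hmax r hr]) (by linarith only [hr, hr.2])

lemma deriv_nonpos_of_max_right {k : ℝ → ℝ} {k' t : ℝ} {s : Set ℝ}
    (hk : HasDerivWithinAt k k' s t) {t0 : ℝ} (h0 : t < t0) (hs : Ioc t t0 ⊆ s)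
    (hmax : ∀ r ∈ Ioc t t0, k r ≤ k t) : k' ≤ 0 := by
  have h1 : HasDerivWithinAt k k' (Ioc t t0) t := hk.mono hs
  rw [hasDerivWithinAt_iff_tendsto_slope' (by simp)] at h1
  have : (𝓝[Ioc t t0] t).NeBot := by
    rw [← mem_closure_iff_nhdsWithin_neBot, closure_Ioc h0.ne]
    exact ⟨le_rfl, h0.le⟩
  refine le_of_tendsto h1 ?_
  filter_upwards [self_mem_nhdsWithin] with r hr
  rw [slope_def_field]
  exact div_nonpos_of_nonpos_of_nonneg (by linarith only [hmax, hr, hmax r hr]) (by linarith only [hr, hr.1])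

/-- spatial maximum on `[-1,1]` -/
theorem spatial {h : ℝ → ℝ} (hh : Sx h) {x : ℝ} (hx : x ∈ Icc (-1 : ℝ) 1)
    (hmax : ∀ y ∈ Icc (-1 : ℝ) 1, h y ≤ h x) {e : ℝ} (he : 0 ≤ e) :
    lapR e h x ≤ 0 ∧ (1 - x ^ 2) * dx h x = 0 := by
  have hd := hh.hasDeriv hx
  rcases eq_or_lt_of_le hx.1 with h1 | h1
  · -- x = -1
    subst h1
    have hle : dx h (-1) ≤ 0 := deriv_nonpos_of_max_right hd (t0 := 1) (by norm_num)
      (fun r hr => ⟨hr.1.le, hr.2⟩) (fun r hr => hmax r ⟨hr.1.le, hr.2⟩)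
    refine ⟨?_, by norm_num⟩
    unfold lapR
    linarith only [mul_nonneg (sub_nonneg.2 he) (sub_nonneg.2 hle)]
  rcases eq_or_lt_of_le hx.2 with h2 | h2
  · subst h2
    have hle : 0 ≤ dx h 1 := deriv_nonneg_of_max_left hd (t0 := -1) (by norm_num)
      (fun r hr => ⟨hr.1, hr.2.le⟩) (fun r hr => hmax r ⟨hr.1, hr.2.le⟩)
    refine ⟨?_, by norm_num⟩
    unfold lapR
    linarith only [mul_nonneg (sub_nonneg.2 he) (sub_nonneg.2 hle)]
  · have hle : dx h x ≤ 0 := deriv_nonpos_of_max_right hd (t0 := 1) h2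
      (fun r hr => ⟨h1.le.trans hr.1.le, hr.2⟩) (fun r hr => hmax r ⟨h1.le.trans hr.1.le, hr.2⟩)
    have hge : 0 ≤ dx h x := deriv_nonneg_of_max_left hd (t0 := -1) h1
      (fun r hr => ⟨hr.1, hr.2.le.trans h2.le⟩) (fun r hr => hmax r ⟨hr.1, hr.2.le.trans h2.le⟩)
    have h0 : dx h x = 0 := le_antisymm hle hge
    have hsec : dx (dx h) x ≤ 0 := by
      by_contra hcon
      push Not at hcon
      -- then `dx h > 0` right of `x`, so `h` increases
      have hdd := (hh.dx).hasDeriv hx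
      have h3 : HasDerivWithinAt (dx h) (dx (dx h) x) (Ioc x 1) x :=
        hdd.mono (fun r hr => ⟨h1.le.trans hr.1.le, hr.2⟩)
      rw [hasDerivWithinAt_iff_tendsto_slope' (by simp)] at h3
      have h4 : ∀ᶠ r in 𝓝[Ioc x 1] x, 0 < slope (dx h) x r := h3.eventually (lt_mem_nhds hcon)
      rw [eventually_nhdsWithin_iff, Metric.eventually_nhds_iff] at h4
      obtain ⟨δ, hδ, h4⟩ := h4
      set y := min 1 (x + δ / 2) with hy
      have hxy : x < y := lt_min h2 (by linarith only [hδ])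
      have hpos : ∀ r ∈ Ioo x y, 0 < dx h r := by
        intro r hr
        have hr1 : r ≤ 1 := hr.2.le.trans (min_le_left _ _)
        have hr2 : r < x + δ / 2 := hr.2.trans_le (min_le_right _ _)
        have := h4 (y := r) (by rw [Real.dist_eq, abs_of_pos (by linarith only [hr, hr.1])]; linarith only [hδ, hr2])
          ⟨hr.1, hr1⟩
        rw [slope_def_field, h0, sub_zero] at this
        have hrx : 0 < r - x := by linarith only [hr, hr.1]
        exact (div_pos_iff_of_pos_right hrx).1 this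
      have hcont : ContinuousOn h (Icc x y) := hh.cont.mono
        (fun r hr => ⟨h1.le.trans hr.1, hr.2.trans (min_le_left _ _)⟩)
      have hmono : StrictMonoOn h (Icc x y) := by
        apply strictMonoOn_of_deriv_pos (convex_Icc x y) hcont
        intro r hr
        rw [interior_Icc] at hr
        have hr1 : r < 1 := hr.2.trans_le (min_le_left _ _)
        have hrI : Icc (-1 : ℝ) 1 ∈ 𝓝 r := Icc_mem_nhds (h1.trans hr.1) hr1
        have : deriv h r = dx h r := (derivWithin_of_mem_nhds hrI).symm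
        rw [this]
        exact hpos r hr
      have := hmono ⟨le_rfl, hxy.le⟩ ⟨hxy.le, le_rfl⟩ hxy
      have := hmax y ⟨h1.le.trans hxy.le, min_le_left _ _⟩
      linarith
    refine ⟨?_, by rw [h0, mul_zero]⟩
    unfold lapR
    rw [h0, mul_zero, sub_zero]
    have : 0 ≤ 1 - x ^ 2 := by (by_contra nlg; linarith only [mul_pos (sub_pos.2 (not_le.1 nlg)) (sub_pos.2 h1), mul_pos (sub_pos.2 (not_le.1 nlg)) (sub_pos.2 h2), mul_pos (sub_pos.2 h1) (sub_pos.2 h2)])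
    exact mul_nonpos_of_nonneg_of_nonpos this hsec

/-- MAXIMUM PRINCIPLE for a finite family: if at every common maximum (over the index and `x`)
with nonnegative value the time derivative is at most `C(1+h)`, then `h` is bounded. -/
theorem maxp {ι : Type*} [Finite ι] {T C M₀ : ℝ} (h ht : ι → ℝ → ℝ → ℝ)
    (hcont : ∀ i, ContinuousOn (fun z : ℝ × ℝ => h i z.1 z.2) (Ico 0 T ×ˢ Icc (-1) 1))
    (hder : ∀ i, ∀ t ∈ Ico 0 T, ∀ x ∈ Icc (-1 : ℝ) 1,
      HasDerivWithinAt (fun s => h i s x) (ht i t x) (Ico 0 T) t)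
    (hC : 0 ≤ C) (hM : 0 ≤ M₀) (h0 : ∀ i, ∀ x ∈ Icc (-1 : ℝ) 1, h i 0 x ≤ M₀)
    (hineq : ∀ i, ∀ t ∈ Ico 0 T, ∀ x ∈ Icc (-1 : ℝ) 1,
      (∀ j, ∀ y ∈ Icc (-1 : ℝ) 1, h j t y ≤ h i t x) → 0 ≤ h i t x →
        ht i t x ≤ C * (1 + h i t x)) :
    ∀ i, ∀ t ∈ Ico 0 T, ∀ x ∈ Icc (-1 : ℝ) 1,
      1 + h i t x ≤ (1 + M₀) * Real.exp ((C + 1) * t) := by
  intro i₁ t₁ ht₁ x₁ hx₁
  by_contra hcon
  push Not at hcon
  have hne : (Icc (0 : ℝ) t₁ ×ˢ Icc (-1 : ℝ) 1).Nonempty := ⟨(0, 0), ⟨le_rfl, ht₁.1⟩, by norm_num,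
    by norm_num⟩
  have hcomp : IsCompact (Icc (0 : ℝ) t₁ ×ˢ Icc (-1 : ℝ) 1) := isCompact_Icc.prod isCompact_Icc
  have hsub : Icc (0 : ℝ) t₁ ×ˢ Icc (-1 : ℝ) 1 ⊆ Ico 0 T ×ˢ Icc (-1) 1 :=
    prod_mono (fun s hs => ⟨hs.1, hs.2.trans_lt ht₁.2⟩) subset_rfl
  set k : ι → ℝ × ℝ → ℝ := fun i z => (1 + h i z.1 z.2) * Real.exp (-((C + 1) * z.1)) with hk
  have kcont : ∀ i, ContinuousOn (k i) (Icc (0 : ℝ) t₁ ×ˢ Icc (-1 : ℝ) 1) := by
    intro i
    exact (continuousOn_const.add ((hcont i).mono hsub)).mul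
      (by fun_prop)
  have hex : ∀ i, ∃ z ∈ Icc (0 : ℝ) t₁ ×ˢ Icc (-1 : ℝ) 1,
      IsMaxOn (k i) (Icc (0 : ℝ) t₁ ×ˢ Icc (-1 : ℝ) 1) z :=
    fun i => hcomp.exists_isMaxOn hne (kcont i)
  choose z hz hzm using hex
  have : Nonempty ι := ⟨i₁⟩
  obtain ⟨i, hi⟩ := Finite.exists_max (fun i => k i (z i))
  -- the common maximum
  have hall : ∀ j, ∀ y ∈ Icc (0 : ℝ) t₁ ×ˢ Icc (-1 : ℝ) 1, k j y ≤ k i (z i) :=
    fun j y hy => ((hzm j) hy).trans (hi j)
  obtain ⟨⟨ts, xs⟩, hts⟩ : ∃ q, q = z i := ⟨_, rfl⟩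
  have hzi := hz i
  rw [← hts] at hall hzi
  have hbig : 1 + M₀ < k i (ts, xs) := by
    have h2 := hall i₁ (t₁, x₁) ⟨⟨ht₁.1, le_rfl⟩, hx₁⟩
    have h3 : 1 + M₀ < k i₁ (t₁, x₁) := by
      simp only [hk]
      rw [Real.exp_neg, ← div_eq_mul_inv, lt_div_iff₀ (Real.exp_pos _)]
      exact hcon
    linarith only [h2, h3]
  have htspos : 0 < ts := by
    rcases eq_or_lt_of_le hzi.1.1 with h2 | h2
    · exfalso
      rw [show ts = 0 from h2.symm] at hbig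
      simp only [hk, mul_zero, neg_zero, Real.exp_zero, mul_one] at hbig
      have := h0 i xs hzi.2
      linarith only [hbig, this]
    · exact h2
  have htsT : ts ∈ Ico 0 T := ⟨htspos.le, (hzi.1.2).trans_lt ht₁.2⟩
  have hexp := Real.exp_pos (-((C + 1) * ts))
  have hmaxt : ∀ j, ∀ y ∈ Icc (-1 : ℝ) 1, h j ts y ≤ h i ts xs := by
    intro j y hy
    have h2 := hall j (ts, y) ⟨hzi.1, hy⟩
    simp only [hk] at h2
    have := le_of_mul_le_mul_right h2 hexp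
    linarith only [this]
  have hpos : 0 ≤ h i ts xs := by
    have h5 : 1 ≤ Real.exp ((C + 1) * ts) := Real.one_le_exp (by positivity)
    simp only [hk] at hbig
    rw [Real.exp_neg, ← div_eq_mul_inv, lt_div_iff₀ (Real.exp_pos _)] at hbig
    linarith only [mul_nonneg (sub_nonneg.2 hM) (sub_nonneg.2 h5), hbig, h5, hM]
  have hle := hineq i ts htsT xs hzi.2 hmaxt hpos
  have hd : HasDerivWithinAt (fun s => k i (s, xs))
      (ht i ts xs * Real.exp (-((C + 1) * ts)) +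
        (1 + h i ts xs) * (Real.exp (-((C + 1) * ts)) * (-((C + 1) * 1)))) (Ico 0 T) ts := by
    have e1 : HasDerivWithinAt (fun s : ℝ => 1 + h i s xs) (ht i ts xs) (Ico 0 T) ts := by
      simpa using (hder i ts htsT xs hzi.2).const_add 1
    have e2 : HasDerivWithinAt (fun s : ℝ => Real.exp (-((C + 1) * s)))
        (Real.exp (-((C + 1) * ts)) * (-((C + 1) * 1))) (Ico 0 T) ts :=
      (((hasDerivWithinAt_id ts _).const_mul (C + 1)).neg).exp
    exact e1.mul e2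
  have hge := deriv_nonneg_of_max_left hd (t0 := 0) htspos
    (fun r hr => ⟨hr.1, hr.2.trans htsT.2⟩)
    (fun r hr => hall i (r, xs) ⟨⟨hr.1, hr.2.le.trans hzi.1.2⟩, hzi.2⟩)
  have : (ht i ts xs - (C + 1) * (1 + h i ts xs)) * Real.exp (-((C + 1) * ts)) < 0 :=
    mul_neg_of_neg_of_pos (by linarith only [hpos, hle]) hexp
  linarith only [this, hge]

end Vale.Agent.P244.ST.Apr
end

section

/-!
# P244-ST block L, a priori estimates: the algebra of differential polynomials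
-/

open Set Filter
open scoped ContDiff Topology

namespace Vale.Agent.P244.ST.Apr

noncomputable section

def gX : ℝ → ℝ → ℝ := fun _ x => x
def gA (w : ℝ → ℝ → ℝ) : ℝ → ℝ → ℝ := fun t x => Real.exp (-2 * w t x)
def gJ (p : ℕ) (w f : ℝ → ℝ → ℝ) : ℝ → ℝ → ℝ := fun t x => Jf p (w t) (f t) x
def U (h : ℝ → ℝ → ℝ) (j : ℕ) : ℝ → ℝ → ℝ := fun t x => Dn j (h t) x
def cst (c : ℝ) : ℝ → ℝ → ℝ := fun _ _ => c

/-- generators -/
def gens (p : ℕ) (w f : ℝ → ℝ → ℝ) (j : ℕ) : Set (ℝ → ℝ → ℝ) :=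
  {q | q = gX ∨ q = gA w ∨ q = gA f ∨ q = gJ p w f ∨ ∃ i, i ≤ j ∧ (q = U w i ∨ q = U f i)}

/-- differential polynomials of order at most `j`. -/
def PP (p : ℕ) (w f : ℝ → ℝ → ℝ) (j : ℕ) : Subalgebra ℝ (ℝ → ℝ → ℝ) :=
  Algebra.adjoin ℝ (gens p w f j)

section mem
variable {p : ℕ} {w f : ℝ → ℝ → ℝ} {j : ℕ}

lemma mX : gX ∈ PP p w f j := Algebra.subset_adjoin (Or.inl rfl)
lemma mA : gA w ∈ PP p w f j := Algebra.subset_adjoin (Or.inr (Or.inl rfl))
lemma mE : gA f ∈ PP p w f j := Algebra.subset_adjoin (Or.inr (Or.inr (Or.inl rfl)))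
lemma mJ : gJ p w f ∈ PP p w f j :=
  Algebra.subset_adjoin (Or.inr (Or.inr (Or.inr (Or.inl rfl))))
lemma mW {i : ℕ} (hi : i ≤ j) : U w i ∈ PP p w f j :=
  Algebra.subset_adjoin (Or.inr (Or.inr (Or.inr (Or.inr ⟨i, hi, Or.inl rfl⟩))))
lemma mF {i : ℕ} (hi : i ≤ j) : U f i ∈ PP p w f j :=
  Algebra.subset_adjoin (Or.inr (Or.inr (Or.inr (Or.inr ⟨i, hi, Or.inr rfl⟩))))
lemma mc (c : ℝ) : cst c ∈ PP p w f j := (PP p w f j).algebraMap_mem c

lemma PP_mono {j k : ℕ} (h : j ≤ k) : PP p w f j ≤ PP p w f k := by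
  apply Algebra.adjoin_mono
  rintro q (h1 | h1 | h1 | h1 | ⟨i, hi, h1⟩)
  · exact Or.inl h1
  · exact Or.inr (Or.inl h1)
  · exact Or.inr (Or.inr (Or.inl h1))
  · exact Or.inr (Or.inr (Or.inr (Or.inl h1)))
  · exact Or.inr (Or.inr (Or.inr (Or.inr ⟨i, hi.trans h, h1⟩)))

/-- the integrand of `J`. -/
def gJd (p : ℕ) (w f : ℝ → ℝ → ℝ) : ℝ → ℝ → ℝ :=
  gA w * (cst ((p : ℝ) - 1) * (U w 1 * U w 1) + cst (p : ℝ) * (U f 1 * U f 1))

lemma gJd_eq (t x : ℝ) : gJd p w f t x = Jd p (w t) (f t) x := by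
  simp only [gJd, Jd, gA, cst, U, Pi.mul_apply, Pi.add_apply, Dn_succ, Dn_zero]
  ring

lemma mJd (hj : 1 ≤ j) : gJd p w f ∈ PP p w f j :=
  mul_mem mA (add_mem (mul_mem (mc _) (mul_mem (mW hj) (mW hj)))
    (mul_mem (mc _) (mul_mem (mF hj) (mF hj))))

end mem

/-! ### derivatives of the generators at fixed time -/

lemma hd_J {p : ℕ} {w f : ℝ → ℝ} (hw : Sx w) (hf : Sx f) {x : ℝ} (hx : x ∈ Icc (-1 : ℝ) 1) :
    HasDerivWithinAt (Jf p w f) (Jd p w f x) (Icc (-1) 1) x := by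
  have hJ : ContinuousOn (Jd p w f) (Icc (-1) 1) := by
    have h1 : Sx (Jd p w f) := by
      have e1 : Sx (fun y => -2 * w y) := (Sx.const (-2)).mul hw
      exact e1.exp.mul (((Sx.const _).mul (ContDiffOn.pow hw.dx 2)).add
        ((Sx.const _).mul (ContDiffOn.pow hf.dx 2)))
    exact h1.cont
  have hle : (-1 : ℝ) ≤ 1 := by norm_num
  set g : ℝ → ℝ := IccExtend hle ((Icc (-1 : ℝ) 1).domRestrict (Jd p w f)) with hg
  have hgc : Continuous g := (continuousOn_iff_continuous_domRestrict.1 hJ).Icc_extend'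
  have hge : ∀ y ∈ Icc (-1 : ℝ) 1, g y = Jd p w f y := fun y hy => by
    rw [hg, IccExtend_of_mem hle _ hy]; rfl
  have h2 : ∀ y ∈ Icc (-1 : ℝ) 1, Jf p w f y = ∫ s in (0 : ℝ)..y, g s := by
    intro y hy
    unfold Jf
    apply intervalIntegral.integral_congr
    intro s hs
    have : s ∈ Icc (-1 : ℝ) 1 := (uIcc_subset_Icc (by norm_num) hy) hs
    exact (hge s this).symm
  have h3 : HasDerivWithinAt (fun y => ∫ s in (0 : ℝ)..y, g s) (g x) (Icc (-1) 1) x :=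
    (hgc.integral_hasStrictDerivAt 0 x).hasDerivAt.hasDerivWithinAt
  rw [hge x hx] at h3
  exact h3.congr h2 (h2 x hx)

lemma sx_Jd {p : ℕ} {w f : ℝ → ℝ} (hw : Sx w) (hf : Sx f) : Sx (Jd p w f) := by
  have e1 : Sx (fun y => -2 * w y) := (Sx.const (-2)).mul hw
  exact e1.exp.mul (((Sx.const _).mul (ContDiffOn.pow hw.dx 2)).add
    ((Sx.const _).mul (ContDiffOn.pow hf.dx 2)))

lemma sx_J {p : ℕ} {w f : ℝ → ℝ} (hw : Sx w) (hf : Sx f) : Sx (Jf p w f) := by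
  unfold Sx
  rw [contDiffOn_infty_iff_derivWithin uI]
  refine ⟨fun x hx => (hd_J hw hf hx).differentiableWithinAt, ?_⟩
  exact (sx_Jd hw hf).congr (fun x hx => (hd_J hw hf hx).derivWithin (uI x hx))

lemma hd_A {w : ℝ → ℝ} (hw : Sx w) {x : ℝ} (hx : x ∈ Icc (-1 : ℝ) 1) :
    HasDerivWithinAt (fun y => Real.exp (-2 * w y)) (Real.exp (-2 * w x) * (-2 * dx w x))
      (Icc (-1) 1) x :=
  ((hw.hasDeriv hx).const_mul (-2)).exp

/-- everything about the `x`-derivative of a differential polynomial -/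
def Good (p : ℕ) (w f : ℝ → ℝ → ℝ) (T : ℝ) (j : ℕ) (q : ℝ → ℝ → ℝ) : Prop :=
  (∀ t ∈ Ico 0 T, Sx (q t)) ∧ ∃ α ∈ PP p w f j, ∃ β ∈ PP p w f j, ∃ γ ∈ PP p w f j,
    ∀ t ∈ Ico 0 T, ∀ x ∈ Icc (-1 : ℝ) 1,
      dx (q t) x = α t x * U w (j + 1) t x + β t x * U f (j + 1) t x + γ t x

theorem good {p : ℕ} {w f : ℝ → ℝ → ℝ} {T : ℝ} (hw : Sm T w) (hf : Sm T f) {j : ℕ} (hj : 1 ≤ j)
    {q : ℝ → ℝ → ℝ} (hq : q ∈ PP p w f j) : Good p w f T j q := by
  unfold PP at hq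
  induction hq using Algebra.adjoin_induction with
  | mem q hq =>
    rcases hq with h1 | h1 | h1 | h1 | ⟨i, hi, h1⟩
    · subst h1
      refine ⟨fun t _ => Sx.id, 0, zero_mem _, 0, zero_mem _, 1, one_mem _, ?_⟩
      intro t _ x hx
      rw [show dx (gX t) x = 1 from dx_of hx (hasDerivWithinAt_id x _)]
      simp
    · subst h1
      refine ⟨fun t ht => ((Sx.const (-2)).mul (slice hw ht)).exp, 0, zero_mem _, 0, zero_mem _,
        gA w * (cst (-2) * U w 1), mul_mem mA (mul_mem (mc _) (mW hj)), ?_⟩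
      intro t ht x hx
      rw [show dx (gA w t) x = _ from dx_of hx (hd_A (slice hw ht) hx)]
      simp [gA, cst, U, Dn_succ]
    · subst h1
      refine ⟨fun t ht => ((Sx.const (-2)).mul (slice hf ht)).exp, 0, zero_mem _, 0, zero_mem _,
        gA f * (cst (-2) * U f 1), mul_mem mE (mul_mem (mc _) (mF hj)), ?_⟩
      intro t ht x hx
      rw [show dx (gA f t) x = _ from dx_of hx (hd_A (slice hf ht) hx)]
      simp [gA, cst, U, Dn_succ]
    · subst h1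
      refine ⟨fun t ht => sx_J (slice hw ht) (slice hf ht), 0, zero_mem _, 0, zero_mem _,
        gJd p w f, mJd hj, ?_⟩
      intro t ht x hx
      rw [show dx (gJ p w f t) x = _ from dx_of hx (hd_J (slice hw ht) (slice hf ht) hx)]
      simp [gJd_eq]
    · rcases eq_or_lt_of_le hi with hij | hij
      · subst hij
        rcases h1 with h1 | h1
        · subst h1
          refine ⟨fun t ht => (slice hw ht).Dn i, 1, one_mem _, 0, zero_mem _, 0, zero_mem _, ?_⟩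
          intro t ht x hx
          simp only [U, Dn_succ, Pi.one_apply, Pi.zero_apply, one_mul, zero_mul, add_zero]
          rfl
        · subst h1
          refine ⟨fun t ht => (slice hf ht).Dn i, 0, zero_mem _, 1, one_mem _, 0, zero_mem _, ?_⟩
          intro t ht x hx
          simp only [U, Dn_succ, Pi.one_apply, Pi.zero_apply, one_mul, zero_mul, add_zero,
            zero_add]
          rfl
      · rcases h1 with h1 | h1
        · subst h1
          refine ⟨fun t ht => (slice hw ht).Dn i, 0, zero_mem _, 0, zero_mem _, U w (i + 1),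
            mW hij, ?_⟩
          intro t ht x hx
          simp only [U, Dn_succ, Pi.zero_apply, zero_mul, zero_add]
          rfl
        · subst h1
          refine ⟨fun t ht => (slice hf ht).Dn i, 0, zero_mem _, 0, zero_mem _, U f (i + 1),
            mF hij, ?_⟩
          intro t ht x hx
          simp only [U, Dn_succ, Pi.zero_apply, zero_mul, zero_add]
          rfl
  | algebraMap c =>
    refine ⟨fun t _ => Sx.const c, 0, zero_mem _, 0, zero_mem _, 0, zero_mem _, ?_⟩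
    intro t _ x hx
    rw [show dx ((algebraMap ℝ (ℝ → ℝ → ℝ) c) t) x = 0 from
      dx_of hx (hasDerivWithinAt_const x _ c)]
    simp
  | add q₁ q₂ h₁ h₂ ih₁ ih₂ =>
    obtain ⟨s1, α₁, a1, β₁, b1, γ₁, c1, e1⟩ := ih₁
    obtain ⟨s2, α₂, a2, β₂, b2, γ₂, c2, e2⟩ := ih₂
    refine ⟨fun t ht => (s1 t ht).add (s2 t ht), α₁ + α₂, add_mem a1 a2, β₁ + β₂, add_mem b1 b2,
      γ₁ + γ₂, add_mem c1 c2, ?_⟩
    intro t ht x hx
    rw [show dx ((q₁ + q₂) t) x = _ from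
      dx_of hx (((s1 t ht).hasDeriv hx).add ((s2 t ht).hasDeriv hx)), e1 t ht x hx, e2 t ht x hx]
    simp only [Pi.add_apply]
    ring
  | mul q₁ q₂ h₁ h₂ ih₁ ih₂ =>
    obtain ⟨s1, α₁, a1, β₁, b1, γ₁, c1, e1⟩ := ih₁
    obtain ⟨s2, α₂, a2, β₂, b2, γ₂, c2, e2⟩ := ih₂
    refine ⟨fun t ht => (s1 t ht).mul (s2 t ht), α₁ * q₂ + q₁ * α₂,
      add_mem (mul_mem a1 h₂) (mul_mem h₁ a2), β₁ * q₂ + q₁ * β₂,
      add_mem (mul_mem b1 h₂) (mul_mem h₁ b2), γ₁ * q₂ + q₁ * γ₂,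
      add_mem (mul_mem c1 h₂) (mul_mem h₁ c2), ?_⟩
    intro t ht x hx
    rw [show dx ((q₁ * q₂) t) x = _ from
      dx_of hx (((s1 t ht).hasDeriv hx).mul ((s2 t ht).hasDeriv hx)), e1 t ht x hx, e2 t ht x hx]
    simp only [Pi.add_apply, Pi.mul_apply]
    ring

/-- bounded on the strip -/
def Bd (T : ℝ) (q : ℝ → ℝ → ℝ) : Prop :=
  ∃ C : ℝ, 0 ≤ C ∧ ∀ t ∈ Ico 0 T, ∀ x ∈ Icc (-1 : ℝ) 1, |q t x| ≤ C

lemma Bd.add {T : ℝ} {q r : ℝ → ℝ → ℝ} (hq : Bd T q) (hr : Bd T r) : Bd T (q + r) := by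
  obtain ⟨C, h0, h1⟩ := hq
  obtain ⟨D, k0, k1⟩ := hr
  exact ⟨C + D, by positivity, fun t ht x hx =>
    (abs_add_le _ _).trans (add_le_add (h1 t ht x hx) (k1 t ht x hx))⟩

lemma Bd.mul {T : ℝ} {q r : ℝ → ℝ → ℝ} (hq : Bd T q) (hr : Bd T r) : Bd T (q * r) := by
  obtain ⟨C, h0, h1⟩ := hq
  obtain ⟨D, k0, k1⟩ := hr
  refine ⟨C * D, by positivity, fun t ht x hx => ?_⟩
  rw [Pi.mul_apply, Pi.mul_apply, abs_mul]
  exact mul_le_mul (h1 t ht x hx) (k1 t ht x hx) (abs_nonneg _) h0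

theorem bounded {p : ℕ} {w f : ℝ → ℝ → ℝ} {T : ℝ} {j : ℕ} (hJ : Bd T (gJ p w f))
    (hW : ∀ i ≤ j, Bd T (U w i)) (hF : ∀ i ≤ j, Bd T (U f i))
    {q : ℝ → ℝ → ℝ} (hq : q ∈ PP p w f j) : Bd T q := by
  have key : ∀ g : ℝ → ℝ → ℝ, Bd T (U g 0) → Bd T (gA g) := by
    rintro g ⟨C, h0, h1⟩
    refine ⟨Real.exp (2 * C), (Real.exp_pos _).le, fun t ht x hx => ?_⟩
    have h2 := h1 t ht x hx
    simp only [U, Dn_zero] at h2
    simp only [gA]
    rw [abs_of_pos (Real.exp_pos _)]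
    apply Real.exp_le_exp.2
    linarith only [h2, (abs_le.1 h2).1]
  unfold PP at hq
  induction hq using Algebra.adjoin_induction with
  | mem q hq =>
    rcases hq with h1 | h1 | h1 | h1 | ⟨i, hi, h1⟩
    · subst h1
      exact ⟨1, zero_le_one, fun t _ x hx => abs_le.2 hx⟩
    · subst h1; exact key w (hW 0 (Nat.zero_le _))
    · subst h1; exact key f (hF 0 (Nat.zero_le _))
    · subst h1; exact hJ
    · rcases h1 with h1 | h1
      · subst h1; exact hW i hi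
      · subst h1; exact hF i hi
  | algebraMap c =>
    exact ⟨|c|, abs_nonneg _, fun t _ x _ => le_rfl⟩
  | add q₁ q₂ _ _ ih₁ ih₂ => exact ih₁.add ih₂
  | mul q₁ q₂ _ _ ih₁ ih₂ => exact ih₁.mul ih₂

end

end Vale.Agent.P244.ST.Apr
end

section

/-!
# P244-ST block L, a priori estimates: expansion of the differentiated equations
-/

open Set Filter
open scoped ContDiff Topology

namespace Vale.Agent.P244.ST.Apr

noncomputable section

lemma U_eq (h : ℝ → ℝ → ℝ) (j : ℕ) (t : ℝ) : U h j t = Dn j (h t) := rfl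

/-- one differentiation at fixed time -/
theorem step_fix {p : ℕ} {w f u g R : ℝ → ℝ} (hw : Sx w) (hf : Sx f) (hu : Sx u) (hR : Sx R)
    (e m : ℝ)
    (H : ∀ x ∈ Icc (-1 : ℝ) 1, g x = Real.exp (-2 * w x) * lapR e u x +
      (-2 * m * Real.exp (-2 * w x) * dx w x - Jf p w f x) * (1 - x ^ 2) * dx u x + R x) :
    ∀ x ∈ Icc (-1 : ℝ) 1, dx g x = Real.exp (-2 * w x) * lapR (e + 2) (dx u) x +
      (-2 * (m + 1) * Real.exp (-2 * w x) * dx w x - Jf p w f x) * (1 - x ^ 2) * dx (dx u) x +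
      (dx R x + (2 * e * x * Real.exp (-2 * w x) * dx w x - e * Real.exp (-2 * w x)
        + ((4 * m * Real.exp (-2 * w x) * dx w x * dx w x - Jd p w f x) * (1 - x ^ 2)
          + (4 * m * x * Real.exp (-2 * w x) * dx w x + 2 * x * Jf p w f x))) * dx u x
        + (-2 * m) * (Real.exp (-2 * w x) * (1 - x ^ 2) * dx (dx w) x * dx u x)) := by
  intro x hx
  have hA := hd_A hw hx
  have hw1 := hw.dx.hasDeriv hx
  have hu1 := hu.dx.hasDeriv hx
  have hu2 := hu.dx.dx.hasDeriv hx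
  have hJ := hd_J (p := p) hw hf hx
  have hRx := hR.hasDeriv hx
  have hid := hasDerivWithinAt_id x (Icc (-1 : ℝ) 1)
  have hρ : HasDerivWithinAt (fun y : ℝ => 1 - y ^ 2) (-(2 * x)) (Icc (-1) 1) x := by
    have := (hid.pow 2).const_sub 1
    simpa using this
  have hlap : HasDerivWithinAt (fun y => lapR e u y)
      ((-(2 * x)) * dx (dx u) x + (1 - x ^ 2) * dx (dx (dx u)) x
        - (e * dx u x + e * x * dx (dx u) x)) (Icc (-1) 1) x := by
    have h1 := hρ.mul hu2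
    have h2 : HasDerivWithinAt (fun y : ℝ => e * y * dx u y) (e * dx u x + e * x * dx (dx u) x)
        (Icc (-1) 1) x := by
      have h3 : HasDerivWithinAt (fun y : ℝ => e * y) e (Icc (-1) 1) x := by
        simpa using hid.const_mul e
      exact h3.mul hu1
    exact h1.sub h2
  have h1 := hA.mul hlap
  have h2 : HasDerivWithinAt
      (fun y => -2 * m * Real.exp (-2 * w y) * dx w y - Jf p w f y)
      (-2 * m * (Real.exp (-2 * w x) * (-2 * dx w x)) * dx w x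
        + -2 * m * Real.exp (-2 * w x) * dx (dx w) x - Jd p w f x) (Icc (-1) 1) x :=
    ((hA.const_mul (-2 * m)).mul hw1).sub hJ
  have h3 := (h2.mul hρ).mul hu1
  have h4 := (h1.add h3).add hRx
  have h5 : HasDerivWithinAt g _ (Icc (-1) 1) x := h4.congr H (H x hx)
  rw [dx_of hx h5]
  simp only [lapR, Pi.mul_apply]
  ring

/-- the expansion of the `j` times differentiated right-hand side -/
def Exp (p : ℕ) (w f : ℝ → ℝ → ℝ) (T : ℝ) (h G : ℝ → ℝ → ℝ) (j : ℕ) (R : ℝ → ℝ → ℝ) : Prop :=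
  ∀ t ∈ Ico 0 T, ∀ x ∈ Icc (-1 : ℝ) 1,
    Dn j (G t) x = gA w t x * lapR ((p : ℝ) + 1 + 2 * j) (U h j t) x +
      (-2 * j * gA w t x * U w 1 t x - gJ p w f t x) * (1 - x ^ 2) * U h (j + 1) t x + R t x

/-- the linear coefficient produced by one differentiation -/
def coef (p : ℕ) (w f : ℝ → ℝ → ℝ) (j : ℕ) : ℝ → ℝ → ℝ :=
  cst (2 * ((p : ℝ) + 1 + 2 * j)) * (gX * (gA w * U w 1)) - cst ((p : ℝ) + 1 + 2 * j) * gA w
    + ((cst (4 * (j : ℝ)) * (gA w * (U w 1 * U w 1)) - gJd p w f) * (1 - gX * gX)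
      + (cst (4 * (j : ℝ)) * (gX * (gA w * U w 1)) + cst 2 * (gX * gJ p w f)))

lemma coef_mem {p : ℕ} {w f : ℝ → ℝ → ℝ} {j k : ℕ} (hk : 1 ≤ k) :
    coef p w f j ∈ PP p w f k := by
  unfold coef
  refine add_mem (sub_mem (mul_mem (mc _) (mul_mem mX (mul_mem mA (mW hk)))) (mul_mem (mc _) mA))
    (add_mem (mul_mem (sub_mem (mul_mem (mc _) (mul_mem mA (mul_mem (mW hk) (mW hk)))) (mJd hk))
      (sub_mem (one_mem _) (mul_mem mX mX)))
      (add_mem (mul_mem (mc _) (mul_mem mX (mul_mem mA (mW hk))))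
        (mul_mem (mc _) (mul_mem mX mJ))))

/-- the quadratic term -/
def quad (w : ℝ → ℝ → ℝ) (j : ℕ) (h : ℝ → ℝ → ℝ) : ℝ → ℝ → ℝ :=
  cst (-2 * (j : ℝ)) * (gA w * ((1 - gX * gX) * (U w 2 * U h (j + 1))))

theorem step_gen {p : ℕ} {w f : ℝ → ℝ → ℝ} {T : ℝ} (hw : Sm T w) (hf : Sm T f)
    {h G : ℝ → ℝ → ℝ} (hh : Sm T h) {j : ℕ} {R R' : ℝ → ℝ → ℝ} (hR : ∀ t ∈ Ico 0 T, Sx (R t))
    (hR' : ∀ t ∈ Ico 0 T, ∀ x ∈ Icc (-1 : ℝ) 1, dx (R t) x = R' t x)
    (H : Exp p w f T h G j R) :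
    Exp p w f T h G (j + 1) (R' + coef p w f j * U h (j + 1) + quad w j h) := by
  intro t ht x hx
  have h1 := step_fix (p := p) (w := w t) (f := f t) (u := U h j t) (g := Dn j (G t)) (R := R t)
    (slice hw ht) (slice hf ht) ((slice hh ht).Dn j) (hR t ht) ((p : ℝ) + 1 + 2 * j) (j : ℝ)
    (by
      intro y hy
      have := H t ht y hy
      simp only [U, gA, gJ, Dn_succ, Dn_zero] at this ⊢
      exact this) x hx
  rw [Dn_succ, h1, hR' t ht x hx]
  have e1 : dx (U h j t) = U h (j + 1) t := by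
    rw [U_eq, U_eq, Dn_succ]
  have e2 : ((j + 1 : ℕ) : ℝ) = (j : ℝ) + 1 := by push_cast; ring
  have e3 : (p : ℝ) + 1 + 2 * ((j : ℝ) + 1) = (p : ℝ) + 1 + 2 * j + 2 := by ring
  have e4 : dx (w t) = U w 1 t := by simp only [U_eq, Dn_succ, Dn_zero]
  have e5 : dx (dx (w t)) = U w 2 t := by simp only [U_eq, Dn_succ, Dn_zero]
  have e6 : dx (U h (j + 1) t) = U h (j + 1 + 1) t := by
    rw [U_eq, U_eq, Dn_succ (j + 1)]
  rw [e2, e3, e1, e5, e4, e6]
  simp only [Pi.add_apply, Pi.mul_apply, Pi.sub_apply, Pi.one_apply, coef, quad, cst, gX, gA, gJ,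
    gJd_eq]
  ring

/-- `h` is one of the two unknowns -/
def Mem (w f h : ℝ → ℝ → ℝ) : Prop := h = w ∨ h = f

lemma mH {p : ℕ} {w f h : ℝ → ℝ → ℝ} (hm : Mem w f h) {i k : ℕ} (hi : i ≤ k) :
    U h i ∈ PP p w f k := by
  rcases hm with h1 | h1
  · subst h1; exact mW hi
  · subst h1; exact mF hi

lemma quad_mem {p : ℕ} {w f h : ℝ → ℝ → ℝ} (hm : Mem w f h) {j : ℕ} (hj : 1 ≤ j) :
    quad w j h ∈ PP p w f (j + 1) :=
  mul_mem (mc _) (mul_mem mA (mul_mem (sub_mem (one_mem _) (mul_mem mX mX))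
    (mul_mem (mW (by omega)) (mH hm le_rfl))))

theorem expand {p : ℕ} {w f : ℝ → ℝ → ℝ} {T : ℝ} (hw : Sm T w) (hf : Sm T f)
    {h G : ℝ → ℝ → ℝ} (hh : Sm T h) (hm : Mem w f h) {R : ℝ → ℝ → ℝ} (hR : R ∈ PP p w f 1)
    (H : Exp p w f T h G 1 R) (j : ℕ) (hj : 1 ≤ j) :
    ∃ R ∈ PP p w f j, Exp p w f T h G j R := by
  induction j, hj using Nat.le_induction with
  | base => exact ⟨R, hR, H⟩
  | succ j hj ih =>
    obtain ⟨R, hR, H⟩ := ih
    obtain ⟨s, α, ha, β, hb, γ, hc, he⟩ := good hw hf hj hR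
    have := step_gen hw hf hh (R' := α * U w (j + 1) + β * U f (j + 1) + γ) s
      (fun t ht x hx => by
        simp only [Pi.add_apply, Pi.mul_apply]; exact he t ht x hx) H
    refine ⟨_, ?_, this⟩
    have hle : PP p w f j ≤ PP p w f (j + 1) := PP_mono (by omega)
    exact add_mem (add_mem (add_mem (add_mem (mul_mem (hle ha) (mW le_rfl))
      (mul_mem (hle hb) (mF le_rfl))) (hle hc)) (mul_mem (coef_mem (by omega)) (mH hm le_rfl)))
      (quad_mem hm hj)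

/-- the expansion with the structure of the remainder made explicit -/
theorem expand' {p : ℕ} {w f : ℝ → ℝ → ℝ} {T : ℝ} (hw : Sm T w) (hf : Sm T f)
    {h G : ℝ → ℝ → ℝ} (hh : Sm T h) (hm : Mem w f h) {R : ℝ → ℝ → ℝ} (hR : R ∈ PP p w f 1)
    (H : Exp p w f T h G 1 R) (j : ℕ) (hj : 1 ≤ j) :
    ∃ α ∈ PP p w f j, ∃ β ∈ PP p w f j, ∃ γ ∈ PP p w f j, ∃ δ ∈ PP p w f j,
      Exp p w f T h G (j + 1) (α * U w (j + 1) + β * U f (j + 1) + γ + δ * U h (j + 1)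
        + quad w j h) := by
  obtain ⟨R, hR, H⟩ := expand hw hf hh hm hR H j hj
  obtain ⟨s, α, ha, β, hb, γ, hc, he⟩ := good hw hf hj hR
  have := step_gen hw hf hh (R' := α * U w (j + 1) + β * U f (j + 1) + γ) s
    (fun t ht x hx => by
      simp only [Pi.add_apply, Pi.mul_apply]; exact he t ht x hx) H
  exact ⟨α, ha, β, hb, γ, hc, coef p w f j, coef_mem hj, this⟩

/-- base case for `w` -/
theorem base_w {p : ℕ} {w f : ℝ → ℝ → ℝ} {T : ℝ} (hw : Sm T w) (hf : Sm T f) :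
    ∃ R ∈ PP p w f 1, Exp p w f T w (fun t x => rhsW p (w t) (f t) x) 1 R := by
  have h0 : Exp p w f T w (fun t x => rhsW p (w t) (f t) x) 0
      (cst (-(p : ℝ)) * gA w + gX * gJ p w f) := by
    intro t ht x hx
    simp only [Dn_zero, rhsW, lap, lapR, U_eq, gA, gJ, gX, cst, Pi.add_apply, Pi.mul_apply, Dn_succ,
      Nat.cast_zero]
    ring
  have hs : ∀ t ∈ Ico 0 T, Sx ((cst (-(p : ℝ)) * gA w + gX * gJ p w f) t) := fun t ht =>
    ((Sx.const _).mul (((Sx.const (-2)).mul (slice hw ht)).exp)).add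
      (Sx.id.mul (sx_J (slice hw ht) (slice hf ht)))
  have h1 := step_gen hw hf hw (R' := cst (2 * (p : ℝ)) * (gA w * U w 1) + gJ p w f
    + gX * gJd p w f) hs (fun t ht x hx => by
      have e1 := (hd_A (slice hw ht) hx).const_mul (-(p : ℝ))
      have e2 := (hasDerivWithinAt_id x (Icc (-1 : ℝ) 1)).mul
        (hd_J (p := p) (slice hw ht) (slice hf ht) hx)
      have e3 := dx_of hx (e1.add e2)
      rw [show dx ((cst (-(p : ℝ)) * gA w + gX * gJ p w f) t) x = _ from e3]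
      simp only [gJd_eq, gA, gJ, gX, cst, U, Pi.add_apply, Pi.mul_apply, Dn_succ, Dn_zero, id]
      ring) h0
  refine ⟨_, ?_, h1⟩
  have hq : quad w 0 w = 0 := by
    unfold quad
    have : cst (-2 * ((0 : ℕ) : ℝ)) = 0 := by
      funext t x; simp [cst]
    rw [this, zero_mul]
  rw [hq, add_zero]
  exact add_mem (add_mem (add_mem (mul_mem (mc _) (mul_mem mA (mW le_rfl))) mJ)
    (mul_mem mX (mJd le_rfl))) (mul_mem (coef_mem le_rfl) (mW le_rfl))

/-- base case for `f` -/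
theorem base_f {p : ℕ} {w f : ℝ → ℝ → ℝ} {T : ℝ} (hw : Sm T w) (hf : Sm T f) :
    ∃ R ∈ PP p w f 1, Exp p w f T f (fun t x => rhsF p (w t) (f t) x) 1 R := by
  have h0 : Exp p w f T f (fun t x => rhsF p (w t) (f t) x) 0
      (cst (-((p : ℝ) - 1)) * gA f) := by
    intro t ht x hx
    simp only [Dn_zero, rhsF, lap, lapR, U_eq, gA, gJ, cst, Pi.mul_apply, Dn_succ,
      Nat.cast_zero]
    ring
  have hs : ∀ t ∈ Ico 0 T, Sx ((cst (-((p : ℝ) - 1)) * gA f) t) := fun t ht =>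
    ((Sx.const _).mul (((Sx.const (-2)).mul (slice hf ht)).exp))
  have h1 := step_gen hw hf hf (R' := cst (2 * ((p : ℝ) - 1)) * (gA f * U f 1)) hs
    (fun t ht x hx => by
      have e1 := (hd_A (slice hf ht) hx).const_mul (-((p : ℝ) - 1))
      have e3 := dx_of hx e1
      rw [show dx ((cst (-((p : ℝ) - 1)) * gA f) t) x = _ from e3]
      simp only [gA, cst, U, Pi.mul_apply, Dn_succ, Dn_zero]
      ring) h0
  refine ⟨_, ?_, h1⟩
  have hq : quad w 0 f = 0 := by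
    unfold quad
    have : cst (-2 * ((0 : ℕ) : ℝ)) = 0 := by
      funext t x; simp [cst]
    rw [this, zero_mul]
  rw [hq, add_zero]
  exact add_mem (mul_mem (mc _) (mul_mem mE (mF le_rfl))) (mul_mem (coef_mem le_rfl) (mF le_rfl))

end

end Vale.Agent.P244.ST.Apr
end

section

/-!
# P244-ST block L, a priori estimates: `C^1` bounds imply `C^j` bounds
-/

open Set Filter
open scoped ContDiff Topology

namespace Vale.Agent.P244.ST.Apr

noncomputable section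

lemma mulb {a b A B : ℝ} (ha : |a| ≤ A) (hb : |b| ≤ B) : |a * b| ≤ A * B := by
  rw [abs_mul]
  exact mul_le_mul ha hb (abs_nonneg _) ((abs_nonneg _).trans ha)

lemma sm_cont {T : ℝ} {h : ℝ → ℝ → ℝ} (hh : Sm T h) :
    ContinuousOn (fun z : ℝ × ℝ => h z.1 z.2) (Ico 0 T ×ˢ Icc (-1) 1) :=
  ContDiffOn.continuousOn hh

/-- `J` is bounded if the first derivatives are. -/
lemma bdJ {p : ℕ} {w f : ℝ → ℝ → ℝ} {T : ℝ}
    (h0 : Bd T (U w 0)) (h1 : Bd T (U w 1)) (h2 : Bd T (U f 1)) : Bd T (gJ p w f) := by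
  have hA : Bd T (gA w) := by
    obtain ⟨C, k0, k1⟩ := h0
    refine ⟨Real.exp (2 * C), (Real.exp_pos _).le, fun t ht x hx => ?_⟩
    have h2 := k1 t ht x hx
    simp only [U, Dn_zero] at h2
    simp only [gA]
    rw [abs_of_pos (Real.exp_pos _)]
    apply Real.exp_le_exp.2
    linarith only [h2, (abs_le.1 h2).1]
  have hc : ∀ c : ℝ, Bd T (cst c) := fun c => ⟨|c|, abs_nonneg _, fun _ _ _ _ => le_rfl⟩
  have hd : Bd T (gJd p w f) := hA.mul (((hc _).mul (h1.mul h1)).add ((hc _).mul (h2.mul h2)))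
  obtain ⟨C, k0, k1⟩ := hd
  refine ⟨C, k0, fun t ht x hx => ?_⟩
  simp only [gJ, Jf]
  have h3 : ‖∫ y in (0 : ℝ)..x, Jd p (w t) (f t) y‖ ≤ C * |x - 0| := by
    apply intervalIntegral.norm_integral_le_of_norm_le_const
    intro y hy
    rw [Real.norm_eq_abs, ← gJd_eq]
    apply k1 t ht
    have : y ∈ uIcc 0 x := uIoc_subset_uIcc hy
    exact (uIcc_subset_Icc (by norm_num) hx) this
  rw [Real.norm_eq_abs, sub_zero] at h3
  have : |x| ≤ 1 := abs_le.2 hx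
  calc _ ≤ C * |x| := h3
    _ ≤ C * 1 := mul_le_mul_of_nonneg_left this k0
    _ = C := mul_one C

/-- sign and choice of the unknown -/
def sg (b : Bool) : ℝ := if b then 1 else -1
def hh (w f : ℝ → ℝ → ℝ) (b : Bool) : ℝ → ℝ → ℝ := if b then w else f
def GG (p : ℕ) (w f : ℝ → ℝ → ℝ) (b : Bool) : ℝ → ℝ → ℝ :=
  if b then (fun t x => rhsW p (w t) (f t) x) else (fun t x => rhsF p (w t) (f t) x)

section setup
variable {p : ℕ} {w f : ℝ → ℝ → ℝ} {T : ℝ} (hs : ConfSol p w f T)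
include hs

lemma smw : Sm T w := hs.smooth_w
lemma smf : Sm T f := hs.smooth_f
lemma smh (b : Bool) : Sm T (hh w f b) := by
  cases b
  · exact hs.smooth_f
  · exact hs.smooth_w

lemma tder (b : Bool) (j : ℕ) : ∀ t ∈ Ico 0 T, ∀ x ∈ Icc (-1 : ℝ) 1,
    HasDerivWithinAt (fun s => U (hh w f b) j s x) (Dn j (GG p w f b t) x) (Ico 0 T) t := by
  cases b
  · exact comm_Dn hs.smooth_f (k := fun t x => rhsF p (w t) (f t) x) hs.eq_f j
  · exact comm_Dn hs.smooth_w (k := fun t x => rhsW p (w t) (f t) x) hs.eq_w j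

omit hs in
lemma memh (b : Bool) : Mem w f (hh w f b) := by
  cases b
  · exact Or.inr rfl
  · exact Or.inl rfl

lemma base (b : Bool) : ∃ R ∈ PP p w f 1, Exp p w f T (hh w f b) (GG p w f b) 1 R := by
  cases b
  · exact base_f (smw hs) (smf hs)
  · exact base_w (smw hs) (smf hs)

end setup

/-- conclusion from the maximum principle -/
theorem concl {ι : Type*} [Finite ι] {T C : ℝ} (hT : 0 < T) (hC : 0 ≤ C)
    (h ht : ι → ℝ → ℝ → ℝ) (hsm : ∀ i, Sm T (h i))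
    (hder : ∀ i, ∀ t ∈ Ico 0 T, ∀ x ∈ Icc (-1 : ℝ) 1,
      HasDerivWithinAt (fun s => h i s x) (ht i t x) (Ico 0 T) t)
    (hineq : ∀ i, ∀ t ∈ Ico 0 T, ∀ x ∈ Icc (-1 : ℝ) 1,
      (∀ j, ∀ y ∈ Icc (-1 : ℝ) 1, h j t y ≤ h i t x) → 0 ≤ h i t x →
        ht i t x ≤ C * (1 + h i t x)) :
    ∃ M, 0 ≤ M ∧ ∀ i, ∀ t ∈ Ico 0 T, ∀ x ∈ Icc (-1 : ℝ) 1, h i t x ≤ M := by
  have h0T : (0 : ℝ) ∈ Ico 0 T := ⟨le_rfl, hT⟩
  have hb : ∀ i, ∃ m, ∀ x ∈ Icc (-1 : ℝ) 1, h i 0 x ≤ m := by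
    intro i
    obtain ⟨m, hm⟩ := isCompact_Icc.exists_bound_of_continuousOn (slice (hsm i) h0T).cont
    exact ⟨m, fun x hx => (le_abs_self _).trans (hm x hx)⟩
  choose m hm using hb
  obtain ⟨M, hM⟩ := Finite.exists_le m
  have key := maxp (M₀ := max 0 M) h ht (fun i => sm_cont (hsm i)) hder hC (le_max_left _ _)
    (fun i x hx => (hm i x hx).trans ((hM i).trans (le_max_right _ _))) hineq
  refine ⟨(1 + max 0 M) * Real.exp ((C + 1) * T), by positivity, fun i t ht x hx => ?_⟩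
  have h1 := key i t ht x hx
  have h2 : Real.exp ((C + 1) * t) ≤ Real.exp ((C + 1) * T) :=
    Real.exp_le_exp.2 (mul_le_mul_of_nonneg_left ht.2.le (by linarith only [hC]))
  have h3 : (1 + max 0 M) * Real.exp ((C + 1) * t) ≤ (1 + max 0 M) * Real.exp ((C + 1) * T) :=
    mul_le_mul_of_nonneg_left h2 (by positivity)
  linarith only [h1, h3]

/-- first and second derivatives of `σ z + v² + g²` -/
lemma dxQ {z v g : ℝ → ℝ} (hz : Sx z) (hv : Sx v) (hg : Sx g) (σ : ℝ) :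
    (∀ x ∈ Icc (-1 : ℝ) 1, dx (fun y => σ * z y + (v y * v y + g y * g y)) x =
      σ * dx z x + (2 * v x * dx v x + 2 * g x * dx g x)) ∧
    (∀ x ∈ Icc (-1 : ℝ) 1, dx (dx (fun y => σ * z y + (v y * v y + g y * g y))) x =
      σ * dx (dx z) x + (2 * (dx v x) ^ 2 + 2 * v x * dx (dx v) x + 2 * (dx g x) ^ 2
        + 2 * g x * dx (dx g) x)) := by
  have h1 : ∀ x ∈ Icc (-1 : ℝ) 1, dx (fun y => σ * z y + (v y * v y + g y * g y)) x =
      σ * dx z x + (2 * v x * dx v x + 2 * g x * dx g x) := by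
    intro x hx
    have e := ((hz.hasDeriv hx).const_mul σ).add
      (((hv.hasDeriv hx).mul (hv.hasDeriv hx)).add ((hg.hasDeriv hx).mul (hg.hasDeriv hx)))
    rw [show dx (fun y => σ * z y + (v y * v y + g y * g y)) x = _ from dx_of hx e]
    ring
  refine ⟨h1, fun x hx => ?_⟩
  rw [dx_congr h1 hx]
  have e := ((hz.dx.hasDeriv hx).const_mul σ).add
      ((((hv.hasDeriv hx).const_mul 2).mul (hv.dx.hasDeriv hx)).add
        (((hg.hasDeriv hx).const_mul 2).mul (hg.dx.hasDeriv hx)))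
  rw [show dx (fun y => σ * dx z y + (2 * v y * dx v y + 2 * g y * dx g y)) x = _ from dx_of hx e]
  ring

lemma alg_t3 {q r z σ : ℝ} (hσ : σ = 1 ∨ σ = -1) (hz : z = q ∨ z = r) :
    0 ≤ q ^ 2 + r ^ 2 + σ * (q * z) := by
  rcases hz with h | h
  · subst h
    rcases hσ with h' | h'
    · subst h'; linarith only [sq_nonneg r, sq_nonneg z]
    · subst h'; linarith only [sq_nonneg r]
  · subst h
    rcases hσ with h' | h'
    · subst h'; linarith only [sq_nonneg z, sq_nonneg q, sq_nonneg (q + z)]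
    · subst h'; linarith only [sq_nonneg z, sq_nonneg q, sq_nonneg (q - z)]

lemma alg_key {A ρ x v g q r z z2 z3 v2 g2 J α β γ δ R1 S1 σ e zt vt gt : ℝ}
    (hzt : zt = A * (ρ * z3 - e * x * z2) + (-4 * A * v - J) * ρ * z2
      + (α * q + β * r + γ + δ * z - 2 * A * ρ * q * z))
    (hvt : vt = A * (ρ * v2 - (e - 2) * x * q) + (-2 * A * v - J) * ρ * q + R1)
    (hgt : gt = A * (ρ * g2 - (e - 2) * x * r) + (-2 * A * v - J) * ρ * r + S1) :
    σ * zt + (2 * v * vt + 2 * g * gt) =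
      A * (ρ * (σ * z3 + (2 * q ^ 2 + 2 * v * v2 + 2 * r ^ 2 + 2 * g * g2))
        - e * x * (σ * z2 + (2 * v * q + 2 * g * r)))
      + (-4 * A * v - J) * (ρ * (σ * z2 + (2 * v * q + 2 * g * r)))
      + (-(2 * (A * ρ * (q ^ 2 + r ^ 2 + σ * (q * z)))))
      + 4 * (A * x * (v * q + g * r)) + 4 * (A * v * ρ * (v * q + g * r))
      + σ * (α * q + β * r + γ + δ * z) + 2 * (v * R1 + g * S1) := by
  rw [hzt, hvt, hgt]; ring

/-- the algebraic inequality of the `C^2` step -/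
lemma alg2 {A ρ x v g q r z z2 z3 v2 g2 J α β γ δ R1 S1 σ e Q B zt vt gt : ℝ}
    (hA : 0 ≤ A) (hρ : 0 ≤ ρ) (hρ1 : ρ ≤ 1) (hx : |x| ≤ 1) (hσ : σ = 1 ∨ σ = -1)
    (hz : z = q ∨ z = r)
    (hAB : |A| ≤ B) (hv : |v| ≤ B) (hg : |g| ≤ B) (hα : |α| ≤ B) (hβ : |β| ≤ B) (hγ : |γ| ≤ B)
    (hδ : |δ| ≤ B) (hR : |R1| ≤ B) (hS : |S1| ≤ B)
    (hq : |q| ≤ Q) (hr : |r| ≤ Q)
    (sp1 : ρ * (σ * z3 + (2 * q ^ 2 + 2 * v * v2 + 2 * r ^ 2 + 2 * g * g2))
      - e * x * (σ * z2 + (2 * v * q + 2 * g * r)) ≤ 0)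
    (sp2 : ρ * (σ * z2 + (2 * v * q + 2 * g * r)) = 0)
    (hzt : zt = A * (ρ * z3 - e * x * z2) + (-4 * A * v - J) * ρ * z2
      + (α * q + β * r + γ + δ * z - 2 * A * ρ * q * z))
    (hvt : vt = A * (ρ * v2 - (e - 2) * x * q) + (-2 * A * v - J) * ρ * q + R1)
    (hgt : gt = A * (ρ * g2 - (e - 2) * x * r) + (-2 * A * v - J) * ρ * r + S1) :
    σ * zt + (2 * v * vt + 2 * g * gt) ≤
      (12 * B ^ 2 + 8 * B ^ 3 + 4 * B) * (1 + Q) := by
  have hB : 0 ≤ B := (abs_nonneg _).trans hAB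
  have hQ : 0 ≤ Q := (abs_nonneg _).trans hq
  have hzQ : |z| ≤ Q := by rcases hz with h | h <;> rw [h] <;> assumption
  have hσ1 : |σ| ≤ 1 := by rcases hσ with h | h <;> rw [h] <;> simp
  have hρ' : |ρ| ≤ 1 := by rw [abs_of_nonneg hρ]; exact hρ1
  have key := alg_key (g := g) (σ := σ) hzt hvt hgt
  have t1 : A * (ρ * (σ * z3 + (2 * q ^ 2 + 2 * v * v2 + 2 * r ^ 2 + 2 * g * g2))
        - e * x * (σ * z2 + (2 * v * q + 2 * g * r))) ≤ 0 :=
    mul_nonpos_of_nonneg_of_nonpos hA sp1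
  have t3' : 0 ≤ A * ρ * (q ^ 2 + r ^ 2 + σ * (q * z)) :=
    mul_nonneg (mul_nonneg hA hρ) (alg_t3 hσ hz)
  have hvq : |v * q + g * r| ≤ 2 * (B * Q) := by
    calc |v * q + g * r| ≤ |v * q| + |g * r| := abs_add_le _ _
      _ ≤ B * Q + B * Q := add_le_add (mulb hv hq) (mulb hg hr)
      _ = _ := by ring
  have t4 : A * x * (v * q + g * r) ≤ (B * 1) * (2 * (B * Q)) :=
    (le_abs_self _).trans (mulb (mulb hAB hx) hvq)
  have t5 : A * v * ρ * (v * q + g * r) ≤ (B * B * 1) * (2 * (B * Q)) :=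
    (le_abs_self _).trans (mulb (mulb (mulb hAB hv) hρ') hvq)
  have t6 : σ * (α * q + β * r + γ + δ * z) ≤ 1 * (B * Q + B * Q + B + B * Q) := by
    refine (le_abs_self _).trans (mulb hσ1 ?_)
    refine (abs_add_le _ _).trans (add_le_add ((abs_add_le _ _).trans (add_le_add
      ((abs_add_le _ _).trans (add_le_add (mulb hα hq) (mulb hβ hr))) hγ)) (mulb hδ hzQ))
  have t7 : v * R1 + g * S1 ≤ B * B + B * B :=
    (le_abs_self _).trans ((abs_add_le _ _).trans (add_le_add (mulb hv hR) (mulb hg hS)))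
  rw [sp2, mul_zero] at key
  have hBQ : 0 ≤ B * Q := mul_nonneg hB hQ
  have hB2 : 0 ≤ B ^ 2 := by positivity
  have hB3 : 0 ≤ B ^ 3 := by positivity
  have hB2Q := mul_nonneg hB2 hQ
  have hB3Q := mul_nonneg hB3 hQ
  have e4 : (B * 1) * (2 * (B * Q)) = 2 * (B ^ 2 * Q) := by ring
  have e5 : (B * B * 1) * (2 * (B * Q)) = 2 * (B ^ 3 * Q) := by ring
  have e7 : B * B + B * B = 2 * B ^ 2 := by ring
  have eR : (12 * B ^ 2 + 8 * B ^ 3 + 4 * B) * (1 + Q) = 12 * B ^ 2 + 8 * B ^ 3 + 4 * B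
      + 12 * (B ^ 2 * Q) + 8 * (B ^ 3 * Q) + 4 * (B * Q) := by ring
  rw [e4] at t4
  rw [e5] at t5
  rw [e7] at t7
  rw [eR]
  linarith only [hB2Q, hB3, hB2, hBQ, t7, t6, t5, t4, t3', t1, key, hB]

end

end Vale.Agent.P244.ST.Apr
end

section

/-!
# P244-ST, block M : `r` is bounded by its initial value at the equator (helper568)
-/

open Set Filter Topology
open scoped ContDiff

namespace Vale.Agent.P244.ST

section

variable {w f : Fn} {T : ℝ}

lemma m6_slice_w (h : ConfSol 20 w f T) {t : ℝ} (ht : t ∈ Ico 0 T) :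
    ContDiffOn ℝ ∞ (w t) (Icc (-1) 1) :=
  h.smooth_w.comp (f := fun x : ℝ => (t, x)) (by fun_prop) fun x hx => ⟨ht, hx⟩

lemma m6_slice_f (h : ConfSol 20 w f T) {t : ℝ} (ht : t ∈ Ico 0 T) :
    ContDiffOn ℝ ∞ (f t) (Icc (-1) 1) :=
  h.smooth_f.comp (f := fun x : ℝ => (t, x)) (by fun_prop) fun x hx => ⟨ht, hx⟩

lemma m6_nhds {x : ℝ} (hx : x ∈ Ioo (-1 : ℝ) 1) : Icc (-1 : ℝ) 1 ∈ 𝓝 x :=
  Icc_mem_nhds hx.1 hx.2

lemma m6_hasDerivAt {h : ℝ → ℝ} (hh : ContDiffOn ℝ ∞ h (Icc (-1) 1)) {x : ℝ}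
    (hx : x ∈ Ioo (-1 : ℝ) 1) : HasDerivAt h (dx h x) x := by
  have h1 : DifferentiableOn ℝ h (Icc (-1) 1) := hh.differentiableOn (by norm_num)
  exact ((h1 x (Ioo_subset_Icc_self hx)).hasDerivWithinAt).hasDerivAt (m6_nhds hx)

lemma m6_dx_smooth {h : ℝ → ℝ} (hh : ContDiffOn ℝ ∞ h (Icc (-1) 1)) :
    ContDiffOn ℝ ∞ (dx h) (Icc (-1) 1) := by
  have := hh.derivWithin (m := ∞) (uniqueDiffOn_Icc (by norm_num)) (by norm_num)
  exact this

lemma m6_hasDerivAt_rho (h : ConfSol 20 w f T) {t : ℝ} (ht : t ∈ Ico 0 T) {x : ℝ}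
    (hx : x ∈ Ioo (-1 : ℝ) 1) :
    HasDerivAt (rho w f t) ((dx (f t) x + dx (w t) x - x / (1 - x ^ 2)) / 2) x := by
  have h1 := m6_hasDerivAt (m6_slice_w h ht) hx
  have h2 := m6_hasDerivAt (m6_slice_f h ht) hx
  have h3 : (1 - x ^ 2) ≠ 0 := by nlinarith only [hx, hx.1, hx.2]
  have h4 : HasDerivAt (fun x : ℝ => 1 - x ^ 2) (-(2 * x)) x := by
    have := (hasDerivAt_pow 2 x).const_sub 1
    simpa using this
  have h5 := (h4.log h3).div_const 2
  have h6 := (((h2.add h1).add h5).sub_const (Real.log zeta0)).div_const 2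
  refine h6.congr_deriv ?_
  field_simp
  ring

lemma m6_hasDerivAt_rho2 (h : ConfSol 20 w f T) {t : ℝ} (ht : t ∈ Ico 0 T) :
    HasDerivAt (fun x => (dx (f t) x + dx (w t) x - x / (1 - x ^ 2)) / 2)
      ((dx (dx (f t)) 0 + dx (dx (w t)) 0 - 1) / 2) 0 := by
  have hx : (0 : ℝ) ∈ Ioo (-1 : ℝ) 1 := ⟨by norm_num, by norm_num⟩
  have h1 := m6_hasDerivAt (m6_dx_smooth (m6_slice_w h ht)) hx
  have h2 := m6_hasDerivAt (m6_dx_smooth (m6_slice_f h ht)) hx
  have h4 : HasDerivAt (fun x : ℝ => 1 - x ^ 2) (-(2 * (0 : ℝ))) 0 := by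
    have := (hasDerivAt_pow 2 (0 : ℝ)).const_sub 1
    simpa using this
  have h5 := (hasDerivAt_id (0 : ℝ)).div h4 (by norm_num)
  have h6 := ((h2.add h1).sub h5).div_const 2
  refine h6.congr_deriv ?_
  norm_num

lemma m6_rho_even (h : ConfSol 20 w f T) {t : ℝ} (ht : t ∈ Ico 0 T) {x : ℝ}
    (hx : x ∈ Icc (-1 : ℝ) 1) : rho w f t (-x) = rho w f t x := by
  simp only [rho, h.even_w t ht x hx, h.even_f t ht x hx, neg_sq]

lemma m6_rho_antitone (h : ConfSol 20 w f T) (hr : ∀ t ∈ Ico 0 T, ∀ x ∈ Ioo (0 : ℝ) 1,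
    0 < rs w f t x) {t : ℝ} (ht : t ∈ Ico 0 T) : AntitoneOn (rho w f t) (Ico 0 1) := by
  have hsub : ∀ x ∈ Ico (0 : ℝ) 1, x ∈ Ioo (-1 : ℝ) 1 := fun x hx => ⟨by linarith only [hx, hx.1], hx.2⟩
  refine antitoneOn_of_deriv_nonpos (convex_Ico 0 1) ?_ ?_ ?_
  · intro x hx
    exact (m6_hasDerivAt_rho h ht (hsub x hx)).continuousAt.continuousWithinAt
  · intro x hx
    rw [interior_Ico] at hx
    exact (m6_hasDerivAt_rho h ht (hsub x (Ioo_subset_Ico_self hx))).differentiableAt.differentiableWithinAt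
  · intro x hx
    rw [interior_Ico] at hx
    have h1 := hr t ht x hx
    have h2 : 0 < sx x * Real.exp (-w t x) :=
      mul_pos (Real.sqrt_pos.2 (by nlinarith only [hx, hx.1, hx.2])) (Real.exp_pos _)
    by_contra hc
    push Not at hc
    have h3 : rs w f t x = -(sx x * Real.exp (-w t x)) * deriv (rho w f t) x := rfl
    rw [h3] at h1
    linarith only [mul_pos h2 hc, h1]

lemma m6_rho_le_zero (h : ConfSol 20 w f T) (hr : ∀ t ∈ Ico 0 T, ∀ x ∈ Ioo (0 : ℝ) 1,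
    0 < rs w f t x) {t : ℝ} (ht : t ∈ Ico 0 T) {x : ℝ} (hx : x ∈ Ioo (-1 : ℝ) 1) :
    rho w f t x ≤ rho w f t 0 := by
  have h1 : rho w f t |x| ≤ rho w f t 0 :=
    m6_rho_antitone h hr ht ⟨le_rfl, one_pos⟩ ⟨abs_nonneg x, abs_lt.2 hx⟩ (abs_nonneg x)
  rcases abs_choice x with h2 | h2
  · rwa [h2] at h1
  · rw [h2, m6_rho_even h ht (Ioo_subset_Icc_self hx)] at h1
    exact h1

lemma m6_xx_le (h : ConfSol 20 w f T) (hr : ∀ t ∈ Ico 0 T, ∀ x ∈ Ioo (0 : ℝ) 1,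
    0 < rs w f t x) {t : ℝ} (ht : t ∈ Ico 0 T) :
    dx (dx (f t)) 0 + dx (dx (w t)) 0 ≤ 1 := by
  have h0 : (0 : ℝ) ∈ Ioo (-1 : ℝ) 1 := ⟨by norm_num, by norm_num⟩
  have hU : Ioo (-1 : ℝ) 1 ∈ 𝓝 (0 : ℝ) := isOpen_Ioo.mem_nhds h0
  have h1 := second_deriv_nonpos (F := rho w f t)
    (F1 := fun x => (dx (f t) x + dx (w t) x - x / (1 - x ^ 2)) / 2)
    (by filter_upwards [hU] with x hx using m6_rho_le_zero h hr ht hx)
    (by filter_upwards [hU] with x hx using m6_hasDerivAt_rho h ht hx)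
    (m6_hasDerivAt_rho2 h ht)
  linarith only [h1, h1.2]

/-- time derivative of `ρ` at the equator -/
lemma m6_rho_time (h : ConfSol 20 w f T) {t : ℝ} (ht : t ∈ Ico 0 T) :
    HasDerivWithinAt (fun s => rho w f s 0)
      ((Real.exp (-2 * w t 0) * (dx (dx (f t)) 0 + dx (dx (w t)) 0 - 20)
        - 19 * Real.exp (-2 * f t 0)) / 2) (Ico 0 T) t := by
  have hx : (0 : ℝ) ∈ Icc (-1 : ℝ) 1 := ⟨by norm_num, by norm_num⟩
  have h1 := h.eq_w t ht 0 hx
  have h2 := h.eq_f t ht 0 hx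
  have h6 := (((h2.add h1).add_const (Real.log (1 - (0 : ℝ) ^ 2) / 2)).sub_const
    (Real.log zeta0)).div_const 2
  refine h6.congr_deriv ?_
  simp only [rhsW, rhsF, lap, Jf, intervalIntegral.integral_same]
  norm_num
  ring

lemma m6_rho_time_antitone (h : ConfSol 20 w f T) (hr : ∀ t ∈ Ico 0 T, ∀ x ∈ Ioo (0 : ℝ) 1,
    0 < rs w f t x) : AntitoneOn (fun s => rho w f s 0) (Ico 0 T) := by
  refine antitoneOn_of_deriv_nonpos (convex_Ico 0 T) ?_ ?_ ?_
  · intro t ht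
    exact (m6_rho_time h ht).continuousWithinAt
  · intro t ht
    rw [interior_Ico] at ht
    exact ((m6_rho_time h (Ioo_subset_Ico_self ht)).hasDerivAt
      (Ico_mem_nhds ht.1 ht.2)).differentiableAt.differentiableWithinAt
  · intro t ht
    rw [interior_Ico] at ht
    rw [((m6_rho_time h (Ioo_subset_Ico_self ht)).hasDerivAt (Ico_mem_nhds ht.1 ht.2)).deriv]
    have h1 := m6_xx_le h hr (Ioo_subset_Ico_self ht)
    have h2 := Real.exp_pos (-2 * w t 0)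
    have h3 := Real.exp_pos (-2 * f t 0)
    linarith only [h2, h3, mul_nonneg (sub_nonneg.2 h1) (le_of_lt (sub_pos.2 h2))]

/-- `r` is bounded by its initial value at the equator. -/
theorem rr_le_equator (h : ConfSol 20 w f T) (hr : ∀ t ∈ Ico 0 T, ∀ x ∈ Ioo (0 : ℝ) 1,
    0 < rs w f t x) : ∀ t ∈ Ico 0 T, ∀ x ∈ Ico (0 : ℝ) 1, rr w f t x ≤ rr w f 0 0 := by
  intro t ht x hx
  refine Real.exp_le_exp.2 ?_
  refine (m6_rho_le_zero h hr ht (x := x) ⟨by linarith only [hx, hx.1], hx.2⟩).trans ?_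
  exact m6_rho_time_antitone h hr ⟨le_rfl, lt_of_le_of_lt ht.1 ht.2⟩ ht ht.1

end

end Vale.Agent.P244.ST
end

section

/-!
# P244-ST, block M : the equator stays away (`MEq`)
-/

open Set Filter
open scoped ContDiff Topology

namespace Vale.Agent.P244.ST

noncomputable section

variable {w f : Fn} {T : ℝ}

lemma meq_dx_even {h : ℝ → ℝ} (hh : ContDiffOn ℝ ∞ h (Icc (-1) 1))
    (he : ∀ x ∈ Icc (-1 : ℝ) 1, h (-x) = h x) : dx h 0 = 0 := by
  have h0 : (0 : ℝ) ∈ Ioo (-1 : ℝ) 1 := ⟨by norm_num, by norm_num⟩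
  have h1 := m6_hasDerivAt hh h0
  have h2 : HasDerivAt (fun x : ℝ => h (-x)) (dx h 0 * (-1)) 0 := by
    have h3 : HasDerivAt (fun x : ℝ => -x) (-1) (0 : ℝ) := hasDerivAt_neg 0
    have h4 : HasDerivAt h (dx h 0) (-(0 : ℝ)) := by simpa using h1
    exact HasDerivAt.comp (0 : ℝ) h4 h3
  have h3 : (fun x : ℝ => h (-x)) =ᶠ[𝓝 0] h := by
    filter_upwards [isOpen_Ioo.mem_nhds h0] with x hx
    exact he x (Ioo_subset_Icc_self hx)
  have h4 := (h2.congr_of_eventuallyEq h3.symm).unique h1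
  linarith only [h4]

lemma meq_rho_x0 (h : ConfSol 20 w f T) {t : ℝ} (ht : t ∈ Ico 0 T) :
    deriv (rho w f t) 0 = 0 := by
  have h0 : (0 : ℝ) ∈ Ioo (-1 : ℝ) 1 := ⟨by norm_num, by norm_num⟩
  rw [(m6_hasDerivAt_rho h ht h0).deriv, meq_dx_even (m6_slice_w h ht) (h.even_w t ht),
    meq_dx_even (m6_slice_f h ht) (h.even_f t ht)]
  norm_num

lemma meq_uu_x0 (h : ConfSol 20 w f T) {t : ℝ} (ht : t ∈ Ico 0 T) :
    deriv (uu w f t) 0 = 0 := by
  have h0 : (0 : ℝ) ∈ Ioo (-1 : ℝ) 1 := ⟨by norm_num, by norm_num⟩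
  have h1 := m6_hasDerivAt (m6_slice_w h ht) h0
  have h2 := m6_hasDerivAt (m6_slice_f h ht) h0
  rw [meq_dx_even (m6_slice_w h ht) (h.even_w t ht)] at h1
  rw [meq_dx_even (m6_slice_f h ht) (h.even_f t ht)] at h2
  have h3 : HasDerivAt (fun x : ℝ => Real.log (1 - x ^ 2)) 0 0 := by
    have h4 : HasDerivAt (fun x : ℝ => 1 - x ^ 2) 0 (0 : ℝ) := by
      simpa using ((hasDerivAt_id (0 : ℝ)).pow 2).const_sub 1
    have := h4.log (by norm_num)
    simpa using this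
  have h4 : HasDerivAt (uu w f t) (0 - 0 - 0 / 2) 0 := (h2.sub h1).sub (h3.div_const 2)
  rw [h4.deriv]; norm_num

lemma meq_rs0 (h : ConfSol 20 w f T) {t : ℝ} (ht : t ∈ Ico 0 T) : rs w f t 0 = 0 := by
  show -(sx 0 * Real.exp (-w t 0)) * deriv (rho w f t) 0 = 0
  rw [meq_rho_x0 h ht, mul_zero]

lemma meq_PP0 (h : ConfSol 20 w f T) {t : ℝ} (ht : t ∈ Ico 0 T) : PP w f t 0 = 0 := by
  show -(sx 0 * Real.exp (-w t 0)) * deriv (uu w f t) 0 = 0
  rw [meq_uu_x0 h ht, mul_zero]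

lemma sx_zero : sx 0 = 1 := by unfold sx; norm_num

lemma meq_Dsrs (h : ConfSol 20 w f T) {t : ℝ} (ht : t ∈ Ico 0 T) :
    Ds w (rs w f) t 0 = Real.exp (-2 * w t 0) *
      ((dx (dx (f t)) 0 + dx (dx (w t)) 0 - 1) / 2) := by
  have h0 : (0 : ℝ) ∈ Ioo (-1 : ℝ) 1 := ⟨by norm_num, by norm_num⟩
  have hS := M2.slice_of_confSol h ht
  have hk := M2.hasDerivAt_of_smooth (M2.smooth_kk hS) h0
  have hev : deriv (rho w f t) =ᶠ[𝓝 0]
      fun x => (dx (f t) x + dx (w t) x - x / (1 - x ^ 2)) / 2 := by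
    filter_upwards [isOpen_Ioo.mem_nhds h0] with x hx
    exact (m6_hasDerivAt_rho h ht hx).deriv
  have hr : HasDerivAt (deriv (rho w f t)) ((dx (dx (f t)) 0 + dx (dx (w t)) 0 - 1) / 2) 0 :=
    (m6_hasDerivAt_rho2 h ht).congr_of_eventuallyEq hev
  have h1 : HasDerivAt (rs w f t) (deriv (M2.kk w t) 0 * deriv (rho w f t) 0 +
      M2.kk w t 0 * ((dx (dx (f t)) 0 + dx (dx (w t)) 0 - 1) / 2)) 0 := hk.mul hr
  have h2 : Ds w (rs w f) t 0 = M2.kk w t 0 * deriv (rs w f t) 0 := rfl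
  rw [h2, h1.deriv, meq_rho_x0 h ht]
  have h3 : M2.kk w t 0 = -Real.exp (-w t 0) := by unfold M2.kk; rw [sx_zero]; ring
  have h4 : Real.exp (-2 * w t 0) = Real.exp (-w t 0) * Real.exp (-w t 0) := by
    rw [← Real.exp_add]; congr 1; ring
  rw [h3, h4]
  ring

lemma meq_cosh (w f : Fn) (t : ℝ) : Real.cosh (uu w f t 0) / (rr w f t 0) ^ 2 =
    19 / 78 * (Real.exp (-2 * w t 0) + Real.exp (-2 * f t 0)) := by
  have h1 : uu w f t 0 = f t 0 - w t 0 := by unfold uu; norm_num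
  have h2 : (rr w f t 0) ^ 2 = Real.exp (f t 0 + w t 0) * (39 / 19) := by
    have hz : Real.exp (-Real.log zeta0) = 39 / 19 := by
      rw [Real.exp_neg, Real.exp_log (by unfold zeta0; norm_num)]
      unfold zeta0; norm_num
    rw [← hz, ← Real.exp_add]
    unfold rr rho
    rw [← Real.exp_nat_mul]
    congr 1
    norm_num
    ring
  rw [h1, h2, Real.cosh_eq]
  have e1 : Real.exp (f t 0 - w t 0) = Real.exp (f t 0 + w t 0) * Real.exp (-2 * w t 0) := by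
    rw [← Real.exp_add]; congr 1; ring
  have e2 : Real.exp (-(f t 0 - w t 0)) = Real.exp (f t 0 + w t 0) * Real.exp (-2 * f t 0) := by
    rw [← Real.exp_add]; congr 1; ring
  rw [e1, e2]
  have := Real.exp_pos (f t 0 + w t 0)
  field_simp
  ring

/-- the time derivative of `ρ` at the equator -/
lemma meq_rho_t (h : ConfSol 20 w f T) {t : ℝ} (ht : t ∈ Ico 0 T) :
    HasDerivWithinAt (fun s => rho w f s 0)
      (-(RR w f t 0) / 80 - 39 / 2 * (Real.cosh (uu w f t 0) / (rr w f t 0) ^ 2)) (Ico 0 T) t := by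
  refine (m6_rho_time h ht).congr_deriv ?_
  have h1 := meq_rs0 h ht
  have h2 := meq_PP0 h ht
  have h3 := meq_Dsrs h ht
  have h4 := meq_cosh w f t
  have h5 : Ds w (Ds w (rho w f)) t 0 = Ds w (rs w f) t 0 := rfl
  have h6 : Ds w (rho w f) t 0 = rs w f t 0 := rfl
  have h7 : RR w f t 0 = -(80 * Ds w (rs w f) t 0) +
      1560 * (Real.cosh (uu w f t 0) / (rr w f t 0) ^ 2) := by
    simp only [RR, E0, yy, Lp, h5, h6, h1, h2]
    ring
  rw [h7, h4, h3]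
  ring

/-- facts on the parameters -/
structure ParEq (q : Par) : Prop where
  N : 100 ≤ q.N
  CU : 0 < q.CU
  GR : 0 ≤ q.GR
  eps : 0 < q.eps
  eps1 : q.eps ≤ 1
  small : q.CU * q.eps * q.N ^ bb ≤ 1
  small2 : q.GR * q.N ^ 2 * (q.CU * q.N ^ bb) ^ 2 * q.eps ≤ q.eta

theorem ev_parEq : Ev ParEq := by
  refine ⟨0, fun B hB => ?_⟩
  refine ⟨1, one_pos, fun rho0 h1 => ?_⟩
  refine ⟨0, fun BV h2 => ?_⟩
  refine ⟨1, fun MU h3 => ?_⟩
  refine ⟨1, fun MP h4 => ?_⟩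
  refine ⟨1, fun MV h5 => ?_⟩
  refine ⟨1, fun CU h6 => ?_⟩
  refine ⟨1, fun CP h7 => ?_⟩
  refine ⟨1, fun CV h8 => ?_⟩
  refine ⟨0, fun GR h9 => ?_⟩
  refine ⟨1, one_pos, fun sg h10 => ?_⟩
  refine ⟨1, one_pos, fun d0 h11 => ?_⟩
  refine ⟨1, one_pos, fun rb h12 => ?_⟩
  refine ⟨100, fun N h13 => ?_⟩
  have hCU : 0 < CU := lt_of_lt_of_le one_pos h6
  have hGR : 0 ≤ GR := h9
  have hN : 0 < N := by linarith only [h13]
  have hNb : 0 < N ^ bb := Real.rpow_pos_of_pos hN _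
  set X := CU * N ^ bb with hX
  have hXp : 0 < X := mul_pos hCU hNb
  set Y := GR * N ^ 2 * X ^ 2 with hY
  have hYp : 0 ≤ Y := by positivity
  refine ⟨min 1 (min (1 / X) (10 ^ 4 / N ^ 2 / (Y + 1))), by (clear * - h6 h13 h9; positivity), fun eps h14 => ?_⟩
  have e1 : eps ≤ 1 := h14.2.trans (min_le_left _ _)
  have e2 : eps ≤ 1 / X := h14.2.trans ((min_le_right _ _).trans (min_le_left _ _))
  have e3 : eps ≤ 10 ^ 4 / N ^ 2 / (Y + 1) :=
    h14.2.trans ((min_le_right _ _).trans (min_le_right _ _))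
  refine ⟨h13, hCU, hGR, h14.1, e1, ?_, ?_⟩
  · show CU * eps * N ^ bb ≤ 1
    rw [le_div_iff₀ hXp] at e2
    calc CU * eps * N ^ bb = eps * X := by rw [hX]; ring
      _ ≤ 1 := e2
  · show GR * N ^ 2 * (CU * N ^ bb) ^ 2 * eps ≤ 10 ^ 4 / N ^ 2
    rw [le_div_iff₀ (by (clear * - h9 h13 h6; positivity))] at e3
    have : Y * eps ≤ eps * (Y + 1) := by linarith only [h14.1]
    exact this.trans e3

theorem cosh_sub_one_le {u : ℝ} (hu : |u| ≤ 1) : Real.cosh u - 1 ≤ u ^ 2 := by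
  have h1 : Real.cosh u ≤ Real.exp (u ^ 2 / 2) := Real.cosh_le_exp_half_sq u
  have h2 : u ^ 2 ≤ 1 := by
    rw [← sq_abs]; linarith only [mul_nonneg (sub_nonneg.2 hu) (sub_nonneg.2 hu), mul_nonneg (sub_nonneg.2 hu) (sub_nonneg.2 (abs_nonneg u))]
  have h3 : Real.exp (u ^ 2 / 2) ≤ 1 / (1 - u ^ 2 / 2) := Real.exp_bound_div_one_sub_of_interval
    (by positivity) (by linarith only [h2])
  have h4 : 1 / (1 - u ^ 2 / 2) ≤ 1 + u ^ 2 := by
    rw [div_le_iff₀ (by linarith only [h2])]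
    linarith only [mul_nonneg (sub_nonneg.2 h2) (sq_nonneg u)]
  linarith only [h1, h3, h4]

theorem gam_pos : 0 < gam := by
  have := M.kap_lt
  unfold gam lam aa
  push_cast
  linarith only [this]

theorem bb_pos' : 0 < bb := by
  have := M.kap_lt
  unfold bb
  linarith only [this]

/-- `R ≤ 3η` at large radii -/
theorem RB_le {q : Par} (hq : ParEq q) {t r u : ℝ} (ht0 : 0 ≤ t) (ht1 : t < 1)
    (hr1 : q.N / 4 ≤ r) (hr2 : r ≤ q.N) (hu : |u| ≤ q.UB t r) : q.RB t r u ≤ 3 * q.eta := by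
  have hN := hq.N
  have hNp : 0 < q.N := by linarith only [hN]
  have hrp : 0 < r := by linarith only [hr1, hN]
  have hτ : 0 < tau t := by unfold tau; linarith only [ht1]
  have hη : 0 < q.eta := by unfold Par.eta; positivity
  have hUB : q.UB t r ≤ q.CU * q.eps * q.N ^ bb := by
    unfold Par.UB
    refine mul_le_mul_of_nonneg_left ?_ (mul_pos hq.CU hq.eps).le
    have h1 : 0 ≤ 300 * tau t * r ^ (bb - 2) := by positivity
    have h2 : r ^ bb ≤ q.N ^ bb := Real.rpow_le_rpow hrp.le hr2 bb_pos'.le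
    linarith only [h1, h2]
  have hu1 : |u| ≤ q.CU * q.eps * q.N ^ bb := hu.trans hUB
  have hu2 : |u| ≤ 1 := hu1.trans hq.small
  have hc := cosh_sub_one_le hu2
  have hu3 : u ^ 2 ≤ (q.CU * q.eps * q.N ^ bb) ^ 2 := by
    rw [← sq_abs u]
    exact pow_le_pow_left₀ (abs_nonneg _) hu1 2
  have hS : 1 ≤ tau t + r ^ 2 / 100 := by
    have : (25 : ℝ) ^ 2 ≤ r ^ 2 := pow_le_pow_left₀ (by norm_num) (by linarith only [hr1, hN]) 2
    linarith only [hτ, this]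
  have hS2 : (tau t + r ^ 2 / 100) ^ (-gam) ≤ 1 :=
    Real.rpow_le_one_of_one_le_of_nonpos hS (by linarith only [gam_pos])
  have hS0 : 0 ≤ (tau t + r ^ 2 / 100) ^ (-gam) := Real.rpow_nonneg (by linarith only [hS]) _
  have he : q.eps ^ 2 * q.eps ^ (-(2 * aa)) ≤ q.eps := by
    have h1 : q.eps ^ 2 * q.eps ^ (-(2 * aa)) = q.eps ^ (2 - 2 * aa) := by
      rw [← Real.rpow_natCast, ← Real.rpow_add hq.eps]; congr 1
    rw [h1]
    calc q.eps ^ (2 - 2 * aa) ≤ q.eps ^ (1 : ℝ) :=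
          Real.rpow_le_rpow_of_exponent_ge hq.eps hq.eps1 (by unfold aa; norm_num)
      _ = q.eps := Real.rpow_one _
  have hep : 0 < q.eps ^ (-(2 * aa)) := Real.rpow_pos_of_pos hq.eps _
  have hmain : q.GR * r ^ 2 * (Real.cosh u - 1) * q.eps ^ (-(2 * aa))
      * (tau t + r ^ 2 / 100) ^ (-gam) ≤ q.eta := by
    have hc0 : 0 ≤ Real.cosh u - 1 := by linarith only [Real.one_le_cosh u]
    have hr4 : r ^ 2 ≤ q.N ^ 2 := pow_le_pow_left₀ hrp.le hr2 2
    have s1 : q.GR * r ^ 2 ≤ q.GR * q.N ^ 2 := mul_le_mul_of_nonneg_left hr4 hq.GR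
    have s2 : Real.cosh u - 1 ≤ (q.CU * q.eps * q.N ^ bb) ^ 2 := hc.trans hu3
    have s3 : q.GR * r ^ 2 * (Real.cosh u - 1) ≤
        q.GR * q.N ^ 2 * (q.CU * q.eps * q.N ^ bb) ^ 2 :=
      mul_le_mul s1 s2 hc0 (mul_nonneg hq.GR (by positivity))
    have s4 : q.GR * r ^ 2 * (Real.cosh u - 1) * q.eps ^ (-(2 * aa)) ≤
        q.GR * q.N ^ 2 * (q.CU * q.eps * q.N ^ bb) ^ 2 * q.eps ^ (-(2 * aa)) :=
      mul_le_mul_of_nonneg_right s3 hep.le
    have s5 : q.GR * q.N ^ 2 * (q.CU * q.eps * q.N ^ bb) ^ 2 * q.eps ^ (-(2 * aa)) =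
        q.GR * q.N ^ 2 * (q.CU * q.N ^ bb) ^ 2 * (q.eps ^ 2 * q.eps ^ (-(2 * aa))) := by ring
    have hcoef : 0 ≤ q.GR * q.N ^ 2 * (q.CU * q.N ^ bb) ^ 2 :=
      mul_nonneg (mul_nonneg hq.GR (by positivity)) (by positivity)
    have s6 := mul_le_mul_of_nonneg_left he hcoef
    have s7 : q.GR * r ^ 2 * (Real.cosh u - 1) * q.eps ^ (-(2 * aa)) ≤ q.eta := by
      linarith only [hq, s4, s6, hq.small2]
    have s8 : 0 ≤ q.GR * r ^ 2 * (Real.cosh u - 1) * q.eps ^ (-(2 * aa)) :=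
      mul_nonneg (mul_nonneg (mul_nonneg hq.GR (by positivity)) hc0) hep.le
    calc _ ≤ q.GR * r ^ 2 * (Real.cosh u - 1) * q.eps ^ (-(2 * aa)) * 1 :=
          mul_le_mul_of_nonneg_left hS2 s8
      _ ≤ q.eta := by rw [mul_one]; exact s7
  unfold Par.RB
  have : q.eta * (1 + t) ≤ 2 * q.eta := by linarith only [mul_pos (sub_pos.2 ht1) (sub_pos.2 hη)]
  linarith only [hmain, this]

/-- the equator stays away -/
theorem mEq : MEq := by
  intro g hg
  refine ev_parEq.mono ?_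
  intro q hq b w f T t₁ hM
  have hN := hq.N
  have hNp : 0 < q.N := by linarith only [hN]
  have hsub : ∀ t ∈ Icc 0 t₁, t ∈ Ico 0 T := fun t ht => ⟨ht.1, lt_of_le_of_lt ht.2 hM.ht₁.2⟩
  have hη : q.N ^ 2 * q.eta = 10 ^ 4 := by
    unfold Par.eta
    field_simp
  -- lower bound of the derivative of r²
  have hder : ∀ t ∈ Icc 0 t₁, HasDerivWithinAt (fun s => (rr w f s 0) ^ 2)
      ((rr w f t 0) ^ 2 * (-(RR w f t 0) / 40) - 39 * Real.cosh (uu w f t 0)) (Icc 0 t₁) t := by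
    intro t ht
    have h1 := ((meq_rho_t hM.sol (hsub t ht)).exp.pow 2).mono (fun s hs => hsub s hs)
    refine (h1.congr_deriv ?_).congr (fun s _ => rfl) rfl
    have hr := (M2.rr_pos (w := w) (f := f) (t := t) 0)
    have e : Real.exp (rho w f t 0) = rr w f t 0 := rfl
    rw [e]
    field_simp
    push_cast
    ring
  have hlow : ∀ t ∈ Icc 0 t₁, -830 ≤
      (rr w f t 0) ^ 2 * (-(RR w f t 0) / 40) - 39 * Real.cosh (uu w f t 0) := by
    intro t ht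
    have hx0 : (0 : ℝ) ∈ Ico (0 : ℝ) 1 := ⟨le_rfl, one_pos⟩
    have hB := hM.boot.b5 t ht 0 hx0
    have h0 := hM.boot.b0 t ht
    have hτ1 : tau t ≤ 1 := by unfold tau; linarith only [ht, ht.1]
    have hτ : 0 < tau t := by
      unfold tau
      have := hM.ht₁.2
      have := hM.hT1
      linarith [ht.2]
    have ht1 : t < 1 := by
      have := hM.ht₁.2
      have := hM.hT1
      linarith [ht.2]
    have hs : 0 < Real.sqrt (tau t) := Real.sqrt_pos.2 hτ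
    have hs1 : Real.sqrt (tau t) ≤ 1 := Real.sqrt_le_one.2 hτ1
    have hy : 25 ≤ yv w f t 0 := by
      unfold yv
      rw [le_div_iff₀ hs]
      linarith only [hs1, h0, hN]
    have hr2 : rr w f t 0 ≤ q.N := (hM.qual.r_le t (hsub t ht) 0 hx0).trans hM.init.equator_le
    have hu := (hB.b5 hy).1
    have hR := hB.b3.trans (RB_le hq ht.1 ht1 h0 hr2 hu)
    have hRn := hM.qual.R_nonneg t (hsub t ht) 0 hx0
    have hu1 : |uu w f t 0| ≤ 1 := by
      refine hu.trans ((le_trans ?_ hq.small))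
      unfold Par.UB
      refine mul_le_mul_of_nonneg_left ?_ (mul_pos hq.CU hq.eps).le
      have hrp : 0 < rr w f t 0 := M2.rr_pos 0
      have h1 : 0 ≤ 300 * tau t * (rr w f t 0) ^ (bb - 2) := by positivity
      have h2 : (rr w f t 0) ^ bb ≤ q.N ^ bb := Real.rpow_le_rpow hrp.le hr2 bb_pos'.le
      linarith only [h1, h2]
    have hc := cosh_sub_one_le hu1
    -- cosh u ≤ 1 + u² with |u| ≤ 1 is too weak: use cosh 1 directly
    have hcc : Real.cosh (uu w f t 0) ≤ 2 := by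
      have : (uu w f t 0) ^ 2 ≤ 1 := by rw [← sq_abs]; linarith only [mul_nonneg (sub_nonneg.2 hu1) (sub_nonneg.2 (abs_nonneg (uu w f t 0))), mul_nonneg (sub_nonneg.2 hu1) (sub_nonneg.2 hu1)]
      linarith only [hc, this]
    have hrr : (rr w f t 0) ^ 2 ≤ q.N ^ 2 :=
      pow_le_pow_left₀ (M2.rr_pos (w := w) (f := f) (t := t) 0).le hr2 2
    have h5 : (rr w f t 0) ^ 2 * (RR w f t 0) ≤ q.N ^ 2 * (3 * q.eta) :=
      mul_le_mul hrr hR hRn (by positivity)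
    have h6 : q.N ^ 2 * (3 * q.eta) = 3 * 10 ^ 4 := by rw [← hη]; ring
    linarith only [h5, hcc, hη]
  intro t ht
  -- monotonicity of r² + 830 t
  have hmono : MonotoneOn (fun s => (rr w f s 0) ^ 2 + 830 * s) (Icc 0 t₁) := by
    refine monotoneOn_of_deriv_nonneg (convex_Icc 0 t₁) ?_ ?_ ?_
    · intro s hs
      exact ((hder s hs).continuousWithinAt.add (by fun_prop))
    · intro s hs
      have hs' := interior_subset hs
      have hn : Icc 0 t₁ ∈ 𝓝 s := mem_interior_iff_mem_nhds.1 hs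
      exact (((hder s hs').hasDerivAt hn).add ((hasDerivAt_id s).const_mul 830)).differentiableAt.differentiableWithinAt
    · intro s hs
      have hs' := interior_subset hs
      have hn : Icc 0 t₁ ∈ 𝓝 s := mem_interior_iff_mem_nhds.1 hs
      have h1 := ((hder s hs').hasDerivAt hn).add ((hasDerivAt_id s).const_mul 830)
      have h2 : deriv (fun s => (rr w f s 0) ^ 2 + 830 * s) s = _ := h1.deriv
      rw [h2]
      have := hlow s hs'
      linarith only [this]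
  have h0m : (0 : ℝ) ∈ Icc 0 t₁ := ⟨le_rfl, hM.ht₁.1⟩
  have h1 := hmono h0m ht ht.1
  simp only [mul_zero, add_zero] at h1
  have h2 : (q.N / 2) ^ 2 ≤ (rr w f 0 0) ^ 2 := pow_le_pow_left₀ (by positivity) hM.init.equator 2
  have ht1 : t ≤ 1 := by
    have := hM.ht₁.2
    have := hM.hT1
    linarith [ht.2]
  have h3 : (q.N / 4) ^ 2 < (rr w f t 0) ^ 2 := by nlinarith only [hN, h1, h2, ht1]
  exact lt_of_pow_lt_pow_left₀ 2 (M2.rr_pos 0).le h3

end

end Vale.Agent.P244.ST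
end

section

/-!
# P244-ST, block M6 : numerical facts and pointwise inequalities in region III (helper568)
-/

open Set

namespace Vale.Agent.P244.ST

/-! ### the exponents -/

lemma m6_sqrt_bounds : (34.77 : ℝ) < Real.sqrt 1209 ∧ Real.sqrt 1209 < 34.771 := by
  constructor
  · exact Real.lt_sqrt_of_sq_lt (by norm_num)
  · rw [Real.sqrt_lt' (by norm_num)]; norm_num

lemma m6_kap_bounds : (2.1145 : ℝ) < kap ∧ kap < 2.115 := by
  have h := m6_sqrt_bounds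
  unfold kap
  constructor <;> linarith only [h, h.1, h.2]

lemma m6_bb_bounds : (3.885 : ℝ) < bb ∧ bb < 3.8855 := by
  have h := m6_kap_bounds
  unfold bb
  constructor <;> linarith only [h, h.1, h.2]

/-- `sinh x ≤ x cosh x` for `x ≥ 0`, absolute value version -/
lemma m6_abs_sinh_le (x : ℝ) : |Real.sinh x| ≤ |x| * Real.cosh x := by
  have key : ∀ y : ℝ, 0 ≤ y → Real.sinh y ≤ y * Real.cosh y := by
    intro y hy
    have hm : MonotoneOn (fun z : ℝ => z * Real.cosh z - Real.sinh z) (Ici 0) := by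
      refine monotoneOn_of_deriv_nonneg (convex_Ici 0) (by fun_prop) (by fun_prop) ?_
      intro z hz
      rw [interior_Ici] at hz
      have h1 : HasDerivAt (fun z : ℝ => z * Real.cosh z - Real.sinh z)
          ((1 * Real.cosh z + z * Real.sinh z) - Real.cosh z) z :=
        ((hasDerivAt_id z).mul (Real.hasDerivAt_cosh z)).sub (Real.hasDerivAt_sinh z)
      rw [h1.deriv]
      have h2 : 0 < Real.sinh z := Real.sinh_pos_iff.2 hz
      have h3 : (0 : ℝ) < z := hz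
      linarith only [mul_pos h3 h2]
    have := hm (mem_Ici.2 le_rfl) (mem_Ici.2 hy) hy
    simp at this
    linarith only [this]
  have h1 := key |x| (abs_nonneg x)
  rwa [Real.cosh_abs, ← Real.abs_sinh] at h1

/-- `cosh x ≤ 1.001` for `|x| ≤ 0.04` -/
lemma m6_cosh_le {x : ℝ} (hx : |x| ≤ 0.04) : Real.cosh x ≤ 1.001 := by
  have h1 : Real.cosh x ≤ Real.exp (x ^ 2 / 2) := Real.cosh_le_exp_half_sq x
  have h2 : x ^ 2 / 2 ≤ 0.0008 := by
    have := sq_le_sq' (by linarith only [neg_abs_le x, hx]) (le_abs_self x |>.trans hx) (a := x) (b := 0.04)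
    linarith only [this]
  have h3 : Real.exp (x ^ 2 / 2) ≤ Real.exp 0.0008 := Real.exp_le_exp.2 h2
  have h4 : Real.exp 0.0008 ≤ 1.001 := by
    have := Real.exp_bound_div_one_sub_of_interval' (x := (0.0008 : ℝ)) (by norm_num) (by norm_num)
    norm_num at this ⊢
    linarith only [this]
  linarith only [h1, h3, h4]

/-! ### the barrier `r^β - 300 τ r^(β-2)` -/

/-- value of `(D_t - Lap)` on `C (r^β - 300 τ r^(β-2))`, bounded below; `a = r^(β-2)` -/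
lemma m6_op_lower {β ch z r τ a C : ℝ} (hβ1 : 1.88 ≤ β) (hβ2 : β ≤ 3.89) (hch1 : 1 ≤ ch)
    (hch : ch ≤ 1.001) (hr : 0 < r) (hz : r ^ 2 * z ^ 2 ≤ 1.05)
    (hτ : 0 ≤ τ) (hy : 625 * τ ≤ r ^ 2) (ha : 0 < a) (hC : 0 < C) :
    C * a * (297.7 - 39.04 * β - 1.05 * β ^ 2) ≤
      C * (-(r ^ 2 * a) * (39 * β * ch / r ^ 2 + β ^ 2 * z ^ 2) -
        300 * (-a - τ * a * (39 * (β - 2) * ch / r ^ 2 + (β - 2) ^ 2 * z ^ 2))) := by
  have hr2 : 0 < r ^ 2 := by positivity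
  obtain ⟨s, hs⟩ : ∃ s, s = τ / r ^ 2 := ⟨_, rfl⟩
  have hs0 : 0 ≤ s := by rw [hs]; positivity
  have hs1 : s ≤ 1 / 625 := by
    rw [hs, div_le_iff₀ hr2]; linarith only [hy]
  obtain ⟨Z, hZ⟩ : ∃ Z, Z = r ^ 2 * z ^ 2 := ⟨_, rfl⟩
  have hZ0 : 0 ≤ Z := by rw [hZ]; positivity
  have hZ1 : Z ≤ 1.05 := by rw [hZ]; exact hz
  have e1 : C * (-(r ^ 2 * a) * (39 * β * ch / r ^ 2 + β ^ 2 * z ^ 2) -
        300 * (-a - τ * a * (39 * (β - 2) * ch / r ^ 2 + (β - 2) ^ 2 * z ^ 2))) =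
      C * a * (300 - 39 * β * ch - β ^ 2 * Z + 300 * s * (39 * (β - 2) * ch + (β - 2) ^ 2 * Z)) := by
    have hτ' : τ = s * r ^ 2 := by rw [hs]; field_simp
    rw [hτ', hZ]
    field_simp
    ring
  rw [e1]
  refine mul_le_mul_of_nonneg_left ?_ (by positivity)
  have h1 : 39 * β * ch ≤ 39.04 * β := by nlinarith only [hβ1, hβ2, hch1, hch]
  have h2 : β ^ 2 * Z ≤ 1.05 * β ^ 2 := by linarith only [mul_eq_zero_of_left (sub_eq_zero.2 hZ) (β ^ 2 - (0)), mul_nonneg (sub_nonneg.2 hz) (sq_nonneg β)]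
  have h3 : -4.69 ≤ 39 * (β - 2) * ch + (β - 2) ^ 2 * Z := by
    have h4 : 0 ≤ (β - 2) ^ 2 * Z := by (clear * - hZ0; positivity)
    have h5 : -0.12 * ch ≤ (β - 2) * ch := mul_le_mul_of_nonneg_right (by linarith only [hβ1]) (by linarith only [hch1])
    linarith only [h5, h4, hch]
  have h6 : s * (-4.69) ≤ s * (39 * (β - 2) * ch + (β - 2) ^ 2 * Z) :=
    mul_le_mul_of_nonneg_left h3 hs0
  linarith only [h6, h2, h1, hs1]

lemma m6_u_false {b ch z r τ a C S : ℝ} (hb1 : 3.885 < b) (hb2 : b < 3.8855) (hch1 : 1 ≤ ch)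
    (hch : ch ≤ 1.001) (hr : 0 < r) (hz : r ^ 2 * z ^ 2 ≤ 1.05)
    (hτ : 0 ≤ τ) (hy : 625 * τ ≤ r ^ 2) (ha : 0 < a) (hC : 0 < C)
    (hS : S ≤ C * (r ^ 2 * a - 300 * τ * a) * ch)
    (hle : C * (-(r ^ 2 * a) * (39 * b * ch / r ^ 2 + b ^ 2 * z ^ 2) -
        300 * (-a - τ * a * (39 * (b - 2) * ch / r ^ 2 + (b - 2) ^ 2 * z ^ 2))) ≤ 78 * S / r ^ 2) :
    False := by
  have h0 := m6_op_lower (β := b) (by linarith only [hb1, hb2]) (by linarith only [hb2, hb1]) hch1 hch hr hz hτ hy ha hC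
  have hr2 : 0 < r ^ 2 := by positivity
  have h1 : 78 * S / r ^ 2 ≤ 78 * ch * (C * a) := by
    rw [div_le_iff₀ hr2]
    have : 0 ≤ C * (300 * τ * a) * ch := by (clear * - hC hτ ha hch1; positivity)
    linarith only [this, hS]
  have hCa : 0 < C * a := by positivity
  have h2 : 78 * ch * (C * a) ≤ 78.078 * (C * a) := by nlinarith only [hch, hCa]
  have h3 : 78.078 < 297.7 - 39.04 * b - 1.05 * b ^ 2 := by nlinarith only [hb1, hb2]
  linarith only [mul_pos (sub_pos.2 hCa) (sub_pos.2 h3), h2, h1, h0, hle]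

lemma m6_P_false {b ch z r τ a C S CU sh : ℝ} (hb1 : 3.885 < b) (hb2 : b < 3.8855) (hch1 : 1 ≤ ch)
    (hch : ch ≤ 1.001) (hr : 0 < r) (hz : r ^ 2 * z ^ 2 ≤ 1.05)
    (hτ : 0 ≤ τ) (hy : 625 * τ ≤ r ^ 2) (ha : 0 < a) (hC : 0 < C) (hCU : 0 ≤ CU)
    (hC2 : 2 * CU ≤ C) (hsh : |sh| ≤ 1.001 * (CU * (r ^ 3 * a)))
    (hS : S ≤ 78 * ch / r ^ 2 * (C * (r ^ 2 * a - 300 * τ * a)) + 156 * |sh| * |z| / r ^ 2)
    (hle : C * (-(r ^ 2 * a) * (39 * (b - 1) * ch / r ^ 2 + (b - 1) ^ 2 * z ^ 2) -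
        300 * (-a - τ * a * (39 * (b - 1 - 2) * ch / r ^ 2 + (b - 1 - 2) ^ 2 * z ^ 2))) ≤ S) :
    False := by
  have h0 := m6_op_lower (β := b - 1) (by linarith only [hb1, hb2]) (by linarith only [hb2, hb1]) hch1 hch hr hz hτ hy ha hC
  have hr2 : 0 < r ^ 2 := by positivity
  have hCa : 0 < C * a := by positivity
  have h1 : 78 * ch / r ^ 2 * (C * (r ^ 2 * a - 300 * τ * a)) ≤ 78 * ch * (C * a) := by
    rw [div_mul_eq_mul_div, div_le_iff₀ hr2]
    have : 0 ≤ C * (300 * τ * a) * ch := by (clear * - hC hτ ha hch1; positivity)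
    linarith only [this]
  have h2 : 78 * ch * (C * a) ≤ 78.078 * (C * a) := by nlinarith only [hb1, hb2, hch, hCa]
  have hz1 : r * |z| ≤ 1.025 := by
    refine abs_le_of_sq_le_sq' ?_ (by norm_num) |>.2
    rw [mul_pow, sq_abs]; linarith only [hz, hb2, hb1]
  have h4 : 156 * |sh| * |z| / r ^ 2 ≤ 161 * (CU * a) := by
    rw [div_le_iff₀ hr2]
    have hz0 := abs_nonneg z
    have e1 : 156 * |sh| * |z| ≤ 156 * (1.001 * (CU * (r ^ 3 * a))) * |z| := by
      refine mul_le_mul_of_nonneg_right ?_ hz0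
      linarith only [hsh]
    have e2 : 156 * (1.001 * (CU * (r ^ 3 * a))) * |z| = 156.156 * (CU * a * r ^ 2) * (r * |z|) := by
      ring
    have e3 : 156.156 * (CU * a * r ^ 2) * (r * |z|) ≤ 156.156 * (CU * a * r ^ 2) * 1.025 :=
      mul_le_mul_of_nonneg_left hz1 (by positivity)
    have e4 : 0 ≤ CU * a * r ^ 2 := by positivity
    linarith only [e4, e3, e1]
  have h5 : CU * a ≤ 0.5 * (C * a) := by nlinarith only [hb1, hb2, ha, hC2]
  have h3 : 159 < 297.7 - 39.04 * (b - 1) - 1.05 * (b - 1) ^ 2 := by nlinarith only [hb1, hb2]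
  nlinarith only [hb1, hb2, hS, hle, h0, hCa, h1, h2, h4, h5, h3]

lemma m6_V_aux {z r a CU CP sh P E F : ℝ}
    (hr : 0 < r) (hz : r ^ 2 * z ^ 2 ≤ 1.05) (ha : 0 < a) (hCU : 0 ≤ CU) (hCP : 0 ≤ CP)
    (hsh : |sh| ≤ 1.001 * (CU * (r ^ 4 * a)))
    (hP : |P| ≤ CP * (r ^ 3 * a)) (hE : |E| ≤ 1 / 100) (hF : |F| ≤ 1 / 100) :
    (20 * |z| * |P| + 39 * |sh| / r ^ 2) * ((41 * |E| + |F|) / 10) ≤
      (20.5 * CP + 39.04 * CU) * (r ^ 2 * a) * 0.042 := by
  have hr2 : 0 < r ^ 2 := by positivity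
  have hz1 : r * |z| ≤ 1.025 := by
    refine abs_le_of_sq_le_sq' ?_ (by norm_num) |>.2
    rw [mul_pow, sq_abs]; linarith only [hz]
  have h4 : 20 * |z| * |P| ≤ 20.5 * (CP * (r ^ 2 * a)) := by
    have e1 : 20 * |z| * |P| ≤ 20 * |z| * (CP * (r ^ 3 * a)) :=
      mul_le_mul_of_nonneg_left hP (by positivity)
    have e2 : 20 * |z| * (CP * (r ^ 3 * a)) = 20 * (CP * (r ^ 2 * a)) * (r * |z|) := by ring
    have e3 : 20 * (CP * (r ^ 2 * a)) * (r * |z|) ≤ 20 * (CP * (r ^ 2 * a)) * 1.025 :=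
      mul_le_mul_of_nonneg_left hz1 (by positivity)
    linarith only [e1, e3]
  have h5 : 39 * |sh| / r ^ 2 ≤ 39.04 * (CU * (r ^ 2 * a)) := by
    rw [div_le_iff₀ hr2]
    have e1 : 0 ≤ CU * (r ^ 4 * a) := by positivity
    have e2 : 39.04 * (CU * (r ^ 2 * a)) * r ^ 2 = 39.04 * (CU * (r ^ 4 * a)) := by ring
    rw [e2]
    linarith only [hsh, e1]
  refine (mul_le_mul (add_le_add h4 h5) (show _ ≤ (0.042 : ℝ) by linarith only [hF, hE]) (by (clear * -; positivity))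
    (by positivity)).trans (le_of_eq ?_)
  ring

lemma m6_V_aux2 {ch r τ a C E : ℝ} (hch1 : 1 ≤ ch) (hch : ch ≤ 1.001) (hr : 0 < r)
    (hτ : 0 ≤ τ) (hy : 625 * τ ≤ r ^ 2) (ha : 0 < a) (hC : 0 < C) (hE : |E| ≤ 1 / 100) :
    0.5 * (C * (r ^ 2 * a)) + (78 * ch / r ^ 2 + 2 * |E|) * (C * (r ^ 2 * a - 300 * τ * a)) ≤
      C * (r ^ 2 * a - 300 * τ * a) + 78.078 * (C * a) := by
  have hr2 : 0 < r ^ 2 := by positivity
  have hCa : 0 < C * a := by positivity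
  have h1 : 78 * ch / r ^ 2 * (C * (r ^ 2 * a - 300 * τ * a)) ≤ 78 * ch * (C * a) := by
    rw [div_mul_eq_mul_div, div_le_iff₀ hr2]
    have : 0 ≤ C * (300 * τ * a) * ch := by positivity
    linarith only [this]
  have h2 : 78 * ch * (C * a) ≤ 78.078 * (C * a) := by nlinarith only [hch, hCa]
  have hK : 0.52 * (C * (r ^ 2 * a)) ≤ C * (r ^ 2 * a - 300 * τ * a) := by
    have h3 : 300 * τ * a ≤ 0.48 * (r ^ 2 * a) := by linarith only [mul_nonneg (sub_nonneg.2 hy) (le_of_lt (sub_pos.2 ha))]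
    have h4 : C * (300 * τ * a) ≤ C * (0.48 * (r ^ 2 * a)) := mul_le_mul_of_nonneg_left h3 hC.le
    linarith only [h4]
  have hCr : 0 < C * (r ^ 2 * a) := by positivity
  have hK0 : 0 ≤ C * (r ^ 2 * a - 300 * τ * a) := by linarith only [hCr, hK]
  have h3 : 2 * |E| * (C * (r ^ 2 * a - 300 * τ * a)) ≤ 0.02 * (C * (r ^ 2 * a - 300 * τ * a)) :=
    mul_le_mul_of_nonneg_right (by linarith only [hE]) hK0
  rw [add_mul]
  linarith only [h1, h2, hK, hCr, h3]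

lemma m6_V_false {b ch z r τ a C S CU CP sh P E F : ℝ} (hb1 : 3.885 < b) (hb2 : b < 3.8855)
    (hch1 : 1 ≤ ch)
    (hch : ch ≤ 1.001) (hr : 0 < r) (hz : r ^ 2 * z ^ 2 ≤ 1.05)
    (hτ : 0 ≤ τ) (hy : 625 * τ ≤ r ^ 2) (ha : 0 < a) (hC : 0 < C) (hCU : 0 ≤ CU) (hCP : 0 ≤ CP)
    (hC2 : 2 * CP + 4 * CU ≤ C) (hsh : |sh| ≤ 1.001 * (CU * (r ^ 4 * a)))
    (hP : |P| ≤ CP * (r ^ 3 * a)) (hE : |E| ≤ 1 / 100) (hF : |F| ≤ 1 / 100)
    (hS : S ≤ (78 * ch / r ^ 2 + 2 * |E|) * (C * (r ^ 2 * a - 300 * τ * a)) +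
      (20 * |z| * |P| + 39 * |sh| / r ^ 2) * ((41 * |E| + |F|) / 10))
    (hle : C * (r ^ 2 * a - 300 * τ * a) +
      C * (-(r ^ 2 * a) * (39 * (b - 2) * ch / r ^ 2 + (b - 2) ^ 2 * z ^ 2) -
        300 * (-a - τ * a * (39 * (b - 2 - 2) * ch / r ^ 2 + (b - 2 - 2) ^ 2 * z ^ 2))) ≤ S) :
    False := by
  have h0 := m6_op_lower (β := b - 2) (by linarith only [hb1, hb2]) (by linarith only [hb2, hb1]) hch1 hch hr hz hτ hy ha hC
  have h1 := m6_V_aux2 hch1 hch hr hτ hy ha hC hE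
  have h2 := m6_V_aux hr hz ha hCU hCP hsh hP hE hF
  have hra : 0 < r ^ 2 * a := by positivity
  have h3 : (2 * CP + 4 * CU) * (r ^ 2 * a) ≤ C * (r ^ 2 * a) :=
    mul_le_mul_of_nonneg_right hC2 hra.le
  have h8 : 78.078 < 297.7 - 39.04 * (b - 2) - 1.05 * (b - 2) ^ 2 := by
    clear * - hb1 hb2; nlinarith only [hb1, hb2]
  have hCa : 0 < C * a := by positivity
  have h9 : 78.078 * (C * a) ≤ C * a * (297.7 - 39.04 * (b - 2) - 1.05 * (b - 2) ^ 2) := by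
    rw [mul_comm]; exact mul_le_mul_of_nonneg_left h8.le hCa.le
  have h10 : 0 ≤ CP * (r ^ 2 * a) := by positivity
  have h11 : 0 ≤ CU * (r ^ 2 * a) := by positivity
  have h12 : 0 < C * (r ^ 2 * a) := by positivity
  obtain ⟨X, hX⟩ : ∃ X, X = CP * (r ^ 2 * a) := ⟨_, rfl⟩
  obtain ⟨Y, hY⟩ : ∃ Y, Y = CU * (r ^ 2 * a) := ⟨_, rfl⟩
  have h13 : (20.5 * CP + 39.04 * CU) * (r ^ 2 * a) * 0.042 = 0.861 * X + 1.63968 * Y := by
    rw [hX, hY]; ring
  have h14 : (2 * CP + 4 * CU) * (r ^ 2 * a) = 2 * X + 4 * Y := by rw [hX, hY]; ring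
  rw [h13] at h2
  rw [h14] at h3
  rw [← hX] at h10
  rw [← hY] at h11
  linarith only [hS, hle, h0, h1, h9, h12, h11, h3, h2]

end Vale.Agent.P244.ST
end

section

/-!
# P244-ST / block M3 : the touching point contradiction, real-number form (helper288)
-/

namespace Vale.Agent.P244.ST.ClF

namespace Pt

noncomputable section

variable (P : Pt)

/-- `sinh u` -/
def s : ℝ := P.c * P.T
/-- `Z_s` -/
def Zs : ℝ := P.z * P.c
/-- `c₀` -/
def c0 : ℝ := P.ka * P.c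
/-- `A_s` -/
def As : ℝ := 39 * P.c * (4 / P.k - 1)
/-- `l = h'/h` -/
def l : ℝ := 1 / 20 / P.T - P.T
/-- `l'` -/
def lu : ℝ := -(1 - P.T ^ 2) * (1 + 1 / 20 / P.T ^ 2)
/-- `A_s'` -/
def Asu : ℝ := 39 * (4 * P.c / P.g - 4 * P.s * P.g1 / P.g ^ 2 - P.s)
/-- `c₀'` -/
def c0u : ℝ := P.s - 2 * P.c / P.g + 2 * P.s * P.g1 / P.g ^ 2

variable (S : Sm)

def vG : ℝ := P.g * (1 - S.e)
def vZ : ℝ := P.Zs * (1 + S.th)
/-- `D_r e` at a touching point -/
def vDe : ℝ := S.e * (2 - vG P S * P.l)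
def vDG : ℝ := -(vG P S * P.g1 * (1 - S.e)) - P.g * vDe P S
def vDZ : ℝ := P.Zs * S.Dth + (1 + S.th) * (P.g * P.Zs / 2) * (-vG P S)
def vDAs : ℝ := -(vG P S * P.Asu)
def vQ : ℝ := 39 * P.c0 * (S.e ^ 2 + S.th * (1 - S.e) ^ 2)
def vDQ : ℝ := 39 * (-(vG P S * P.c0u)) * (S.e ^ 2 + S.th * (1 - S.e) ^ 2) +
  39 * P.c0 * (2 * S.e * vDe P S + S.Dth * (1 - S.e) ^ 2 - 2 * S.th * (1 - S.e) * vDe P S)
def vLam : ℝ := 2 * vZ P S + P.As - vZ P S * vG P S * P.l
def vDLam : ℝ := 2 * vDZ P S + vDAs P S - vDZ P S * vG P S * P.l - vZ P S * vDG P S * P.l -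
  vZ P S * vG P S * (-(vG P S * P.lu))

end

variable {P : Pt} {S : Sm}

theorem EE_eq (h : P.Ok) (he : S.e ≠ 0) :
    P.g * P.l * vLam P S + P.g * P.l * vQ P S - vDLam P S - (vDQ P S - 2 * vQ P S) / S.e =
      P.c * EE P S := by
  have hk : P.k ≠ 0 := by have := h.k2; linarith only [this]
  have hT : P.T ≠ 0 := h.T0.ne'
  have hq : P.q ≠ 0 := by have := h.q_bd.1; linarith only [this]
  obtain ⟨T, c, k⟩ := P
  obtain ⟨e, th, Dth⟩ := S
  simp only [Pt.q, Pt.g] at hk hT hq he ⊢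
  simp only [EE, Pt.M, vLam, vQ, vDLam, vDQ, vDZ, vDAs, vDG, vDe, vZ, vG, Pt.Zs, Pt.c0, Pt.As,
    Pt.l, Pt.lu, Pt.Asu, Pt.c0u, Pt.s, Pt.gl, Pt.al, Pt.mu, Pt.nu, Pt.z, Pt.g1, Pt.ka, Pt.q, Pt.g]
  field_simp
  ring

/-- `D_r G` as a function of `D_r e` -/
noncomputable def wDG (P : Pt) (S : Sm) (De : ℝ) : ℝ :=
  -(vG P S * P.g1 * (1 - S.e)) - P.g * De

/-- `D_r Q` as a function of `D_r e` -/
noncomputable def wDQ (P : Pt) (S : Sm) (De : ℝ) : ℝ :=
  39 * (-(vG P S * P.c0u)) * (S.e ^ 2 + S.th * (1 - S.e) ^ 2) +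
  39 * P.c0 * (2 * S.e * De + S.Dth * (1 - S.e) ^ 2 - 2 * S.th * (1 - S.e) * De)

/-- `r² T_r u` -/
theorem Tru_eq (h : P.Ok) : vZ P S * (-vDG P S) + 39 * P.c * (-vG P S) + 78 * P.s =
    P.g * (vLam P S * S.e + vQ P S) := by
  have hk : P.k ≠ 0 := by have := h.k2; linarith only [this]
  have hT : P.T ≠ 0 := h.T0.ne'
  have hq : P.q ≠ 0 := by have := h.q_bd.1; linarith only [this]
  obtain ⟨T, c, k⟩ := P
  obtain ⟨e, th, Dth⟩ := S
  simp only [Pt.q, Pt.g] at hk hT hq ⊢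
  simp only [vLam, vQ, vDG, vDe, vZ, vG, Pt.Zs, Pt.c0, Pt.As,
    Pt.l, Pt.s, Pt.z, Pt.g1, Pt.ka, Pt.q, Pt.g]
  generalize 39 - (k * T) ^ 2 / 4 = q at hq ⊢
  field_simp
  ring

/-- **no touching** -/
theorem no_touch (h : P.Ok) (hS : SmOk P S) {r2 F K σ De DrF DrrF TrF Tru TrK DrrK wt : ℝ}
    (hr2 : 0 < r2) (hK : 0 < K) (hσ : σ * σ = 1) (hKF : σ * F = K) (hF : F * r2 = S.e)
    (hDe : r2 * DrF = De - 2 * S.e) (hwt : 0 ≤ wt)
    (hFF : r2 * TrF = vDZ P S * DrF + vZ P S * DrrF + (2 * vDZ P S + vDAs P S) * F +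
      (2 * vZ P S + P.As) * DrF + (wDQ P S De - 2 * vQ P S) / r2)
    (hTru : r2 * Tru = vZ P S * (-wDG P S De) + 39 * P.c * (-vG P S) + 78 * P.s)
    (hTrK : TrK = K * (wt + P.l * Tru))
    (hDrrK : DrrK = K * ((vG P S * P.l) ^ 2 - wDG P S De * P.l - vG P S * (-(vG P S * P.lu))))
    (h1 : σ * DrF = -(vG P S * P.l * K)) (h2 : σ * DrrF ≤ DrrK) (h3 : TrK ≤ σ * TrF)
    (hZ : 0 ≤ vZ P S) : False := by
  have he := hS.e0
  have hDrF : DrF = -(vG P S * P.l * F) := by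
    calc DrF = (σ * σ) * DrF := by rw [hσ]; ring
      _ = σ * (σ * DrF) := by ring
      _ = -(vG P S * P.l * (σ * (σ * F))) := by rw [h1, ← hKF]; ring
      _ = -(vG P S * P.l * ((σ * σ) * F)) := by ring
      _ = _ := by rw [hσ]; ring
  have hDe' : De = vDe P S := by
    have : r2 * DrF = -(vG P S * P.l * S.e) := by rw [hDrF, ← hF]; ring
    rw [vDe]; linarith only [hDe, this]
  subst hDe'
  have hT := EE_eq h he
  have hP := EE_pos h hS
  have hU := Tru_eq (S := S) h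
  have hu : r2 * Tru = P.g * (vLam P S * S.e + vQ P S) := by
    rw [hTru, ← hU]; rfl
  have hQ : σ * ((wDQ P S (vDe P S) - 2 * vQ P S) / r2) =
      K * ((vDQ P S - 2 * vQ P S) / S.e) := by
    have : wDQ P S (vDe P S) = vDQ P S := rfl
    rw [this, ← hKF, ← hF]
    have hF0 : F ≠ 0 := by rintro rfl; apply he; rw [← hF]; ring
    field_simp
  -- upper bound
  have hup : σ * (r2 * TrF) ≤ K * (vDLam P S - vG P S * P.l * vLam P S +
      (vDQ P S - 2 * vQ P S) / S.e) := by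
    have e1 : σ * (r2 * TrF) = vDZ P S * (σ * DrF) + vZ P S * (σ * DrrF) +
        (2 * vDZ P S + vDAs P S) * (σ * F) + (2 * vZ P S + P.As) * (σ * DrF) +
        σ * ((wDQ P S (vDe P S) - 2 * vQ P S) / r2) := by rw [hFF]; ring
    have e2 : vZ P S * (σ * DrrF) ≤ vZ P S * DrrK := mul_le_mul_of_nonneg_left h2 hZ
    rw [e1, hQ, hKF, h1]
    have e3 : wDG P S (vDe P S) = vDG P S := rfl
    rw [e3] at hDrrK
    rw [hDrrK] at e2
    have e4 : K * (vDLam P S - vG P S * P.l * vLam P S + (vDQ P S - 2 * vQ P S) / S.e) =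
      vDZ P S * -(vG P S * P.l * K) + vZ P S * (K * ((vG P S * P.l) ^ 2 - vDG P S * P.l -
        vG P S * (-(vG P S * P.lu)))) + (2 * vDZ P S + vDAs P S) * K +
        (2 * vZ P S + P.As) * -(vG P S * P.l * K) +
        K * ((vDQ P S - 2 * vQ P S) / S.e) := by
      rw [vDLam, vLam]; ring
    rw [e4]
    linarith only [e2]
  have hlo : K * (r2 * wt + P.l * (P.g * (vLam P S * S.e + vQ P S))) ≤ σ * (r2 * TrF) := by
    have : r2 * TrK ≤ r2 * (σ * TrF) := mul_le_mul_of_nonneg_left h3 hr2.le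
    rw [hTrK] at this
    have e : r2 * (K * (wt + P.l * Tru)) = K * (r2 * wt + P.l * (r2 * Tru)) := by ring
    rw [e, hu] at this
    linarith only [this]
  have hle : r2 * wt + P.l * (P.g * (vLam P S * S.e + vQ P S)) ≤
      vDLam P S - vG P S * P.l * vLam P S + (vDQ P S - 2 * vQ P S) / S.e :=
    le_of_mul_le_mul_left (hlo.trans hup) hK
  have hG : vG P S = P.g * (1 - S.e) := rfl
  rw [hG] at hle
  have hc := mul_pos h.c0 hP
  have hw : 0 ≤ r2 * wt := mul_nonneg hr2.le hwt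
  have : P.c * EE P S ≤ 0 := by
    rw [← hT]
    linarith only [hw, hc, hle, hT]
  linarith only [hw, hc, hle, hT]

end Pt

end Vale.Agent.P244.ST.ClF
end

section

/-!
# P244-ST / block M3 : the touching point contradiction in a frame (helper288)

`ev : R → ℝ` is the evaluation at the touching point.
-/

namespace Vale.Agent.P244.ST

noncomputable section

open ClF

variable {R : Type*} [CommRing R] [Algebra ℝ R] {A : Frame R} {κ : R}

/-- the barrier `K = (B/τ) (T/T₀)^a cosh^{-(1-a)} u` as an element -/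
structure BarF (b : Bub A κ) where
  T : R
  iT : R
  K : R
  om : R
  T_ch : T * A.ch = A.sh
  T_iT : T * iT = 1
  Ds_K : A.Ds K = (algebraMap ℝ R (1 / 20) * iT - T) * K * A.P
  Dt_K : A.Dt K = K * (om + (algebraMap ℝ R (1 / 20) * iT - T) * A.V)

lemma Frame.Ds_alg (A : Frame R) (r : ℝ) : A.Ds (algebraMap ℝ R r) = 0 := by
  have := A.Ds.map_algebraMap r
  exact this

namespace BarF

variable {b : Bub A κ} (c : BarF b)

/-- `l = a/T - T` -/
def l : R := algebraMap ℝ R (1 / 20) * c.iT - c.T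

/-- `l'` -/
def lu : R := -(1 - c.T ^ 2) * (1 + algebraMap ℝ R (1 / 20) * c.iT ^ 2)

lemma Ds_T : A.Ds c.T = (1 - c.T ^ 2) * A.P := by
  have h1 : A.Ds A.ch = A.sh * A.P := A.Ds_ch
  have h2 : A.Ds A.sh = A.ch * A.P := A.Ds_sh
  have h := congrArg A.Ds c.T_ch
  rw [Frame.Ds_mul, h1, h2] at h
  have h3 := b.ch_ich
  have h4 := c.T_ch
  linear_combination b.ich * h - (A.Ds c.T - (1 - c.T ^ 2) * A.P) * h3 + b.ich * c.T * A.P * h4

lemma Ds_iT : A.Ds c.iT = (-c.iT ^ 2 * (1 - c.T ^ 2)) * A.P := by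
  rw [Bub.inv_Ds c.T_iT c.Ds_T]; ring

lemma Ds_l : A.Ds c.l = c.lu * A.P := by
  rw [l, lu, map_sub, Frame.Ds_mul, A.Ds_alg, c.Ds_iT, c.Ds_T]; ring

lemma Dr_l : A.Dr κ c.l = -c.lu * A.G κ := Bub.Dr_of_u c.Ds_l

lemma Dr_K : A.Dr κ c.K = -(A.G κ * c.l * c.K) := by
  rw [Bub.Dr_of_u (k1 := c.l * c.K) c.Ds_K]; ring

lemma DrDr_K : A.Dr κ (A.Dr κ c.K) =
    c.K * ((A.G κ * c.l) ^ 2 - A.Dr κ (A.G κ) * c.l + A.G κ ^ 2 * c.lu) := by
  have h1 := congrArg (A.Dr κ) c.Dr_K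
  rw [h1, Frame.Dr_neg, Frame.Dr_mul, Frame.Dr_mul, c.Dr_K, c.Dr_l]
  ring

lemma Tr_K : A.Tr κ c.K = c.K * (c.om + c.l * A.Tr κ A.u) := by
  have h3 : A.Tr κ A.u = A.V - A.yt * (κ * A.P) := rfl
  have h4 : A.Ds c.K = c.l * c.K * A.P := c.Ds_K
  have h5 : A.Dt c.K = c.K * (c.om + c.l * A.V) := c.Dt_K
  rw [h3, Frame.Tr, h4, h5]; ring

end BarF

namespace Bub

variable (b : Bub A κ)

/-- `A_s = 39 (4 sinh u / g - cosh u)` -/
def As : R := 39 * (2 * A.sh * b.ih - A.ch)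

/-- `Q = 39 c₀ (e² + th (1-e)²)` -/
def Q : R := 39 * b.c0 * (b.e ^ 2 + b.th * (1 - b.e) ^ 2)

/-- the flux, second form -/
lemma Fl_eq : b.Fl = A.Z * A.Dr κ b.f + (2 * A.Z + b.As) * b.f + b.Q * A.ir := by
  have h1 := b.h1_Zs
  have h2 := b.Z_eq
  have h3 : b.c0 = A.ch - A.sh * b.ih := rfl
  have h4 := A.r2_ir
  have h5 : b.f = b.e * A.ir := rfl
  rw [Fl, AA, As, Q, h5]
  have h6 : 2 * A.Z * b.h1 = 39 * b.c0 * (1 + b.th) := by
    rw [h2]; linear_combination (1 + b.th) * h1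
  linear_combination (-2 * b.e * A.ir + A.r2 * b.e ^ 2 * A.ir ^ 2) * h6 +
    39 * b.c0 * (1 + b.th) * b.e ^ 2 * A.ir * h4 - 78 * b.e * A.ir * h3

lemma Ds_As : A.Ds b.As =
    39 * (2 * A.ch * b.ih - 2 * A.sh * b.ih ^ 2 * b.h1 - A.sh) * A.P := by
  have h1 : A.Ds A.ch = A.sh * A.P := A.Ds_ch
  have h2 : A.Ds A.sh = A.ch * A.P := A.Ds_sh
  rw [As]
  simp only [Frame.Ds_mul, Frame.Ds_ofNat, map_sub, h1, h2, b.Ds_ih]
  ring

lemma Dr_As : A.Dr κ b.As =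
    -(39 * (2 * A.ch * b.ih - 2 * A.sh * b.ih ^ 2 * b.h1 - A.sh)) * A.G κ :=
  Dr_of_u b.Ds_As

lemma Dr_one : A.Dr κ (1 : R) = 0 := by rw [Frame.Dr, Frame.Ds_one, mul_zero]

lemma Dr_Q : A.Dr κ b.Q =
    39 * (-(A.G κ * (A.sh - A.ch * b.ih + A.sh * b.ih ^ 2 * b.h1))) *
      (b.e ^ 2 + b.th * (1 - b.e) ^ 2) +
    39 * b.c0 * (2 * b.e * A.Dr κ b.e + A.Dr κ b.th * (1 - b.e) ^ 2 -
      2 * b.th * (1 - b.e) * A.Dr κ b.e) := by
  rw [Q, Frame.Dr_mul, Frame.Dr_mul, Frame.Dr_ofNat, b.Dr_c0, Frame.Dr_add, Frame.Dr_sq,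
    Frame.Dr_mul, Frame.Dr_sq, Frame.Dr_sub, Dr_one]
  ring

lemma Dr_Z2 : A.Dr κ A.Z = b.Zs * A.Dr κ b.th - (1 + b.th) * (b.h * b.Zs) * A.G κ := by
  have h1 := congrArg (A.Dr κ) b.Z_eq
  rw [h1, Frame.Dr_mul, Frame.Dr_add, Dr_one, b.Dr_Zs]
  ring

/-- (FF) expanded -/
lemma FF' : A.r2 * A.Tr κ b.f = A.Dr κ A.Z * A.Dr κ b.f + A.Z * A.Dr κ (A.Dr κ b.f) +
    (2 * A.Dr κ A.Z + A.Dr κ b.As) * b.f + (2 * A.Z + b.As) * A.Dr κ b.f +
    (A.Dr κ b.Q - 2 * b.Q) * A.ir := by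
  rw [b.FF, Fl_eq, Frame.Dr_add, Frame.Dr_add, Frame.Dr_mul, Frame.Dr_mul, Frame.Dr_add,
    Frame.Dr_mul, Frame.Dr_mul, Frame.Dr_ofNat, A.Dr_ir b.hk]
  ring

end Bub

open Bub in
/-- **no touching in a frame** -/
theorem no_touch_frame {b : Bub A κ} (c : BarF b) (ev : R →+* ℝ) {P : Pt} (hP : P.Ok)
    (hT : ev c.T = P.T) (hch : ev A.ch = P.c) (hh : 2 * ev b.h = P.g)
    (hS : P.SmOk ⟨ev b.e, ev b.th, ev (A.Dr κ b.th)⟩) (hr2 : 0 < ev A.r2) (hK : 0 < ev c.K)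
    (hwt : 0 ≤ ev c.om) {σ : ℝ} (hσ : σ * σ = 1) (h0 : σ * ev b.f = ev c.K)
    (h1 : σ * ev (A.Dr κ b.f) = ev (A.Dr κ c.K))
    (h2 : σ * ev (A.Dr κ (A.Dr κ b.f)) ≤ ev (A.Dr κ (A.Dr κ c.K)))
    (h3 : ev (A.Tr κ c.K) ≤ σ * ev (A.Tr κ b.f)) (halg : ev (algebraMap ℝ R (1 / 20)) = 1 / 20)
    (hZ : 0 ≤ ev A.Z) : False := by
  have hk0 : P.k ≠ 0 := by have := hP.k2; linarith only [this]
  have hT0 : P.T ≠ 0 := hP.T0.ne'
  have hc0 : P.c ≠ 0 := hP.c0.ne'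
  have hg0 : P.g ≠ 0 := hP.gpos.ne'
  have hq0 : P.q ≠ 0 := by have := hP.q_bd.1; linarith only [this]
  have hh' : ev b.h = P.g / 2 := by linarith only [hh]
  have e39 : ev (39 : R) = 39 := map_ofNat ev 39
  have e2 : ev (2 : R) = 2 := map_ofNat ev 2
  have e78 : ev (78 : R) = 78 := map_ofNat ev 78
  have e4 : ev (4 : R) = 4 := map_ofNat ev 4
  have vsh : ev A.sh = P.s := by
    rw [← c.T_ch, map_mul, hT, hch, Pt.s]; ring
  have viT : ev c.iT = 1 / P.T := by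
    have h := congrArg ev c.T_iT
    rw [map_mul, hT, map_one] at h
    field_simp
    linarith only [h]
  have vih : ev b.ih = 2 / P.g := by
    have h := congrArg ev b.h_ih
    rw [map_mul, hh', map_one] at h
    field_simp
    linarith only [h]
  have vq : ev (39 - b.h ^ 2) = P.q := by
    rw [map_sub, map_pow, e39, hh', Pt.q]; ring
  have viq : ev b.iq = 1 / P.q := by
    have h := congrArg ev b.q_iq
    rw [map_mul, vq, map_one] at h
    field_simp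
    linarith only [h]
  have vh1 : ev b.h1 = P.g1 / 2 := by
    have h := congrArg ev b.ode
    rw [map_mul (f := ev) (39 - b.h ^ 2), vq] at h
    simp only [map_mul, map_sub, e2, hh', hch, vsh] at h
    have hg : P.g = P.k * P.T := rfl
    have h5 : P.g * P.c * (2 * ev b.h1) = P.g * P.c * P.g1 := by
      have : P.g * P.c * P.g1 = P.q * (P.g * P.c - 2 * P.s) := by
        rw [Pt.g1, Pt.ka, Pt.s, hg]; field_simp
      rw [this]; linarith only [h]
    have h6 : 2 * ev b.h1 = P.g1 := mul_left_cancel₀ (mul_ne_zero hg0 hc0) h5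
    linarith only [h6]
  have vZs : ev b.Zs = P.Zs := by
    rw [Bub.Zs, map_mul, map_mul, e39, hch, viq, Pt.Zs, Pt.z]; ring
  have vc0 : ev b.c0 = P.c0 := by
    have hg : P.g = P.k * P.T := rfl
    rw [Bub.c0, map_sub, map_mul, hch, vsh, vih, Pt.c0, Pt.ka, Pt.s, hg]; field_simp
  have vAs : ev b.As = P.As := by
    have hg : P.g = P.k * P.T := rfl
    rw [Bub.As, map_mul, map_sub, map_mul, map_mul, e39, e2, hch, vsh, vih, Pt.As, Pt.s, hg]
    field_simp; ring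
  have vl : ev c.l = P.l := by
    rw [BarF.l, map_sub, map_mul, halg, viT, hT, Pt.l]; ring
  have vlu : ev c.lu = P.lu := by
    rw [BarF.lu, map_mul, map_neg, map_sub, map_add, map_mul, map_pow, map_pow, map_one, halg,
      viT, hT, Pt.lu]; ring
  set S : Pt.Sm := ⟨ev b.e, ev b.th, ev (A.Dr κ b.th)⟩ with hSdef
  have vG' : ev (A.G κ) = Pt.vG P S := by
    rw [b.G_eq, map_mul, map_mul, map_sub, map_one, e2, hh', Pt.vG]; ring
  have vZ' : ev A.Z = Pt.vZ P S := by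
    rw [b.Z_eq, map_mul, map_add, map_one, vZs, Pt.vZ]
  set De : ℝ := ev (A.Dr κ b.e) with hDedef
  have vDG' : ev (A.Dr κ (A.G κ)) = Pt.wDG P S De := by
    rw [b.Dr_G]
    simp only [map_sub, map_mul, map_neg, map_pow, map_one, e2, e4, hh', vh1]
    rw [Pt.wDG, Pt.vG]
    ring
  have vDZ' : ev (A.Dr κ A.Z) = Pt.vDZ P S := by
    rw [b.Dr_Z2]
    simp only [map_sub, map_mul, map_add, map_one, vZs, hh', vG']
    rw [Pt.vDZ]
    ring
  have vDAs' : ev (A.Dr κ b.As) = Pt.vDAs P S := by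
    rw [b.Dr_As]
    simp only [map_sub, map_mul, map_neg, map_pow, e2, e39, hch, vsh, vih, vh1, vG']
    rw [Pt.vDAs, Pt.Asu]
    ring
  have vQ' : ev b.Q = Pt.vQ P S := by
    rw [Bub.Q]
    simp only [map_sub, map_mul, map_add, map_pow, map_one, e39, vc0]
    rw [Pt.vQ]
  have vDQ' : ev (A.Dr κ b.Q) = Pt.wDQ P S De := by
    rw [b.Dr_Q]
    simp only [map_sub, map_mul, map_add, map_neg, map_pow, map_one, e2, e39, hch, vsh, vih, vh1,
      vc0, vG']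
    rw [Pt.wDQ, Pt.c0u]
    ring
  have hr20 : ev A.r2 ≠ 0 := hr2.ne'
  have vir : ev A.ir = 1 / ev A.r2 := by
    have h := congrArg ev A.r2_ir
    rw [map_mul, map_one] at h
    field_simp
    linarith only [h]
  have hF : ev b.f * ev A.r2 = S.e := by
    have h := congrArg ev b.e_eq
    rw [map_mul] at h
    change _ = ev b.e
    rw [h]; ring
  have hDe : ev A.r2 * ev (A.Dr κ b.f) = De - 2 * S.e := by
    have h := congrArg ev b.Dr_e
    rw [map_mul, map_add, map_mul, e2] at h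
    rw [hDedef, h, ← hF]; ring
  have hFF : ev A.r2 * ev (A.Tr κ b.f) = Pt.vDZ P S * ev (A.Dr κ b.f) +
      Pt.vZ P S * ev (A.Dr κ (A.Dr κ b.f)) + (2 * Pt.vDZ P S + Pt.vDAs P S) * ev b.f +
      (2 * Pt.vZ P S + P.As) * ev (A.Dr κ b.f) + (Pt.wDQ P S De - 2 * Pt.vQ P S) / ev A.r2 := by
    have h := congrArg ev b.FF'
    simp only [map_mul, map_add, map_sub, e2, vDZ', vZ', vDAs', vAs, vDQ', vQ', vir] at h
    rw [h]; ring
  have hTru : ev A.r2 * ev (A.Tr κ A.u) = Pt.vZ P S * (-Pt.wDG P S De) +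
      39 * P.c * (-Pt.vG P S) + 78 * P.s := by
    have h := congrArg ev (A.E1 b.hk)
    have hu : A.Dr κ A.u = -A.G κ := A.Dr_u κ
    rw [hu, Frame.Dr_neg] at h
    simp only [map_mul, map_add, map_neg, e39, e78, vZ', vDG', vG', hch, vsh] at h
    exact h
  have hTrK : ev (A.Tr κ c.K) = ev c.K * (ev c.om + P.l * ev (A.Tr κ A.u)) := by
    rw [c.Tr_K, map_mul, map_add, map_mul, vl]
  have hDrrK : ev (A.Dr κ (A.Dr κ c.K)) = ev c.K * ((Pt.vG P S * P.l) ^ 2 -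
      Pt.wDG P S De * P.l - Pt.vG P S * (-(Pt.vG P S * P.lu))) := by
    rw [c.DrDr_K]
    simp only [map_mul, map_add, map_sub, map_pow, vG', vl, vDG', vlu]
    ring
  have h1' : σ * ev (A.Dr κ b.f) = -(Pt.vG P S * P.l * ev c.K) := by
    rw [h1, c.Dr_K, map_neg, map_mul, map_mul, vG', vl]
  exact Pt.no_touch hP hS hr2 hK hσ h0 hF hDe hwt hFF hTru hTrK hDrrK h1' h2 h3
    (by rw [← vZ']; exact hZ)

end

end Vale.Agent.P244.ST
end

section

/-!
# P244 / ST / S : r-gauge package, the inverse function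
-/

open Set Filter
open scoped ContDiff Topology

namespace Vale.Agent.P244.ST.RG

open Vale.Agent.P244.ST.Apr

noncomputable section

variable {p : ℕ} {w f : ℝ → ℝ → ℝ} {T : ℝ}

lemma one_sub_sq_pos {x : ℝ} (hx : x ∈ Ioo (-1 : ℝ) 1) : 0 < 1 - x ^ 2 := by
  nlinarith only [hx, hx.1, hx.2]

lemma hasDerivAt_of_sx {h : ℝ → ℝ} (hh : Sx h) {x : ℝ} (hx : x ∈ Ioo (-1 : ℝ) 1) :
    HasDerivAt h (dx h x) x :=
  (hh.hasDeriv (Ioo_subset_Icc_self hx)).hasDerivAt (Icc_mem_nhds hx.1 hx.2)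

/-- the function `ρ(t,x)` is smooth on `[0,T) × (-1,1)` -/
lemma rh_smooth (hs : ConfSol p w f T) :
    ContDiffOn ℝ ∞ (fun z : ℝ × ℝ => rh p (w z.1) (f z.1) z.2) (Ico 0 T ×ˢ Ioo (-1) 1) := by
  have hsub : Ico 0 T ×ˢ Ioo (-1 : ℝ) 1 ⊆ Ico 0 T ×ˢ Icc (-1) 1 :=
    prod_mono subset_rfl Ioo_subset_Icc_self
  have h1 := hs.smooth_w.mono hsub
  have h2 := hs.smooth_f.mono hsub
  have h3 : ContDiffOn ℝ ∞ (fun z : ℝ × ℝ => Real.log (1 - z.2 ^ 2)) (Ico 0 T ×ˢ Ioo (-1) 1) := by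
    apply ContDiffOn.log
    · exact contDiffOn_const.sub (contDiffOn_snd.pow 2)
    · intro z hz
      exact (one_sub_sq_pos hz.2).ne'
  unfold rh
  exact (((h2.add h1).add (h3.div_const 2)).sub contDiffOn_const).div_const 2

lemma rh_deriv (hs : ConfSol p w f T) {t x : ℝ} (ht : t ∈ Ico 0 T) (hx : x ∈ Ioo (-1 : ℝ) 1) :
    HasDerivAt (rh p (w t) (f t)) (rhx (w t) (f t) x) x := by
  have h1 := hasDerivAt_of_sx (slice (h := w) hs.smooth_w ht) hx
  have h2 := hasDerivAt_of_sx (slice (h := f) hs.smooth_f ht) hx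
  have h3 : HasDerivAt (fun y : ℝ => 1 - y ^ 2) (-(2 * x)) x := by
    simpa using ((hasDerivAt_id x).pow 2).const_sub 1
  have h4 := h3.log (one_sub_sq_pos hx).ne'
  have h5 := (((h2.add h1).add (h4.div_const 2)).sub_const (Real.log (ze p))).div_const 2
  have h6 : HasDerivAt (rh p (w t) (f t)) _ x := h5
  convert h6 using 1
  unfold rhx
  have := (one_sub_sq_pos hx).ne'
  field_simp
  ring

lemma rh_anti (hs : ConfSol p w f T)
    (hneg : ∀ t ∈ Ico 0 T, ∀ x ∈ Ioo (0 : ℝ) 1, rhx (w t) (f t) x < 0)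
    {t : ℝ} (ht : t ∈ Ico 0 T) : StrictAntiOn (rh p (w t) (f t)) (Ico 0 1) := by
  apply strictAntiOn_of_deriv_neg (convex_Ico 0 1)
  · intro x hx
    exact (rh_deriv hs ht ⟨by linarith only [hx, hx.1], hx.2⟩).continuousAt.continuousWithinAt
  · intro x hx
    rw [interior_Ico] at hx
    rw [(rh_deriv hs ht ⟨by linarith only [hx, hx.1], hx.2⟩).deriv]
    exact hneg t ht x hx

/-- `ρ → -∞` at the tip: for every `ρ` some `x` has `ρ(t,x) < ρ`. -/
lemma rh_bot (hs : ConfSol p w f T) {t : ℝ} (ht : t ∈ Ico 0 T) (ρ : ℝ) :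
    ∃ x ∈ Ioo (0 : ℝ) 1, rh p (w t) (f t) x < ρ := by
  obtain ⟨Cw, hCw⟩ := isCompact_Icc.exists_bound_of_continuousOn
    (slice (h := w) hs.smooth_w ht).cont
  obtain ⟨Cf, hCf⟩ := isCompact_Icc.exists_bound_of_continuousOn
    (slice (h := f) hs.smooth_f ht).cont
  -- choose x with log (1 - x^2) very negative
  set L : ℝ := 2 * (2 * ρ + Real.log (ze p) - Cw - Cf) - 1 with hL
  set δ : ℝ := min (Real.exp L) (1 / 2) with hδ
  have hδ0 : 0 < δ := lt_min (Real.exp_pos _) (by norm_num)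
  have hδ1 : δ ≤ 1 / 2 := min_le_right _ _
  refine ⟨Real.sqrt (1 - δ), ⟨Real.sqrt_pos.2 (by linarith only [hδ0, hδ1]), ?_⟩, ?_⟩
  · rw [Real.sqrt_lt' (by norm_num)]; linarith only [hδ0]
  · have hx1 : Real.sqrt (1 - δ) ∈ Icc (-1 : ℝ) 1 := by
      refine ⟨by linarith only [hδ0, hδ1, Real.sqrt_nonneg (1 - δ)], ?_⟩
      rw [Real.sqrt_le_left (by norm_num)]; linarith only [hδ0]
    have e1 : 1 - Real.sqrt (1 - δ) ^ 2 = δ := by
      rw [Real.sq_sqrt (by linarith only [hδ0, hδ1])]; ring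
    have e2 : Real.log δ ≤ L := by
      calc Real.log δ ≤ Real.log (Real.exp L) := Real.log_le_log hδ0 (min_le_left _ _)
        _ = L := Real.log_exp L
    have e3 := hCw _ hx1
    have e4 := hCf _ hx1
    rw [Real.norm_eq_abs] at e3 e4
    have e5 := (abs_le.1 e3).2
    have e6 := (abs_le.1 e4).2
    unfold rh
    rw [e1]
    linarith only [hδ0, hδ1, e2, e5, e6]

/-- existence of the inverse -/
lemma ex_inv (hs : ConfSol p w f T) {t ρ : ℝ} (ht : t ∈ Ico 0 T)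
    (hρ : ρ < rh p (w t) (f t) 0) : ∃ x ∈ Ioo (0 : ℝ) 1, rh p (w t) (f t) x = ρ := by
  obtain ⟨y, hy, hy2⟩ := rh_bot hs ht ρ
  have hc : ContinuousOn (rh p (w t) (f t)) (Icc 0 y) := fun x hx =>
    (rh_deriv hs ht ⟨by linarith only [hx, hx.1], hx.2.trans_lt hy.2⟩).continuousAt.continuousWithinAt
  obtain ⟨x, hx, hx2⟩ := intermediate_value_Ioo' hy.1.le hc ⟨hy2, hρ⟩
  exact ⟨x, ⟨hx.1, hx.2.trans hy.2⟩, hx2⟩

open Classical in
/-- the inverse function `X(t,ρ)` -/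
def XX (p : ℕ) (w f : ℝ → ℝ → ℝ) (t ρ : ℝ) : ℝ :=
  if h : ∃ x ∈ Ioo (0 : ℝ) 1, rh p (w t) (f t) x = ρ then h.choose else 0

lemma XX_spec (hs : ConfSol p w f T) {q : ℝ × ℝ} (hq : q ∈ reg p w f (Ico 0 T)) :
    XX p w f q.1 q.2 ∈ Ioo (0 : ℝ) 1 ∧ rh p (w q.1) (f q.1) (XX p w f q.1 q.2) = q.2 := by
  have h := ex_inv hs hq.1 hq.2
  unfold XX
  rw [dif_pos h]
  exact h.choose_spec

section neg
variable (hs : ConfSol p w f T)
  (hneg : ∀ t ∈ Ico 0 T, ∀ x ∈ Ioo (0 : ℝ) 1, rhx (w t) (f t) x < 0)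
include hs hneg

lemma XX_inv {t x : ℝ} (ht : t ∈ Ico 0 T) (hx : x ∈ Ioo (0 : ℝ) 1) :
    rh p (w t) (f t) x < rh p (w t) (f t) 0 ∧ XX p w f t (rh p (w t) (f t) x) = x := by
  have h1 : rh p (w t) (f t) x < rh p (w t) (f t) 0 :=
    rh_anti hs hneg ht ⟨le_rfl, zero_lt_one⟩ ⟨hx.1.le, hx.2⟩ hx.1
  refine ⟨h1, ?_⟩
  have h2 := XX_spec (q := (t, rh p (w t) (f t) x)) hs ⟨ht, h1⟩
  exact (rh_anti hs hneg ht).injOn ⟨h2.1.1.le, h2.1.2⟩ ⟨hx.1.le, hx.2⟩ h2.2

/-- comparison: `x < X` iff `ρ(t,x) > ρ`. -/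
lemma XX_lt {q : ℝ × ℝ} (hq : q ∈ reg p w f (Ico 0 T)) {x : ℝ} (hx : x ∈ Ico (0 : ℝ) 1) :
    x < XX p w f q.1 q.2 ↔ q.2 < rh p (w q.1) (f q.1) x := by
  have h2 := XX_spec hs hq
  have h3 := StrictAntiOn.lt_iff_gt (rh_anti (p := p) hs hneg hq.1) (a := XX p w f q.1 q.2) (b := x)
    ⟨h2.1.1.le, h2.1.2⟩ hx
  rw [h2.2] at h3
  exact h3.symm

lemma lt_XX {q : ℝ × ℝ} (hq : q ∈ reg p w f (Ico 0 T)) {x : ℝ} (hx : x ∈ Ico (0 : ℝ) 1) :
    XX p w f q.1 q.2 < x ↔ rh p (w q.1) (f q.1) x < q.2 := by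
  have h2 := XX_spec hs hq
  have h3 := StrictAntiOn.lt_iff_gt (rh_anti (p := p) hs hneg hq.1) (b := XX p w f q.1 q.2) (a := x) hx
    ⟨h2.1.1.le, h2.1.2⟩
  rw [h2.2] at h3
  exact h3.symm

/-- joint continuity of the inverse -/
lemma XX_cont : ContinuousOn (fun q : ℝ × ℝ => XX p w f q.1 q.2) (reg p w f (Ico 0 T)) := by
  intro q hq
  have hspec := XX_spec hs hq
  set x₀ := XX p w f q.1 q.2 with hx₀
  have hrc : ∀ x ∈ Ioo (-1 : ℝ) 1, ContinuousWithinAt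
      (fun z : ℝ × ℝ => rh p (w z.1) (f z.1) x) (reg p w f (Ico 0 T)) q := by
    intro x hx
    have h1 := (rh_smooth hs).continuousOn (q.1, x) ⟨hq.1, hx⟩
    have h2 : ContinuousWithinAt (fun z : ℝ × ℝ => ((z.1, x) : ℝ × ℝ)) (reg p w f (Ico 0 T)) q :=
      by fun_prop
    have h3 : MapsTo (fun z : ℝ × ℝ => ((z.1, x) : ℝ × ℝ)) (reg p w f (Ico 0 T))
        (Ico 0 T ×ˢ Ioo (-1) 1) := fun z hz => ⟨hz.1, hx⟩
    exact ContinuousWithinAt.comp (f := fun z : ℝ × ℝ => ((z.1, x) : ℝ × ℝ))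
      (g := fun z : ℝ × ℝ => rh p (w z.1) (f z.1) z.2) (x := q) h1 h2 h3
  have hq2 : ContinuousWithinAt (fun z : ℝ × ℝ => z.2) (reg p w f (Ico 0 T)) q := by fun_prop
  rw [ContinuousWithinAt, tendsto_order]
  refine ⟨fun a ha => ?_, fun b hb => ?_⟩
  · -- a < x₀
    set a' := max a 0 with ha'
    have ha1 : a' < x₀ := max_lt ha hspec.1.1
    have ham : a' ∈ Ico (0 : ℝ) 1 := ⟨le_max_right _ _, ha1.trans hspec.1.2⟩
    have h1 := (XX_lt hs hneg hq ham).1 ha1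
    have h2 := (hq2.sub (hrc a' ⟨by linarith only [ham, ham.1], ham.2⟩)).eventually
      (gt_mem_nhds (show q.2 - rh p (w q.1) (f q.1) a' < 0 by linarith only [h1]))
    filter_upwards [h2, self_mem_nhdsWithin] with z hz hzr
    simp only [Pi.sub_apply] at hz
    have := (XX_lt hs hneg hzr ham).2 (by linarith only [hz])
    exact (le_max_left _ _).trans_lt this
  · set b' := min b ((1 + x₀) / 2) with hb'
    have hb1 : x₀ < b' := lt_min hb (by linarith only [hspec, hspec.1.2])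
    have hb2 : b' < 1 := (min_le_right _ _).trans_lt (by linarith only [hspec, hspec.1.2])
    have hbm : b' ∈ Ico (0 : ℝ) 1 := ⟨(hspec.1.1.trans hb1).le, hb2⟩
    have h1 := (lt_XX hs hneg hq hbm).1 hb1
    have h2 := (hq2.sub (hrc b' ⟨by linarith only [hbm, hbm.1], hbm.2⟩)).eventually
      (lt_mem_nhds (show 0 < q.2 - rh p (w q.1) (f q.1) b' by linarith))
    filter_upwards [h2, self_mem_nhdsWithin] with z hz hzr
    simp only [Pi.sub_apply] at hz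
    have := (lt_XX hs hneg hzr hbm).2 (by linarith)
    exact this.trans_le (min_le_left _ _)

/-- `ρ`-derivative of the inverse -/
lemma XX_deriv {q : ℝ × ℝ} (hq : q ∈ reg p w f (Ico 0 T)) :
    HasDerivAt (XX p w f q.1) (rhx (w q.1) (f q.1) (XX p w f q.1 q.2))⁻¹ q.2 := by
  have hspec := XX_spec hs hq
  have hmem : ∀ᶠ y in 𝓝 q.2, ((q.1, y) : ℝ × ℝ) ∈ reg p w f (Ico 0 T) := by
    filter_upwards [gt_mem_nhds hq.2] with y hy
    exact ⟨hq.1, hy⟩
  have hc : ContinuousAt (XX p w f q.1) q.2 := by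
    have h1 := XX_cont hs hneg q hq
    have h2 : Tendsto (fun y : ℝ => ((q.1, y) : ℝ × ℝ)) (𝓝 q.2)
        (𝓝[reg p w f (Ico 0 T)] q) := by
      rw [tendsto_nhdsWithin_iff]
      refine ⟨?_, hmem⟩
      have : ContinuousAt (fun y : ℝ => ((q.1, y) : ℝ × ℝ)) q.2 := by fun_prop
      exact this
    exact Tendsto.comp (show Tendsto _ _ _ from h1) h2
  apply HasDerivAt.of_local_left_inverse hc
    (rh_deriv (p := p) hs hq.1 ⟨by linarith only [hspec, hspec.1.1], hspec.1.2⟩)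
    (hneg q.1 hq.1 _ hspec.1).ne
  filter_upwards [hmem] with y hy
  exact (XX_spec hs hy).2

omit hneg in
lemma reg_open : IsOpen (reg p w f (Ioo 0 T)) := by
  have h1 : ContinuousOn (fun t => rh p (w t) (f t) 0) (Ioo 0 T) := by
    have := (rh_smooth hs).continuousOn.comp (f := fun t : ℝ => ((t, 0) : ℝ × ℝ))
      (s := Ioo 0 T) (by fun_prop) (fun t ht => ⟨⟨ht.1.le, ht.2⟩, by norm_num⟩)
    exact this
  have h2 : ContinuousOn (fun q : ℝ × ℝ => rh p (w q.1) (f q.1) 0 - q.2) (Ioo 0 T ×ˢ univ) := by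
    apply ContinuousOn.sub
    · exact h1.comp (by fun_prop) (fun q hq => hq.1)
    · fun_prop
  have h3 := h2.isOpen_inter_preimage (isOpen_Ioo.prod isOpen_univ) (isOpen_Ioi (a := (0 : ℝ)))
  convert h3 using 1
  ext q
  simp only [reg, mem_ofPred_eq, mem_inter_iff, mem_prod, mem_univ, and_true, mem_preimage,
    mem_Ioi, sub_pos]

/-- the total derivative of `(t,x) ↦ (t, ρ(t,x))` as an equivalence -/
def eqv (a b : ℝ) (hb : b ≠ 0) : (ℝ × ℝ) ≃L[ℝ] (ℝ × ℝ) :=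
  ContinuousLinearEquiv.equivOfInverse
    ((ContinuousLinearMap.fst ℝ ℝ ℝ).prod (a • ContinuousLinearMap.fst ℝ ℝ ℝ
      + b • ContinuousLinearMap.snd ℝ ℝ ℝ))
    ((ContinuousLinearMap.fst ℝ ℝ ℝ).prod ((-(a / b)) • ContinuousLinearMap.fst ℝ ℝ ℝ
      + (1 / b) • ContinuousLinearMap.snd ℝ ℝ ℝ))
    (by
      intro z
      ext
      · simp
      · simp; field_simp; ring)
    (by
      intro z
      ext
      · simp
      · simp; field_simp; ring)

lemma XX_smooth : ContDiffOn ℝ ∞ (fun q : ℝ × ℝ => XX p w f q.1 q.2) (reg p w f (Ioo 0 T)) := by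
  intro q hq
  have hq' : q ∈ reg p w f (Ico 0 T) := ⟨⟨hq.1.1.le, hq.1.2⟩, hq.2⟩
  have hspec := XX_spec hs hq'
  set x₀ := XX p w f q.1 q.2 with hx₀
  have hx₀m : x₀ ∈ Ioo (-1 : ℝ) 1 := ⟨by linarith only [hspec, hspec.1.1], hspec.1.2⟩
  set Φ : ℝ × ℝ → ℝ × ℝ := fun z => (z.1, rh p (w z.1) (f z.1) z.2) with hΦ
  have hnb : Ico 0 T ×ˢ Ioo (-1 : ℝ) 1 ∈ 𝓝 ((q.1, x₀) : ℝ × ℝ) :=
    prod_mem_nhds (Ico_mem_nhds hq.1.1 hq.1.2) (Ioo_mem_nhds hx₀m.1 hx₀m.2)
  have hr : ContDiffAt ℝ ∞ (fun z : ℝ × ℝ => rh p (w z.1) (f z.1) z.2) (q.1, x₀) :=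
    (rh_smooth hs).contDiffAt hnb
  have hcd : ContDiffAt ℝ ∞ Φ (q.1, x₀) := contDiffAt_fst.prodMk hr
  have hrd := (hr.differentiableAt (by simp)).hasFDerivAt
  set D := fderiv ℝ (fun z : ℝ × ℝ => rh p (w z.1) (f z.1) z.2) (q.1, x₀) with hD
  have hb : D (0, 1) = rhx (w q.1) (f q.1) x₀ := by
    have h1 : HasDerivAt (fun y : ℝ => ((q.1, y) : ℝ × ℝ)) (0, 1) x₀ :=
      (hasDerivAt_const x₀ q.1).prodMk (hasDerivAt_id x₀)
    have h2 := hrd.comp_hasDerivAt x₀ h1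
    exact h2.unique (rh_deriv hs hq'.1 hx₀m)
  have hb0 : D (0, 1) ≠ 0 := by rw [hb]; exact (hneg q.1 hq'.1 _ hspec.1).ne
  have hΦd : HasFDerivAt Φ ((eqv (D (1, 0)) (D (0, 1)) hb0 : (ℝ × ℝ) ≃L[ℝ] (ℝ × ℝ)) :
      (ℝ × ℝ) →L[ℝ] (ℝ × ℝ)) (q.1, x₀) := by
    have h1 := (hasFDerivAt_fst (𝕜 := ℝ) (p := ((q.1, x₀) : ℝ × ℝ))).prodMk hrd
    refine h1.congr_fderiv ?_
    refine ContinuousLinearMap.ext fun z => ?_
    have e1 : ((eqv (D (1, 0)) (D (0, 1)) hb0 : (ℝ × ℝ) ≃L[ℝ] (ℝ × ℝ)) :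
      (ℝ × ℝ) →L[ℝ] (ℝ × ℝ)) z = (z.1, D (1, 0) * z.1 + D (0, 1) * z.2) := rfl
    rw [e1]
    have e2 : D z = D (1, 0) * z.1 + D (0, 1) * z.2 := by
      have : z = z.1 • ((1 : ℝ), (0 : ℝ)) + z.2 • ((0 : ℝ), (1 : ℝ)) := by
        ext <;> simp
      conv_lhs => rw [this]
      rw [map_add, map_smul, map_smul, smul_eq_mul, smul_eq_mul]
      ring
    rw [← e2]
    rfl
  have hinv := hcd.to_localInverse hΦd (by simp)
  have himg : Φ (q.1, x₀) = q := by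
    simp only [hΦ]; rw [hspec.2]
  rw [himg] at hinv
  have hst := hcd.hasStrictFDerivAt' hΦd (by simp)
  have hri := hst.eventually_right_inverse
  have htend := hst.localInverse_tendsto
  rw [himg] at hri htend
  have hpos : ∀ᶠ z in 𝓝 ((q.1, x₀) : ℝ × ℝ), z.2 ∈ Ioo (0 : ℝ) 1 := by
    have h1 : Tendsto (fun z : ℝ × ℝ => z.2) (𝓝 ((q.1, x₀) : ℝ × ℝ)) (𝓝 x₀) :=
      continuous_snd.tendsto _
    exact h1.eventually (Ioo_mem_nhds hspec.1.1 hspec.1.2)
  have heq : (fun z : ℝ × ℝ => XX p w f z.1 z.2) =ᶠ[𝓝 q]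
      fun z => (hcd.localInverse hΦd (by simp) z).2 := by
    have h2 : ∀ᶠ z in 𝓝 q, z.1 ∈ Ico 0 T := by
      have : Tendsto (fun z : ℝ × ℝ => z.1) (𝓝 q) (𝓝 q.1) := continuous_fst.tendsto _
      exact this.eventually (Ico_mem_nhds hq.1.1 hq.1.2)
    filter_upwards [hri, htend.eventually hpos, h2] with z hz hz2 hz3
    have e1 := congrArg Prod.fst hz
    have e2 := congrArg Prod.snd hz
    simp only [hΦ] at e1 e2
    rw [e1] at e2
    have := (XX_inv hs hneg hz3 hz2).2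
    rw [e2] at this
    exact this
  exact ((contDiffAt_snd.comp q hinv).congr_of_eventuallyEq heq).contDiffWithinAt

end neg

end

end Vale.Agent.P244.ST.RG
end

section

/-!
# P244 / ST / S : r-gauge package, algebra
-/

open Set Filter
open scoped ContDiff Topology

namespace Vale.Agent.P244.ST.RG

open Vale.Agent.P244.ST.Apr

noncomputable section

lemma alg_dt (a b x w1 w2 f1 f2 J p : ℝ) :
    a * (((-2 * x) * (f1 - w1) + (1 - x ^ 2) * (f2 - w2) + 1) * (x - (1 - x ^ 2) * (f1 + w1))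
      - ((1 - x ^ 2) * (f1 - w1) + x) * (1 + 2 * x * (f1 + w1) - (1 - x ^ 2) * (f2 + w2)))
      - 2 * a * (p - 1) * f1
      - (p - 1) * b * (((1 - x ^ 2) * (f1 - w1) + x) + (x - (1 - x ^ 2) * (f1 + w1))) =
    ((a * ((1 - x ^ 2) * f2 - (p + 1) * x * f1) - (p - 1) * b - (1 - x ^ 2) * f1 * J)
      - (a * (((1 - x ^ 2) * w2 - (p + 1) * x * w1) - p) + (x - (1 - x ^ 2) * w1) * J)) *
        (x - (1 - x ^ 2) * (f1 + w1)) +
    ((1 - x ^ 2) * (f1 - w1) + x) *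
    ((a * ((1 - x ^ 2) * f2 - (p + 1) * x * f1) - (p - 1) * b - (1 - x ^ 2) * f1 * J)
      + (a * (((1 - x ^ 2) * w2 - (p + 1) * x * w1) - p) + (x - (1 - x ^ 2) * w1) * J)) := by
  ring

lemma alg_dZ (a b x w1 w2 f1 f2 p : ℝ) (hp : p ≠ 0) :
    a * (-((x - (1 - x ^ 2) * (f1 + w1)) * ((1 - x ^ 2) * (f1 - w1) + x) +
      2 * (1 - x ^ 2) * (1 + 2 * x * (f1 + w1) - (1 - x ^ 2) * (f2 + w2))) / 2) =
    (p - 1) * (a + (1 - x ^ 2) * b) / 2 - (2 * p - 1) * a * (x - (1 - x ^ 2) * (f1 + w1)) ^ 2 / 4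
      - a * ((1 - x ^ 2) * (f1 - w1) + x) ^ 2 / 4
      - (1 - x ^ 2) * ((-(a * (((1 - x ^ 2) * w2 - (p + 1) * x * w1) - p - x * ((p - 1) * w1 + p * f1)
      + (1 - x ^ 2) * w1 * ((p - 1) * w1 + p * f1))) - a * (1 - x ^ 2) *
    ((p - 1) * (w2 - w1 ^ 2)
      + p * (f2 + f1 ^ 2 - 2 * w1 * f1)))
      + p * (-(a * (((1 - x ^ 2) * f2 - (p + 1) * x * f1)
        + (1 - x ^ 2) * f1 * ((p - 1) * w1 + p * f1))) + (p - 1) * b)
      + p * (-(a * (((1 - x ^ 2) * w2 - (p + 1) * x * w1) - p - x * ((p - 1) * w1 + p * f1)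
      + (1 - x ^ 2) * w1 * ((p - 1) * w1 + p * f1))))) / (2 * p) := by
  field_simp
  ring

/-- `D = x - (1-x²)(F_x + ω_x) = -2 (1-x²) ρ_x`. -/
def DD (w f : ℝ → ℝ) (x : ℝ) : ℝ := x - (1 - x ^ 2) * (dx f x + dx w x)
/-- `N = (1-x²) u_x`. -/
def NN (w f : ℝ → ℝ) (x : ℝ) : ℝ := (1 - x ^ 2) * (dx f x - dx w x) + x
def DDx (w f : ℝ → ℝ) (x : ℝ) : ℝ :=
  1 + 2 * x * (dx f x + dx w x) - (1 - x ^ 2) * (dx (dx f) x + dx (dx w) x)
def NNx (w f : ℝ → ℝ) (x : ℝ) : ℝ :=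
  (-2 * x) * (dx f x - dx w x) + (1 - x ^ 2) * (dx (dx f) x - dx (dx w) x) + 1
def u1 (w f : ℝ → ℝ) (x : ℝ) : ℝ := -2 * NN w f x / DD w f x
def u2 (w f : ℝ → ℝ) (x : ℝ) : ℝ :=
  4 * (1 - x ^ 2) * (NNx w f x * DD w f x - NN w f x * DDx w f x) / (DD w f x) ^ 3

section fixed
variable {p : ℕ} {w f : ℝ → ℝ} {x : ℝ}

lemma rhx_eq (hx : x ∈ Ioo (-1 : ℝ) 1) : rhx w f x = -DD w f x / (2 * (1 - x ^ 2)) := by
  have := (one_sub_sq_pos hx).ne'
  unfold rhx DD
  field_simp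
  ring

lemma ux_eq (hx : x ∈ Ioo (-1 : ℝ) 1) : ux w f x = NN w f x / (1 - x ^ 2) := by
  have := (one_sub_sq_pos hx).ne'
  unfold ux NN
  field_simp

lemma DD_pos (hx : x ∈ Ioo (-1 : ℝ) 1) (h : rhx w f x < 0) : 0 < DD w f x := by
  have h1 := one_sub_sq_pos hx
  rw [rhx_eq hx, div_neg_iff] at h
  rcases h with h | h
  · linarith only [h1, h]
  · linarith only [h]

lemma u1_eq (hx : x ∈ Ioo (-1 : ℝ) 1) (h : rhx w f x < 0) : ux w f x / rhx w f x = u1 w f x := by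
  have h1 := (one_sub_sq_pos hx).ne'
  have h2 := (DD_pos hx h).ne'
  rw [ux_eq hx, rhx_eq hx, u1]
  field_simp

lemma DD_deriv (hw : Sx w) (hf : Sx f) (hx : x ∈ Ioo (-1 : ℝ) 1) :
    HasDerivAt (DD w f) (DDx w f x) x := by
  have h1 := hasDerivAt_of_sx hw.dx hx
  have h2 := hasDerivAt_of_sx hf.dx hx
  have h3 : HasDerivAt (fun y : ℝ => 1 - y ^ 2) (-(2 * x)) x := by
    simpa using ((hasDerivAt_id x).pow 2).const_sub 1
  have h4 := (hasDerivAt_id x).sub (h3.mul (h2.add h1))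
  have h5 : HasDerivAt (DD w f) _ x := h4
  convert h5 using 1
  simp only [DDx, Pi.add_apply]
  ring

lemma NN_deriv (hw : Sx w) (hf : Sx f) (hx : x ∈ Ioo (-1 : ℝ) 1) :
    HasDerivAt (NN w f) (NNx w f x) x := by
  have h1 := hasDerivAt_of_sx hw.dx hx
  have h2 := hasDerivAt_of_sx hf.dx hx
  have h3 : HasDerivAt (fun y : ℝ => 1 - y ^ 2) (-(2 * x)) x := by
    simpa using ((hasDerivAt_id x).pow 2).const_sub 1
  have h4 := (h3.mul (h2.sub h1)).add (hasDerivAt_id x)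
  have h5 : HasDerivAt (NN w f) _ x := h4
  convert h5 using 1
  simp only [NNx, Pi.sub_apply]
  ring

lemma u1_deriv (hw : Sx w) (hf : Sx f) (hx : x ∈ Ioo (-1 : ℝ) 1) (h : rhx w f x < 0) :
    HasDerivAt (u1 w f) (u2 w f x * rhx w f x) x := by
  have h2 := (DD_pos hx h).ne'
  have h3 := ((NN_deriv hw hf hx).const_mul (-2)).div (DD_deriv hw hf hx) h2
  have h4 : HasDerivAt (u1 w f) _ x := h3
  convert h4 using 1
  rw [rhx_eq hx, u2]
  have h1 := (one_sub_sq_pos hx).ne'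
  field_simp
  ring

lemma uu_deriv (hw : Sx w) (hf : Sx f) (hx : x ∈ Ioo (-1 : ℝ) 1) :
    HasDerivAt (uu w f) (ux w f x) x := by
  have h1 := hasDerivAt_of_sx hw hx
  have h2 := hasDerivAt_of_sx hf hx
  have h3 : HasDerivAt (fun y : ℝ => 1 - y ^ 2) (-(2 * x)) x := by
    simpa using ((hasDerivAt_id x).pow 2).const_sub 1
  have h4 := h3.log (one_sub_sq_pos hx).ne'
  have h5 := (h2.sub h1).sub (h4.div_const 2)
  have h6 : HasDerivAt (uu w f) _ x := h5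
  convert h6 using 1
  unfold ux
  have := (one_sub_sq_pos hx).ne'
  field_simp
  ring

/-- `Z` without square root of a cube -/
lemma ZZ_eq (hx : x ∈ Ioo (-1 : ℝ) 1) : ZZ p w f x =
    Real.exp (f x - w x) * (DD w f x) ^ 2 / (4 * ze p * Real.sqrt (1 - x ^ 2)) := by
  have h1 := one_sub_sq_pos hx
  have h0 : 0 < Real.sqrt (1 - x ^ 2) := Real.sqrt_pos.2 h1
  unfold ZZ
  rw [rhx_eq hx]
  obtain ⟨s, hs, hs0⟩ : ∃ s, Real.sqrt (1 - x ^ 2) = s ∧ 0 < s := ⟨_, rfl, h0⟩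
  have hs2 : 1 - x ^ 2 = s ^ 2 := by rw [← hs, Real.sq_sqrt h1.le]
  rw [hs, hs2]
  rcases eq_or_ne (ze p) 0 with hz | hz
  · rw [hz]; simp
  · field_simp
    ring

lemma ZZ_deriv (hw : Sx w) (hf : Sx f) (hx : x ∈ Ioo (-1 : ℝ) 1) (h : rhx w f x < 0) (hp : 2 ≤ p) :
    HasDerivAt (ZZ p w f) (-(Real.exp (f x - w x) / (2 * ze p * Real.sqrt (1 - x ^ 2))) *
      (DD w f x * NN w f x + 2 * (1 - x ^ 2) * DDx w f x) * rhx w f x) x := by
  have h1 := one_sub_sq_pos hx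
  have h0 : 0 < Real.sqrt (1 - x ^ 2) := Real.sqrt_pos.2 h1
  have hz : 0 < ze p := by
    unfold ze
    have : (2 : ℝ) ≤ p := by exact_mod_cast hp
    apply div_pos <;> linarith only [this]
  have h2 := DD_pos hx h
  have e1 := hasDerivAt_of_sx hw hx
  have e2 := hasDerivAt_of_sx hf hx
  have h3 : HasDerivAt (fun y : ℝ => 1 - y ^ 2) (-(2 * x)) x := by
    simpa using ((hasDerivAt_id x).pow 2).const_sub 1
  have h4 := h3.sqrt h1.ne'
  have h5 := ((e2.sub e1).exp.mul ((DD_deriv hw hf hx).pow 2)).div (h4.const_mul (4 * ze p))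
    (by positivity)
  have h6 : ZZ p w f =ᶠ[𝓝 x] fun y =>
      Real.exp (f y - w y) * (DD w f y) ^ 2 / (4 * ze p * Real.sqrt (1 - y ^ 2)) := by
    filter_upwards [Ioo_mem_nhds hx.1 hx.2] with y hy
    exact ZZ_eq hy
  have h7 : HasDerivAt (ZZ p w f) _ x := HasDerivAt.congr_of_eventuallyEq h5 h6
  convert h7 using 1
  rw [rhx_eq hx]
  simp only [Pi.sub_apply, Pi.mul_apply, Pi.pow_apply]
  have hDN : NN w f x = (1 - x ^ 2) * (dx f x - dx w x) + x := rfl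
  rw [hDN]
  obtain ⟨s, hs, hs0⟩ : ∃ s, Real.sqrt (1 - x ^ 2) = s ∧ 0 < s := ⟨_, rfl, h0⟩
  have hs2 : 1 - x ^ 2 = s ^ 2 := by rw [← hs, Real.sq_sqrt h1.le]
  rw [hs, hs2]
  field_simp
  ring

/-- exponentials in terms of `w, f, x` -/
lemma exp_uu (hx : x ∈ Ioo (-1 : ℝ) 1) :
    Real.exp (uu w f x) = Real.exp (f x - w x) / Real.sqrt (1 - x ^ 2) := by
  have h1 := one_sub_sq_pos hx
  unfold uu
  rw [Real.exp_sub, ← Real.log_sqrt h1.le, Real.exp_log (Real.sqrt_pos.2 h1)]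

lemma ze_pos (hp : 2 ≤ p) : 0 < ze p := by
  unfold ze
  have : (2 : ℝ) ≤ p := by exact_mod_cast hp
  apply div_pos <;> linarith only [this]

lemma exp_rh (hx : x ∈ Ioo (-1 : ℝ) 1) (hp : 2 ≤ p) :
    Real.exp (2 * rh p w f x) = Real.exp (f x + w x) * Real.sqrt (1 - x ^ 2) / ze p := by
  have h1 := one_sub_sq_pos hx
  unfold rh
  rw [show 2 * ((f x + w x + Real.log (1 - x ^ 2) / 2 - Real.log (ze p)) / 2) =
    (f x + w x + Real.log (Real.sqrt (1 - x ^ 2))) - Real.log (ze p) by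
      rw [Real.log_sqrt h1.le]; ring]
  rw [Real.exp_sub, Real.exp_add (f x + w x), Real.exp_log (Real.sqrt_pos.2 h1),
    Real.exp_log (ze_pos hp)]

/-- equation (E3) -/
lemma E3 (hx : x ∈ Ioo (-1 : ℝ) 1) (h : rhx w f x < 0) (hp : 2 ≤ p) :
    -(Real.exp (f x - w x) / (2 * ze p * Real.sqrt (1 - x ^ 2))) *
      (DD w f x * NN w f x + 2 * (1 - x ^ 2) * DDx w f x) =
    (2 * (p : ℝ) - 1) * (Real.cosh (uu w f x) - ZZ p w f x) - ZZ p w f x * (u1 w f x) ^ 2 / 4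
      - Real.exp (2 * rh p w f x) * scal p w f x / (2 * p) := by
  have h1 := one_sub_sq_pos hx
  have h2 := DD_pos hx h
  have hp' : (2 : ℝ) ≤ p := by exact_mod_cast hp
  have hp0 : (p : ℝ) ≠ 0 := by positivity
  have hzp := ze_pos hp
  have hze : ze p * (2 * (p : ℝ) - 1) = (p : ℝ) - 1 := by
    unfold ze
    have : 2 * (p : ℝ) - 1 ≠ 0 := by linarith only [hp']
    rw [div_mul_cancel₀ _ this]
  have h0 : 0 < Real.sqrt (1 - x ^ 2) := Real.sqrt_pos.2 h1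
  have key := alg_dZ (Real.exp (-2 * w x)) (Real.exp (-2 * f x)) x (dx w x) (dx (dx w) x) (dx f x)
    (dx (dx f) x) p hp0
  have hscal : scal p w f x = ((-(Real.exp (-2 * w x) * (((1 - x ^ 2) * dx (dx w) x - (p + 1) * x * dx w x) - p - x * ((p - 1) * dx w x + p * dx f x)
      + (1 - x ^ 2) * dx w x * ((p - 1) * dx w x + p * dx f x))) - Real.exp (-2 * w x) * (1 - x ^ 2) *
    ((p - 1) * (dx (dx w) x - dx w x ^ 2)
      + p * (dx (dx f) x + dx f x ^ 2 - 2 * dx w x * dx f x)))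
      + p * (-(Real.exp (-2 * w x) * (((1 - x ^ 2) * dx (dx f) x - (p + 1) * x * dx f x)
        + (1 - x ^ 2) * dx f x * ((p - 1) * dx w x + p * dx f x))) + (p - 1) * Real.exp (-2 * f x))
      + p * (-(Real.exp (-2 * w x) * (((1 - x ^ 2) * dx (dx w) x - (p + 1) * x * dx w x) - p - x * ((p - 1) * dx w x + p * dx f x)
      + (1 - x ^ 2) * dx w x * ((p - 1) * dx w x + p * dx f x))))) := by
    unfold scal ric0 ric1 ric2 lap gx
    ring
  rw [← hscal] at key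
  rw [Real.cosh_eq, Real.exp_neg (uu w f x), exp_uu hx, exp_rh hx hp, ZZ_eq hx, u1]
  have hDD : DD w f x = x - (1 - x ^ 2) * (dx f x + dx w x) := rfl
  have hNN : NN w f x = (1 - x ^ 2) * (dx f x - dx w x) + x := rfl
  have hDx : DDx w f x =
    1 + 2 * x * (dx f x + dx w x) - (1 - x ^ 2) * (dx (dx f) x + dx (dx w) x) := rfl
  rw [← hDD, ← hNN, ← hDx] at key
  generalize DD w f x = D at *
  generalize NN w f x = N at *
  generalize DDx w f x = Dx at *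
  generalize scal p w f x = R at *
  -- exponentials
  have ea : Real.exp (-2 * w x) = (Real.exp (w x))⁻¹ ^ 2 := by
    rw [← Real.exp_neg, ← Real.exp_nat_mul]; congr 1; push_cast; ring
  have eb : Real.exp (-2 * f x) = (Real.exp (f x))⁻¹ ^ 2 := by
    rw [← Real.exp_neg, ← Real.exp_nat_mul]; congr 1; push_cast; ring
  rw [Real.exp_sub, Real.exp_add]
  rw [ea, eb] at key
  have hW := Real.exp_pos (w x)
  have hF := Real.exp_pos (f x)
  generalize Real.exp (w x) = W at *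
  generalize Real.exp (f x) = F at *
  obtain ⟨s, hs, hs0⟩ : ∃ s, Real.sqrt (1 - x ^ 2) = s ∧ 0 < s := ⟨_, rfl, h0⟩
  have hs2 : 1 - x ^ 2 = s ^ 2 := by rw [← hs, Real.sq_sqrt h1.le]
  rw [hs, hs2]
  rw [hs2] at key
  generalize ze p = z at *
  have hz1 : (p : ℝ) - 1 = z * (2 * p - 1) := hze.symm
  rw [hz1] at key
  have hD0 := h2.ne'
  field_simp at key ⊢
  linear_combination 4 * key

/-- equation (E1) -/
lemma E1 (hx : x ∈ Ioo (-1 : ℝ) 1) (h : rhx w f x < 0) (hp : 2 ≤ p) :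
    (rhsF p w f x - rhsW p w f x) + ux w f x *
      (-((rhsF p w f x + rhsW p w f x) / 2) / rhx w f x) =
    Real.exp (-2 * rh p w f x) * (ZZ p w f x * u2 w f x
      + (2 * (p : ℝ) - 1) * Real.cosh (uu w f x) * u1 w f x
      + 2 * (2 * (p : ℝ) - 1) * Real.sinh (uu w f x)) := by
  have h1 := one_sub_sq_pos hx
  have h2 := DD_pos hx h
  have hp' : (2 : ℝ) ≤ p := by exact_mod_cast hp
  have hzp := ze_pos hp
  have hze : ze p * (2 * (p : ℝ) - 1) = (p : ℝ) - 1 := by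
    unfold ze
    have : 2 * (p : ℝ) - 1 ≠ 0 := by linarith only [hp']
    rw [div_mul_cancel₀ _ this]
  have h0 : 0 < Real.sqrt (1 - x ^ 2) := Real.sqrt_pos.2 h1
  have hlhs : (rhsF p w f x - rhsW p w f x) + ux w f x *
      (-((rhsF p w f x + rhsW p w f x) / 2) / rhx w f x) =
      ((rhsF p w f x - rhsW p w f x) * DD w f x + NN w f x * (rhsF p w f x + rhsW p w f x))
        / DD w f x := by
    rw [ux_eq hx, rhx_eq hx]
    have := h1.ne'
    have := h2.ne'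
    field_simp
  have hF : rhsF p w f x = (Real.exp (-2 * w x) * ((1 - x ^ 2) * dx (dx f) x - (p + 1) * x * dx f x)
      - (p - 1) * Real.exp (-2 * f x) - (1 - x ^ 2) * dx f x * Jf p w f x) := rfl
  have hW : rhsW p w f x = (Real.exp (-2 * w x) * (((1 - x ^ 2) * dx (dx w) x
      - (p + 1) * x * dx w x) - p) + (x - (1 - x ^ 2) * dx w x) * Jf p w f x) := rfl
  have key := alg_dt (Real.exp (-2 * w x)) (Real.exp (-2 * f x)) x (dx w x) (dx (dx w) x) (dx f x)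
    (dx (dx f) x) (Jf p w f x) p
  rw [← hF, ← hW] at key
  have hDD : DD w f x = x - (1 - x ^ 2) * (dx f x + dx w x) := rfl
  have hNN : NN w f x = (1 - x ^ 2) * (dx f x - dx w x) + x := rfl
  have hDx : DDx w f x =
    1 + 2 * x * (dx f x + dx w x) - (1 - x ^ 2) * (dx (dx f) x + dx (dx w) x) := rfl
  have hNx : NNx w f x =
    (-2 * x) * (dx f x - dx w x) + (1 - x ^ 2) * (dx (dx f) x - dx (dx w) x) + 1 := rfl
  rw [← hDD, ← hNN, ← hDx, ← hNx] at key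
  have hsub : DD w f x - NN w f x = -2 * (1 - x ^ 2) * dx f x := by
    rw [hDD, hNN]; ring
  rw [hlhs, ← key]
  rw [Real.cosh_eq, Real.sinh_eq, Real.exp_neg (uu w f x), exp_uu hx,
    show -2 * rh p w f x = -(2 * rh p w f x) by ring, Real.exp_neg (2 * rh p w f x),
    exp_rh hx hp, ZZ_eq hx, u1, u2]
  have ea : Real.exp (-2 * w x) = (Real.exp (w x))⁻¹ ^ 2 := by
    rw [← Real.exp_neg, ← Real.exp_nat_mul]; congr 1; push_cast; ring
  have eb : Real.exp (-2 * f x) = (Real.exp (f x))⁻¹ ^ 2 := by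
    rw [← Real.exp_neg, ← Real.exp_nat_mul]; congr 1; push_cast; ring
  rw [Real.exp_sub, Real.exp_add, ea, eb]
  clear key hlhs hF hW
  have hW := Real.exp_pos (w x)
  have hF := Real.exp_pos (f x)
  clear hDD hNN hDx hNx
  generalize DD w f x = D at *
  generalize NN w f x = N at *
  generalize DDx w f x = Dx at *
  generalize NNx w f x = Nx at *
  generalize Real.exp (w x) = W at *
  generalize Real.exp (f x) = F at *
  obtain ⟨s, hs, hs0⟩ : ∃ s, Real.sqrt (1 - x ^ 2) = s ∧ 0 < s := ⟨_, rfl, h0⟩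
  have hs2 : 1 - x ^ 2 = s ^ 2 := by rw [← hs, Real.sq_sqrt h1.le]
  rw [hs, hs2]
  rw [hs2] at hsub
  generalize ze p = z at *
  have hz1 : (p : ℝ) - 1 = z * (2 * p - 1) := hze.symm
  have hf1 : dx f x = -(D - N) / (2 * s ^ 2) := by
    rw [hsub]; field_simp
  rw [hf1, hz1]
  have hD0 := h2.ne'
  field_simp
  ring

end fixed

end

end Vale.Agent.P244.ST.RG
end
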