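import Mathlib
import Vale.Agent.P244.Bd3.B1
import Vale.Agent.P244.Bd3.B8

set_option linter.all false

section

/-!
# P244 / ST / S : statements connecting block S with the interface (Geo.lean, Iface.lean)
-/

open Set MeasureTheory
open scoped ContDiff

namespace Vale.Agent.P244.ST.SS

/-- `s = -log (1-t)` -/
noncomputable def st (t : ℝ) : ℝ := -Real.log (1 - t)

/-- the normalised cut-off function of the solution, `z ↦ H(s,z)` at the time `t` -/
noncomputable def hh (q : Par) (U : ℝ → ℝ → ℝ) (t : ℝ) : ℝ → ℝ :=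
  HH kap q.eps q.d0 q.N U (st t)

/-- **CV** (change of variables): the `x`-integrals of `Geo.lean` are the `z`-integrals. -/
def CVStatement : Prop :=
  ∀ q : Par, 0 < q.d0 → 0 < q.N → 0 < q.eps → ∀ w f : Fn, ∀ T > 0, T ≤ 1 →
    ConfSol 20 w f T → Qual w f T →
    ∀ X U U1 U2 Z R : ℝ → ℝ → ℝ, RG.RSol 20 w f T X U U1 U2 Z R →
    ∀ t ∈ Ico 0 T, 2 * Real.sqrt q.N < rr w f t 0 →
    (∀ i : ℕ, gami q w f i t = SS.gam kap i (hh q U t)) ∧
    enU q w f t = (4 : ℝ) ^ (20 - kap) * Ex kap (hh q U t)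

/-- **Pt** (pointwise input from the bootstrap); the constant `C1` depends only on the
parameters before `sg`. -/
def PtStatement : Prop :=
  ∀ g : ℝ → ℝ, IsBub g → ∃ C1 : Par → ℝ,
    (∀ q q' : Par, q.B = q'.B → q.rho0 = q'.rho0 → q.BV = q'.BV → q.MU = q'.MU → q.MP = q'.MP →
      q.MV = q'.MV → q.CU = q'.CU → q.CP = q'.CP → q.CV = q'.CV → q.GR = q'.GR → C1 q = C1 q') ∧
    (∀ q, 0 ≤ C1 q) ∧
    Ev fun q => ∀ w f : Fn, ∀ T > 0, T ≤ 1 → ConfSol 20 w f T → Qual w f T →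
      ∀ X U U1 U2 Z R : ℝ → ℝ → ℝ, RG.RSol 20 w f T X U U1 U2 Z R →
      ∀ t₁ ∈ Ico 0 T, Boot q g w f t₁ → ∀ t ∈ Icc 0 t₁,
        PtIn kap q.eps q.d0 q.N (C1 q) (3 * q.eta) U U1 U2 Z (st t)

/-- **S7s** (closeness on compact sets with a rate). -/
def S7sStatement : Prop :=
  ∀ k : ℝ, KK k → ∀ z₁ > 0, ∀ z₂ > z₁, ∀ M K : ℝ, 0 ≤ M → 0 ≤ K → ∃ C : ℝ, 0 ≤ C ∧
    ∀ sg : ℝ, 0 < sg → sg ≤ 1 →
    ∀ h h1 : ℝ → ℝ, (∀ z > 0, HasDerivAt h (h1 z) z) → ContinuousOn h1 (Ioi 0) →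
    (∃ c₁ > 0, ∃ c₂ : ℝ, ∀ z > 0, z ∉ Icc c₁ c₂ → h z = 0) →
    (∀ z ∈ Icc z₁ z₂, |h1 z| ≤ M) →
    (∀ i < 3, |gam k i h| ≤ K * sg) → |gam k 3 h - 1| ≤ K * sg → Ex k h ≤ (K * sg) ^ 2 →
    ∀ z ∈ Icc z₁ z₂, |h z - (Lag.ell (aa k) 3).eval z| ≤ C * sg ^ (2 / 3 : ℝ)

end Vale.Agent.P244.ST.SS
end

section

/-! P244, block S, CV (helper861): the `x`-integrals of `Geo.lean` are the `z`-integrals. -/

open Set MeasureTheory Polynomial
open scoped Topology ContDiff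

namespace Vale.Agent.P244.ST.SS.CV

theorem aa_pos : 0 < SS.aa kap := by
  unfold SS.aa kap
  have : 0 < Real.sqrt 1209 := Real.sqrt_pos.mpr (by norm_num)
  linarith only [this]

theorem aa_gt : -1 < SS.aa kap := by linarith only [aa_pos]

/-- the weights -/
theorem weight {y : ℝ} (hy : 0 < y) :
    y ^ (-kap) * y ^ (-kap) * Wt y =
      (4 : ℝ) ^ (20 - kap) * ((y ^ 2 / 4) ^ SS.aa kap * Real.exp (-(y ^ 2 / 4))) * (y / 2) := by
  have h1 : (y ^ 2 / 4 : ℝ) ^ SS.aa kap = y ^ (2 * SS.aa kap) / 4 ^ SS.aa kap := by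
    rw [Real.div_rpow (by positivity) (by norm_num), ← Real.rpow_natCast y 2, ← Real.rpow_mul hy.le]
    norm_num
  have h2 : (4 : ℝ) ^ (20 - kap) = 2 * 4 ^ SS.aa kap := by
    have : (20 - kap : ℝ) = SS.aa kap + 1 / 2 := by unfold SS.aa; ring
    rw [this, Real.rpow_add (by norm_num), mul_comm]
    congr 1
    rw [show (4 : ℝ) = 2 ^ (2 : ℝ) by norm_num, ← Real.rpow_mul (by norm_num)]
    norm_num
  have h3 : y ^ (-kap) * y ^ (-kap) * y ^ 40 = y ^ (2 * SS.aa kap) * y := by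
    rw [← Real.rpow_natCast y 40, ← Real.rpow_add hy, ← Real.rpow_add hy,
      ← Real.rpow_add_one hy.ne']
    congr 1
    unfold SS.aa
    push_cast
    ring
  have h4 : (0 : ℝ) < 4 ^ SS.aa kap := Real.rpow_pos_of_pos (by norm_num) _
  unfold Wt
  rw [h1, h2, show (-y ^ 2 / 4 : ℝ) = -(y ^ 2 / 4) by ring]
  calc y ^ (-kap) * y ^ (-kap) * (y ^ 40 * Real.exp (-(y ^ 2 / 4)))
      = (y ^ (-kap) * y ^ (-kap) * y ^ 40) * Real.exp (-(y ^ 2 / 4)) := by ring
    _ = (y ^ (2 * SS.aa kap) * y) * Real.exp (-(y ^ 2 / 4)) := by rw [h3]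
    _ = _ := by field_simp

theorem ll_eq (i : ℕ) (z : ℝ) : ll i z = (Lag.ell (SS.aa kap) i).eval z := by
  unfold ll Lag.ell
  rw [eval_finsetSum]
  refine Finset.sum_congr rfl fun j _ => ?_
  rw [eval_monomial]
  unfold Lag.cf
  have : ∏ l ∈ Finset.range j, (DD / 2 + (l : ℝ)) = ∏ l ∈ Finset.range j, (SS.aa kap + 1 + (l : ℝ)) := by
    refine Finset.prod_congr rfl fun l _ => ?_
    unfold DD SS.aa
    ring
  rw [this]

theorem xi_stp (x : ℝ) : xi x = stp (Real.sqrt x) := rfl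

section

variable {w f : Fn} {T t : ℝ}

theorem slice_smooth (hw : ContDiffOn ℝ ∞ (fun z : ℝ × ℝ => w z.1 z.2) (Ico 0 T ×ˢ Icc (-1) 1))
    (ht : t ∈ Ico 0 T) : ContDiffOn ℝ ∞ (w t) (Icc (-1) 1) :=
  hw.comp (f := fun x : ℝ => (t, x)) (by fun_prop) fun _ hx => ⟨ht, hx⟩

theorem slice_diff (hw : ContDiffOn ℝ ∞ (fun z : ℝ × ℝ => w z.1 z.2) (Ico 0 T ×ˢ Icc (-1) 1))
    (ht : t ∈ Ico 0 T) {x : ℝ} (hx : x ∈ Ioo (0 : ℝ) 1) : DifferentiableAt ℝ (w t) x :=
  ((slice_smooth hw ht).contDiffAt (Icc_mem_nhds (by linarith only [hx, hx.1]) hx.2)).differentiableAt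
    (by simp)

theorem rho_diff (h : ConfSol 20 w f T) (ht : t ∈ Ico 0 T) {x : ℝ} (hx : x ∈ Ioo (0 : ℝ) 1) :
    DifferentiableAt ℝ (rho w f t) x := by
  have h1 := slice_diff h.smooth_w ht hx
  have h2 := slice_diff h.smooth_f ht hx
  have h3 : DifferentiableAt ℝ (fun x : ℝ => Real.log (1 - x ^ 2)) x := by
    apply DifferentiableAt.log (by fun_prop)
    have := hx.1
    have := hx.2
    nlinarith
  unfold rho
  exact ((((h2.add h1).add (h3.div_const 2)).sub_const _).div_const 2)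

theorem rho_deriv_neg (hq : Qual w f T) (ht : t ∈ Ico 0 T) {x : ℝ} (hx : x ∈ Ioo (0 : ℝ) 1) :
    deriv (rho w f t) x < 0 := by
  have h := hq.rs_pos t ht x hx
  unfold rs Ds Dx at h
  have h1 : 0 < sx x * Real.exp (-w t x) := by
    refine mul_pos (Real.sqrt_pos.mpr ?_) (Real.exp_pos _)
    have := hx.1
    have := hx.2
    nlinarith
  by_contra hc
  rw [not_lt] at hc
  linarith only [mul_nonneg h1.le hc, h]

theorem yv_hasDeriv (h : ConfSol 20 w f T) (ht : t ∈ Ico 0 T) {x : ℝ} (hx : x ∈ Ioo (0 : ℝ) 1) :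
    HasDerivAt (yv w f t) (deriv (yv w f t) x) x := by
  refine DifferentiableAt.hasDerivAt ?_
  unfold yv rr
  exact ((rho_diff h ht hx).exp).div_const _

theorem yv_deriv_nonpos (h : ConfSol 20 w f T) (hq : Qual w f T) (ht : t ∈ Ico 0 T) {x : ℝ}
    (hx : x ∈ Ioo (0 : ℝ) 1) : deriv (yv w f t) x ≤ 0 := by
  have h1 : HasDerivAt (yv w f t)
      (Real.exp (rho w f t x) * deriv (rho w f t) x / Real.sqrt (tau t)) x :=
    ((rho_diff h ht hx).hasDerivAt.exp).div_const _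
  rw [h1.deriv]
  have h2 := rho_deriv_neg hq ht hx
  have h3 := Real.sqrt_nonneg (tau t)
  apply div_nonpos_of_nonpos_of_nonneg _ h3
  exact mul_nonpos_of_nonneg_of_nonpos (Real.exp_pos _).le h2.le

theorem ze_eq : RG.ze 20 = zeta0 := by
  unfold RG.ze zeta0
  norm_num

theorem rh_eq (x : ℝ) : RG.rh 20 (w t) (f t) x = rho w f t x := by
  unfold RG.rh rho
  rw [ze_eq]

variable {X U U1 U2 Z R : ℝ → ℝ → ℝ}

theorem tau_pos (hT1 : T ≤ 1) (ht : t ∈ Ico 0 T) : 0 < tau t := by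
  unfold tau
  linarith only [hT1, ht, ht.2]

theorem log_four (hτ : 0 < tau t) (x : ℝ) :
    Real.log (yv w f t x ^ 2) = 2 * rho w f t x - Real.log (tau t) := by
  have hy : yv w f t x ^ 2 = Real.exp (2 * rho w f t x) / tau t := by
    unfold yv rr
    rw [div_pow, Real.sq_sqrt hτ.le, ← Real.exp_nat_mul]
    push_cast
    rfl
  rw [hy, Real.log_div (Real.exp_pos _).ne' hτ.ne', Real.log_exp]

theorem yv_pos (hτ : 0 < tau t) (x : ℝ) : 0 < yv w f t x :=
  div_pos (Real.exp_pos _) (Real.sqrt_pos.mpr hτ)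

/-- the map `x ↦ z` -/
noncomputable def zt (w f : Fn) (t x : ℝ) : ℝ := yv w f t x ^ 2 / 4

theorem zt_inj (hτ : 0 < tau t) (hR : RG.RSol 20 w f T X U U1 U2 Z R) (ht : t ∈ Ico 0 T) :
    InjOn (zt w f t) (Ioo 0 1) := by
  intro x hx x' hx' he
  have h1 : yv w f t x ^ 2 = yv w f t x' ^ 2 := by
    unfold zt at he
    linarith only [he]
  have h2 : rho w f t x = rho w f t x' := by
    have := congrArg Real.log h1
    rw [log_four hτ, log_four hτ] at this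
    linarith only [this]
  have h3 := (hR.X_inv t ht x hx).2
  have h4 := (hR.X_inv t ht x' hx').2
  rw [rh_eq] at h3 h4
  rw [← h3, ← h4, h2]

theorem zt_image (hτ : 0 < tau t) (hR : RG.RSol 20 w f T X U U1 U2 Z R) (ht : t ∈ Ico 0 T) :
    zt w f t '' Ioo 0 1 = Ioo 0 (zt w f t 0) := by
  ext z
  constructor
  · rintro ⟨x, hx, rfl⟩
    have h1 := (hR.X_inv t ht x hx).1
    rw [rh_eq, rh_eq] at h1
    have h2 := yv_pos (w := w) (f := f) hτ x
    refine ⟨by unfold zt; positivity, ?_⟩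
    unfold zt
    have h3 : yv w f t x < yv w f t 0 := by
      unfold yv rr
      exact div_lt_div_of_pos_right (Real.exp_lt_exp.mpr h1) (Real.sqrt_pos.mpr hτ)
    have h4 := pow_lt_pow_left₀ h3 h2.le (two_ne_zero)
    linarith only [h4]
  · rintro ⟨hz0, hz1⟩
    set ρ := (Real.log (4 * z) + Real.log (tau t)) / 2 with hρ
    have hy0 := yv_pos (w := w) (f := f) hτ 0
    have h1 : ρ < rho w f t 0 := by
      have h2 : Real.log (4 * z) < Real.log (yv w f t 0 ^ 2) := by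
        apply Real.log_lt_log (by linarith only [hz0])
        unfold zt at hz1
        linarith only [hz1]
      rw [log_four hτ] at h2
      rw [hρ]
      linarith only [h2]
    have h3 : (t, ρ) ∈ RG.reg 20 w f (Ico 0 T) := ⟨ht, by rw [rh_eq]; exact h1⟩
    obtain ⟨h4, h5⟩ := hR.X_mem (t, ρ) h3
    rw [rh_eq] at h5
    refine ⟨X t ρ, h4, ?_⟩
    have h6 := log_four (w := w) (f := f) hτ (X t ρ)
    have h5' : rho w f t (X t ρ) = ρ := h5
    rw [h5', hρ] at h6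
    have h7 : Real.log (yv w f t (X t ρ) ^ 2) = Real.log (4 * z) := by
      rw [h6]; ring
    have h8 := Real.log_injOn_pos (x₁ := yv w f t (X t ρ) ^ 2)
      (by have := yv_pos (w := w) (f := f) hτ (X t ρ); exact pow_pos this 2)
      (show (4 * z) ∈ Ioi (0 : ℝ) by rw [mem_Ioi]; linarith only [hz0]) h7
    unfold zt
    linarith only [h8]

/-- general change of variables -/
theorem cv_gen (h : ConfSol 20 w f T) (hq : Qual w f T) (hT1 : T ≤ 1)
    (hR : RG.RSol 20 w f T X U U1 U2 Z R) (ht : t ∈ Ico 0 T) (G : ℝ → ℝ)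
    (hG : ∀ z, zt w f t 0 ≤ z → G z = 0) (F : ℝ → ℝ)
    (hF : ∀ x ∈ Ioo (0 : ℝ) 1, F x = yv w f t x ^ (-kap) * yv w f t x ^ (-kap) *
      G (zt w f t x) * Wt (yv w f t x) * (-(deriv (yv w f t) x))) :
    ∫ x in (0 : ℝ)..1, F x = (4 : ℝ) ^ (20 - kap) * ∫ z, G z ∂(Lag.mu (SS.aa kap)) := by
  have hτ := tau_pos hT1 ht
  rw [intervalIntegral.integral_of_le zero_le_one, integral_Ioc_eq_integral_Ioo, Lag.integral_mu]
  have e1 : ∫ z in Ioi 0, G z * (z ^ SS.aa kap * Real.exp (-z)) =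
      ∫ z in Ioo 0 (zt w f t 0), G z * (z ^ SS.aa kap * Real.exp (-z)) := by
    refine setIntegral_eq_of_subset_of_forall_sdiff_eq_zero measurableSet_Ioi
      (fun z hz => hz.1) ?_
    rintro z ⟨hz0, hz1⟩
    rw [hG z, zero_mul]
    by_contra hc
    exact hz1 ⟨hz0, not_le.mp hc⟩
  have e2 : ∀ x ∈ Ioo (0 : ℝ) 1, HasDerivWithinAt (zt w f t)
      (yv w f t x * deriv (yv w f t) x / 2) (Ioo 0 1) x := by
    intro x hx
    have h1 := ((yv_hasDeriv h ht hx).pow 2).div_const 4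
    refine (h1.congr_deriv ?_).hasDerivWithinAt
    rw [show (2 - 1 : ℕ) = 1 from rfl, pow_one]
    push_cast
    ring
  rw [e1, ← zt_image hτ hR ht, integral_image_eq_integral_abs_deriv_smul measurableSet_Ioo e2
    (zt_inj hτ hR ht), ← integral_const_mul]
  refine setIntegral_congr_fun measurableSet_Ioo fun x hx => ?_
  simp only [smul_eq_mul]
  have hy := yv_pos (w := w) (f := f) hτ x
  have hd := yv_deriv_nonpos h hq ht hx
  rw [hF x hx, abs_of_nonpos (by linarith only [mul_nonneg (le_of_lt (sub_pos.2 hy)) (sub_nonneg.2 hd)])]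
  have hw := weight hy
  unfold zt
  calc yv w f t x ^ (-kap) * yv w f t x ^ (-kap) * G (yv w f t x ^ 2 / 4) * Wt (yv w f t x) *
        (-(deriv (yv w f t) x))
      = (yv w f t x ^ (-kap) * yv w f t x ^ (-kap) * Wt (yv w f t x)) *
          G (yv w f t x ^ 2 / 4) * (-(deriv (yv w f t) x)) := by ring
    _ = _ := by rw [hw]; ring

theorem tt_st (hτ : 0 < tau t) : tt (st t) = t := by
  unfold tt st
  rw [neg_neg, Real.exp_log (by unfold tau at hτ; exact hτ)]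
  ring

theorem exp_st (hτ : 0 < tau t) (c : ℝ) : Real.exp (-(c * st t)) = tau t ^ c := by
  unfold st
  rw [Real.rpow_def_of_pos hτ]
  congr 1
  unfold tau
  ring

theorem lr_zt (hτ : 0 < tau t) (x : ℝ) : lr (st t) (zt w f t x) = rho w f t x := by
  unfold lr st zt
  have h := log_four (w := w) (f := f) hτ x
  rw [show (4 * (yv w f t x ^ 2 / 4) : ℝ) = yv w f t x ^ 2 by ring, h]
  unfold tau
  ring

theorem Am_eq (hτ : 0 < tau t) (q : Par) : Am kap q.eps (st t) = q.A t := by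
  unfold Am Par.A lam
  rw [neg_mul, exp_st hτ]
  norm_num

theorem ch_eq (hτ : 0 < tau t) (q : Par) (hd : 0 < q.d0) (x : ℝ) :
    ch q.d0 q.N (st t) (zt w f t x) = chi q t (yv w f t x) := by
  have hy := yv_pos (w := w) (f := f) hτ x
  unfold ch chi
  rw [xi_stp, xi_stp]
  have h1 : Real.sqrt (zt w f t x / z0 q.d0 (st t)) =
      yv w f t x / (q.d0 * tau t ^ ((1 : ℝ) / 10)) := by
    have hz0 : z0 q.d0 (st t) = (q.d0 * tau t ^ ((1 : ℝ) / 10)) ^ 2 / 4 := by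
      unfold z0
      rw [show (-st t / 5 : ℝ) = -(1 / 5 * st t) by ring, exp_st hτ, mul_pow,
        ← Real.rpow_natCast (tau t ^ ((1 : ℝ) / 10)) 2, ← Real.rpow_mul hτ.le]
      norm_num
      ring
    have hp : 0 < q.d0 * tau t ^ ((1 : ℝ) / 10) := mul_pos hd (Real.rpow_pos_of_pos hτ _)
    rw [hz0]
    unfold zt
    rw [show yv w f t x ^ 2 / 4 / ((q.d0 * tau t ^ ((1 : ℝ) / 10)) ^ 2 / 4) =
      (yv w f t x / (q.d0 * tau t ^ ((1 : ℝ) / 10))) ^ 2 by field_simp]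
    exact Real.sqrt_sq (by positivity)
  have h2 : Real.sqrt (be q.N (st t) (zt w f t x)) =
      Real.sqrt (tau t) * yv w f t x / Real.sqrt q.N := by
    unfold be zt
    have e := exp_st (t := t) hτ 1
    rw [one_mul, Real.rpow_one] at e
    rw [e, show 4 * (yv w f t x ^ 2 / 4) * tau t / q.N = (tau t * yv w f t x ^ 2) / q.N by ring,
      Real.sqrt_div (by positivity), Real.sqrt_mul hτ.le, Real.sqrt_sq hy.le]
  rw [h1, h2]

theorem wk_eq (hτ : 0 < tau t) (x : ℝ) : wk kap (zt w f t x) = yv w f t x ^ kap := by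
  have hy := yv_pos (w := w) (f := f) hτ x
  unfold wk zt
  rw [show (4 * (yv w f t x ^ 2 / 4) : ℝ) = yv w f t x ^ 2 by ring,
    ← Real.rpow_natCast (yv w f t x) 2, ← Real.rpow_mul hy.le]
  congr 1
  push_cast
  ring

theorem U_zt (hR : RG.RSol 20 w f T X U U1 U2 Z R) (ht : t ∈ Ico 0 T) {x : ℝ}
    (hx : x ∈ Ioo (0 : ℝ) 1) : U t (rho w f t x) = uu w f t x := by
  obtain ⟨h1, h2⟩ := hR.X_inv t ht x hx
  rw [rh_eq] at h2
  rw [rh_eq] at h1
  have h3 := hR.U_eq (t, rho w f t x) ⟨ht, h1⟩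
  simp only at h3
  rw [h3, h2]
  rfl

/-- the value of `hh` -/
theorem hh_eq (hτ : 0 < tau t) (hR : RG.RSol 20 w f T X U U1 U2 Z R) (ht : t ∈ Ico 0 T) (q : Par)
    (hd : 0 < q.d0) {x : ℝ} (hx : x ∈ Ioo (0 : ℝ) 1) :
    hh q U t (zt w f t x) =
      chi q t (yv w f t x) * yv w f t x ^ kap * uu w f t x / q.A t := by
  unfold hh HH
  rw [ch_eq hτ q hd, wk_eq hτ, tt_st hτ, lr_zt hτ, U_zt hR ht hx, Am_eq hτ]

theorem hh_zero (hτ : 0 < tau t) (q : Par) (hN : 0 < q.N)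
    (h0 : 2 * Real.sqrt q.N < rr w f t 0) (z : ℝ) (hz : zt w f t 0 ≤ z) : hh q U t z = 0 := by
  have hbe : 4 ≤ be q.N (st t) z := by
    unfold be
    have e := exp_st (t := t) hτ 1
    rw [one_mul, Real.rpow_one] at e
    rw [e, le_div_iff₀ hN]
    have h1 : rr w f t 0 ^ 2 = 4 * zt w f t 0 * tau t := by
      unfold zt yv
      rw [div_pow, Real.sq_sqrt hτ.le]
      field_simp
    have h2 : (2 * Real.sqrt q.N) ^ 2 < rr w f t 0 ^ 2 :=
      pow_lt_pow_left₀ h0 (by positivity) two_ne_zero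
    rw [mul_pow, Real.sq_sqrt hN.le, h1] at h2
    have h3 : 4 * zt w f t 0 * tau t ≤ 4 * z * tau t := by
      apply mul_le_mul_of_nonneg_right _ hτ.le
      linarith only [hz]
    linarith only [h2, h3]
  have hxi : xi (be q.N (st t) z) = 1 := by
    unfold xi
    refine Real.smoothTransition.one_of_one_le ?_
    have : 2 ≤ Real.sqrt (be q.N (st t) z) := Real.le_sqrt_of_sq_le (by linarith only [hbe])
    linarith only [this]
  unfold hh HH ch
  rw [hxi, sub_self, mul_zero, zero_mul, zero_mul, zero_div]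

end

theorem A_pos {q : Par} (he : 0 < q.eps) {t : ℝ} (hτ : 0 < tau t) : 0 < q.A t :=
  mul_pos he (Real.rpow_pos_of_pos hτ _)

theorem nph_eq (i : ℕ) : nph i = (4 : ℝ) ^ (20 - kap) * Lag.nrm (SS.aa kap) i := by
  unfold nph Lag.nrm
  rw [Lag.integral_mu]
  have himg : (fun y : ℝ => y ^ 2 / 4) '' Ioi 0 = Ioi 0 := by
    ext z
    constructor
    · rintro ⟨y, hy, rfl⟩
      have : (0 : ℝ) < y := hy
      show (0 : ℝ) < y ^ 2 / 4
      positivity
    · intro hz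
      have hz' : (0 : ℝ) < z := hz
      refine ⟨2 * Real.sqrt z, by show (0 : ℝ) < 2 * Real.sqrt z; positivity, ?_⟩
      show (2 * Real.sqrt z) ^ 2 / 4 = z
      rw [mul_pow, Real.sq_sqrt hz'.le]
      ring
  have hinj : InjOn (fun y : ℝ => y ^ 2 / 4) (Ioi 0) := by
    intro y hy y' hy' he
    have h1 : (0 : ℝ) < y := hy
    have h2 : (0 : ℝ) < y' := hy'
    simp only at he
    nlinarith only [he, h1, h2, mul_pos h1 h2]
  have hder : ∀ y ∈ Ioi (0 : ℝ), HasDerivWithinAt (fun y : ℝ => y ^ 2 / 4) (y / 2) (Ioi 0) y := by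
    intro y _
    have h1 := (((hasDerivAt_id y).pow 2).div_const 4)
    refine (h1.congr_deriv ?_).hasDerivWithinAt
    simp
    ring
  have key := integral_image_eq_integral_abs_deriv_smul measurableSet_Ioi hder hinj
    (fun z => (Lag.ell (SS.aa kap) i).eval z ^ 2 * (z ^ SS.aa kap * Real.exp (-z)))
  rw [himg] at key
  rw [key, ← integral_const_mul]
  refine setIntegral_congr_fun measurableSet_Ioi fun y hy => ?_
  have hy' : (0 : ℝ) < y := hy
  simp only [smul_eq_mul]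
  rw [abs_of_pos (by positivity)]
  have hw := weight hy'
  unfold ph
  rw [ll_eq]
  calc (y ^ (-kap) * (Lag.ell (SS.aa kap) i).eval (y ^ 2 / 4)) ^ 2 * Wt y
      = (y ^ (-kap) * y ^ (-kap) * Wt y) * (Lag.ell (SS.aa kap) i).eval (y ^ 2 / 4) ^ 2 := by ring
    _ = _ := by rw [hw]; ring

theorem gam_eq (i : ℕ) (h : ℝ → ℝ) :
    SS.gam kap i h = (∫ z, h z * (Lag.ell (SS.aa kap) i).eval z ∂(Lag.mu (SS.aa kap))) /
      Lag.nrm (SS.aa kap) i := by
  have h0 := Lag.nrm_pos aa_gt i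
  have hnu : 0 < nu kap i := Real.sqrt_pos.2 h0
  have hnu2 : nu kap i * nu kap i = Lag.nrm (SS.aa kap) i := Real.mul_self_sqrt h0.le
  unfold SS.gam Lag.en
  have e : ∀ z, h z * (C (1 / √(Lag.nrm (SS.aa kap) i)) * Lag.ell (SS.aa kap) i).eval z =
      (1 / nu kap i) * (h z * (Lag.ell (SS.aa kap) i).eval z) := by
    intro z
    rw [eval_mul, eval_C]
    unfold nu
    ring
  simp_rw [e]
  rw [integral_const_mul, ← hnu2]
  field_simp

theorem gam_sq (i : ℕ) (h : ℝ → ℝ) :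
    (∫ z, h z * (Lag.en (SS.aa kap) i).eval z ∂(Lag.mu (SS.aa kap))) ^ 2 =
      SS.gam kap i h ^ 2 * Lag.nrm (SS.aa kap) i := by
  have h0 := Lag.nrm_pos aa_gt i
  have hnu : 0 < nu kap i := Real.sqrt_pos.2 h0
  have hnu2 : nu kap i * nu kap i = Lag.nrm (SS.aa kap) i := Real.mul_self_sqrt h0.le
  unfold SS.gam
  rw [← hnu2]
  field_simp

/-- **CV** -/
theorem cv : CVStatement := by
  intro q hd hN he w f T hT hT1 h hq X U U1 U2 Z R hR t ht h0
  have hτ := tau_pos hT1 ht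
  have hA := A_pos he hτ
  have hA0 := hA.ne'
  have h4 : (0 : ℝ) < (4 : ℝ) ^ (20 - kap) := Real.rpow_pos_of_pos (by norm_num) _
  have hyy : ∀ x, yv w f t x ^ (-kap) * yv w f t x ^ kap = 1 := by
    intro x
    rw [← Real.rpow_add (yv_pos hτ x)]
    simp
  -- modes
  have hmode : ∀ i : ℕ, gami q w f i t = SS.gam kap i (hh q U t) := by
    intro i
    have h1 := cv_gen h hq hT1 hR ht
      (fun z => q.A t * (hh q U t z * (Lag.ell (SS.aa kap) i).eval z))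
      (fun z hz => by rw [hh_zero hτ q hN h0 z hz, zero_mul, mul_zero])
      (fun x => chi q t (yv w f t x) * uu w f t x * ph i (yv w f t x) *
        Wt (yv w f t x) * (-(deriv (yv w f t) x))) (by
        intro x hx
        rw [hh_eq hτ hR ht q hd hx]
        unfold ph
        rw [ll_eq]
        have e1 := hyy x
        unfold zt
        set a := yv w f t x ^ (-kap)
        set b := yv w f t x ^ kap
        calc chi q t (yv w f t x) * uu w f t x *
              (a * (Lag.ell (SS.aa kap) i).eval (yv w f t x ^ 2 / 4)) *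
              Wt (yv w f t x) * (-(deriv (yv w f t) x))
            = chi q t (yv w f t x) * uu w f t x *
              (a * (Lag.ell (SS.aa kap) i).eval (yv w f t x ^ 2 / 4)) *
              Wt (yv w f t x) * (-(deriv (yv w f t) x)) * (a * b) := by rw [e1, mul_one]
          _ = _ := by field_simp)
    unfold gami
    rw [h1, gam_eq, nph_eq, integral_const_mul]
    have := (Lag.nrm_pos aa_gt i).ne'
    field_simp
  refine ⟨hmode, ?_⟩
  have h2 := cv_gen h hq hT1 hR ht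
    (fun z => q.A t ^ 2 * hh q U t z ^ 2)
    (fun z hz => by rw [hh_zero hτ q hN h0 z hz]; ring)
    (fun x => (chi q t (yv w f t x) * uu w f t x) ^ 2 *
      Wt (yv w f t x) * (-(deriv (yv w f t) x))) (by
      intro x hx
      rw [hh_eq hτ hR ht q hd hx]
      have e1 := hyy x
      set a := yv w f t x ^ (-kap)
      set b := yv w f t x ^ kap
      calc (chi q t (yv w f t x) * uu w f t x) ^ 2 * Wt (yv w f t x) * (-(deriv (yv w f t) x))
          = (chi q t (yv w f t x) * uu w f t x) ^ 2 * Wt (yv w f t x) *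
            (-(deriv (yv w f t) x)) * (a * b) ^ 2 := by rw [e1, one_pow, mul_one]
        _ = _ := by field_simp)
  unfold enU nrmU
  rw [h2, integral_const_mul]
  unfold Ex
  have e3 : ∑ i ∈ Finset.range 4, gami q w f i t ^ 2 * nph i =
      (4 : ℝ) ^ (20 - kap) * ∑ i ∈ Finset.range 4,
        (∫ z, hh q U t z * (Lag.en (SS.aa kap) i).eval z ∂(Lag.mu (SS.aa kap))) ^ 2 := by
    rw [Finset.mul_sum]
    refine Finset.sum_congr rfl fun i _ => ?_
    rw [hmode i, gam_sq, nph_eq]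
    ring
  rw [e3]
  field_simp

end Vale.Agent.P244.ST.SS.CV
end

section

/-! P244, block S, S3 (helper558): the equation of the normalised function `H`. -/

open Set Filter Topology MeasureTheory
open scoped ContDiff

namespace Vale.Agent.P244.ST.SS

theorem z0_pos {d : ℝ} (hd : 0 < d) (s : ℝ) : 0 < z0 d s := by
  unfold z0; positivity

theorem Am_pos {k ε : ℝ} (hε : 0 < ε) (s : ℝ) : 0 < Am k ε s := by
  unfold Am; positivity

theorem wk_pos {k z : ℝ} (hz : 0 < z) : 0 < wk k z := by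
  unfold wk; positivity

/-! ### derivatives in `z` -/

theorem hd_xiin {d : ℝ} (s z : ℝ) :
    HasDerivAt (fun z => xi (z / z0 d s)) (xi1 (z / z0 d s) / z0 d s) z := by
  have h1 : HasDerivAt (fun z : ℝ => z / z0 d s) (1 / z0 d s) z :=
    (hasDerivAt_id z).div_const _
  refine ((xi_hasDerivAt (z / z0 d s)).comp z h1).congr_deriv ?_
  ring

theorem hd_xi1in {d : ℝ} (s z : ℝ) :
    HasDerivAt (fun z => xi1 (z / z0 d s)) (xi2 (z / z0 d s) / z0 d s) z := by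
  have h1 : HasDerivAt (fun z : ℝ => z / z0 d s) (1 / z0 d s) z :=
    (hasDerivAt_id z).div_const _
  refine ((xi1_hasDerivAt (z / z0 d s)).comp z h1).congr_deriv ?_
  ring

theorem hd_be {N : ℝ} (s z : ℝ) : HasDerivAt (fun z => be N s z) (4 * Real.exp (-s) / N) z := by
  have h1 : HasDerivAt (fun z : ℝ => 4 * z * Real.exp (-s) / N)
      (4 * 1 * Real.exp (-s) / N) z :=
    (((hasDerivAt_id z).const_mul 4).mul_const _).div_const _
  rw [mul_one] at h1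
  exact h1

theorem be_eq {N : ℝ} (s z : ℝ) : z * (4 * Real.exp (-s) / N) = be N s z := by
  unfold be; ring

theorem hd_xiout {N : ℝ} (s z : ℝ) :
    HasDerivAt (fun z => xi (be N s z)) (xi1 (be N s z) * (4 * Real.exp (-s) / N)) z :=
  (xi_hasDerivAt _).comp z (hd_be s z)

theorem hd_xi1out {N : ℝ} (s z : ℝ) :
    HasDerivAt (fun z => xi1 (be N s z)) (xi2 (be N s z) * (4 * Real.exp (-s) / N)) z :=
  (xi1_hasDerivAt _).comp z (hd_be s z)

theorem hd_ch {d N : ℝ} (hd : 0 < d) (s : ℝ) {z : ℝ} (hz : 0 < z) :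
    HasDerivAt (fun z => ch d N s z) (ch1 d N s z / (2 * z)) z := by
  have h0 := (z0_pos hd s).ne'
  have h := (hd_xiin (d := d) s z).mul ((hd_xiout (N := N) s z).const_sub 1)
  refine h.congr_deriv ?_
  unfold ch1
  rw [← be_eq]
  field_simp
  ring

theorem hd_ch1 {d N : ℝ} (hd : 0 < d) (s : ℝ) {z : ℝ} (hz : 0 < z) :
    HasDerivAt (fun z => ch1 d N s z) (ch2 d N s z / (2 * z)) z := by
  have h0 := (z0_pos hd s).ne'
  have a1 : HasDerivAt (fun z : ℝ => 2 * (z / z0 d s)) (2 * (1 / z0 d s)) z :=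
    ((hasDerivAt_id z).div_const _).const_mul 2
  have a2 := (a1.mul (hd_xi1in (d := d) s z)).mul ((hd_xiout (N := N) s z).const_sub 1)
  have a3 := (hd_xiin (d := d) s z).mul
    (((hd_be (N := N) s z).const_mul 2).mul (hd_xi1out (N := N) s z))
  refine (a2.sub a3).congr_deriv ?_
  simp only [Pi.mul_apply]
  unfold ch2
  rw [← be_eq]
  generalize 4 * Real.exp (-s) / N = c
  field_simp
  ring

theorem hd_wk {k z : ℝ} (hz : 0 < z) : HasDerivAt (fun z => wk k z) (k * wk k z / (2 * z)) z := by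
  have h1 : HasDerivAt (fun z : ℝ => 4 * z) 4 z := by
    simpa using (hasDerivAt_id z).const_mul 4
  have h2 := h1.rpow_const (p := k / 2) (Or.inl (by positivity))
  refine h2.congr_deriv ?_
  unfold wk
  rw [Real.rpow_sub_one (by positivity)]
  field_simp

theorem hd_lr (s : ℝ) {z : ℝ} (hz : 0 < z) : HasDerivAt (fun z => lr s z) (1 / (2 * z)) z := by
  have h1 : HasDerivAt (fun z : ℝ => 4 * z) 4 z := by
    simpa using (hasDerivAt_id z).const_mul 4
  have h2 := ((h1.log (by positivity)).sub_const s).div_const 2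
  refine h2.congr_deriv ?_
  field_simp

/-! ### derivatives in `s` -/

theorem hd_tt (s : ℝ) : HasDerivAt tt (Real.exp (-s)) s := by
  have h1 : HasDerivAt (fun s : ℝ => Real.exp (-s)) (-Real.exp (-s)) s := by
    simpa using (hasDerivAt_neg s).exp
  refine (h1.const_sub 1).congr_deriv ?_
  rw [neg_neg]

theorem hd_lrs (s z : ℝ) : HasDerivAt (fun s => lr s z) (-1 / 2) s := by
  have h := ((hasDerivAt_id s).const_sub (Real.log (4 * z))).div_const 2
  exact h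

theorem hd_Am {k ε : ℝ} (s : ℝ) : HasDerivAt (fun s => Am k ε s) (-(3 - k / 2) * Am k ε s) s := by
  have h1 : HasDerivAt (fun s : ℝ => -(3 - k / 2) * s) (-(3 - k / 2)) s := by
    simpa using (hasDerivAt_id s).const_mul (-(3 - k / 2))
  refine (h1.exp.const_mul ε).congr_deriv ?_
  unfold Am
  ring

theorem hd_chs {d N : ℝ} (hd : 0 < d) (z s : ℝ) :
    HasDerivAt (fun s => ch d N s z) (chs d N s z) s := by
  have h0 := (z0_pos hd s).ne'
  have b1 : HasDerivAt (fun s : ℝ => -s / 5) (-1 / 5) s := (hasDerivAt_neg s).div_const 5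
  have b2 : HasDerivAt (fun s => z0 d s) (-(1 / 5) * z0 d s) s := by
    refine (b1.exp.const_mul (d ^ 2 / 4)).congr_deriv ?_
    unfold z0
    ring
  have b3 : HasDerivAt (fun s => z / z0 d s) (z / z0 d s / 5) s := by
    refine ((hasDerivAt_const s z).div b2 h0).congr_deriv ?_
    field_simp
    ring
  have b4 : HasDerivAt (fun s => be N s z) (-be N s z) s := by
    have h1 : HasDerivAt (fun s : ℝ => Real.exp (-s)) (-Real.exp (-s)) s := by
      simpa using (hasDerivAt_neg s).exp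
    refine ((h1.const_mul (4 * z)).div_const N).congr_deriv ?_
    unfold be
    ring
  have b5 := ((xi_hasDerivAt _).comp s b3).mul (((xi_hasDerivAt _).comp s b4).const_sub 1)
  refine b5.congr_deriv ?_
  unfold chs
  simp only [Function.comp]
  ring

/-! ### zeros of the cut-offs -/

theorem ch_zero {d N s z : ℝ} (hd : 0 < d) (h : z ≤ z0 d s ∨ 4 ≤ be N s z) :
    ch d N s z = 0 ∧ ch1 d N s z = 0 ∧ ch2 d N s z = 0 ∧ chs d N s z = 0 := by
  have h0 := z0_pos hd s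
  unfold ch ch1 ch2 chs
  rcases h with h | h
  · have h1 : z / z0 d s ≤ 1 := by rwa [div_le_one h0]
    rw [xi_zero h1, xi1_zero (Or.inl h1), xi2_zero (Or.inl h1)]
    refine ⟨by ring, by ring, by ring, by ring⟩
  · rw [xi_one h, xi1_zero (Or.inr h), xi2_zero (Or.inr h)]
    refine ⟨by ring, by ring, by ring, by ring⟩

theorem all_zero {k ε d N s z : ℝ} (hd : 0 < d) (h : z ≤ z0 d s ∨ 4 ≤ be N s z)
    (U U1 U2 Z : ℝ → ℝ → ℝ) :
    HH k ε d N U s z = 0 ∧ H1 k ε d N U U1 s z = 0 ∧ H2 k ε d N U U1 U2 s z = 0 ∧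
      FN k ε d N U U1 U2 Z s z = 0 := by
  obtain ⟨e0, e1, e2, e3⟩ := ch_zero hd h
  unfold HH H1 H2 FN HD HDD
  rw [e0, e1, e2, e3]
  refine ⟨by ring, by ring, by ring, by ring⟩

/-! ### the region -/

theorem tt_mono {s s' : ℝ} (h : s ≤ s') : tt s ≤ tt s' := by
  unfold tt
  have := Real.exp_le_exp.2 (neg_le_neg h)
  linarith only [this]

theorem tt_strict {s s' : ℝ} (h : s < s') : tt s < tt s' := by
  unfold tt
  have := Real.exp_lt_exp.2 (neg_lt_neg h)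
  linarith only [this]

theorem tt_zero : tt 0 = 0 := by
  unfold tt; simp

theorem lr_le {N s z : ℝ} (hN : 1 ≤ N) (hz : 0 < z) (h : be N s z ≤ 4) :
    lr s z ≤ Real.log (4 * N) / 2 := by
  unfold be at h
  rw [div_le_iff₀ (by linarith only [hN])] at h
  have h1 := Real.log_le_log (by positivity) h
  rw [Real.log_mul (by positivity) (Real.exp_pos _).ne', Real.log_exp] at h1
  unfold lr
  linarith only [h1]

section main

variable {k ε d N T s₁ : ℝ} {w f X U U1 U2 Z R : ℝ → ℝ → ℝ}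

theorem in_reg (hN : 1 ≤ N) (hT : tt s₁ < T)
    (hreg : ∀ t ∈ Icc 0 (tt s₁), Real.log (4 * N) / 2 < RG.rh 20 (w t) (f t) 0) {s z : ℝ}
    (hs : s ∈ Icc 0 s₁) (hz : 0 < z) (h : be N s z ≤ 4) :
    (tt s, lr s z) ∈ RG.reg 20 w f (Ico 0 T) := by
  have h1 : tt s ∈ Icc 0 (tt s₁) := ⟨by rw [← tt_zero]; exact tt_mono hs.1, tt_mono hs.2⟩
  exact ⟨⟨h1.1, lt_of_le_of_lt h1.2 hT⟩, lt_of_le_of_lt (lr_le hN hz h) (hreg _ h1)⟩

theorem in_reg' (hN : 1 ≤ N) (hT : tt s₁ < T)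
    (hreg : ∀ t ∈ Icc 0 (tt s₁), Real.log (4 * N) / 2 < RG.rh 20 (w t) (f t) 0) {s z : ℝ}
    (hs : s ∈ Ioo 0 s₁) (hz : 0 < z) (h : be N s z ≤ 4) :
    (tt s, lr s z) ∈ RG.reg 20 w f (Ioo 0 T) := by
  have h1 := in_reg hN hT hreg (Ioo_subset_Icc_self hs) hz h
  exact ⟨⟨by rw [← tt_zero]; exact tt_strict hs.1, h1.1.2⟩, h1.2⟩

theorem be_gt_nhds {s z : ℝ} (h : 4 < be N s z) : ∀ᶠ z' in 𝓝 z, 4 < be N s z' := by
  have hc : Continuous fun z => be N s z := by unfold be; fun_prop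
  exact hc.continuousAt.eventually_mem (Ioi_mem_nhds h)

theorem be_gt_nhds' {s z : ℝ} (h : 4 < be N s z) : ∀ᶠ s' in 𝓝 s, 4 < be N s' z := by
  have hc : Continuous fun s => be N s z := by unfold be; fun_prop
  exact hc.continuousAt.eventually_mem (Ioi_mem_nhds h)

theorem s3_d1 (hε : 0 < ε) (hd : 0 < d) (hN : 1 ≤ N) (hR : RG.RSol 20 w f T X U U1 U2 Z R)
    (hT : tt s₁ < T)
    (hreg : ∀ t ∈ Icc 0 (tt s₁), Real.log (4 * N) / 2 < RG.rh 20 (w t) (f t) 0) {s z : ℝ}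
    (hs : s ∈ Icc 0 s₁) (hz : 0 < z) :
    HasDerivAt (HH k ε d N U s) (H1 k ε d N U U1 s z) z := by
  rcases le_or_gt (be N s z) 4 with h | h
  · have hq := in_reg hN hT hreg hs hz h
    have hU : HasDerivAt (fun z => U (tt s) (lr s z)) (U1 (tt s) (lr s z) * (1 / (2 * z))) z :=
      (hR.d1 _ hq).comp z (hd_lr s hz)
    have h1 := (((hd_ch (N := N) hd s hz).mul (hd_wk (k := k) hz)).mul hU).div_const (Am k ε s)
    have hA := (Am_pos (k := k) hε s).ne'
    refine h1.congr_deriv ?_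
    simp only [Pi.mul_apply]
    unfold H1 HD
    field_simp
    ring
  · have h0 := all_zero (k := k) (ε := ε) hd (Or.inr h.le) U U1 U2 Z
    rw [h0.2.1]
    refine (hasDerivAt_const z (0 : ℝ)).congr_of_eventuallyEq ?_
    filter_upwards [be_gt_nhds h] with z' hz'
    exact (all_zero (k := k) (ε := ε) hd (Or.inr hz'.le) U U1 U2 Z).1

theorem s3_d2 (hε : 0 < ε) (hd : 0 < d) (hN : 1 ≤ N) (hR : RG.RSol 20 w f T X U U1 U2 Z R)
    (hT : tt s₁ < T)
    (hreg : ∀ t ∈ Icc 0 (tt s₁), Real.log (4 * N) / 2 < RG.rh 20 (w t) (f t) 0) {s z : ℝ}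
    (hs : s ∈ Icc 0 s₁) (hz : 0 < z) :
    HasDerivAt (H1 k ε d N U U1 s) (H2 k ε d N U U1 U2 s z) z := by
  rcases le_or_gt (be N s z) 4 with h | h
  · have hq := in_reg hN hT hreg hs hz h
    have hU : HasDerivAt (fun z => U (tt s) (lr s z)) (U1 (tt s) (lr s z) * (1 / (2 * z))) z :=
      (hR.d1 _ hq).comp z (hd_lr s hz)
    have hU1 : HasDerivAt (fun z => U1 (tt s) (lr s z)) (U2 (tt s) (lr s z) * (1 / (2 * z))) z :=
      (hR.d2 _ hq).comp z (hd_lr s hz)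
    have hA := (Am_pos (k := k) hε s).ne'
    have a1 := (hd_wk (k := k) hz).div_const (Am k ε s)
    have a2 := (hd_ch1 (N := N) hd s hz).mul hU
    have a3 := (hd_ch (N := N) hd s hz).mul ((hU.const_mul k).add hU1)
    have a4 := (a1.mul (a2.add a3)).div ((hasDerivAt_id z).const_mul 2) (by positivity)
    refine a4.congr_deriv ?_
    simp only [Pi.mul_apply, Pi.add_apply, id]
    unfold H2 HD HDD
    field_simp
    ring
  · have h0 := all_zero (k := k) (ε := ε) hd (Or.inr h.le) U U1 U2 Z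
    rw [h0.2.2.1]
    refine (hasDerivAt_const z (0 : ℝ)).congr_of_eventuallyEq ?_
    filter_upwards [be_gt_nhds h] with z' hz'
    exact (all_zero (k := k) (ε := ε) hd (Or.inr hz'.le) U U1 U2 Z).2.1

/-- the total derivative of `U` along `s ↦ (t, log r)` -/
theorem hd_Us (hR : RG.RSol 20 w f T X U U1 U2 Z R) {s z : ℝ}
    (hq : (tt s, lr s z) ∈ RG.reg 20 w f (Ioo 0 T)) :
    HasDerivAt (fun s => U (tt s) (lr s z))
      (Real.exp (-s) * (Real.exp (-2 * lr s z) * (Z (tt s) (lr s z) * U2 (tt s) (lr s z)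
        + 39 * Real.cosh (U (tt s) (lr s z)) * U1 (tt s) (lr s z)
        + 78 * Real.sinh (U (tt s) (lr s z)))) - U1 (tt s) (lr s z) / 2) s := by
  have hq0 : (tt s, lr s z) ∈ RG.reg 20 w f (Ico 0 T) := ⟨Ioo_subset_Ico_self hq.1, hq.2⟩
  have hdiff : DifferentiableAt ℝ (fun q : ℝ × ℝ => U q.1 q.2) (tt s, lr s z) :=
    ((hR.smooth_U).contDiffAt (hR.isOpen_reg.mem_nhds hq)).differentiableAt (by simp)
  have hF := hdiff.hasFDerivAt
  set F' := fderiv ℝ (fun q : ℝ × ℝ => U q.1 q.2) (tt s, lr s z) with hF'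
  have e1 : HasDerivAt (fun ρ => U (tt s) ρ) (F' (0, 1)) (lr s z) := by
    have h1 : HasDerivAt (fun ρ : ℝ => ((tt s, ρ) : ℝ × ℝ)) (0, 1) (lr s z) :=
      (hasDerivAt_const _ _).prodMk (hasDerivAt_id _)
    exact hF.comp_hasDerivAt (lr s z) h1
  have e2 : HasDerivAt (fun t => U t (lr s z)) (F' (1, 0)) (tt s) := by
    have h1 : HasDerivAt (fun t : ℝ => ((t, lr s z) : ℝ × ℝ)) (1, 0) (tt s) :=
      (hasDerivAt_id _).prodMk (hasDerivAt_const _ _)
    exact hF.comp_hasDerivAt (tt s) h1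
  have e1' := e1.unique (hR.d1 _ hq0)
  have e2' := e2.unique (hR.dt _ hq)
  have h3 : HasDerivAt (fun s : ℝ => ((tt s, lr s z) : ℝ × ℝ)) (Real.exp (-s), -1 / 2) s :=
    (hd_tt s).prodMk (hd_lrs s z)
  have h4 := hF.comp_hasDerivAt s h3
  refine h4.congr_deriv ?_
  have e3 : ((Real.exp (-s), -1 / 2) : ℝ × ℝ)
      = Real.exp (-s) • ((1, 0) : ℝ × ℝ) + (-1 / 2 : ℝ) • ((0, 1) : ℝ × ℝ) := by
    ext <;> simp
  rw [e3, map_add, map_smul, map_smul, e1', e2']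
  simp only [smul_eq_mul]
  push_cast
  ring

theorem exp_lr {s z : ℝ} (hz : 0 < z) :
    Real.exp (-s) * Real.exp (-2 * lr s z) = 1 / (4 * z) := by
  have e : -2 * lr s z = s - Real.log (4 * z) := by unfold lr; ring
  rw [e, ← Real.exp_add]
  have e2 : -s + (s - Real.log (4 * z)) = -Real.log (4 * z) := by ring
  rw [e2, Real.exp_neg, Real.exp_log (by positivity), one_div]

theorem s3_dt (hk : KK k) (hε : 0 < ε) (hd : 0 < d) (hN : 1 ≤ N)
    (hR : RG.RSol 20 w f T X U U1 U2 Z R) (hT : tt s₁ < T)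
    (hreg : ∀ t ∈ Icc 0 (tt s₁), Real.log (4 * N) / 2 < RG.rh 20 (w t) (f t) 0) {s z : ℝ}
    (hs : s ∈ Ioo 0 s₁) (hz : 0 < z) :
    HasDerivAt (fun s => HH k ε d N U s z)
      (z * H2 k ε d N U U1 U2 s z + (aa k + 1 - z) * H1 k ε d N U U1 s z
        + 3 * HH k ε d N U s z + FN k ε d N U U1 U2 Z s z) s := by
  rcases le_or_gt (be N s z) 4 with h | h
  · have hq := in_reg' hN hT hreg hs hz h
    have hU := hd_Us hR hq
    have hA := (Am_pos (k := k) hε s).ne'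
    have h1 := (((hd_chs (N := N) hd z s).mul_const (wk k z)).mul hU).div (hd_Am (k := k) (ε := ε) s)
      hA
    refine h1.congr_deriv ?_
    have e := exp_lr (s := s) hz
    have hk2 := hk.eq
    simp only [Pi.mul_apply]
    unfold H2 H1 HH FN HDD HD aa nl
    generalize U (tt s) (lr s z) = u at *
    generalize U1 (tt s) (lr s z) = u1 at *
    generalize U2 (tt s) (lr s z) = u2 at *
    generalize Z (tt s) (lr s z) = ζ at *
    generalize ch d N s z = c at *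
    generalize ch1 d N s z = c1 at *
    generalize ch2 d N s z = c2 at *
    generalize chs d N s z = c3 at *
    generalize Real.sinh u = sh at *
    generalize Real.cosh u = co at *
    rw [← mul_assoc (Real.exp (-s)) (Real.exp (-2 * lr s z)), e]
    generalize Am k ε s = A at *
    generalize wk k z = W at *
    field_simp
    linear_combination 4 * W * u * c * hk2
  · have h0 := all_zero (k := k) (ε := ε) hd (Or.inr h.le) U U1 U2 Z
    rw [h0.1, h0.2.1, h0.2.2.1, h0.2.2.2]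
    have e : z * 0 + (aa k + 1 - z) * 0 + 3 * 0 + 0 = (0 : ℝ) := by ring
    rw [e]
    refine (hasDerivAt_const s (0 : ℝ)).congr_of_eventuallyEq ?_
    filter_upwards [be_gt_nhds' h] with s' hs'
    exact (all_zero (k := k) (ε := ε) hd (Or.inr hs'.le) U U1 U2 Z).1

/-! ### continuity -/

theorem cont_glue {S A B : Set (ℝ × ℝ)} (hS : S ⊆ A ∪ B) (hA : IsClosed A) (hB : IsClosed B)
    {Φ : ℝ × ℝ → ℝ} (h1 : ContinuousOn Φ (S ∩ A)) (h2 : ContinuousOn Φ (S ∩ B)) :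
    ContinuousOn Φ S := by
  intro q hq
  have key : ∀ C : Set (ℝ × ℝ), IsClosed C → ContinuousOn Φ (S ∩ C) →
      ContinuousWithinAt Φ (S ∩ C) q := by
    intro C hC h
    by_cases hqC : q ∈ C
    · exact h q ⟨hq, hqC⟩
    · refine continuousWithinAt_of_notMem_closure fun hcl => hqC ?_
      exact closure_minimal inter_subset_right hC hcl
  have h3 := (key A hA h1).union (key B hB h2)
  refine h3.mono fun q' hq' => ?_
  rcases hS hq' with h | h
  · exact Or.inl ⟨hq', h⟩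
  · exact Or.inr ⟨hq', h⟩

theorem zz_eq (d s z : ℝ) : z / z0 d s = z * (4 / d ^ 2) * Real.exp (s / 5) := by
  unfold z0
  have e : -s / 5 = -(s / 5) := by ring
  rw [e, Real.exp_neg]
  field_simp

theorem cont_ch {d N : ℝ} : Continuous fun q : ℝ × ℝ => ch d N q.1 q.2 := by
  have h0 := xi_smooth.continuous
  unfold ch
  simp_rw [zz_eq]
  unfold be
  fun_prop

theorem cont_ch1 {d N : ℝ} : Continuous fun q : ℝ × ℝ => ch1 d N q.1 q.2 := by
  have h0 := xi_smooth.continuous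
  have h1 := xi1_smooth.continuous
  unfold ch1
  simp_rw [zz_eq]
  unfold be
  fun_prop

theorem cont_ch2 {d N : ℝ} : Continuous fun q : ℝ × ℝ => ch2 d N q.1 q.2 := by
  have h0 := xi_smooth.continuous
  have h1 := xi1_smooth.continuous
  have h2 := xi2_smooth.continuous
  unfold ch2
  simp_rw [zz_eq]
  unfold be
  fun_prop

theorem cont_chs {d N : ℝ} : Continuous fun q : ℝ × ℝ => chs d N q.1 q.2 := by
  have h0 := xi_smooth.continuous
  have h1 := xi1_smooth.continuous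
  unfold chs
  simp_rw [zz_eq]
  unfold be
  fun_prop

theorem cont_wkA {k ε : ℝ} (hε : 0 < ε) :
    ContinuousOn (fun q : ℝ × ℝ => wk k q.2 / Am k ε q.1) (univ ×ˢ Ioi 0) := by
  refine ContinuousOn.div ?_ ?_ fun q _ => (Am_pos hε q.1).ne'
  · unfold wk
    refine ContinuousOn.rpow_const (by fun_prop) fun q hq => Or.inl ?_
    have : (0 : ℝ) < q.2 := hq.2
    positivity
  · unfold Am
    fun_prop

theorem cont_pt : ContinuousOn (fun q : ℝ × ℝ => (tt q.1, lr q.1 q.2)) (univ ×ˢ Ioi 0) := by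
  have h1 : ContinuousOn (fun q : ℝ × ℝ => lr q.1 q.2) (univ ×ˢ Ioi 0) := by
    unfold lr
    refine ContinuousOn.div_const (ContinuousOn.sub ?_ (by fun_prop)) _
    refine ContinuousOn.log (by fun_prop) fun q hq => ?_
    have : (0 : ℝ) < q.2 := hq.2
    positivity
  have h2 : Continuous fun q : ℝ × ℝ => tt q.1 := by unfold tt; fun_prop
  exact h2.continuousOn.prodMk h1

/-- the closed part of the domain where the solution is used -/
def inn (N s₁ : ℝ) : Set (ℝ × ℝ) := (Icc 0 s₁ ×ˢ Ioi 0) ∩ {q | be N q.1 q.2 ≤ 4}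

theorem cont_comp (hN : 1 ≤ N) (hT : tt s₁ < T)
    (hreg : ∀ t ∈ Icc 0 (tt s₁), Real.log (4 * N) / 2 < RG.rh 20 (w t) (f t) 0)
    {V : ℝ → ℝ → ℝ} (hV : ContinuousOn (fun q : ℝ × ℝ => V q.1 q.2) (RG.reg 20 w f (Ico 0 T))) :
    ContinuousOn (fun q : ℝ × ℝ => V (tt q.1) (lr q.1 q.2)) (inn N s₁) := by
  refine hV.comp (f := fun q : ℝ × ℝ => (tt q.1, lr q.1 q.2)) (cont_pt.mono ?_) fun q hq => ?_
  · exact fun q hq => ⟨mem_univ _, hq.1.2⟩
  · exact in_reg hN hT hreg hq.1.1 hq.1.2 hq.2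

/-- continuity on the whole strip from continuity on the inner part -/
theorem cont_all {Φ : ℝ → ℝ → ℝ} (h1 : ContinuousOn (fun q : ℝ × ℝ => Φ q.1 q.2) (inn N s₁))
    (h2 : ∀ s z, 4 ≤ be N s z → Φ s z = 0) :
    ContinuousOn (fun q : ℝ × ℝ => Φ q.1 q.2) (Icc 0 s₁ ×ˢ Ioi 0) := by
  have hc : Continuous fun q : ℝ × ℝ => be N q.1 q.2 := by unfold be; fun_prop
  refine cont_glue (A := {q | be N q.1 q.2 ≤ 4}) (B := {q | 4 ≤ be N q.1 q.2})
    (fun q _ => (le_total (be N q.1 q.2) 4).elim Or.inl Or.inr) (isClosed_le hc continuous_const)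
    (isClosed_le continuous_const hc) h1 ?_
  refine (continuousOn_const (c := (0 : ℝ))).congr fun q hq => ?_
  exact h2 _ _ hq.2

theorem inn_sub {N s₁ : ℝ} : inn N s₁ ⊆ univ ×ˢ Ioi 0 := fun _ hq => ⟨mem_univ _, hq.1.2⟩

theorem s3_cont (hε : 0 < ε) (hd : 0 < d) (hN : 1 ≤ N)
    (hR : RG.RSol 20 w f T X U U1 U2 Z R) (hT : tt s₁ < T)
    (hreg : ∀ t ∈ Icc 0 (tt s₁), Real.log (4 * N) / 2 < RG.rh 20 (w t) (f t) 0) :
    ContinuousOn (fun q : ℝ × ℝ => HH k ε d N U q.1 q.2) (Icc 0 s₁ ×ˢ Ioi 0) ∧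
    ContinuousOn (fun q : ℝ × ℝ => H1 k ε d N U U1 q.1 q.2) (Icc 0 s₁ ×ˢ Ioi 0) ∧
    ContinuousOn (fun q : ℝ × ℝ => H2 k ε d N U U1 U2 q.1 q.2) (Icc 0 s₁ ×ˢ Ioi 0) ∧
    ContinuousOn (fun q : ℝ × ℝ => FN k ε d N U U1 U2 Z q.1 q.2) (Icc 0 s₁ ×ˢ Ioi 0) := by
  have cU := cont_comp hN hT hreg hR.cont_U
  have cU1 := cont_comp hN hT hreg hR.cont_U1
  have cU2 := cont_comp hN hT hreg hR.cont_U2
  have cZ := cont_comp hN hT hreg hR.cont_Z
  have cW := (cont_wkA (k := k) hε).mono (inn_sub (N := N) (s₁ := s₁))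
  have c0 := (cont_ch (d := d) (N := N)).continuousOn (s := inn N s₁)
  have c1 := (cont_ch1 (d := d) (N := N)).continuousOn (s := inn N s₁)
  have c2 := (cont_ch2 (d := d) (N := N)).continuousOn (s := inn N s₁)
  have c3 := (cont_chs (d := d) (N := N)).continuousOn (s := inn N s₁)
  have cz : ContinuousOn (fun q : ℝ × ℝ => q.2) (inn N s₁) := by fun_prop
  have hz : ∀ q ∈ inn N s₁, (q : ℝ × ℝ).2 ≠ 0 := fun q hq => (show (0 : ℝ) < q.2 from hq.1.2).ne'
  have cHD : ContinuousOn (fun q : ℝ × ℝ => HD k ε d N U U1 q.1 q.2) (inn N s₁) := by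
    unfold HD
    exact cW.mul ((c1.mul cU).add (c0.mul ((continuousOn_const.mul cU).add cU1)))
  have cHDD : ContinuousOn (fun q : ℝ × ℝ => HDD k ε d N U U1 U2 q.1 q.2) (inn N s₁) := by
    unfold HDD
    exact cW.mul (((c2.mul cU).add ((continuousOn_const.mul c1).mul
      ((continuousOn_const.mul cU).add cU1))).add (c0.mul (((continuousOn_const.mul cU).add
        (continuousOn_const.mul cU1)).add cU2)))
  refine ⟨cont_all ?_ fun s z h => (all_zero (k := k) (ε := ε) hd (Or.inr h) U U1 U2 Z).1,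
    cont_all ?_ fun s z h => (all_zero (k := k) (ε := ε) hd (Or.inr h) U U1 U2 Z).2.1,
    cont_all ?_ fun s z h => (all_zero (k := k) (ε := ε) hd (Or.inr h) U U1 U2 Z).2.2.1,
    cont_all ?_ fun s z h => (all_zero (k := k) (ε := ε) hd (Or.inr h) U U1 U2 Z).2.2.2⟩
  · refine ((cW.mul c0).mul cU).congr fun q _ => ?_
    unfold HH
    simp only [Pi.mul_apply]
    ring
  · unfold H1
    exact cHD.div (continuousOn_const.mul cz) fun q hq => mul_ne_zero two_ne_zero (hz q hq)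
  · unfold H2
    exact (cHDD.sub (continuousOn_const.mul cHD)).div (continuousOn_const.mul (cz.pow 2))
      fun q hq => mul_ne_zero four_ne_zero (pow_ne_zero 2 (hz q hq))
  · have c4z : ContinuousOn (fun q : ℝ × ℝ => 4 * q.2) (inn N s₁) := by fun_prop
    have h4z : ∀ q ∈ inn N s₁, 4 * (q : ℝ × ℝ).2 ≠ 0 := fun q hq =>
      mul_ne_zero four_ne_zero (hz q hq)
    have cnl : ContinuousOn (fun q : ℝ × ℝ => nl (U (tt q.1) (lr q.1 q.2))
        (U1 (tt q.1) (lr q.1 q.2)) (U2 (tt q.1) (lr q.1 q.2)) (Z (tt q.1) (lr q.1 q.2)))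
        (inn N s₁) := by
      unfold nl
      have cc : ContinuousOn (fun q : ℝ × ℝ => Real.cosh (U (tt q.1) (lr q.1 q.2))) (inn N s₁) :=
        Real.continuous_cosh.comp_continuousOn cU
      have cs : ContinuousOn (fun q : ℝ × ℝ => Real.sinh (U (tt q.1) (lr q.1 q.2))) (inn N s₁) :=
        Real.continuous_sinh.comp_continuousOn cU
      exact (((cZ.sub continuousOn_const).mul cU2).add ((continuousOn_const.mul
        (cc.sub continuousOn_const)).mul cU1)).add (continuousOn_const.mul (cs.sub cU))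
    unfold FN
    exact cW.mul (((((c0.div c4z h4z).mul cnl).sub ((continuousOn_const.div c4z h4z).mul
      (((continuousOn_const.mul c1).mul cU1).add ((c2.add (continuousOn_const.mul c1)).mul
        cU)))).add (((c1.div_const 2).add c3).mul cU)))

end main

theorem s3 : S3Statement := by
  intro k ε d N hk hε hd hN T _ w f X U U1 U2 Z R hR s₁ _ hT hreg
  obtain ⟨c0, c1, c2, c3⟩ := s3_cont (k := k) hε hd hN hR hT hreg
  have hz1 := z0_pos hd s₁
  refine ⟨fun s hs z hz => s3_d1 hε hd hN hR hT hreg hs hz,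
    fun s hs z hz => s3_d2 hε hd hN hR hT hreg hs hz,
    fun s hs z hz => s3_dt hk hε hd hN hR hT hreg hs hz, c0, c1, c2, c3,
    z0 d s₁, hz1, N * Real.exp s₁ + z0 d s₁ + 1, ?_, fun s hs z hz hzI => ?_⟩
  · have : 0 < N * Real.exp s₁ := by positivity
    linarith only [this]
  · apply all_zero hd
    rw [mem_Icc, not_and_or] at hzI
    push Not at hzI
    rcases hzI with h | h
    · left
      have h1 : z0 d s₁ ≤ z0 d s := by
        unfold z0
        have : Real.exp (-s₁ / 5) ≤ Real.exp (-s / 5) := Real.exp_le_exp.2 (by linarith only [hs, hs.2])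
        exact mul_le_mul_of_nonneg_left this (by positivity)
      linarith only [h, h1]
    · right
      unfold be
      rw [le_div_iff₀ (by linarith only [hN])]
      have h1 : N * Real.exp s₁ ≤ z := by linarith only [hz1, h]
      have h2 : Real.exp (-s₁) ≤ Real.exp (-s) := Real.exp_le_exp.2 (by linarith only [hs, hs.2])
      have h3 : Real.exp s₁ * Real.exp (-s₁) = 1 := by rw [← Real.exp_add]; simp
      calc 4 * N = 4 * (N * (Real.exp s₁ * Real.exp (-s₁))) := by rw [h3, mul_one]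
        _ = 4 * (N * Real.exp s₁) * Real.exp (-s₁) := by ring
        _ ≤ 4 * z * Real.exp (-s) := by
            gcongr

end Vale.Agent.P244.ST.SS
end

section

/-! P244, block S: integration by parts for `L f = z f'' + (a+1-z) f'` in `L²(z^a e^{-z})`
against functions with compact support in `(0,∞)` (helper57). -/

open MeasureTheory Set Filter Polynomial
open scoped Topology ENNReal

namespace Vale.Agent.P244.ST.Lag

theorem continuousOn_wt (a : ℝ) : ContinuousOn (fun z : ℝ => z ^ a * Real.exp (-z)) (Ioi 0) := by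
  apply ContinuousOn.mul
  · intro z hz
    have hz' : (0 : ℝ) < z := hz
    exact (Real.continuousAt_rpow_const z a (Or.inl hz'.ne')).continuousWithinAt
  · fun_prop

theorem integrable_mu_of_supp (a : ℝ) {z₁ z₂ : ℝ} (h1 : 0 < z₁) {h : ℝ → ℝ}
    (hc : ContinuousOn h (Ioi 0)) (hh : ∀ z > 0, z ∉ Icc z₁ z₂ → h z = 0) :
    Integrable h (mu a) := by
  rw [integrable_mu]
  have hsub : Icc z₁ z₂ ⊆ Ioi 0 := fun z hz => lt_of_lt_of_le h1 hz.1
  have hI : IntegrableOn (fun z => h z * (z ^ a * Real.exp (-z))) (Icc z₁ z₂) :=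
    ((hc.mono hsub).mul ((continuousOn_wt a).mono hsub)).integrableOn_Icc
  refine hI.of_forall_sdiff_eq_zero measurableSet_Ioi ?_
  intro z hz
  rw [hh z hz.1 hz.2]; ring

/-! ### `ContDiff` versions -/

end Vale.Agent.P244.ST.Lag
end

section

/-!
# P244 / ST / S : closeness on compact sets
-/

open Set MeasureTheory Filter Topology Polynomial

namespace Vale.Agent.P244.ST.SS

theorem KK.neg_one_lt' {k : ℝ} (h : KK k) : -1 < aa k := by
  have := h.hi
  unfold aa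
  linarith only [this]

theorem nu_pos' {k : ℝ} (h : KK k) (i : ℕ) : 0 < nu k i :=
  Real.sqrt_pos.2 (Lag.nrm_pos h.neg_one_lt' i)

/-- `l_i = ν_i e_i` -/
theorem ell_eq_en {k : ℝ} (h : KK k) (i : ℕ) (z : ℝ) :
    (Lag.ell (aa k) i).eval z = nu k i * (Lag.en (aa k) i).eval z := by
  have hp := nu_pos' h i
  unfold Lag.en
  rw [eval_mul, eval_C]
  unfold nu at hp ⊢
  field_simp

theorem memLp_of_supp {k : ℝ} (hk : KK k) {h : ℝ → ℝ} {z₁ z₂ : ℝ} (h1 : 0 < z₁)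
    (hc : ContinuousOn h (Ioi 0)) (hh : ∀ z > 0, z ∉ Icc z₁ z₂ → h z = 0) :
    MemLp h 2 (Lag.mu (aa k)) := by
  have hi := Lag.integrable_mu_of_supp (aa k) h1 hc hh
  rw [memLp_two_iff_integrable_sq hi.aestronglyMeasurable]
  exact Lag.integrable_mu_of_supp (z₂ := z₂) (aa k) h1 (hc.pow 2)
    (fun z hz hz' => by simp [hh z hz hz'])

/-- `‖h - l₃‖²` in terms of the modes -/
theorem dist_sq {k : ℝ} (hk : KK k) {h : ℝ → ℝ} (hm : MemLp h 2 (Lag.mu (aa k))) :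
    ∫ z, (h z - (Lag.ell (aa k) 3).eval z) ^ 2 ∂(Lag.mu (aa k)) =
      Ex k h + ∑ i ∈ Finset.range 3, (nu k i * gam k i h) ^ 2 +
        (nu k 3 * (gam k 3 h - 1)) ^ 2 := by
  have ha := hk.neg_one_lt'
  have hP := Lag.poly_memLp ha (Lag.ell (aa k) 3)
  have e1 : ∀ z, (h z - (Lag.ell (aa k) 3).eval z) ^ 2 =
      h z ^ 2 - 2 * nu k 3 * (h z * (Lag.en (aa k) 3).eval z) + (Lag.ell (aa k) 3).eval z ^ 2 := by
    intro z
    have := ell_eq_en hk 3 z
    linear_combination (-2 * h z) * this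
  simp_rw [e1]
  have i1 : Integrable (fun z => h z ^ 2) (Lag.mu (aa k)) := hm.integrable_sq
  have i2 : Integrable (fun z => h z * (Lag.en (aa k) 3).eval z) (Lag.mu (aa k)) :=
    hm.integrable_mul (Lag.poly_memLp ha (Lag.en (aa k) 3))
  have i3 : Integrable (fun z => (Lag.ell (aa k) 3).eval z ^ 2) (Lag.mu (aa k)) := hP.integrable_sq
  have i12 : Integrable (fun z => h z ^ 2 - 2 * nu k 3 * (h z * (Lag.en (aa k) 3).eval z))
    (Lag.mu (aa k)) := i1.sub (i2.const_mul _)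
  rw [integral_add i12 i3, integral_sub i1 (i2.const_mul _), integral_const_mul]
  have hg : ∀ i, ∫ z, h z * (Lag.en (aa k) i).eval z ∂(Lag.mu (aa k)) = nu k i * gam k i h := by
    intro i
    unfold gam
    have := nu_pos' hk i
    field_simp
  have hn : ∫ z, (Lag.ell (aa k) 3).eval z ^ 2 ∂(Lag.mu (aa k)) = nu k 3 ^ 2 := by
    unfold nu
    rw [Real.sq_sqrt (Lag.nrm_pos ha 3).le]
    rfl
  unfold Ex
  rw [hn]
  simp_rw [hg]
  rw [Finset.sum_range_succ _ 3]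
  ring

theorem s7s : S7sStatement := by
  intro k hk z₁ hz₁ z₂ hz₂ M K hM hK
  have ha := hk.neg_one_lt'
  set P : ℝ → ℝ := fun z => (Lag.ell (aa k) 3).eval z with hP
  set P' : ℝ → ℝ := fun z => (derivative (Lag.ell (aa k) 3)).eval z with hP'
  have hPd : ∀ z, HasDerivAt P (P' z) z := fun z => (Lag.ell (aa k) 3).hasDerivAt z
  have hP'c : Continuous P' := (derivative (Lag.ell (aa k) 3)).continuous
  obtain ⟨M1, hM1⟩ := isCompact_Icc.exists_bound_of_continuousOn (s := Icc z₁ z₂)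
    hP'c.continuousOn
  have hM10 : 0 ≤ M1 := (norm_nonneg _).trans (hM1 z₁ ⟨le_rfl, hz₂.le⟩)
  set M' := M + M1 with hM'
  have hM'0 : 0 ≤ M' := by positivity
  have hwl := Lag.wlow_pos (a := aa k) hz₁ hz₂.le
  set wl := Lag.wlow (aa k) z₁ z₂ with hwlow
  set S : ℝ := 1 + ∑ i ∈ Finset.range 3, nu k i ^ 2 + nu k 3 ^ 2 with hS
  have hS0 : 0 ≤ S := by (clear * -; positivity)
  have hd : 0 < z₂ - z₁ := by linarith only [hz₂]
  set C2 : ℝ := 2 / (z₂ - z₁) * (wl⁻¹ * (K ^ 2 * S)) + 2 * (z₂ - z₁) ^ 2 * M' ^ 2 with hC2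
  have hC20 : 0 ≤ C2 := by (clear * - hz₂ hwl; positivity)
  refine ⟨Real.sqrt C2, Real.sqrt_nonneg _, ?_⟩
  intro sg hsg hsg1 h h1 hd1 hc1 hsupp hb hlow hmain hEx z hz
  obtain ⟨c₁, hc₁, c₂, hs⟩ := hsupp
  have hhc : ContinuousOn h (Ioi 0) := fun z hz => (hd1 z hz).continuousAt.continuousWithinAt
  have hm := memLp_of_supp hk hc₁ hhc hs
  have hwm : MemLp (fun z => h z - P z) 2 (Lag.mu (aa k)) :=
    hm.sub (Lag.poly_memLp ha (Lag.ell (aa k) 3))
  -- the global norm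
  have hglob : ∫ z, (h z - P z) ^ 2 ∂(Lag.mu (aa k)) ≤ (K * sg) ^ 2 * S := by
    have e := dist_sq hk hm
    simp only [hP]
    rw [e, hS]
    have h3 : (nu k 3 * (gam k 3 h - 1)) ^ 2 ≤ (K * sg) ^ 2 * nu k 3 ^ 2 := by
      rw [mul_pow, mul_comm]
      refine mul_le_mul_of_nonneg_right ?_ (sq_nonneg _)
      rw [← sq_abs]
      exact pow_le_pow_left₀ (abs_nonneg _) hmain 2
    have h4 : ∑ i ∈ Finset.range 3, (nu k i * gam k i h) ^ 2 ≤
        (K * sg) ^ 2 * ∑ i ∈ Finset.range 3, nu k i ^ 2 := by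
      rw [Finset.mul_sum]
      refine Finset.sum_le_sum fun i hi => ?_
      rw [mul_pow, mul_comm]
      refine mul_le_mul_of_nonneg_right ?_ (sq_nonneg _)
      rw [← sq_abs]
      exact pow_le_pow_left₀ (abs_nonneg _) (hlow i (Finset.mem_range.1 hi)) 2
    linarith only [hEx, h3, h4]
  -- the local interval
  set l : ℝ := (z₂ - z₁) * sg ^ (2 / 3 : ℝ) with hl
  have hsp : 0 < sg ^ (2 / 3 : ℝ) := Real.rpow_pos_of_pos hsg _
  have hsp1 : sg ^ (2 / 3 : ℝ) ≤ 1 := Real.rpow_le_one hsg.le hsg1 (by norm_num)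
  have hl0 : 0 < l := by positivity
  have hl1 : l ≤ z₂ - z₁ := by
    rw [hl]; nlinarith only [hz₂, hsp1]
  obtain ⟨y, hy1, hy2, hzy⟩ : ∃ y, z₁ ≤ y ∧ y + l ≤ z₂ ∧ z ∈ Icc y (y + l) := by
    rcases le_total z (z₂ - l) with h5 | h5
    · exact ⟨z, hz.1, by linarith only [h5], le_rfl, by linarith only [hl0]⟩
    · exact ⟨z₂ - l, by linarith only [hl1], by linarith only [], h5, by linarith only [hz, hz.2]⟩
  have hy0 : 0 < y := lt_of_lt_of_le hz₁ hy1
  have hsubI : Icc y (y + l) ⊆ Icc z₁ z₂ := Icc_subset_Icc hy1 hy2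
  have hposI : Icc z₁ z₂ ⊆ Ioi 0 := fun x hx => lt_of_lt_of_le hz₁ hx.1
  have hwd : ∀ x ∈ Icc y (y + l), HasDerivWithinAt (fun z => h z - P z) (h1 x - P' x)
      (Icc y (y + l)) x := fun x hx =>
    ((hd1 x (hposI (hsubI hx))).sub (hPd x)).hasDerivWithinAt
  have hw1c : ContinuousOn (fun x => h1 x - P' x) (Icc y (y + l)) :=
    (hc1.mono (hsubI.trans hposI)).sub hP'c.continuousOn
  have hsup := Lag.sup_of_h1 (z0 := y) (z1 := y + l) (by linarith only [hl0]) hwd hw1c hzy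
  have hwc : ContinuousOn (fun z => (h z - P z) ^ 2) (Icc z₁ z₂) :=
    ((hhc.mono hposI).sub (fun z _ => (hPd z).continuousAt.continuousWithinAt)).pow 2
  have hI1 : ∫ x in y..(y + l), (h x - P x) ^ 2 ≤ wl⁻¹ * ((K * sg) ^ 2 * S) := by
    have h5 : ∫ x in y..(y + l), (h x - P x) ^ 2 ≤ ∫ x in z₁..z₂, (h x - P x) ^ 2 := by
      refine intervalIntegral.integral_mono_interval hy1 (by linarith only [hl0]) hy2 ?_ ?_
      · exact Eventually.of_forall fun x => sq_nonneg _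
      · apply ContinuousOn.intervalIntegrable
        rwa [uIcc_of_le hz₂.le]
    have h6 := Lag.integral_le_mu (a := aa k) hz₁ hz₂.le hwc (fun z _ => sq_nonneg _)
      hwm.integrable_sq
    refine (h5.trans h6).trans ?_
    exact mul_le_mul_of_nonneg_left hglob (inv_nonneg.2 hwl.le)
  have hI2 : ∫ x in y..(y + l), (h1 x - P' x) ^ 2 ≤ l * M' ^ 2 := by
    have h5 : ∫ x in y..(y + l), (h1 x - P' x) ^ 2 ≤ ∫ x in y..(y + l), M' ^ 2 := by
      refine intervalIntegral.integral_mono_on (by linarith only [hl0]) ?_ ?_ ?_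
      · apply ContinuousOn.intervalIntegrable
        rw [uIcc_of_le (by linarith only [hl0])]
        exact hw1c.pow 2
      · exact intervalIntegrable_const
      · intro x hx
        rw [← sq_abs]
        refine pow_le_pow_left₀ (abs_nonneg _) ?_ 2
        refine (abs_sub _ _).trans ?_
        have h7 := hb x (hsubI hx)
        have h8 := hM1 x (hsubI hx)
        rw [Real.norm_eq_abs] at h8
        linarith only [h7, h8]
    refine h5.trans (le_of_eq ?_)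
    rw [intervalIntegral.integral_const, smul_eq_mul]
    ring
  have hfin : (h z - P z) ^ 2 ≤ C2 * (sg ^ (2 / 3 : ℝ)) ^ 2 := by
    have e0 : y + l - y = l := by ring
    rw [e0] at hsup
    have h5 : (h z - P z) ^ 2 ≤ 2 / l * (wl⁻¹ * ((K * sg) ^ 2 * S)) + 2 * l * (l * M' ^ 2) := by
      refine hsup.trans (add_le_add ?_ ?_)
      · exact mul_le_mul_of_nonneg_left hI1 (by positivity)
      · exact mul_le_mul_of_nonneg_left hI2 (by positivity)
    refine h5.trans (le_of_eq ?_)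
    have h6 : sg ^ 2 = (sg ^ (2 / 3 : ℝ)) ^ 3 := by
      rw [← Real.rpow_natCast (sg ^ (2 / 3 : ℝ)) 3, ← Real.rpow_mul hsg.le,
        ← Real.rpow_natCast sg 2]
      norm_num
    rw [hl, hC2, mul_pow K sg, h6]
    field_simp
  have h9 : |h z - P z| ≤ Real.sqrt (C2 * (sg ^ (2 / 3 : ℝ)) ^ 2) := by
    rw [← Real.sqrt_sq_eq_abs]
    exact Real.sqrt_le_sqrt hfin
  rwa [Real.sqrt_mul hC20, Real.sqrt_sq hsp.le] at h9

end Vale.Agent.P244.ST.SS
end

section

/-!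
# P244 / ST / S : r-gauge package, proof of S8
-/

open Set Filter
open scoped ContDiff Topology

namespace Vale.Agent.P244.ST.RG

open Vale.Agent.P244.ST.Apr

noncomputable section

variable {p : ℕ} {w f : ℝ → ℝ → ℝ} {T : ℝ}

/-! ### joint smoothness of the ingredients -/

section sm
variable (hs : ConfSol p w f T)
include hs

lemma smDD : Vale.Agent.P244.ST.Apr.Sm T (fun t x => DD (w t) (f t) x) := by
  have h1 := sm_dx (h := w) hs.smooth_w
  have h2 := sm_dx (h := f) hs.smooth_f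
  exact contDiffOn_snd.sub ((contDiffOn_const.sub (contDiffOn_snd.pow 2)).mul
    (ContDiffOn.add h2 h1))

lemma smNN : Vale.Agent.P244.ST.Apr.Sm T (fun t x => NN (w t) (f t) x) := by
  have h1 := sm_dx (h := w) hs.smooth_w
  have h2 := sm_dx (h := f) hs.smooth_f
  exact ((contDiffOn_const.sub (contDiffOn_snd.pow 2)).mul (ContDiffOn.sub h2 h1)).add
    contDiffOn_snd

lemma smDDx : Vale.Agent.P244.ST.Apr.Sm T (fun t x => DDx (w t) (f t) x) := by
  have h1 := sm_dx (h := w) hs.smooth_w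
  have h2 := sm_dx (h := f) hs.smooth_f
  have h3 := sm_dx h1
  have h4 := sm_dx h2
  exact (contDiffOn_const.add ((contDiffOn_const.mul contDiffOn_snd).mul
    (ContDiffOn.add h2 h1))).sub
    ((contDiffOn_const.sub (contDiffOn_snd.pow 2)).mul (ContDiffOn.add h4 h3))

lemma smNNx : Vale.Agent.P244.ST.Apr.Sm T (fun t x => NNx (w t) (f t) x) := by
  have h1 := sm_dx (h := w) hs.smooth_w
  have h2 := sm_dx (h := f) hs.smooth_f
  have h3 := sm_dx h1
  have h4 := sm_dx h2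
  exact (((contDiffOn_const.mul contDiffOn_snd).mul (ContDiffOn.sub h2 h1)).add
    ((contDiffOn_const.sub (contDiffOn_snd.pow 2)).mul (ContDiffOn.sub h4 h3))).add
    contDiffOn_const

lemma smScal : Vale.Agent.P244.ST.Apr.Sm T (fun t x => scal p (w t) (f t) x) := by
  have h1 := sm_dx (h := w) hs.smooth_w
  have h2 := sm_dx (h := f) hs.smooth_f
  have h3 := sm_dx h1
  have h4 := sm_dx h2
  have hew : Vale.Agent.P244.ST.Apr.Sm T (fun t x => Real.exp (-2 * w t x)) :=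
    ContDiffOn.exp (contDiffOn_const.mul hs.smooth_w)
  have hef : Vale.Agent.P244.ST.Apr.Sm T (fun t x => Real.exp (-2 * f t x)) :=
    ContDiffOn.exp (contDiffOn_const.mul hs.smooth_f)
  have hρ : ContDiffOn ℝ ∞ (fun z : ℝ × ℝ => 1 - z.2 ^ 2) (Ico 0 T ×ˢ Icc (-1) 1) :=
    contDiffOn_const.sub (contDiffOn_snd.pow 2)
  have hlw : Vale.Agent.P244.ST.Apr.Sm T (fun t x => lap p (w t) x) :=
    (hρ.mul h3).sub ((contDiffOn_const.mul contDiffOn_snd).mul h1)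
  have hlf : Vale.Agent.P244.ST.Apr.Sm T (fun t x => lap p (f t) x) :=
    (hρ.mul h4).sub ((contDiffOn_const.mul contDiffOn_snd).mul h2)
  have hg : Vale.Agent.P244.ST.Apr.Sm T (fun t x => gx p (w t) (f t) x) :=
    (contDiffOn_const.mul h1).add (contDiffOn_const.mul h2)
  have hr1 : Vale.Agent.P244.ST.Apr.Sm T (fun t x => ric1 p (w t) (f t) x) :=
    (ContDiffOn.neg (hew.mul (hlf.add ((hρ.mul h2).mul hg)))).add (contDiffOn_const.mul hef)
  have hr2 : Vale.Agent.P244.ST.Apr.Sm T (fun t x => ric2 p (w t) (f t) x) :=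
    ContDiffOn.neg (hew.mul (((hlw.sub contDiffOn_const).sub (contDiffOn_snd.mul hg)).add
      ((hρ.mul h1).mul hg)))
  have hr0 : Vale.Agent.P244.ST.Apr.Sm T (fun t x => ric0 p (w t) (f t) x) :=
    hr2.sub ((hew.mul hρ).mul ((contDiffOn_const.mul (ContDiffOn.sub h3 (ContDiffOn.pow h1 2))).add
      (contDiffOn_const.mul ((ContDiffOn.add h4 (ContDiffOn.pow h2 2)).sub
        ((contDiffOn_const.mul h1).mul h2)))))
  exact (hr0.add (contDiffOn_const.mul hr1)).add (contDiffOn_const.mul hr2)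

end sm

lemma sub_strip : Ico 0 T ×ˢ Ioo (0 : ℝ) 1 ⊆ Ico 0 T ×ˢ Icc (-1) 1 :=
  prod_mono subset_rfl (fun _ hx => ⟨by linarith only [hx, hx.1], hx.2.le⟩)

lemma mem_big {x : ℝ} (hx : x ∈ Ioo (0 : ℝ) 1) : x ∈ Ioo (-1 : ℝ) 1 :=
  ⟨by linarith only [hx, hx.1], hx.2⟩

section neg
variable (hs : ConfSol p w f T)
  (hneg : ∀ t ∈ Ico 0 T, ∀ x ∈ Ioo (0 : ℝ) 1, rhx (w t) (f t) x < 0)
include hs

lemma c_uu : ContDiffOn ℝ ∞ (fun z : ℝ × ℝ => uu (w z.1) (f z.1) z.2) (Ico 0 T ×ˢ Ioo 0 1) := by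
  have h1 := hs.smooth_w.mono sub_strip
  have h2 := hs.smooth_f.mono sub_strip
  have h3 : ContDiffOn ℝ ∞ (fun z : ℝ × ℝ => Real.log (1 - z.2 ^ 2)) (Ico 0 T ×ˢ Ioo 0 1) := by
    apply ContDiffOn.log
    · exact contDiffOn_const.sub (contDiffOn_snd.pow 2)
    · intro z hz
      exact (one_sub_sq_pos (mem_big hz.2)).ne'
  exact (h2.sub h1).sub (h3.div_const 2)

lemma c_rh : ContDiffOn ℝ ∞ (fun z : ℝ × ℝ => rh p (w z.1) (f z.1) z.2) (Ico 0 T ×ˢ Ioo 0 1) :=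
  (rh_smooth hs).mono (prod_mono subset_rfl (fun _ hx => mem_big hx))

include hneg

lemma c_u1 : ContDiffOn ℝ ∞ (fun z : ℝ × ℝ => u1 (w z.1) (f z.1) z.2) (Ico 0 T ×ˢ Ioo 0 1) := by
  apply ContDiffOn.div
  · exact contDiffOn_const.mul ((smNN hs).mono sub_strip)
  · exact (smDD hs).mono sub_strip
  · intro z hz
    exact (DD_pos (mem_big hz.2) (hneg z.1 hz.1 z.2 hz.2)).ne'

lemma c_u2 : ContDiffOn ℝ ∞ (fun z : ℝ × ℝ => u2 (w z.1) (f z.1) z.2) (Ico 0 T ×ˢ Ioo 0 1) := by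
  have a1 := ContDiffOn.mono (smDD hs) sub_strip
  have a2 := ContDiffOn.mono (smNN hs) sub_strip
  have a3 := ContDiffOn.mono (smDDx hs) sub_strip
  have a4 := ContDiffOn.mono (smNNx hs) sub_strip
  apply ContDiffOn.div
  · exact (contDiffOn_const.mul (contDiffOn_const.sub (contDiffOn_snd.pow 2))).mul
      ((a4.mul a1).sub (a2.mul a3))
  · exact a1.pow 3
  · intro z hz
    exact pow_ne_zero 3 (DD_pos (mem_big hz.2) (hneg z.1 hz.1 z.2 hz.2)).ne'

omit hneg in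
lemma c_ZZ : ContDiffOn ℝ ∞ (fun z : ℝ × ℝ => ZZ p (w z.1) (f z.1) z.2)
    (Ico 0 T ×ˢ Ioo 0 1) := by
  have a1 := ContDiffOn.mono (smDD hs) sub_strip
  have h1 := hs.smooth_w.mono sub_strip
  have h2 := hs.smooth_f.mono sub_strip
  have h3 : ContDiffOn ℝ ∞ (fun z : ℝ × ℝ => Real.sqrt (1 - z.2 ^ 2)) (Ico 0 T ×ˢ Ioo 0 1) := by
    apply ContDiffOn.sqrt
    · exact contDiffOn_const.sub (contDiffOn_snd.pow 2)
    · intro z hz
      exact (one_sub_sq_pos (mem_big hz.2)).ne'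
  have h4 : ContDiffOn ℝ ∞ (fun z : ℝ × ℝ => rhx (w z.1) (f z.1) z.2) (Ico 0 T ×ˢ Ioo 0 1) := by
    have : ContDiffOn ℝ ∞ (fun z : ℝ × ℝ => -DD (w z.1) (f z.1) z.2 / (2 * (1 - z.2 ^ 2)))
        (Ico 0 T ×ˢ Ioo 0 1) := by
      apply ContDiffOn.div
      · exact ContDiffOn.neg a1
      · exact contDiffOn_const.mul (contDiffOn_const.sub (contDiffOn_snd.pow 2))
      · intro z hz
        have := one_sub_sq_pos (mem_big hz.2)
        positivity
    exact this.congr (fun z hz => rhx_eq (mem_big hz.2))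
  exact (((h2.sub h1).exp.mul (h3.pow 3)).mul (h4.pow 2)).div_const (ze p)

/-- composition with `X`: smoothness and continuity -/
lemma comp_smooth {g : ℝ → ℝ → ℝ}
    (hg : ContDiffOn ℝ ∞ (fun z : ℝ × ℝ => g z.1 z.2) (Ico 0 T ×ˢ Ioo 0 1)) :
    ContDiffOn ℝ ∞ (fun q : ℝ × ℝ => g q.1 (XX p w f q.1 q.2)) (reg p w f (Ioo 0 T)) := by
  have h1 : ContDiffOn ℝ ∞ (fun q : ℝ × ℝ => ((q.1, XX p w f q.1 q.2) : ℝ × ℝ))
      (reg p w f (Ioo 0 T)) := contDiffOn_fst.prodMk (XX_smooth hs hneg)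
  have h2 : MapsTo (fun q : ℝ × ℝ => ((q.1, XX p w f q.1 q.2) : ℝ × ℝ)) (reg p w f (Ioo 0 T))
      (Ico 0 T ×ˢ Ioo 0 1) := by
    intro q hq
    have hq' : q ∈ reg p w f (Ico 0 T) := ⟨⟨hq.1.1.le, hq.1.2⟩, hq.2⟩
    exact ⟨hq'.1, (XX_spec hs hq').1⟩
  exact ContDiffOn.comp (g := fun z : ℝ × ℝ => g z.1 z.2) hg h1 h2

lemma comp_cont {g : ℝ → ℝ → ℝ}
    (hg : ContDiffOn ℝ ∞ (fun z : ℝ × ℝ => g z.1 z.2) (Ico 0 T ×ˢ Ioo 0 1)) :
    ContinuousOn (fun q : ℝ × ℝ => g q.1 (XX p w f q.1 q.2)) (reg p w f (Ico 0 T)) := by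
  have h1 : ContinuousOn (fun q : ℝ × ℝ => ((q.1, XX p w f q.1 q.2) : ℝ × ℝ))
      (reg p w f (Ico 0 T)) := continuousOn_fst.prodMk (XX_cont hs hneg)
  have h2 : MapsTo (fun q : ℝ × ℝ => ((q.1, XX p w f q.1 q.2) : ℝ × ℝ)) (reg p w f (Ico 0 T))
      (Ico 0 T ×ˢ Ioo 0 1) := fun q hq => ⟨hq.1, (XX_spec hs hq).1⟩
  exact ContinuousOn.comp (g := fun z : ℝ × ℝ => g z.1 z.2) hg.continuousOn h1 h2

/-- time derivative of a composition with `X` -/
lemma comp_time {g : ℝ → ℝ → ℝ}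
    (hg : ContDiffOn ℝ ∞ (fun z : ℝ × ℝ => g z.1 z.2) (Ico 0 T ×ˢ Ioo 0 1))
    {q : ℝ × ℝ} (hq : q ∈ reg p w f (Ioo 0 T)) {gt gx' X' : ℝ}
    (hX : HasDerivAt (fun s => XX p w f s q.2) X' q.1)
    (ht : HasDerivAt (fun s => g s (XX p w f q.1 q.2)) gt q.1)
    (hx : HasDerivAt (g q.1) gx' (XX p w f q.1 q.2)) :
    HasDerivAt (fun s => g s (XX p w f s q.2)) (gt + gx' * X') q.1 := by
  have hq' : q ∈ reg p w f (Ico 0 T) := ⟨⟨hq.1.1.le, hq.1.2⟩, hq.2⟩
  have hspec := XX_spec hs hq'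
  set x₀ := XX p w f q.1 q.2 with hx₀
  have hnb : Ico 0 T ×ˢ Ioo (0 : ℝ) 1 ∈ 𝓝 ((q.1, x₀) : ℝ × ℝ) :=
    prod_mem_nhds (Ico_mem_nhds hq.1.1 hq.1.2) (Ioo_mem_nhds hspec.1.1 hspec.1.2)
  have hd : HasFDerivAt (fun z : ℝ × ℝ => g z.1 z.2)
      (fderiv ℝ (fun z : ℝ × ℝ => g z.1 z.2) (q.1, x₀)) (q.1, x₀) :=
    ((hg.contDiffAt hnb).differentiableAt (by simp)).hasFDerivAt
  set D := fderiv ℝ (fun z : ℝ × ℝ => g z.1 z.2) (q.1, x₀) with hD
  have e1 : D (1, 0) = gt := by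
    have h1 : HasDerivAt (fun s : ℝ => ((s, x₀) : ℝ × ℝ)) (1, 0) q.1 :=
      (hasDerivAt_id q.1).prodMk (hasDerivAt_const q.1 x₀)
    have h2 := HasFDerivAt.comp_hasDerivAt (l := fun z : ℝ × ℝ => g z.1 z.2)
      (f := fun s : ℝ => ((s, x₀) : ℝ × ℝ)) q.1 hd h1
    exact HasDerivAt.unique h2 ht
  have e2 : D (0, 1) = gx' := by
    have h1 : HasDerivAt (fun y : ℝ => ((q.1, y) : ℝ × ℝ)) (0, 1) x₀ :=
      (hasDerivAt_const x₀ q.1).prodMk (hasDerivAt_id x₀)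
    have h2 := HasFDerivAt.comp_hasDerivAt (l := fun z : ℝ × ℝ => g z.1 z.2)
      (f := fun y : ℝ => ((q.1, y) : ℝ × ℝ)) x₀ hd h1
    exact HasDerivAt.unique h2 hx
  have h1 : HasDerivAt (fun s : ℝ => ((s, XX p w f s q.2) : ℝ × ℝ)) (1, X') q.1 :=
    (hasDerivAt_id q.1).prodMk hX
  have h2 := HasFDerivAt.comp_hasDerivAt (l := fun z : ℝ × ℝ => g z.1 z.2)
    (f := fun s : ℝ => ((s, XX p w f s q.2) : ℝ × ℝ)) q.1 hd h1
  have e3 : D (1, X') = gt + gx' * X' := by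
    have : ((1 : ℝ), X') = ((1 : ℝ), (0 : ℝ)) + X' • ((0 : ℝ), (1 : ℝ)) := by ext <;> simp
    rw [this, map_add, map_smul, e1, e2, smul_eq_mul]
    ring
  rw [e3] at h2
  exact h2

/-- time derivative of `X` -/
lemma XX_time {q : ℝ × ℝ} (hq : q ∈ reg p w f (Ioo 0 T)) :
    HasDerivAt (fun s => XX p w f s q.2)
      (-((rhsF p (w q.1) (f q.1) (XX p w f q.1 q.2) + rhsW p (w q.1) (f q.1) (XX p w f q.1 q.2)) / 2)
        / rhx (w q.1) (f q.1) (XX p w f q.1 q.2)) q.1 := by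
  have hq' : q ∈ reg p w f (Ico 0 T) := ⟨⟨hq.1.1.le, hq.1.2⟩, hq.2⟩
  have hspec := XX_spec hs hq'
  have hsl : HasDerivAt (fun s : ℝ => ((s, q.2) : ℝ × ℝ)) (1, 0) q.1 :=
    (hasDerivAt_id q.1).prodMk (hasDerivAt_const q.1 q.2)
  have hX : DifferentiableAt ℝ (fun s => XX p w f s q.2) q.1 := by
    have h1 : DifferentiableAt ℝ (fun q : ℝ × ℝ => XX p w f q.1 q.2) q :=
      ((XX_smooth hs hneg).contDiffAt ((reg_open hs).mem_nhds hq)).differentiableAt (by simp)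
    exact (HasFDerivAt.comp_hasDerivAt (l := fun z : ℝ × ℝ => XX p w f z.1 z.2)
      (f := fun s : ℝ => ((s, q.2) : ℝ × ℝ)) q.1 h1.hasFDerivAt hsl).differentiableAt
  have hXI : XX p w f q.1 q.2 ∈ Icc (-1 : ℝ) 1 := Ioo_subset_Icc_self (mem_big hspec.1)
  have hIco : Ico 0 T ∈ 𝓝 q.1 := Ico_mem_nhds hq.1.1 hq.1.2
  have hwt := (hs.eq_w q.1 hq'.1 _ hXI).hasDerivAt hIco
  have hft := (hs.eq_f q.1 hq'.1 _ hXI).hasDerivAt hIco
  have ht : HasDerivAt (fun s => rh p (w s) (f s) (XX p w f q.1 q.2))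
      ((rhsF p (w q.1) (f q.1) (XX p w f q.1 q.2) +
        rhsW p (w q.1) (f q.1) (XX p w f q.1 q.2)) / 2) q.1 := by
    have := (((hft.add hwt).add_const (Real.log (1 - (XX p w f q.1 q.2) ^ 2) / 2)).sub_const
      (Real.log (ze p))).div_const 2
    exact this
  have h2 := comp_time hs hneg (g := fun t => rh p (w t) (f t)) (c_rh hs) hq hX.hasDerivAt ht
    (rh_deriv hs hq'.1 (mem_big hspec.1))
  have h3 : HasDerivAt (fun s => rh p (w s) (f s) (XX p w f s q.2)) 0 q.1 := by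
    have : (fun s => rh p (w s) (f s) (XX p w f s q.2)) =ᶠ[𝓝 q.1] fun _ => q.2 := by
      have hc : ContinuousAt (fun s : ℝ => ((s, q.2) : ℝ × ℝ)) q.1 := by fun_prop
      have h4 := hc.eventually ((reg_open hs).mem_nhds hq)
      filter_upwards [h4] with s hs'
      have : ((s, q.2) : ℝ × ℝ) ∈ reg p w f (Ico 0 T) := ⟨⟨hs'.1.1.le, hs'.1.2⟩, hs'.2⟩
      exact (XX_spec hs this).2
    exact (hasDerivAt_const q.1 q.2).congr_of_eventuallyEq this
  have h5 := h2.unique h3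
  have hne := (hneg q.1 hq'.1 _ hspec.1).ne
  refine hX.hasDerivAt.congr_deriv ?_
  symm
  rw [div_eq_iff hne]
  linarith only [h5]

end neg

/-- bounds near the tip -/
lemma tip_bound (hs : ConfSol p w f T) (hp : 2 ≤ p)
    (hneg : ∀ t ∈ Ico 0 T, ∀ x ∈ Ioo (0 : ℝ) 1, rhx (w t) (f t) x < 0)
    {t₁ : ℝ} (ht₁ : t₁ ∈ Ico 0 T) {ρ₁ : ℝ} (hρ₁ : ∀ t ∈ Icc 0 t₁, ρ₁ < rh p (w t) (f t) 0) :
    ∃ K : ℝ, ∀ t ∈ Icc 0 t₁, ∀ ρ ≤ ρ₁,
      |uu (w t) (f t) (XX p w f t ρ) + 2 * ρ| ≤ K ∧ |u1 (w t) (f t) (XX p w f t ρ)| ≤ K ∧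
      |u2 (w t) (f t) (XX p w f t ρ)| ≤ K ∧
      |ZZ p (w t) (f t) (XX p w f t ρ)| ≤ K * Real.exp (-2 * ρ) ∧
      |scal p (w t) (f t) (XX p w f t ρ)| ≤ K := by
  have hIT : Icc 0 t₁ ⊆ Ico 0 T := fun t ht => ⟨ht.1, ht.2.trans_lt ht₁.2⟩
  have hze := ze_pos hp
  -- lower bound for X
  have hxm : ∃ xm ∈ Ioo (0 : ℝ) 1, ∀ t ∈ Icc 0 t₁, ρ₁ < rh p (w t) (f t) xm := by
    have hcr : ContinuousOn (fun z : ℝ × ℝ => rh p (w z.1) (f z.1) z.2)
        (Icc 0 t₁ ×ˢ Icc (0 : ℝ) (1 / 2)) :=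
      (rh_smooth hs).continuousOn.mono (prod_mono hIT
        (fun x hx => ⟨by linarith only [hx, hx.1], by linarith only [hx, hx.2]⟩))
    set Kc : Set (ℝ × ℝ) := (Icc 0 t₁ ×ˢ Icc (0 : ℝ) (1 / 2)) ∩
      (fun z : ℝ × ℝ => rh p (w z.1) (f z.1) z.2) ⁻¹' (Iic ρ₁) with hKc
    have hKcl : IsClosed Kc := hcr.preimage_isClosed_of_isClosed
      (isClosed_Icc.prod isClosed_Icc) isClosed_Iic
    have hKcomp : IsCompact Kc := (isCompact_Icc.prod isCompact_Icc).of_isClosed_subset hKcl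
      inter_subset_left
    by_cases hne : Kc.Nonempty
    · obtain ⟨z, hz, hzm⟩ := hKcomp.exists_isMinOn hne continuousOn_snd
      have hz2 : 0 < z.2 := by
        rcases eq_or_lt_of_le hz.1.2.1 with h | h
        · exfalso
          have h1 : rh p (w z.1) (f z.1) z.2 ≤ ρ₁ := hz.2
          rw [← h] at h1
          exact absurd (hρ₁ z.1 hz.1.1) (not_lt.2 h1)
        · exact h
      have hz3 : z.2 ≤ 1 / 2 := hz.1.2.2
      refine ⟨z.2 / 2, ⟨by linarith only [hz2], by linarith only [hz2, hz3]⟩, fun t ht => ?_⟩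
      by_contra hcon
      push Not at hcon
      have h2 : ((t, z.2 / 2) : ℝ × ℝ) ∈ Kc := ⟨⟨ht, by constructor <;> linarith only [hz2, hz3]⟩, hcon⟩
      have h3 : z.2 ≤ z.2 / 2 := hzm h2
      linarith only [hz2, h3]
    · refine ⟨1 / 2, by norm_num, fun t ht => ?_⟩
      by_contra hcon
      push Not at hcon
      exact hne ⟨(t, 1 / 2), ⟨ht, by constructor <;> norm_num⟩, hcon⟩
  obtain ⟨xm, hxm1, hxm2⟩ := hxm
  have hXm : ∀ t ∈ Icc 0 t₁, ∀ ρ ≤ ρ₁, XX p w f t ρ ∈ Ioo xm 1 ∧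
      rh p (w t) (f t) (XX p w f t ρ) = ρ := by
    intro t ht ρ hρ
    have hq : ((t, ρ) : ℝ × ℝ) ∈ reg p w f (Ico 0 T) := ⟨hIT ht, hρ.trans_lt (hρ₁ t ht)⟩
    have h1 := XX_spec hs hq
    exact ⟨⟨(XX_lt hs hneg hq ⟨hxm1.1.le, hxm1.2⟩).2 (hρ.trans_lt (hxm2 t ht)), h1.1.2⟩, h1.2⟩
  -- compactness
  set C : Set (ℝ × ℝ) := Icc 0 t₁ ×ˢ Icc xm 1 with hC
  have hCc : IsCompact C := isCompact_Icc.prod isCompact_Icc
  have hsub : C ⊆ Ico 0 T ×ˢ Icc (-1) 1 :=
    prod_mono hIT (fun x hx => ⟨by linarith only [hxm1, hx, hx.1, hxm1.1], hx.2⟩)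
  have cD := (smDD hs).continuousOn.mono hsub
  have cN := (smNN hs).continuousOn.mono hsub
  have cDx := (smDDx hs).continuousOn.mono hsub
  have cNx := (smNNx hs).continuousOn.mono hsub
  have cS := (smScal hs).continuousOn.mono hsub
  have cf := hs.smooth_f.continuousOn.mono hsub
  have hDne : ∀ z ∈ C, DD (w z.1) (f z.1) z.2 ≠ 0 := by
    intro z hz
    rcases eq_or_lt_of_le hz.2.2 with h | h
    · rw [h]; unfold DD; norm_num
    · have hz2 : z.2 ∈ Ioo (0 : ℝ) 1 := ⟨hxm1.1.trans_le hz.2.1, h⟩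
      exact (DD_pos (mem_big hz2) (hneg z.1 (hIT hz.1) z.2 hz2)).ne'
  obtain ⟨K1, hK1⟩ := hCc.exists_bound_of_continuousOn
    (f := fun z : ℝ × ℝ => 2 * f z.1 z.2 - Real.log (ze p))
    ((continuousOn_const.mul cf).sub continuousOn_const)
  obtain ⟨K2, hK2⟩ := hCc.exists_bound_of_continuousOn
    (f := fun z : ℝ × ℝ => u1 (w z.1) (f z.1) z.2)
    ((continuousOn_const.mul cN).div cD hDne)
  obtain ⟨K3, hK3⟩ := hCc.exists_bound_of_continuousOn
    (f := fun z : ℝ × ℝ => u2 (w z.1) (f z.1) z.2)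
    (((continuousOn_const.mul (continuousOn_const.sub (continuousOn_snd.pow 2))).mul
      ((cNx.mul cD).sub (cN.mul cDx))).div (cD.pow 3) (fun z hz => pow_ne_zero 3 (hDne z hz)))
  obtain ⟨K4, hK4⟩ := hCc.exists_bound_of_continuousOn
    (f := fun z : ℝ × ℝ => Real.exp (2 * f z.1 z.2) * (DD (w z.1) (f z.1) z.2) ^ 2
      / (4 * ze p ^ 2))
    (((Real.continuous_exp.comp_continuousOn (continuousOn_const.mul cf)).mul
      (cD.pow 2)).div_const _)
  obtain ⟨K5, hK5⟩ := hCc.exists_bound_of_continuousOn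
    (f := fun z : ℝ × ℝ => scal p (w z.1) (f z.1) z.2) cS
  refine ⟨max K1 (max K2 (max K3 (max K4 K5))), fun t ht ρ hρ => ?_⟩
  obtain ⟨hX, hXρ⟩ := hXm t ht ρ hρ
  have hXC : ((t, XX p w f t ρ) : ℝ × ℝ) ∈ C := ⟨ht, hX.1.le, hX.2.le⟩
  have hX1 : XX p w f t ρ ∈ Ioo (-1 : ℝ) 1 := ⟨by linarith only [hxm1, hX, hX.1, hxm1.1], hX.2⟩
  have b1 := hK1 _ hXC
  have b2 := hK2 _ hXC
  have b3 := hK3 _ hXC
  have b4 := hK4 _ hXC
  have b5 := hK5 _ hXC
  simp only [Real.norm_eq_abs] at b1 b2 b3 b4 b5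
  refine ⟨?_, ?_, ?_, ?_, ?_⟩
  · have : uu (w t) (f t) (XX p w f t ρ) + 2 * ρ = 2 * f t (XX p w f t ρ) - Real.log (ze p) := by
      rw [← hXρ]
      simp only [hXρ]
      nth_rewrite 2 [← hXρ]
      unfold uu rh
      ring
    rw [this]
    exact b1.trans (le_max_left _ _)
  · exact b2.trans ((le_max_left _ _).trans (le_max_right _ _))
  · exact b3.trans ((le_max_left _ _).trans ((le_max_right _ _).trans (le_max_right _ _)))
  · have hpos := Real.exp_pos (-2 * ρ)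
    have : ZZ p (w t) (f t) (XX p w f t ρ) = Real.exp (2 * f t (XX p w f t ρ)) *
        (DD (w t) (f t) (XX p w f t ρ)) ^ 2 / (4 * ze p ^ 2) * Real.exp (-2 * ρ) := by
      have e1 : Real.exp (-2 * ρ) = (Real.exp (2 * rh p (w t) (f t) (XX p w f t ρ)))⁻¹ := by
        rw [← Real.exp_neg, hXρ]; congr 1; ring
      rw [e1, exp_rh hX1 hp, ZZ_eq hX1]
      have h0 : 0 < Real.sqrt (1 - (XX p w f t ρ) ^ 2) := Real.sqrt_pos.2 (one_sub_sq_pos hX1)
      rw [Real.exp_sub, Real.exp_add, show (2 : ℝ) * f t (XX p w f t ρ) =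
        f t (XX p w f t ρ) + f t (XX p w f t ρ) by ring, Real.exp_add]
      have := Real.exp_pos (w t (XX p w f t ρ))
      have := Real.exp_pos (f t (XX p w f t ρ))
      field_simp
    rw [this, abs_mul, abs_of_pos hpos]
    exact mul_le_mul_of_nonneg_right (b4.trans ((le_max_left _ _).trans ((le_max_right _ _).trans
      ((le_max_right _ _).trans (le_max_right _ _))))) hpos.le
  · exact b5.trans ((le_max_right _ _).trans ((le_max_right _ _).trans
      ((le_max_right _ _).trans (le_max_right _ _))))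

theorem s8 : S8Statement := by
  intro p hp T hT w f hs hneg
  refine ⟨XX p w f, fun t ρ => uu (w t) (f t) (XX p w f t ρ),
    fun t ρ => u1 (w t) (f t) (XX p w f t ρ), fun t ρ => u2 (w t) (f t) (XX p w f t ρ),
    fun t ρ => ZZ p (w t) (f t) (XX p w f t ρ), fun t ρ => scal p (w t) (f t) (XX p w f t ρ), ?_⟩
  have hscal := ContDiffOn.mono (smScal hs) sub_strip
  constructor
  · exact fun q hq => XX_spec hs hq
  · exact fun t ht x hx => XX_inv hs hneg ht hx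
  · exact fun q _ => rfl
  · intro q hq
    have h := XX_spec hs hq
    exact (u1_eq (mem_big h.1) (hneg q.1 hq.1 _ h.1)).symm
  · exact fun q _ => rfl
  · exact fun q _ => rfl
  · exact reg_open hs
  · exact XX_smooth hs hneg
  · exact comp_smooth hs hneg (g := fun t => uu (w t) (f t)) (c_uu hs)
  · exact comp_smooth hs hneg (g := fun t => u1 (w t) (f t)) (c_u1 hs hneg)
  · exact comp_smooth hs hneg (g := fun t => u2 (w t) (f t)) (c_u2 hs hneg)
  · exact comp_smooth hs hneg (g := fun t => ZZ p (w t) (f t)) (c_ZZ hs)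
  · exact comp_smooth hs hneg (g := fun t => scal p (w t) (f t)) hscal
  · exact XX_cont hs hneg
  · exact comp_cont hs hneg (g := fun t => uu (w t) (f t)) (c_uu hs)
  · exact comp_cont hs hneg (g := fun t => u1 (w t) (f t)) (c_u1 hs hneg)
  · exact comp_cont hs hneg (g := fun t => u2 (w t) (f t)) (c_u2 hs hneg)
  · exact comp_cont hs hneg (g := fun t => ZZ p (w t) (f t)) (c_ZZ hs)
  · exact comp_cont hs hneg (g := fun t => scal p (w t) (f t)) hscal
  · -- d1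
    intro q hq
    have h := XX_spec hs hq
    have hn := hneg q.1 hq.1 _ h.1
    have h1 := (uu_deriv (slice (h := w) hs.smooth_w hq.1) (slice (h := f) hs.smooth_f hq.1)
      (mem_big h.1)).comp q.2 (XX_deriv hs hneg hq)
    refine HasDerivAt.congr_deriv h1 ?_
    rw [← u1_eq (mem_big h.1) hn, div_eq_mul_inv]
  · -- d2
    intro q hq
    have h := XX_spec hs hq
    have hn := hneg q.1 hq.1 _ h.1
    have h1 := (u1_deriv (slice (h := w) hs.smooth_w hq.1) (slice (h := f) hs.smooth_f hq.1)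
      (mem_big h.1) hn).comp q.2 (XX_deriv hs hneg hq)
    refine HasDerivAt.congr_deriv h1 ?_
    rw [mul_assoc, mul_inv_cancel₀ hn.ne, mul_one]
  · -- dZ
    intro q hq
    have h := XX_spec hs hq
    have hn := hneg q.1 hq.1 _ h.1
    have h1 := (ZZ_deriv (p := p) (slice (h := w) hs.smooth_w hq.1)
      (slice (h := f) hs.smooth_f hq.1) (mem_big h.1) hn hp).comp q.2 (XX_deriv hs hneg hq)
    refine HasDerivAt.congr_deriv h1 ?_
    rw [mul_assoc _ (rhx (w q.1) (f q.1) (XX p w f q.1 q.2)), mul_inv_cancel₀ hn.ne, mul_one,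
      E3 (mem_big h.1) hn hp, h.2]
  · -- dt
    intro q hq
    have hq' : q ∈ reg p w f (Ico 0 T) := ⟨⟨hq.1.1.le, hq.1.2⟩, hq.2⟩
    have h := XX_spec hs hq'
    have hn := hneg q.1 hq'.1 _ h.1
    have hXI : XX p w f q.1 q.2 ∈ Icc (-1 : ℝ) 1 := Ioo_subset_Icc_self (mem_big h.1)
    have hIco : Ico 0 T ∈ 𝓝 q.1 := Ico_mem_nhds hq.1.1 hq.1.2
    have hwt := (hs.eq_w q.1 hq'.1 _ hXI).hasDerivAt hIco
    have hft := (hs.eq_f q.1 hq'.1 _ hXI).hasDerivAt hIco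
    have ht : HasDerivAt (fun s => uu (w s) (f s) (XX p w f q.1 q.2))
        (rhsF p (w q.1) (f q.1) (XX p w f q.1 q.2) -
          rhsW p (w q.1) (f q.1) (XX p w f q.1 q.2)) q.1 :=
      (hft.sub hwt).sub_const _
    have h2 := comp_time hs hneg (g := fun t => uu (w t) (f t)) (c_uu hs) hq
      (XX_time hs hneg hq) ht (uu_deriv (slice (h := w) hs.smooth_w hq'.1)
        (slice (h := f) hs.smooth_f hq'.1) (mem_big h.1))
    rw [E1 (mem_big h.1) hn hp, h.2] at h2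
    exact h2
  · -- Z_pos
    intro q hq
    have h := XX_spec hs hq
    have h1 := one_sub_sq_pos (mem_big h.1)
    have h2 := DD_pos (mem_big h.1) (hneg q.1 hq.1 _ h.1)
    have h3 := ze_pos hp
    simp only [ZZ_eq (mem_big h.1)]
    positivity
  · intro t₁ ht₁ ρ₁ hρ₁
    exact tip_bound hs hp hneg ht₁ hρ₁

end

end Vale.Agent.P244.ST.RG
end

section

/-!
# P244 / ST / S : the boundary value at `y = ρ₀` (statement)

Order of the argument (no circularity): `Boot` gives the boundary value of `u` at `y = ρ₀`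
(`BdStatement`, from (b4), (b6) and `Z ≥ c (ρ - ρ₀)` for `y ≥ ρ₀`), hence `M.FT`, hence
(module M2) the facts `M.FI`, `M.FO`, hence `PtStatement`, hence `S7Statement`.
-/

open Set
open scoped ContDiff

namespace Vale.Agent.P244.ST.SS

/-- **Bd**: the boundary value of `u` at `y = ρ₀`. -/
def BdStatement : Prop :=
  ∀ g : ℝ → ℝ, IsBub g → Ev fun q => ∀ w f : Fn, ∀ T > 0, T ≤ 1 →
    ConfSol 20 w f T → Qual w f T → ∀ t₁ ∈ Ico 0 T, Boot q g w f t₁ →
    ∀ t ∈ Icc 0 t₁, ∀ x ∈ Ioo (0 : ℝ) 1, yv w f t x = q.rho0 →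
      9 / 10 * q.T0 t ≤ Real.tanh (uu w f t x) ∧ Real.tanh (uu w f t x) ≤ 11 / 10 * q.T0 t

/-- `RR = scal` (identities block). -/
def ScalStatement : Prop :=
  ∀ w f : Fn, ∀ T > 0, ConfSol 20 w f T → ∀ t ∈ Ico 0 T, ∀ x ∈ Ioo (0 : ℝ) 1,
    RR w f t x = scal 20 (w t) (f t) x

/-- `Pt` from the facts of block M. -/
def PtOfStatement : Prop := M.M2Statement → BdStatement → ScalStatement → PtStatement

end Vale.Agent.P244.ST.SS
end

section

/-!
# P244 / ST / S : tools for the boundary value at `y = ρ₀`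
-/

open Set MeasureTheory Filter Topology
open scoped ContDiff

namespace Vale.Agent.P244.ST.SS

/-- lower bound for `Z` to the right of a point -/
theorem Z_low {Z U U1 E : ℝ → ℝ} {a : ℝ}
    (hZ : ∀ r ∈ Icc a (a + 1 / 40), HasDerivAt Z
      (39 * (Real.cosh (U r) - Z r) - Z r * U1 r ^ 2 / 4 - E r) r)
    (hZ0 : ∀ r ∈ Icc a (a + 1 / 40), 0 ≤ Z r)
    (hU1 : ∀ r ∈ Icc a (a + 1 / 40), |U1 r| ≤ 2)
    (hE : ∀ r ∈ Icc a (a + 1 / 40), E r ≤ 1) {r : ℝ} (hr : r ∈ Icc a (a + 1 / 40)) :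
    r - a ≤ Z r := by
  set W : ℝ → ℝ := fun r => Real.exp (40 * (r - a)) * Z r - 38 / 40 * Real.exp (40 * (r - a))
    with hW
  have hWd : ∀ r ∈ Icc a (a + 1 / 40), HasDerivAt W
      (Real.exp (40 * (r - a)) * (40 * Z r +
        (39 * (Real.cosh (U r) - Z r) - Z r * U1 r ^ 2 / 4 - E r) - 38)) r := by
    intro r hr
    have h1 : HasDerivAt (fun r => Real.exp (40 * (r - a))) (Real.exp (40 * (r - a)) * (40 * 1)) r :=
      (((hasDerivAt_id r).sub_const a).const_mul 40).exp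
    have h2 := (h1.mul (hZ r hr)).sub (h1.const_mul (38 / 40))
    refine h2.congr_deriv ?_
    ring
  have hmono : MonotoneOn W (Icc a (a + 1 / 40)) := by
    refine monotoneOn_of_deriv_nonneg (convex_Icc _ _)
      (fun r hr => (hWd r hr).continuousAt.continuousWithinAt)
      (fun r hr => (hWd r (interior_subset hr)).differentiableAt.differentiableWithinAt) ?_
    intro r hr
    have hr' := interior_subset hr
    rw [(hWd r hr').deriv]
    refine mul_nonneg (Real.exp_pos _).le ?_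
    have h1 := hZ0 r hr'
    have h2 := hU1 r hr'
    have h3 := hE r hr'
    have h4 : (1 : ℝ) ≤ Real.cosh (U r) := Real.one_le_cosh _
    have h5 : U1 r ^ 2 ≤ 4 := by
      rw [← sq_abs]
      linarith only [mul_nonneg (sub_nonneg.2 h2) (sub_nonneg.2 (abs_nonneg (U1 r))), mul_nonneg (sub_nonneg.2 h2) (sub_nonneg.2 h2)]
    nlinarith only [h1, h3, h4, h5]
  have ha : a ∈ Icc a (a + 1 / 40) := ⟨le_rfl, by linarith only []⟩
  have h1 := hmono ha hr hr.1
  simp only [hW, sub_self, mul_zero, Real.exp_zero, one_mul, mul_one] at h1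
  have h2 := hZ0 a ha
  set x := 40 * (r - a) with hx
  have hx0 : 0 ≤ x := by rw [hx]; linarith only [hr, hr.1]
  have hx1 : x ≤ 1 := by rw [hx]; linarith only [hr, hr.2]
  have hex := Real.add_one_le_exp x
  have hep := Real.exp_pos x
  -- `Z r * e ≥ 38/40 (e - 1)`
  have h3 : 38 / 40 * (Real.exp x - 1) ≤ Real.exp x * Z r := by linarith only [h1, h2]
  have h4 : x / 2 * Real.exp x ≤ Real.exp x - 1 := by
    linarith only [mul_nonneg (sub_nonneg.2 hex) (sub_nonneg.2 hx1), mul_nonneg (sub_nonneg.2 hex) hx0, mul_nonneg hx0 (sub_nonneg.2 hx1)]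
  have h5 : 38 / 40 * (x / 2) * Real.exp x ≤ Z r * Real.exp x := by nlinarith only [h2, h1, h4]
  have h6 := le_of_mul_le_mul_right h5 hep
  rw [hx] at h6
  linarith only [hx0, h6, hr.1]

/-- oscillation of a function whose derivative is `O((ρ-a)^{-1/2})` -/
theorem U_osc {U U1 : ℝ → ℝ} {a b K : ℝ} (hK : 0 ≤ K)
    (hU : ∀ r ∈ Icc a b, HasDerivAt U (U1 r) r)
    (hb : ∀ r ∈ Ioc a b, |U1 r| * Real.sqrt (r - a) ≤ K) {r : ℝ} (hr : r ∈ Icc a b) :
    |U r - U a| ≤ 2 * K * Real.sqrt (r - a) := by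
  have hsq : ∀ r ∈ Ioo a b, HasDerivAt (fun r => 2 * K * Real.sqrt (r - a))
      (K / Real.sqrt (r - a)) r := by
    intro r hr
    have h0 : r - a ≠ 0 := by linarith only [hr, hr.1]
    have h1 := (((hasDerivAt_id r).sub_const a).sqrt h0).const_mul (2 * K)
    refine h1.congr_deriv ?_
    have : Real.sqrt (r - a) ≠ 0 := (Real.sqrt_pos.2 (by linarith only [hr, hr.1])).ne'
    simp only [id]
    field_simp
  have hc1 : ContinuousOn (fun r => 2 * K * Real.sqrt (r - a)) (Icc a b) := by fun_prop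
  have hcU : ContinuousOn U (Icc a b) := fun r hr => (hU r hr).continuousAt.continuousWithinAt
  have hbd : ∀ r ∈ Ioo a b, |U1 r| ≤ K / Real.sqrt (r - a) := by
    intro r hr
    rw [le_div_iff₀ (Real.sqrt_pos.2 (by linarith only [hr, hr.1]))]
    exact hb r ⟨hr.1, hr.2.le⟩
  have m1 : MonotoneOn (fun r => 2 * K * Real.sqrt (r - a) - U r) (Icc a b) := by
    refine monotoneOn_of_deriv_nonneg (convex_Icc _ _) (hc1.sub hcU) ?_ ?_
    · intro r hr
      rw [interior_Icc] at hr ⊢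
      exact ((hsq r hr).sub (hU r (Ioo_subset_Icc_self hr))).differentiableAt.differentiableWithinAt
    · intro r hr
      rw [interior_Icc] at hr
      have h1 := ((hsq r hr).sub (hU r (Ioo_subset_Icc_self hr))).deriv
      have h2 : deriv (fun r => 2 * K * Real.sqrt (r - a) - U r) r =
        K / Real.sqrt (r - a) - U1 r := h1
      rw [h2]
      linarith only [hbd, hr, le_abs_self (U1 r), hbd r hr]
  have m2 : MonotoneOn (fun r => 2 * K * Real.sqrt (r - a) + U r) (Icc a b) := by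
    refine monotoneOn_of_deriv_nonneg (convex_Icc _ _) (hc1.add hcU) ?_ ?_
    · intro r hr
      rw [interior_Icc] at hr ⊢
      exact ((hsq r hr).add (hU r (Ioo_subset_Icc_self hr))).differentiableAt.differentiableWithinAt
    · intro r hr
      rw [interior_Icc] at hr
      have h1 := ((hsq r hr).add (hU r (Ioo_subset_Icc_self hr))).deriv
      have h2 : deriv (fun r => 2 * K * Real.sqrt (r - a) + U r) r =
        K / Real.sqrt (r - a) + U1 r := h1
      rw [h2]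
      linarith only [hbd, hr, neg_abs_le (U1 r), hbd r hr]
  have hab : a ≤ b := hr.1.trans hr.2
  have h1 := m1 ⟨le_rfl, hab⟩ hr hr.1
  have h2 := m2 ⟨le_rfl, hab⟩ hr hr.1
  simp only [sub_self, Real.sqrt_zero, mul_zero] at h1 h2
  rw [abs_le]
  constructor <;> linarith only [h2, h1]

/-- `tanh u` versus `u` -/
theorem tanh_bounds {u T₀ : ℝ} (hT : 0 < T₀) (hT1 : T₀ ≤ 1 / 10) (h1 : 98 / 100 * T₀ ≤ u)
    (h2 : u ≤ 102 / 100 * T₀) :
    9 / 10 * T₀ ≤ Real.tanh u ∧ Real.tanh u ≤ 11 / 10 * T₀ := by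
  have hu : 0 < u := by linarith only [h1, hT]
  have hu1 : u ≤ 1 / 5 := by linarith only [h2, hT1, hT]
  have hc := Real.cosh_pos u
  have hs : u ≤ Real.sinh u := Real.self_le_sinh_iff.2 hu.le
  have hexp : Real.cosh u ≤ 103 / 100 := by
    have h3 := Real.cosh_le_exp_half_sq u
    have h4 : u ^ 2 / 2 ≤ 1 / 50 := by nlinarith only [hT, hT1, h1, h2]
    have h5 : Real.exp (u ^ 2 / 2) ≤ Real.exp (1 / 50) := Real.exp_le_exp.2 h4
    have h6 : Real.exp (1 / 50 : ℝ) ≤ 103 / 100 := by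
      have h7 := Real.add_one_le_exp (-(1 / 50) : ℝ)
      have h8 : Real.exp (1 / 50 : ℝ) * Real.exp (-(1 / 50) : ℝ) = 1 := by
        rw [← Real.exp_add]; norm_num
      have h9 := Real.exp_pos (1 / 50 : ℝ)
      nlinarith only [hu, hc, h3, h4, h5, h7, h8]
    linarith only [h3, h5, h6]
  constructor
  · rw [Real.tanh_eq_sinh_div_cosh, le_div_iff₀ hc]
    linarith only [mul_nonneg (le_of_lt (sub_pos.2 hT)) (sub_nonneg.2 hexp), hs, h1, hT]
  · have h3 : Real.tanh u ≤ u := by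
      rw [Real.tanh_eq_sinh_div_cosh, div_le_iff₀ hc]
      have hm : MonotoneOn (fun x => x * Real.cosh x - Real.sinh x) (Ici 0) := by
        refine monotoneOn_of_deriv_nonneg (convex_Ici _) (by fun_prop) (by fun_prop) ?_
        intro x hx
        rw [interior_Ici] at hx
        have h5 : HasDerivAt (fun x => x * Real.cosh x - Real.sinh x)
            ((1 * Real.cosh x + x * Real.sinh x) - Real.cosh x) x :=
          ((hasDerivAt_id x).mul (Real.hasDerivAt_cosh x)).sub (Real.hasDerivAt_sinh x)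
        rw [h5.deriv]
        have h6 : 0 ≤ Real.sinh x := Real.sinh_nonneg_iff.2 (le_of_lt hx)
        have h7 : 0 ≤ x * Real.sinh x := mul_nonneg (le_of_lt hx) h6
        linarith only [h7]
      have h4 := hm (mem_Ici.2 le_rfl) (mem_Ici.2 hu.le) hu.le
      simp only [Real.cosh_zero, Real.sinh_zero, mul_one, sub_self] at h4
      linarith only [h4]
    linarith only [hT, h2, h3]

end Vale.Agent.P244.ST.SS
end

section

/-!
# P244 / ST / S : dictionary between the r-gauge package and `Geo.lean`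
-/

open Set MeasureTheory Filter Topology
open scoped ContDiff

namespace Vale.Agent.P244.ST.SS

open Vale.Agent.P244.ST.Apr

variable {w f : Fn} {T t : ℝ}

theorem deriv_uu (h : ConfSol 20 w f T) (ht : t ∈ Ico 0 T) {x : ℝ} (hx : x ∈ Ioo (-1 : ℝ) 1) :
    HasDerivAt (uu w f t) (RG.ux (w t) (f t) x) x :=
  RG.uu_deriv (slice (h := w) h.smooth_w ht) (slice (h := f) h.smooth_f ht) hx

theorem deriv_rho (h : ConfSol 20 w f T) (ht : t ∈ Ico 0 T) {x : ℝ} (hx : x ∈ Ioo (-1 : ℝ) 1) :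
    HasDerivAt (rho w f t) (RG.rhx (w t) (f t) x) x := by
  have h1 := RG.rh_deriv h ht hx
  have h2 : RG.rh 20 (w t) (f t) = rho w f t := by
    funext y
    exact CV.rh_eq y
  rwa [h2] at h1

theorem PP_eq_ux (h : ConfSol 20 w f T) (ht : t ∈ Ico 0 T) {x : ℝ} (hx : x ∈ Ioo (-1 : ℝ) 1) :
    PP w f t x = -(sx x * Real.exp (-w t x)) * RG.ux (w t) (f t) x := by
  unfold PP Ds Dx
  rw [(deriv_uu h ht hx).deriv]

theorem rs_eq_rhx (h : ConfSol 20 w f T) (ht : t ∈ Ico 0 T) {x : ℝ} (hx : x ∈ Ioo (-1 : ℝ) 1) :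
    rs w f t x = -(sx x * Real.exp (-w t x)) * RG.rhx (w t) (f t) x := by
  unfold rs Ds Dx
  rw [(deriv_rho h ht hx).deriv]

theorem sx_pos {x : ℝ} (hx : x ∈ Ioo (-1 : ℝ) 1) : 0 < sx x :=
  Real.sqrt_pos.2 (RG.one_sub_sq_pos hx)

theorem rhx_neg (h : ConfSol 20 w f T) (hq : Qual w f T) :
    ∀ t ∈ Ico 0 T, ∀ x ∈ Ioo (0 : ℝ) 1, RG.rhx (w t) (f t) x < 0 := by
  intro t ht x hx
  have hx' : x ∈ Ioo (-1 : ℝ) 1 := ⟨by linarith only [hx, hx.1], hx.2⟩
  have h1 := hq.rs_pos t ht x hx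
  rw [rs_eq_rhx h ht hx'] at h1
  have h2 : 0 < sx x * Real.exp (-w t x) := mul_pos (sx_pos hx') (Real.exp_pos _)
  by_contra hc
  push Not at hc
  linarith only [mul_nonneg h2.le hc, h1]

/-- the r-gauge package of a solution -/
theorem exists_rsol (h : ConfSol 20 w f T) (hq : Qual w f T) (hT : 0 < T) :
    ∃ X U U1 U2 Z R : ℝ → ℝ → ℝ, RG.RSol 20 w f T X U U1 U2 Z R :=
  RG.s8 20 (by norm_num) T hT w f h (rhx_neg h hq)

theorem ux_div_rhx (h : ConfSol 20 w f T) (ht : t ∈ Ico 0 T) {x : ℝ} (hx : x ∈ Ioo (-1 : ℝ) 1) :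
    RG.ux (w t) (f t) x / RG.rhx (w t) (f t) x = PP w f t x / rs w f t x := by
  rw [PP_eq_ux h ht hx, rs_eq_rhx h ht hx]
  have h2 : -(sx x * Real.exp (-w t x)) ≠ 0 :=
    neg_ne_zero.2 (mul_pos (sx_pos hx) (Real.exp_pos _)).ne'
  rw [mul_div_mul_left _ _ h2]

theorem rgZZ_eq (h : ConfSol 20 w f T) (ht : t ∈ Ico 0 T) {x : ℝ} (hx : x ∈ Ioo (-1 : ℝ) 1) :
    RG.ZZ 20 (w t) (f t) x = ZZ w f t x := by
  have h1 := RG.one_sub_sq_pos hx
  unfold ZZ
  rw [rs_eq_rhx h ht hx]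
  have h2 : rr w f t x ^ 2 = Real.exp (f t x + w t x) * Real.sqrt (1 - x ^ 2) / RG.ze 20 := by
    have h3 := RG.exp_rh (p := 20) (w := w t) (f := f t) hx (by norm_num)
    rw [CV.rh_eq] at h3
    rw [← h3]
    unfold rr
    rw [← Real.exp_nat_mul]
    norm_num
  rw [h2]
  unfold RG.ZZ sx
  have hs : Real.sqrt (1 - x ^ 2) ^ 2 = 1 - x ^ 2 := Real.sq_sqrt h1.le
  have he : Real.exp (f t x - w t x) = Real.exp (f t x + w t x) * Real.exp (-w t x) ^ 2 := by
    rw [← Real.exp_nat_mul, ← Real.exp_add]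
    congr 1
    push_cast
    ring
  rw [he]
  have hz : RG.ze 20 ≠ 0 := (RG.ze_pos (by norm_num)).ne'
  field_simp

variable {X U U1 U2 Z R : ℝ → ℝ → ℝ}

theorem rho_lt (hR : RG.RSol 20 w f T X U U1 U2 Z R) (ht : t ∈ Ico 0 T) {x : ℝ}
    (hx : x ∈ Ioo (0 : ℝ) 1) : (t, rho w f t x) ∈ RG.reg 20 w f (Ico 0 T) := by
  obtain ⟨h1, h2⟩ := hR.X_inv t ht x hx
  rw [CV.rh_eq] at h1
  exact ⟨ht, h1⟩

theorem X_rho (hR : RG.RSol 20 w f T X U U1 U2 Z R) (ht : t ∈ Ico 0 T) {x : ℝ}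
    (hx : x ∈ Ioo (0 : ℝ) 1) : X t (rho w f t x) = x := by
  obtain ⟨h1, h2⟩ := hR.X_inv t ht x hx
  rwa [CV.rh_eq] at h2

/-- inverse direction: the point with `log r = ρ` -/
theorem X_spec (hR : RG.RSol 20 w f T X U U1 U2 Z R) (ht : t ∈ Ico 0 T) {ρ : ℝ}
    (hρ : ρ < rho w f t 0) : X t ρ ∈ Ioo (0 : ℝ) 1 ∧ rho w f t (X t ρ) = ρ := by
  have h1 : (t, ρ) ∈ RG.reg 20 w f (Ico 0 T) := ⟨ht, by rw [CV.rh_eq]; exact hρ⟩
  have h2 := hR.X_mem _ h1
  simp only at h2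
  rw [CV.rh_eq] at h2
  exact h2

theorem mem_reg (ht : t ∈ Ico 0 T) {ρ : ℝ} (hρ : ρ < rho w f t 0) :
    (t, ρ) ∈ RG.reg 20 w f (Ico 0 T) := ⟨ht, by rw [CV.rh_eq]; exact hρ⟩

theorem U1_rho (h : ConfSol 20 w f T) (hR : RG.RSol 20 w f T X U U1 U2 Z R) (ht : t ∈ Ico 0 T)
    {x : ℝ} (hx : x ∈ Ioo (0 : ℝ) 1) : U1 t (rho w f t x) = PP w f t x / rs w f t x := by
  have h1 := hR.U1_eq _ (rho_lt hR ht hx)
  simp only at h1
  rw [X_rho hR ht hx] at h1
  rw [h1, ux_div_rhx h ht ⟨by linarith only [hx, hx.1], hx.2⟩]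

theorem Z_rho (h : ConfSol 20 w f T) (hR : RG.RSol 20 w f T X U U1 U2 Z R) (ht : t ∈ Ico 0 T)
    {x : ℝ} (hx : x ∈ Ioo (0 : ℝ) 1) : Z t (rho w f t x) = ZZ w f t x := by
  have h1 := hR.Z_eq _ (rho_lt hR ht hx)
  simp only at h1
  rw [X_rho hR ht hx] at h1
  rw [h1, rgZZ_eq h ht ⟨by linarith [hx.1], hx.2⟩]

theorem R_rho (hR : RG.RSol 20 w f T X U U1 U2 Z R) (ht : t ∈ Ico 0 T)
    {x : ℝ} (hx : x ∈ Ioo (0 : ℝ) 1) : R t (rho w f t x) = scal 20 (w t) (f t) x := by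
  have h1 := hR.R_eq _ (rho_lt hR ht hx)
  simp only at h1
  rw [X_rho hR ht hx] at h1
  exact h1

/-- `κ` satisfies the standing assumption -/
theorem kkap : KK kap := by
  have h : Real.sqrt 1209 ^ 2 = 1209 := Real.sq_sqrt (by norm_num)
  have h1 : Real.sqrt 1209 < 34.7708 := by
    rw [Real.sqrt_lt' (by norm_num)]; norm_num
  have h2 : 34.7706 < Real.sqrt 1209 := by
    rw [Real.lt_sqrt (by norm_num)]; norm_num
  refine ⟨?_, ?_, ?_⟩
  · unfold kap
    linear_combination (1 / 4) * h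
  · unfold kap; linarith only [h1, h2]
  · unfold kap; linarith only [h2, h1]

/-- extension of a lower bound of the equator radius to slightly later times -/
theorem region_ext (h : ConfSol 20 w f T) {t₁ c : ℝ} (ht₁ : t₁ ∈ Ico 0 T)
    (hc : ∀ t ∈ Icc 0 t₁, c < rr w f t 0) :
    ∃ t' ∈ Ioo t₁ T, ∀ t ∈ Icc 0 t', c < rr w f t 0 := by
  have hcont : ContinuousOn (fun t => rr w f t 0) (Ico 0 T) := by
    have h1 : ContinuousOn (fun t => w t 0) (Ico 0 T) :=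
      h.smooth_w.continuousOn.comp (f := fun t : ℝ => ((t, 0) : ℝ × ℝ)) (by fun_prop)
        (fun t ht => ⟨ht, by norm_num⟩)
    have h2 : ContinuousOn (fun t => f t 0) (Ico 0 T) :=
      h.smooth_f.continuousOn.comp (f := fun t : ℝ => ((t, 0) : ℝ × ℝ)) (by fun_prop)
        (fun t ht => ⟨ht, by norm_num⟩)
    unfold rr rho
    fun_prop
  have h1 := hcont t₁ ht₁
  have h2 : ∀ᶠ t in 𝓝[Ico 0 T] t₁, c < rr w f t 0 :=
    h1.eventually_const_lt (hc t₁ ⟨ht₁.1, le_rfl⟩)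
  rw [eventually_nhdsWithin_iff, Metric.eventually_nhds_iff] at h2
  obtain ⟨e, he, h2⟩ := h2
  refine ⟨min (t₁ + e / 2) ((t₁ + T) / 2), ⟨lt_min (by linarith only [he]) (by linarith only [ht₁, ht₁.2]),
    lt_of_le_of_lt (min_le_right _ _) (by linarith only [ht₁, ht₁.2])⟩, ?_⟩
  intro t ht
  rcases le_or_gt t t₁ with h3 | h3
  · exact hc t ⟨ht.1, h3⟩
  · refine h2 ?_ ⟨ht.1, lt_of_le_of_lt ht.2 (lt_of_le_of_lt (min_le_right _ _)
      (by linarith only [ht₁, ht₁.2]))⟩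
    rw [Real.dist_eq, abs_of_pos (by linarith only [h3])]
    have := ht.2.trans (min_le_left _ _)
    linarith only [h3, this]

end Vale.Agent.P244.ST.SS
end

section

/-!
# P244 / ST / S : the boundary value at `y = ρ₀`, oscillation near `y = ρ₀`
-/

open Set MeasureTheory Filter Topology
open scoped ContDiff

namespace Vale.Agent.P244.ST.SS

/-- smallness conditions used for `Bd` -/
structure BdPar (q : Par) : Prop where
  rho0 : 0 < q.rho0
  rho0' : q.rho0 ≤ 1 / 2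
  MU : 0 < q.MU
  MP : 0 < q.MP
  GR : 0 < q.GR
  sg : 0 < q.sg
  sg' : q.sg ≤ 1 / 40
  d0 : 0 < q.d0
  d0' : q.d0 ≤ q.rho0 / 2
  N : 100 ≤ q.N
  eps : 0 < q.eps
  eps1 : q.eps ≤ 1
  epsMU : q.eps * q.MU ≤ 1
  epsGR : q.eps * (q.GR * q.MU ^ 2) ≤ 1
  epsT : q.eps * q.rho0 ^ (-kap) ≤ 1 / 10

theorem lam3_pos : 0 < lam 3 := by
  have := kkap.hi
  unfold lam
  push_cast
  linarith only [this]

theorem A_le_eps {q : Par} (he : 0 < q.eps) {t : ℝ} (h0 : 0 ≤ t) (h1 : t < 1) :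
    q.A t ≤ q.eps := by
  unfold Par.A
  have h2 : tau t ^ lam 3 ≤ 1 := by
    apply Real.rpow_le_one
    · unfold tau; linarith only [h1]
    · unfold tau; linarith only [h0]
    · exact lam3_pos.le
  linarith only [mul_nonneg (le_of_lt (sub_pos.2 he)) (sub_nonneg.2 h2)]

theorem cosh_sub_one_le {u : ℝ} (hu : |u| ≤ 1) : Real.cosh u - 1 ≤ u ^ 2 := by
  have h1 := Real.cosh_le_exp_half_sq u
  have h2 : u ^ 2 ≤ 1 := by
    rw [← sq_abs]
    linarith only [mul_nonneg (sub_nonneg.2 hu) (sub_nonneg.2 (abs_nonneg u)), mul_nonneg (sub_nonneg.2 hu) (sub_nonneg.2 hu)]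
  have h3 : Real.exp (u ^ 2 / 2) ≤ 1 + u ^ 2 := by
    have h4 : |u ^ 2 / 2| ≤ 1 := by
      rw [abs_of_nonneg (by positivity)]
      linarith only [h2]
    have h5 := Real.abs_exp_sub_one_sub_id_le h4
    have h6 := (abs_le.1 h5).2
    nlinarith only [h2, h6, sq_nonneg u]
  linarith only [h1, h3]

/-- the barrier `RB` near `y = ρ₀` -/
theorem RB_small {q : Par} (P : BdPar q) {t : ℝ} (h0 : 0 ≤ t) (h1 : t < 1) {r u : ℝ}
    (hr0 : 0 ≤ r) (hr : r ^ 2 ≤ 1) (hu : |u| ≤ q.MU * q.A t) :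
    r ^ 2 * q.RB t r u ≤ 40 := by
  have hτ : 0 < tau t := by unfold tau; linarith only [h1]
  have hτ1 : tau t ≤ 1 := by unfold tau; linarith only [h0]
  have hA := A_le_eps P.eps h0 h1
  have hA0 := CV.A_pos P.eps hτ
  have hu1 : |u| ≤ 1 := by
    refine hu.trans ?_
    have := P.epsMU
    linarith [mul_nonneg (sub_nonneg.2 hA) (le_of_lt (sub_pos.2 P.MU)), this]
  have hcosh := cosh_sub_one_le hu1
  have hcosh0 : 0 ≤ Real.cosh u - 1 := sub_nonneg.2 (Real.one_le_cosh u)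
  have hk := kkap
  have hgam : 0 < ST.gam := by
    unfold ST.gam ST.aa
    have := lam3_pos
    linarith only [this]
  -- powers of tau
  have h2 : (tau t + r ^ 2 / 100) ^ (-ST.gam) ≤ tau t ^ (-ST.gam) := by
    apply Real.rpow_le_rpow_of_nonpos hτ
    · linarith only [sq_nonneg r]
    · linarith only [hgam]
  have h20 : 0 ≤ (tau t + r ^ 2 / 100) ^ (-ST.gam) := Real.rpow_nonneg (by positivity) _
  have h3 : u ^ 2 ≤ q.MU ^ 2 * (q.eps ^ 2 * tau t ^ (2 * lam 3)) := by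
    rw [← sq_abs]
    refine (pow_le_pow_left₀ (abs_nonneg _) hu 2).trans (le_of_eq ?_)
    unfold Par.A
    rw [mul_pow, mul_pow, ← Real.rpow_natCast (tau t ^ lam 3) 2, ← Real.rpow_mul hτ.le]
    rw [mul_comm (lam 3)]
    norm_num
  have h4 : tau t ^ (2 * lam 3) * tau t ^ (-ST.gam) ≤ 1 := by
    rw [← Real.rpow_add hτ]
    apply Real.rpow_le_one hτ.le hτ1
    unfold ST.gam ST.aa lam
    have := hk.hi
    push_cast
    linarith only [this]
  have h5 : q.eps ^ 2 * q.eps ^ (-(2 * ST.aa)) ≤ q.eps := by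
    rw [← Real.rpow_natCast q.eps 2, ← Real.rpow_add P.eps]
    calc q.eps ^ (((2 : ℕ) : ℝ) + -(2 * ST.aa)) ≤ q.eps ^ (1 : ℝ) := by
          apply Real.rpow_le_rpow_of_exponent_ge P.eps P.eps1
          unfold ST.aa
          norm_num
      _ = q.eps := Real.rpow_one _
  have h50 : 0 ≤ q.eps ^ (-(2 * ST.aa)) := Real.rpow_nonneg P.eps.le _
  have hterm : q.GR * r ^ 2 * (Real.cosh u - 1) * q.eps ^ (-(2 * ST.aa)) *
      (tau t + r ^ 2 / 100) ^ (-ST.gam) ≤ 1 := by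
    have hGR := P.GR.le
    have hτg : 0 ≤ tau t ^ (-ST.gam) := Real.rpow_nonneg hτ.le _
    have hτl : 0 ≤ tau t ^ (2 * lam 3) := Real.rpow_nonneg hτ.le _
    calc q.GR * r ^ 2 * (Real.cosh u - 1) * q.eps ^ (-(2 * ST.aa)) *
          (tau t + r ^ 2 / 100) ^ (-ST.gam)
        ≤ q.GR * 1 * (q.MU ^ 2 * (q.eps ^ 2 * tau t ^ (2 * lam 3))) * q.eps ^ (-(2 * ST.aa)) *
          tau t ^ (-ST.gam) := by
          have : Real.cosh u - 1 ≤ q.MU ^ 2 * (q.eps ^ 2 * tau t ^ (2 * lam 3)) :=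
            hcosh.trans h3
          gcongr
      _ = (q.GR * q.MU ^ 2) * (q.eps ^ 2 * q.eps ^ (-(2 * ST.aa))) *
          (tau t ^ (2 * lam 3) * tau t ^ (-ST.gam)) := by ring
      _ ≤ (q.GR * q.MU ^ 2) * q.eps * 1 := by
          have : 0 ≤ q.GR * q.MU ^ 2 := by positivity
          have := P.eps.le
          have : 0 ≤ q.GR * q.MU ^ 2 * q.eps := by (clear * - hGR this; positivity)
          gcongr
      _ ≤ 1 := by
          have := P.epsGR
          linarith only [this]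
  have heta : q.eta ≤ 1 := by
    unfold Par.eta
    rw [div_le_one (by have := P.N; positivity)]
    have := P.N
    (by_contra nlg; linarith only [nlg, mul_nonneg (sub_nonneg.2 this) (sub_nonneg.2 this), mul_nonneg (le_of_lt (sub_pos.2 (not_le.1 nlg))) (sub_nonneg.2 this), mul_pos (sub_pos.2 (not_le.1 nlg)) (sub_pos.2 (not_le.1 nlg)), mul_nonneg (sq_nonneg (q.N : ℝ)) (sub_nonneg.2 this), mul_nonneg (sq_nonneg (q.N : ℝ)) (le_of_lt (sub_pos.2 (not_le.1 nlg)))])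
  have heta0 : 0 ≤ q.eta := by unfold Par.eta; positivity
  have hRB : q.RB t r u ≤ 3 := by
    unfold Par.RB
    nlinarith only [h0, h1, hterm, heta]
  nlinarith only [hr, hRB, sq_nonneg r]

variable {q : Par} {g : ℝ → ℝ} {w f : Fn} {T t : ℝ} {X U U1 U2 Z R : ℝ → ℝ → ℝ}

/-- oscillation of `U` to the right of the point `y = ρ₀` -/
theorem bd_osc (P : BdPar q) (h : ConfSol 20 w f T) (hq : Qual w f T) (hT1 : T ≤ 1)
    (ht : t ∈ Ico 0 T) (hR : RG.RSol 20 w f T X U U1 U2 Z R)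
    (hb : ∀ x ∈ Ico (0 : ℝ) 1, BootAt q g w f t x) (h0 : q.N / 4 ≤ rr w f t 0)
    (hsc : ∀ x ∈ Ioo (0 : ℝ) 1, RR w f t x = scal 20 (w t) (f t) x)
    {x₀ : ℝ} (hy₀ : yv w f t x₀ = q.rho0) {ρ : ℝ}
    (hρ : ρ ∈ Icc (rho w f t x₀) (rho w f t x₀ + 1 / 40)) :
    ρ < rho w f t 0 ∧ |U t ρ| ≤ q.MU * q.A t ∧
    |U t ρ - U t (rho w f t x₀)| ≤ 2 * (2 * q.rho0 * q.MP * q.A t) *
      Real.sqrt (ρ - rho w f t x₀) := by
  set a := rho w f t x₀ with ha
  have hτ : 0 < tau t := CV.tau_pos hT1 ht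
  have hτ1 : tau t ≤ 1 := by unfold tau; linarith only [ht, ht.1]
  have hsτ : 0 < Real.sqrt (tau t) := Real.sqrt_pos.2 hτ
  have hsτ1 : Real.sqrt (tau t) ≤ 1 := by
    rw [Real.sqrt_le_left (by norm_num)]; linarith only [hτ1]
  have hA0 := CV.A_pos P.eps hτ
  have hR0 := P.rho0
  have hR1 := P.rho0'
  have hexp40 : Real.exp (1 / 40 : ℝ) ≤ 2 := by
    have h7 := Real.add_one_le_exp (-(1 / 40) : ℝ)
    have h8 : Real.exp (1 / 40 : ℝ) * Real.exp (-(1 / 40) : ℝ) = 1 := by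
      rw [← Real.exp_add]; norm_num
    have h9 := Real.exp_pos (1 / 40 : ℝ)
    nlinarith only [hR0, hR1, h7, h8, h9]
  -- the radius at `x₀`
  have hra : Real.exp a = q.rho0 * Real.sqrt (tau t) := by
    have : yv w f t x₀ = Real.exp a / Real.sqrt (tau t) := rfl
    rw [hy₀] at this
    rw [this, div_mul_cancel₀ _ hsτ.ne']
  have hexpρ : ∀ r ∈ Icc a (a + 1 / 40), Real.exp r ≤ 2 * q.rho0 * Real.sqrt (tau t) := by
    intro r hr
    have h1 : Real.exp r ≤ Real.exp a * Real.exp (1 / 40) := by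
      rw [← Real.exp_add]
      exact Real.exp_le_exp.2 hr.2
    rw [hra] at h1
    have : 0 ≤ q.rho0 * Real.sqrt (tau t) := by positivity
    nlinarith only [hR0, hR1, hexp40, h1, this]
  have hlt : ∀ r ∈ Icc a (a + 1 / 40), r < rho w f t 0 := by
    intro r hr
    rw [← Real.exp_lt_exp]
    have h1 := hexpρ r hr
    have h2 : Real.exp (rho w f t 0) = rr w f t 0 := rfl
    rw [h2]
    have := P.N
    have h3 : 2 * q.rho0 * Real.sqrt (tau t) ≤ 1 := by nlinarith only [hsτ, hsτ1, hR1]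
    linarith only [h0, hR0, hR1, h1, this, h3]
  -- the points
  have hpt : ∀ r ∈ Icc a (a + 1 / 40), X t r ∈ Ioo (0 : ℝ) 1 ∧ rho w f t (X t r) = r :=
    fun r hr => X_spec hR ht (hlt r hr)
  have hyv : ∀ r ∈ Icc a (a + 1 / 40), q.rho0 ≤ yv w f t (X t r) ∧
      yv w f t (X t r) ≤ 2 * q.rho0 := by
    intro r hr
    have h1 : yv w f t (X t r) = Real.exp r / Real.sqrt (tau t) := by
      unfold yv rr
      rw [(hpt r hr).2]
    rw [h1]
    constructor
    · rw [le_div_iff₀ hsτ, ← hra]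
      exact Real.exp_le_exp.2 hr.1
    · rw [div_le_iff₀ hsτ]
      exact hexpρ r hr
  have hb4 : ∀ r ∈ Icc a (a + 1 / 40), |uu w f t (X t r)| ≤ q.MU * q.A t ∧
      |PP w f t (X t r)| ≤ q.MP * q.A t / Real.sqrt (tau t) := by
    intro r hr
    have hx := (hpt r hr).1
    obtain ⟨h1, h2⟩ := hyv r hr
    obtain ⟨h3, h4, -⟩ := (hb _ ⟨hx.1.le, hx.2⟩).b4 h1 (by linarith only [hR0, hR1, h2])
    exact ⟨h3, h4⟩
  have hU : ∀ r ∈ Icc a (a + 1 / 40), U t r = uu w f t (X t r) := fun r hr => by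
    have := CV.U_zt hR ht (hpt r hr).1
    rwa [(hpt r hr).2] at this
  have hU1 : ∀ r ∈ Icc a (a + 1 / 40), U1 t r = PP w f t (X t r) / rs w f t (X t r) :=
    fun r hr => by
      have := U1_rho h hR ht (hpt r hr).1
      rwa [(hpt r hr).2] at this
  have hZ : ∀ r ∈ Icc a (a + 1 / 40), Z t r = ZZ w f t (X t r) := fun r hr => by
    have := Z_rho h hR ht (hpt r hr).1
    rwa [(hpt r hr).2] at this
  have hRr : ∀ r ∈ Icc a (a + 1 / 40), R t r = RR w f t (X t r) := fun r hr => by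
    have := R_rho hR ht (hpt r hr).1
    rw [(hpt r hr).2] at this
    rw [this, hsc _ (hpt r hr).1]
  have hU1' : ∀ r ∈ Icc a (a + 1 / 40), |U1 t r| ≤ 2 := by
    intro r hr
    have h1 := hq.G_le t ht _ (hpt r hr).1
    unfold GG at h1
    rw [abs_neg] at h1
    rw [hU1 r hr]
    exact h1
  have hZd : ∀ r ∈ Icc a (a + 1 / 40), HasDerivAt (Z t)
      (39 * (Real.cosh (U t r) - Z t r) - Z t r * U1 t r ^ 2 / 4 -
        Real.exp (2 * r) * R t r / 40) r := by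
    intro r hr
    have h1 := hR.dZ (t, r) (mem_reg ht (hlt r hr))
    refine h1.congr_deriv ?_
    push_cast
    ring
  have hE : ∀ r ∈ Icc a (a + 1 / 40), Real.exp (2 * r) * R t r / 40 ≤ 1 := by
    intro r hr
    have hx := (hpt r hr).1
    have h3 := (hb _ ⟨hx.1.le, hx.2⟩).b3
    have h4 : rr w f t (X t r) = Real.exp r := by
      unfold rr
      rw [(hpt r hr).2]
    have h5 := hexpρ r hr
    have h6 : Real.exp r ≤ 1 := by nlinarith only [hsτ, hsτ1, hR1, h5]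
    have h7 : Real.exp r ^ 2 ≤ 1 := by (by_contra nlg; linarith only [nlg, mul_nonneg (sub_nonneg.2 h6) (le_of_lt (sub_pos.2 (Real.exp_pos r))), mul_nonneg (sub_nonneg.2 h6) (sub_nonneg.2 h6), mul_pos (sub_pos.2 (not_le.1 nlg)) (sub_pos.2 (Real.exp_pos r)), mul_nonneg (le_of_lt (sub_pos.2 (not_le.1 nlg))) (sub_nonneg.2 h6)])
    have h8 := RB_small P ht.1 (lt_of_lt_of_le ht.2 hT1) (Real.exp_pos r).le h7 (hb4 r hr).1
    rw [hRr r hr]
    rw [h4] at h3
    have h9 : Real.exp (2 * r) = Real.exp r ^ 2 := by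
      rw [← Real.exp_nat_mul]; norm_num
    rw [h9]
    have h10 : Real.exp r ^ 2 * RR w f t (X t r) ≤ Real.exp r ^ 2 *
      q.RB t (Real.exp r) (uu w f t (X t r)) := by gcongr
    linarith only [h8, h10]
  have hZ0 : ∀ r ∈ Icc a (a + 1 / 40), 0 ≤ Z t r := fun r hr =>
    (hR.Z_pos (t, r) (mem_reg ht (hlt r hr))).le
  have hZlow : ∀ r ∈ Icc a (a + 1 / 40), r - a ≤ Z t r := fun r hr =>
    Z_low hZd hZ0 hU1' hE hr
  have hder : ∀ r ∈ Icc a (a + 1 / 40), HasDerivAt (U t) (U1 t r) r := fun r hr =>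
    hR.d1 (t, r) (mem_reg ht (hlt r hr))
  have hK0 : 0 ≤ 2 * q.rho0 * q.MP * q.A t := by
    have := P.MP
    positivity
  have hbd : ∀ r ∈ Ioc a (a + 1 / 40), |U1 t r| * Real.sqrt (r - a) ≤
      2 * q.rho0 * q.MP * q.A t := by
    intro r hr
    have hr' := Ioc_subset_Icc_self hr
    have h1 : Real.sqrt (r - a) ≤ Real.sqrt (Z t r) := Real.sqrt_le_sqrt (hZlow r hr')
    have hrs := hq.rs_pos t ht _ (hpt r hr').1
    have hrr : 0 < rr w f t (X t r) := Real.exp_pos _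
    have h2 : |U1 t r| * Real.sqrt (Z t r) = rr w f t (X t r) * |PP w f t (X t r)| := by
      rw [hU1 r hr', hZ r hr', abs_div, abs_of_pos hrs]
      have : ZZ w f t (X t r) = (rr w f t (X t r) * rs w f t (X t r)) ^ 2 := by
        unfold ZZ
        ring
      rw [this, Real.sqrt_sq (by positivity)]
      field_simp
    have h3 : |U1 t r| * Real.sqrt (r - a) ≤ |U1 t r| * Real.sqrt (Z t r) := by gcongr
    refine h3.trans ?_
    rw [h2]
    have h4 : rr w f t (X t r) ≤ 2 * q.rho0 * Real.sqrt (tau t) := by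
      have : rr w f t (X t r) = Real.exp r := by
        unfold rr
        rw [(hpt r hr').2]
      rw [this]
      exact hexpρ r hr'
    have h5 := (hb4 r hr').2
    calc rr w f t (X t r) * |PP w f t (X t r)|
        ≤ (2 * q.rho0 * Real.sqrt (tau t)) * (q.MP * q.A t / Real.sqrt (tau t)) := by
          gcongr
      _ = 2 * q.rho0 * q.MP * q.A t := by
          field_simp
  refine ⟨hlt ρ hρ, ?_, U_osc hK0 hder hbd hρ⟩
  rw [hU ρ hρ]
  exact (hb4 ρ hρ).1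

end Vale.Agent.P244.ST.SS
end

section

/-!
# P244 / ST / S : the boundary value at `y = ρ₀` (proof of `BdStatement`)
-/

open Set MeasureTheory Filter Topology
open scoped ContDiff

namespace Vale.Agent.P244.ST.SS

/-- `l₃` as a function -/
noncomputable def l3 (z : ℝ) : ℝ := (Lag.ell (SS.aa kap) 3).eval z

theorem l3_zero : l3 0 = 1 := by
  unfold l3
  rw [← Polynomial.coeff_zero_eq_eval_zero, Lag.coeff_ell]
  unfold Lag.cf
  simp

theorem l3_lip : ∃ L : ℝ, 0 < L ∧ ∀ z ∈ Icc (0 : ℝ) 1, ∀ z' ∈ Icc (0 : ℝ) 1,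
    |l3 z - l3 z'| ≤ L * |z - z'| := by
  have hc : Continuous fun z => (Polynomial.derivative (Lag.ell (SS.aa kap) 3)).eval z :=
    (Polynomial.derivative (Lag.ell (SS.aa kap) 3)).continuous
  obtain ⟨M, hM⟩ := isCompact_Icc.exists_bound_of_continuousOn (s := Icc (0 : ℝ) 1) hc.continuousOn
  refine ⟨|M| + 1, by positivity, fun z hz z' hz' => ?_⟩
  have h := Convex.norm_image_sub_le_of_norm_hasDerivWithin_le (f := l3) (C := |M| + 1)
    (s := Icc (0 : ℝ) 1) (fun x _ => ((Lag.ell (SS.aa kap) 3).hasDerivAt x).hasDerivWithinAt)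
    (fun x hx => (hM x hx).trans (by linarith only [le_abs_self M])) (convex_Icc 0 1) hz' hz
  simpa [Real.norm_eq_abs] using h

/-- Lipschitz constant of `l₃` on `[0,1]` -/
noncomputable def L3 : ℝ := l3_lip.choose

theorem L3_pos : 0 < L3 := l3_lip.choose_spec.1

theorem L3_spec {z z' : ℝ} (hz : z ∈ Icc (0 : ℝ) 1) (hz' : z' ∈ Icc (0 : ℝ) 1) :
    |l3 z - l3 z'| ≤ L3 * |z - z'| := l3_lip.choose_spec.2 z hz z' hz'

/-- `zR = ρ₀²/4` -/
noncomputable def zR (q : Par) : ℝ := q.rho0 ^ 2 / 4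

/-- the oscillation constant -/
noncomputable def KO (q : Par) : ℝ := 3 * q.MU + 4 * q.MP + L3

/-- sum of the norms -/
noncomputable def SN : ℝ := 1 + ∑ i ∈ Finset.range 3, nu kap i ^ 2 + nu kap 3 ^ 2

/-- the constant in front of `sg` -/
noncomputable def KB (q : Par) : ℝ :=
  2 * ((Lag.wlow (SS.aa kap) (zR q) (2 * zR q))⁻¹ * SN) / zR q + 2 * KO q ^ 2 + 1

/-- the choice of `ch` equal to one -/
theorem ch_one {d N s z : ℝ} (h1 : 4 * z0 d s ≤ z) (hd : 0 < d) (h2 : be N s z ≤ 1) :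
    ch d N s z = 1 := by
  unfold ch
  have h3 : 4 ≤ z / z0 d s := by
    rw [le_div_iff₀ (z0_pos hd s)]
    exact h1
  rw [xi_one h3, xi_zero h2]
  ring

variable {q : Par} {g : ℝ → ℝ} {w f : Fn} {T t : ℝ} {X U U1 U2 Z R : ℝ → ℝ → ℝ}

/-- value of the normalised function near `zR` -/
theorem hh_near (P : BdPar q) (h0 : 0 ≤ t) (h1 : t < 1) {z : ℝ} (hz : z ∈ Icc (zR q) (2 * zR q)) :
    hh q U t z = wk kap z * U t (lr (st t) z) / q.A t := by
  have hτ : 0 < tau t := by unfold tau; linarith only [h1]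
  have hR0 := P.rho0
  have hst : 0 ≤ st t := by
    unfold st
    have := Real.log_nonpos (by linarith only [h1] : 0 ≤ 1 - t) (by linarith only [h0])
    linarith only [this]
  have hz0 : 0 < zR q := by unfold zR; positivity
  have hch : ch q.d0 q.N (st t) z = 1 := by
    apply ch_one
    · unfold z0
      have h2 : Real.exp (-st t / 5) ≤ 1 := by
        rw [Real.exp_le_one_iff]; linarith only [hst]
      have h3 := P.d0'
      have h4 := P.d0
      have h5 : q.d0 ^ 2 ≤ q.rho0 ^ 2 / 4 := by nlinarith only [hR0, h3, h4]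
      have h6 := hz.1
      unfold zR at h6
      nlinarith only [h2, h5, h6, Real.exp_pos (-st t / 5), sq_nonneg q.d0]
    · exact P.d0
    · unfold be
      have hN := P.N
      rw [div_le_one (by linarith only [hN])]
      have h2 : Real.exp (-st t) ≤ 1 := by
        rw [Real.exp_le_one_iff]; linarith only [hst]
      have h6 := hz.2
      unfold zR at h6
      have h7 := P.rho0'
      have h8 : z ≤ 1 := by nlinarith only [hR0, h6, h7]
      nlinarith only [hz, hR0, hz0, hN, h2, h6, h7, Real.exp_pos (-st t), hz0.trans_le hz.1]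
  unfold hh HH
  rw [hch, CV.tt_st hτ, CV.Am_eq hτ, one_mul]

theorem wk_near {z a l : ℝ} (ha : 0 < a) (hl : 0 ≤ l) (hl1 : l ≤ 1) (h1 : a ≤ z)
    (h2 : z ≤ a * (1 + l)) (h4a : 4 * a ≤ 1) :
    0 < wk kap a ∧ wk kap a ≤ 1 ∧ wk kap a ≤ wk kap z ∧ wk kap z ≤ wk kap a + 3 * l := by
  have hk := kkap
  have hk0 : 0 ≤ kap / 2 := by linarith only [hk.lo, h4a, ha]
  have hz : 0 < z := ha.trans_le h1
  unfold wk
  have e1 : (0 : ℝ) < (4 * a) ^ (kap / 2) := Real.rpow_pos_of_pos (by linarith only [ha]) _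
  have e2 : (4 * a) ^ (kap / 2) ≤ 1 := Real.rpow_le_one (by linarith only [ha]) h4a hk0
  refine ⟨e1, e2, Real.rpow_le_rpow (by linarith only [ha]) (by linarith only [h1]) hk0, ?_⟩
  have e3 : (4 * z) ^ (kap / 2) ≤ (4 * a * (1 + l)) ^ (kap / 2) :=
    Real.rpow_le_rpow (by linarith only [ha, h1]) (by linarith only [h2]) hk0
  rw [Real.mul_rpow (x := 4 * a) (y := 1 + l) (by linarith only [ha]) (by linarith only [ha, hl, h4a])] at e3
  have e4 : (1 + l) ^ (kap / 2) ≤ (1 + l) ^ (2 : ℝ) :=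
    Real.rpow_le_rpow_of_exponent_le (by linarith only [hl]) (by linarith only [ha, h4a, hk, hk.hi])
  rw [Real.rpow_two] at e4
  have e5 : (1 + l) ^ 2 ≤ 1 + 3 * l := by linarith only [mul_nonneg (sub_nonneg.2 hl) (sub_nonneg.2 hl1)]
  have e6 : 0 ≤ (1 + l) ^ (kap / 2) := Real.rpow_nonneg (by linarith only [ha, hl, h4a]) _
  nlinarith only [ha, hl, h4a, e1, e2, e3, e4, e5]

/-- the normalised function is admissible for the `L²` theory -/
theorem hh_adm (P : BdPar q) (h : ConfSol 20 w f T) (hT : 0 < T) (hT1 : T ≤ 1)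
    (hR : RG.RSol 20 w f T X U U1 U2 Z R) {t₁ : ℝ} (ht₁ : t₁ ∈ Ico 0 T)
    (hb0 : ∀ t ∈ Icc 0 t₁, q.N / 4 ≤ rr w f t 0) (ht : t ∈ Icc 0 t₁) :
    (∀ z > 0, HasDerivAt (hh q U t) (H1 kap q.eps q.d0 q.N U U1 (st t) z) z) ∧
    (ContinuousOn (H1 kap q.eps q.d0 q.N U U1 (st t)) (Ioi 0)) ∧
    (∃ c₁ > 0, ∃ c₂ : ℝ, ∀ z > 0, z ∉ Icc c₁ c₂ → hh q U t z = 0) ∧
    2 * Real.sqrt q.N < rr w f t 0 := by
  have hsq : ∀ t ∈ Icc 0 t₁, 2 * Real.sqrt q.N < rr w f t 0 := by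
    intro t ht
    refine lt_of_lt_of_le ?_ (hb0 t ht)
    have hN := P.N
    have h2 : Real.sqrt q.N * Real.sqrt q.N = q.N := Real.mul_self_sqrt (by linarith only [hN])
    have h3 : 10 ≤ Real.sqrt q.N := Real.le_sqrt_of_sq_le (by linarith only [hN])
    nlinarith only [hN, h2, h3]
  obtain ⟨t', ht', hreg⟩ := region_ext h ht₁ hsq
  have ht'1 : t' < 1 := lt_of_lt_of_le ht'.2 hT1
  have hτ' : 0 < tau t' := by unfold tau; linarith only [ht'1]
  have htt : tt (st t') = t' := CV.tt_st hτ'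
  have ht0 : 0 < t' := lt_of_le_of_lt ht₁.1 ht'.1
  have hst' : 0 < st t' := by
    unfold st
    have := Real.log_neg (by linarith : 0 < 1 - t') (by linarith only [ht0])
    linarith only [this]
  have hF := s3 kap q.eps q.d0 q.N kkap P.eps P.d0 (by linarith only [P, ht'1, ht0, P.N]) T hT w f X U U1 U2 Z R hR
    (st t') hst' (by rw [htt]; exact ht'.2) (by
      intro s hs
      rw [htt] at hs
      have h1 := hreg s hs
      rw [CV.rh_eq, ← Real.exp_lt_exp]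
      have h2 : Real.exp (rho w f s 0) = rr w f s 0 := rfl
      rw [h2]
      have hN : 0 < q.N := by linarith only [P, ht'1, ht0, P.N]
      have h3 : Real.exp (Real.log (4 * q.N) / 2) = 2 * Real.sqrt q.N := by
        rw [← Real.log_sqrt (by linarith), Real.exp_log (Real.sqrt_pos.2 (by linarith)),
          Real.sqrt_mul (by norm_num)]
        congr 1
        rw [show (4 : ℝ) = 2 ^ 2 by norm_num, Real.sqrt_sq (by norm_num)]
      rw [h3]
      exact h1)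
  have hmem : st t ∈ Icc 0 (st t') := by
    constructor
    · unfold st
      have := Real.log_nonpos (by linarith only [ht, ht', ht'1, ht.2, ht'.1] : 0 ≤ 1 - t) (by linarith [ht.1])
      linarith
    · unfold st
      have := Real.log_le_log (by linarith : 0 < 1 - t') (by linarith [ht.2, ht'.1] : 1 - t' ≤ 1 - t)
      linarith
  refine ⟨fun z hz => hF.d1 _ hmem z hz, ?_, ?_, hsq t ht⟩
  · exact hF.cH1.comp (f := fun z : ℝ => ((st t, z) : ℝ × ℝ)) (by fun_prop) (fun z hz => ⟨hmem, hz⟩)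
  · obtain ⟨c₁, hc₁, c₂, -, hs⟩ := hF.supp
    exact ⟨c₁, hc₁, c₂, fun z hz hz' => (hs _ hmem z hz hz').1⟩

/-- averaging -/
theorem avg_lemma {v2 : ℝ → ℝ} {zr l I c v0 : ℝ} (hzr : 0 < zr) (hl : 0 < l) (hl1 : l ≤ 1)
    (hc : ContinuousOn v2 (Icc zr (2 * zr))) (h0 : ∀ z, 0 ≤ v2 z)
    (hI : ∫ z in zr..(2 * zr), v2 z ≤ I)
    (hv : ∀ z ∈ Icc zr (zr * (1 + l)), v0 ≤ 2 * v2 z + c) :
    (zr * l) * v0 ≤ 2 * I + (zr * l) * c := by
  have hle2 : zr * (1 + l) ≤ 2 * zr := by nlinarith only [hzr, hl1]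
  have hle1 : zr ≤ zr * (1 + l) := by linarith [mul_pos (sub_pos.2 hzr) (sub_pos.2 hl)]
  have hcl : ContinuousOn v2 (Icc zr (zr * (1 + l))) := hc.mono (Icc_subset_Icc le_rfl hle2)
  have hi1 : IntervalIntegrable v2 volume zr (zr * (1 + l)) := by
    apply ContinuousOn.intervalIntegrable
    rwa [uIcc_of_le hle1]
  have h5 : ∫ z in zr..(zr * (1 + l)), v2 z ≤ ∫ z in zr..(2 * zr), v2 z := by
    refine intervalIntegral.integral_mono_interval le_rfl hle1 hle2 ?_ ?_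
    · exact Eventually.of_forall fun x => h0 x
    · apply ContinuousOn.intervalIntegrable
      rwa [uIcc_of_le (by linarith only [hzr])]
  have h6 : ∫ z in zr..(zr * (1 + l)), v0 ≤ ∫ z in zr..(zr * (1 + l)), (2 * v2 z + c) :=
    intervalIntegral.integral_mono_on hle1 intervalIntegrable_const
      ((hi1.const_mul 2).add intervalIntegrable_const) hv
  rw [intervalIntegral.integral_const, smul_eq_mul, intervalIntegral.integral_add
    (hi1.const_mul 2) intervalIntegrable_const,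
    intervalIntegral.integral_const_mul, intervalIntegral.integral_const, smul_eq_mul] at h6
  have e1 : zr * (1 + l) - zr = zr * l := by ring
  rw [e1] at h6
  linarith only [hI, h5, h6]

theorem bd_glob (P : BdPar q) (h : ConfSol 20 w f T) (hq : Qual w f T) (hT : 0 < T) (hT1 : T ≤ 1)
    (hR : RG.RSol 20 w f T X U U1 U2 Z R) (htT : t ∈ Ico 0 T) (h6 : Boot6At q w f t)
    (hreg : 2 * Real.sqrt q.N < rr w f t 0) (hm : MemLp (hh q U t) 2 (Lag.mu (SS.aa kap))) :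
    ∫ z, (hh q U t z - l3 z) ^ 2 ∂(Lag.mu (SS.aa kap)) ≤ q.sg ^ 2 * SN := by
  have hl0 : 0 < q.sg := P.sg
  have hmodes : (∀ i : ℕ, gami q w f i t = SS.gam kap i (hh q U t)) ∧
      enU q w f t = (4 : ℝ) ^ (20 - kap) * Ex kap (hh q U t) :=
    CV.cv q P.d0 (by linarith only [P, P.N]) P.eps w f T hT hT1 h hq X U U1 U2 Z R hR t htT hreg
  have hEx : Ex kap (hh q U t) ≤ q.sg ^ 2 := by
    have h7 := h6.en
    rw [hmodes.2] at h7
    have h8 : (1 : ℝ) ≤ (4 : ℝ) ^ (20 - kap) :=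
      Real.one_le_rpow (by norm_num) (by linarith only [kkap.hi])
    by_contra hc
    push Not at hc
    have h9 : 0 < q.sg ^ 2 := by positivity
    linarith only [mul_nonneg (sub_nonneg.2 h8) (le_of_lt (sub_pos.2 hc)), mul_nonneg (sq_nonneg (q.sg : ℝ)) (sub_nonneg.2 h8), hc, h7]
  have e := dist_sq kkap hm
  unfold l3
  rw [e]
  unfold SN
  have h3 : (nu kap 3 * (SS.gam kap 3 (hh q U t) - 1)) ^ 2 ≤ q.sg ^ 2 * nu kap 3 ^ 2 := by
    rw [mul_pow, mul_comm]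
    refine mul_le_mul_of_nonneg_right ?_ (sq_nonneg _)
    rw [← sq_abs, ← hmodes.1 3]
    exact pow_le_pow_left₀ (abs_nonneg _) h6.main 2
  have h4 : ∑ i ∈ Finset.range 3, (nu kap i * SS.gam kap i (hh q U t)) ^ 2 ≤
      q.sg ^ 2 * ∑ i ∈ Finset.range 3, nu kap i ^ 2 := by
    rw [Finset.mul_sum]
    refine Finset.sum_le_sum fun i hi => ?_
    rw [mul_pow, mul_comm]
    refine mul_le_mul_of_nonneg_right ?_ (sq_nonneg _)
    rw [← sq_abs, ← hmodes.1 i]
    exact pow_le_pow_left₀ (abs_nonneg _) (h6.low i (Finset.mem_range.1 hi)) 2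
  linarith only [hEx, h3, h4]

/-- algebra of the oscillation estimate -/
theorem osc_alg {wr wz Ur Uz A MU MP l L lr' lz : ℝ} (hA : 0 < A) (hl : 0 < l) (hl1 : l ≤ 1)
    (hMU : 0 < MU) (hMP : 0 < MP) (w1 : 0 < wr) (w2 : wr ≤ 1) (w3 : wr ≤ wz)
    (w4 : wz ≤ wr + 3 * l) (hU : |Uz| ≤ MU * A) (hdU : |Uz - Ur| ≤ 2 * MP * A * Real.sqrt l)
    (hdl : |lz - lr'| ≤ L * Real.sqrt l) :
    |wr * Ur / A - lr'| ≤ |wz * Uz / A - lz| + (3 * MU + 4 * MP + L) * Real.sqrt l := by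
  have hsl : l ≤ Real.sqrt l := by
    have h3 := Real.mul_self_sqrt hl.le
    have h4 : Real.sqrt l ≤ 1 := by
      rw [Real.sqrt_le_left (by norm_num)]; linarith only [hl1]
    linarith only [mul_nonneg (sub_nonneg.2 h4) (sub_nonneg.2 (Real.sqrt_nonneg l)), mul_eq_zero_of_left (sub_eq_zero.2 h3) (√l - (0)), mul_eq_zero_of_left (sub_eq_zero.2 h3) (1 - (√l))]
  have hs0 := Real.sqrt_nonneg l
  have hdh : |wr * Ur / A - wz * Uz / A| ≤ (3 * MU + 4 * MP) * Real.sqrt l := by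
    have e1 : wr * Ur / A - wz * Uz / A = -((wr * (Uz - Ur) + (wz - wr) * Uz) / A) := by ring
    rw [e1, abs_neg, abs_div, abs_of_pos hA, div_le_iff₀ hA]
    refine (abs_add_le _ _).trans ?_
    rw [abs_mul, abs_mul, abs_of_pos w1, abs_of_nonneg (sub_nonneg.2 w3)]
    have h3 : wr * |Uz - Ur| ≤ 1 * (2 * MP * A * Real.sqrt l) :=
      mul_le_mul w2 hdU (abs_nonneg _) (by norm_num)
    have h4 : (wz - wr) * |Uz| ≤ (3 * l) * (MU * A) :=
      mul_le_mul (by linarith only [w4]) hU (abs_nonneg _) (by positivity)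
    have h5 : (3 * l) * (MU * A) ≤ 3 * Real.sqrt l * (MU * A) :=
      mul_le_mul_of_nonneg_right (by linarith only [hsl]) (by positivity)
    have h6 : 0 ≤ MP * A * Real.sqrt l := by positivity
    have e2 : (3 * MU + 4 * MP) * Real.sqrt l * A =
      3 * Real.sqrt l * (MU * A) + 2 * MP * A * Real.sqrt l + 2 * (MP * A * Real.sqrt l) := by ring
    rw [e2]
    linarith only [h3, h4, h5, h6]
  have e2 : wr * Ur / A - lr' = (wz * Uz / A - lz) +
      ((wr * Ur / A - wz * Uz / A) + (lz - lr')) := by ring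
  rw [e2]
  refine (abs_add_le _ _).trans (add_le_add le_rfl ((abs_add_le _ _).trans ?_))
  linarith only [hdh, hdl]

theorem lr_diff {s z zr : ℝ} (hz : 0 < z) (hzr : 0 < zr) :
    lr s z - lr s zr = Real.log (z / zr) / 2 := by
  unfold lr
  rw [Real.log_div hz.ne' hzr.ne', Real.log_mul (by norm_num) hz.ne',
    Real.log_mul (by norm_num) hzr.ne']
  ring

theorem log_le_of {z zr l : ℝ} (hzr : 0 < zr) (h1 : zr ≤ z) (h2 : z ≤ zr * (1 + l)) :
    0 ≤ Real.log (z / zr) ∧ Real.log (z / zr) ≤ l := by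
  have hz0 : 0 < z := hzr.trans_le h1
  refine ⟨Real.log_nonneg (by rw [le_div_iff₀ hzr]; linarith only [h1]), ?_⟩
  have h3 : z / zr ≤ 1 + l := by
    rw [div_le_iff₀ hzr]
    linarith only [h2]
  have h4 := Real.log_le_sub_one_of_pos (div_pos hz0 hzr)
  linarith only [h3, h4]

/-- oscillation of the normalised function -/
theorem bd_osc2 (P : BdPar q) (h : ConfSol 20 w f T) (hq : Qual w f T) (hT1 : T ≤ 1)
    (hR : RG.RSol 20 w f T X U U1 U2 Z R) (htT : t ∈ Ico 0 T)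
    (hb : ∀ x ∈ Ico (0 : ℝ) 1, BootAt q g w f t x) (hb0 : q.N / 4 ≤ rr w f t 0)
    (hsc : ∀ x ∈ Ioo (0 : ℝ) 1, RR w f t x = scal 20 (w t) (f t) x)
    {x₀ : ℝ} (hy₀ : yv w f t x₀ = q.rho0) {z : ℝ} (hz : z ∈ Icc (zR q) (zR q * (1 + q.sg))) :
    |hh q U t (zR q) - l3 (zR q)| ≤ |hh q U t z - l3 z| + KO q * Real.sqrt q.sg := by
  have ht1 : t < 1 := lt_of_lt_of_le htT.2 hT1
  have hτ : 0 < tau t := CV.tau_pos hT1 htT
  have hA0 := CV.A_pos P.eps hτ
  have hR0 := P.rho0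
  have hR1 := P.rho0'
  have hzr0 : 0 < zR q := by unfold zR; positivity
  have hzr1 : 4 * zR q ≤ 1 := by unfold zR; nlinarith only [hR0, hR1]
  have hl0 := P.sg
  have hl1 := P.sg'
  have hzt : CV.zt w f t x₀ = zR q := by
    unfold CV.zt zR
    rw [hy₀]
  have hlr : lr (st t) (zR q) = rho w f t x₀ := by
    rw [← hzt]
    exact CV.lr_zt hτ x₀
  have hz0 : 0 < z := hzr0.trans_le hz.1
  have hz2 : z ≤ 2 * zR q := by nlinarith only [hz, hzr0, hzr1, hl1, hz.2]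
  have hlz := lr_diff (s := st t) hz0 hzr0
  rw [hlr] at hlz
  obtain ⟨hlog0, hlog1⟩ := log_le_of hzr0 hz.1 hz.2
  have hρ : lr (st t) z ∈ Icc (rho w f t x₀) (rho w f t x₀ + 1 / 40) :=
    ⟨by linarith only [hlz, hlog0], by linarith only [hl0, hl1, hlz, hlog1]⟩
  obtain ⟨-, hU1, hU2⟩ := bd_osc P h hq hT1 htT hR hb hb0 hsc hy₀ hρ
  obtain ⟨w1, w2, w3, w4⟩ := wk_near hzr0 hl0.le (by linarith only [hl0, hl1]) hz.1 hz.2 hzr1
  rw [hh_near P htT.1 ht1 ⟨le_rfl, by linarith only [hzr0]⟩, hh_near P htT.1 ht1 ⟨hz.1, hz2⟩, hlr]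
  have hMP := P.MP
  have hdU : |U t (lr (st t) z) - U t (rho w f t x₀)| ≤ 2 * q.MP * q.A t * Real.sqrt q.sg := by
    refine hU2.trans ?_
    have h3 : Real.sqrt (lr (st t) z - rho w f t x₀) ≤ Real.sqrt q.sg := by
      apply Real.sqrt_le_sqrt
      rw [hlz]
      linarith only [hl0, hlog1]
    have h4 : 2 * (2 * q.rho0 * q.MP * q.A t) ≤ 2 * q.MP * q.A t := by
      have : 0 ≤ q.MP * q.A t := by positivity
      nlinarith only [hR1, this]
    exact mul_le_mul h4 h3 (Real.sqrt_nonneg _) (by positivity)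
  have hdl : |l3 z - l3 (zR q)| ≤ L3 * Real.sqrt q.sg := by
    have hz1 : z ∈ Icc (0 : ℝ) 1 := ⟨hz0.le, by linarith only [hz2, hl1, hl0, hzr1]⟩
    refine (L3_spec hz1 ⟨hzr0.le, by linarith only [hzr1, hl0, hl1]⟩).trans ?_
    refine mul_le_mul_of_nonneg_left ?_ L3_pos.le
    rw [abs_of_nonneg (by linarith only [hz, hz.1])]
    have hsl : q.sg ≤ Real.sqrt q.sg := by
      have h3 := Real.mul_self_sqrt hl0.le
      have h4 : Real.sqrt q.sg ≤ 1 := by
        rw [Real.sqrt_le_left (by norm_num)]; linarith only [hl0, hl1]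
      nlinarith only [hl0, hl1, h3, h4, Real.sqrt_nonneg q.sg]
    nlinarith only [hz, hR0, hR1, hzr1, hl0, hsl, hz.2]
  exact osc_alg hA0 hl0 (by linarith only [hl0, hl1]) P.MU hMP w1 w2 w3 w4 hU1 hdU hdl

theorem bd_small (P : BdPar q) (hK : q.sg * KB q ≤ 1 / 10000)
    (h : ConfSol 20 w f T) (hq : Qual w f T) (hT : 0 < T) (hT1 : T ≤ 1)
    (hR : RG.RSol 20 w f T X U U1 U2 Z R) {t₁ : ℝ} (ht₁ : t₁ ∈ Ico 0 T)
    (hB : Boot q g w f t₁)
    (hsc : ∀ t ∈ Ico 0 T, ∀ x ∈ Ioo (0 : ℝ) 1, RR w f t x = scal 20 (w t) (f t) x)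
    (ht : t ∈ Icc 0 t₁) {x₀ : ℝ} (hy₀ : yv w f t x₀ = q.rho0) :
    |hh q U t (zR q) - l3 (zR q)| ≤ 1 / 100 := by
  have htT : t ∈ Ico 0 T := ⟨ht.1, lt_of_le_of_lt ht.2 ht₁.2⟩
  have hR0 := P.rho0
  have hzr0 : 0 < zR q := by unfold zR; positivity
  have hl0 := P.sg
  have hl1 := P.sg'
  obtain ⟨hd1, hd1c, ⟨c₁, hc₁, c₂, hsupp⟩, hreg⟩ := hh_adm P h hT hT1 hR ht₁ hB.b0 ht
  have hhc : ContinuousOn (hh q U t) (Ioi 0) := fun z hz =>
    (hd1 z hz).continuousAt.continuousWithinAt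
  have hm := memLp_of_supp (k := kap) kkap hc₁ hhc hsupp
  have hglob := bd_glob P h hq hT hT1 hR htT (hB.b6 t ht) hreg hm
  have hKO : 0 < KO q := by
    unfold KO
    have := P.MU
    have := P.MP
    have := L3_pos
    positivity
  set v0 := |hh q U t (zR q) - l3 (zR q)| with hv0
  have hv00 : 0 ≤ v0 := abs_nonneg _
  have hsq : ∀ z ∈ Icc (zR q) (zR q * (1 + q.sg)), v0 ^ 2 ≤
      2 * (hh q U t z - l3 z) ^ 2 + 2 * KO q ^ 2 * q.sg := by
    intro z hz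
    have h3 := bd_osc2 P h hq hT1 hR htT (fun x hx => hB.b5 t ht x hx) (hB.b0 t ht)
      (hsc t htT) hy₀ hz
    have h4 := Real.mul_self_sqrt hl0.le
    have h5 : v0 ^ 2 ≤ (|hh q U t z - l3 z| + KO q * Real.sqrt q.sg) ^ 2 :=
      pow_le_pow_left₀ hv00 h3 2
    have h6 := sq_abs (hh q U t z - l3 z)
    linarith only [mul_eq_zero_of_left (sub_eq_zero.2 h4) (0 - (0 - KO q ^ 2)), sq_nonneg (|hh q U t z - l3 z| - KO q * Real.sqrt q.sg), h6, h5]
  have hposI : Icc (zR q) (2 * zR q) ⊆ Ioi 0 := fun x hx => lt_of_lt_of_le hzr0 hx.1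
  have hl3c : Continuous l3 := (Lag.ell (SS.aa kap) 3).continuous
  have hvc : ContinuousOn (fun z => (hh q U t z - l3 z) ^ 2) (Icc (zR q) (2 * zR q)) :=
    ((hhc.mono hposI).sub hl3c.continuousOn).pow 2
  have hwm : MemLp (fun z => hh q U t z - l3 z) 2 (Lag.mu (SS.aa kap)) :=
    hm.sub (Lag.poly_memLp kkap.neg_one_lt' (Lag.ell (SS.aa kap) 3))
  have h6 := Lag.integral_le_mu (a := SS.aa kap) hzr0 (by linarith only [hzr0] : zR q ≤ 2 * zR q) hvc
    (fun z _ => sq_nonneg _) hwm.integrable_sq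
  have hI1 : ∫ z in (zR q)..(2 * zR q), (hh q U t z - l3 z) ^ 2 ≤
      (Lag.wlow (SS.aa kap) (zR q) (2 * zR q))⁻¹ * (q.sg ^ 2 * SN) :=
    h6.trans (mul_le_mul_of_nonneg_left hglob (inv_nonneg.2 (Lag.wlow_pos hzr0 (by linarith only [hzr0])).le))
  have hI2 := avg_lemma hzr0 hl0 (by linarith only [hl0, hl1]) hvc (fun z => sq_nonneg _) hI1 hsq
  have hfin : v0 ^ 2 ≤ 1 / 10000 := by
    have h5 : v0 ^ 2 ≤ q.sg * (2 * ((Lag.wlow (SS.aa kap) (zR q) (2 * zR q))⁻¹ * SN) / zR q +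
        2 * KO q ^ 2) := by
      have h6 : (zR q * q.sg) * (q.sg * (2 * ((Lag.wlow (SS.aa kap) (zR q) (2 * zR q))⁻¹ * SN) /
          zR q + 2 * KO q ^ 2)) =
          2 * ((Lag.wlow (SS.aa kap) (zR q) (2 * zR q))⁻¹ * (q.sg ^ 2 * SN)) +
          (zR q * q.sg) * (2 * KO q ^ 2 * q.sg) := by
        field_simp
      rw [← h6] at hI2
      exact le_of_mul_le_mul_left hI2 (by positivity)
    unfold KB at hK
    linarith only [h5, hl0, hK]
  by_contra hc
  push Not at hc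
  nlinarith only [hl0, hl1, hv00, hfin, hc]

theorem bd_at (P : BdPar q) (hK : q.sg * KB q ≤ 1 / 10000) (hl3 : |l3 (zR q) - 1| ≤ 1 / 100)
    (h : ConfSol 20 w f T) (hq : Qual w f T) (hT : 0 < T) (hT1 : T ≤ 1)
    (hR : RG.RSol 20 w f T X U U1 U2 Z R) {t₁ : ℝ} (ht₁ : t₁ ∈ Ico 0 T)
    (hB : Boot q g w f t₁)
    (hsc : ∀ t ∈ Ico 0 T, ∀ x ∈ Ioo (0 : ℝ) 1, RR w f t x = scal 20 (w t) (f t) x)
    (ht : t ∈ Icc 0 t₁) {x₀ : ℝ} (hx₀ : x₀ ∈ Ioo (0 : ℝ) 1) (hy₀ : yv w f t x₀ = q.rho0) :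
    9 / 10 * q.T0 t ≤ Real.tanh (uu w f t x₀) ∧ Real.tanh (uu w f t x₀) ≤ 11 / 10 * q.T0 t := by
  have htT : t ∈ Ico 0 T := ⟨ht.1, lt_of_le_of_lt ht.2 ht₁.2⟩
  have ht1 : t < 1 := lt_of_lt_of_le htT.2 hT1
  have hτ : 0 < tau t := CV.tau_pos hT1 htT
  have hA0 := CV.A_pos P.eps hτ
  have hAe := A_le_eps P.eps ht.1 ht1
  have hR0 := P.rho0
  have h8 := bd_small P hK h hq hT hT1 hR ht₁ hB hsc ht hy₀
  have hzr0 : 0 < zR q := by unfold zR; positivity
  have hzt : CV.zt w f t x₀ = zR q := by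
    unfold CV.zt zR
    rw [hy₀]
  have hlr : lr (st t) (zR q) = rho w f t x₀ := by
    rw [← hzt]
    exact CV.lr_zt hτ x₀
  have hU0 : uu w f t x₀ = U t (rho w f t x₀) := (CV.U_zt hR htT hx₀).symm
  have hhR : hh q U t (zR q) = wk kap (zR q) * U t (rho w f t x₀) / q.A t := by
    rw [hh_near P ht.1 ht1 ⟨le_rfl, by linarith only [hzr0]⟩, hlr]
  have hwk : wk kap (zR q) = q.rho0 ^ kap := by
    rw [← hzt, CV.wk_eq hτ, hy₀]
  have hwp : 0 < q.rho0 ^ kap := Real.rpow_pos_of_pos hR0 _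
  have hT0 : q.T0 t = q.A t / q.rho0 ^ kap := by
    unfold Par.T0
    rw [Real.rpow_neg hR0.le]
    rfl
  have hT0p : 0 < q.T0 t := by rw [hT0]; positivity
  have hval : uu w f t x₀ = hh q U t (zR q) * q.T0 t := by
    rw [hU0, hhR, hwk, hT0]
    field_simp
  have h9 := abs_le.1 h8
  have h10 := abs_le.1 hl3
  have hT01 : q.T0 t ≤ 1 / 10 := by
    have h11 := P.epsT
    unfold Par.T0
    have h12 : 0 < q.rho0 ^ (-kap) := Real.rpow_pos_of_pos hR0 _
    nlinarith only [hAe, h11, h12]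
  refine tanh_bounds hT0p hT01 ?_ ?_
  · rw [hval]
    nlinarith only [hT0p, h9, h10]
  · rw [hval]
    nlinarith only [hT0p, h9, h10]

theorem KB_head {q q' : Par} (h : HeadEq q q') : KB q = KB q' := by
  unfold KB KO zR
  rw [h.rho0, h.MU, h.MP]

theorem ev_bdPar : Ev fun q => BdPar q ∧ q.sg * KB q ≤ 1 / 10000 ∧ |l3 (zR q) - 1| ≤ 1 / 100 := by
  set K0 : ℝ := 100 + 10 * L3 with hK0
  have hL := L3_pos
  have hK0p : 0 < K0 := by positivity
  have e1 := ev_pos (K := K0) hK0p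
  have e2 : Ev fun q => q.d0 ≤ q.rho0 / 2 :=
    ev_d0 (F := fun q => q.rho0 / 2) (fun q q' h _ => by simp only [h.rho0])
      (fun q h _ => half_pos h)
  have e3 : Ev fun q => q.eps ≤ 1 / (|q.MU| + 1) :=
    ev_eps (F := fun q => 1 / (|q.MU| + 1)) (fun q q' h _ _ _ => by simp only [h.MU])
      (fun q _ _ _ _ => by positivity)
  have e4 : Ev fun q => q.eps ≤ 1 / (|q.GR * q.MU ^ 2| + 1) :=
    ev_eps (F := fun q => 1 / (|q.GR * q.MU ^ 2| + 1))
      (fun q q' h _ _ _ => by simp only [h.MU, h.GR]) (fun q _ _ _ _ => by positivity)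
  have e5 : Ev fun q => q.eps ≤ q.rho0 ^ kap / 10 :=
    ev_eps (F := fun q => q.rho0 ^ kap / 10) (fun q q' h _ _ _ => by simp only [h.rho0])
      (fun q h _ _ _ => by have := Real.rpow_pos_of_pos h kap; positivity)
  have e6 : Ev fun q => q.sg ≤ 1 / (10000 * (|KB q| + 1)) :=
    ev_sg (F := fun q => 1 / (10000 * (|KB q| + 1))) (fun q q' h => by simp only [KB_head h])
      (fun q _ => by positivity)
  refine ((((((e1.and e2).and e3).and e4).and e5).and e6).mono ?_)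
  rintro q ⟨⟨⟨⟨⟨P, h2⟩, h3⟩, h4⟩, h5⟩, h6⟩
  have hK1 : 1 / K0 ≤ 1 / 100 := by
    apply one_div_le_one_div_of_le (by norm_num)
    rw [hK0]
    linarith only [hL]
  have hMU : 0 < q.MU := hK0p.trans_le P.MU
  have hMP : 0 < q.MP := hK0p.trans_le P.MP
  have hGR : 0 < q.GR := hK0p.trans_le P.GR
  have hN : 100 ≤ q.N := by
    refine le_trans ?_ P.N
    rw [hK0]
    linarith only [hL]
  refine ⟨⟨P.rho0, by linarith only [P, hK1, P.rho0'], hMU, hMP, hGR, P.sg, by linarith only [P, hK1, P.sg'], P.d0, h2, hN,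
    P.eps, by linarith only [P, hK1, P.eps'], ?_, ?_, ?_⟩, ?_, ?_⟩
  · rw [abs_of_pos hMU, le_div_iff₀ (by positivity)] at h3
    have := P.eps
    linarith only [this, h3]
  · have h7 : 0 < q.GR * q.MU ^ 2 := by positivity
    rw [abs_of_pos h7, le_div_iff₀ (by positivity)] at h4
    have := P.eps
    linarith only [this, h4]
  · have h7 := Real.rpow_pos_of_pos P.rho0 kap
    rw [Real.rpow_neg P.rho0.le, ← div_eq_mul_inv, div_le_iff₀ h7]
    linarith only [h5]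
  · rw [le_div_iff₀ (by positivity)] at h6
    have h7 := le_abs_self (KB q)
    have h8 := P.sg
    nlinarith only [h6, h7, h8]
  · have hz0 : 0 ≤ zR q := by unfold zR; positivity
    have hρ := P.rho0'
    have hρ0 := P.rho0
    have hρ2 : q.rho0 * K0 ≤ 1 := by
      rw [le_div_iff₀ hK0p] at hρ
      exact hρ
    have hz1 : zR q ≤ 1 := by
      unfold zR
      nlinarith only [hL, hK1, hρ, hρ0, hρ2]
    have h7 := L3_spec (z := zR q) (z' := 0) ⟨hz0, hz1⟩ ⟨le_rfl, zero_le_one⟩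
    rw [l3_zero, sub_zero, abs_of_nonneg hz0] at h7
    refine h7.trans ?_
    have h8 : q.rho0 * L3 ≤ 1 / 10 := by
      have : q.rho0 * (10 * L3) ≤ q.rho0 * K0 := by
        apply mul_le_mul_of_nonneg_left _ hρ0.le
        rw [hK0]
        linarith only [hK1, hρ, hρ0]
      linarith only [hρ0, hρ2]
    have h9 : q.rho0 ≤ 1 / 100 := by linarith only [hK1, hρ]
    unfold zR
    nlinarith only [hL, hρ0, hρ2]

/-- **Bd** -/
theorem bd (hs : ScalStatement) : BdStatement := by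
  intro g hg
  refine ev_bdPar.mono ?_
  rintro q ⟨P, hK, hl3⟩ w f T hT hT1 h hq t₁ ht₁ hB t ht x hx hy
  obtain ⟨X, U, U1, U2, Z, R, hR⟩ := exists_rsol h hq hT
  exact bd_at P hK hl3 h hq hT hT1 hR ht₁ hB (hs w f T hT h) ht hx hy

end Vale.Agent.P244.ST.SS
end

section

/-!
# P244 / ST / S : closeness in the parabolic region (S7), from the pointwise input
-/

open Set MeasureTheory Filter Topology Polynomial
open scoped ContDiff

namespace Vale.Agent.P244.ST.SS.S7F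

theorem kk_kap : KK kap := by
  have h1 : (34.76 : ℝ) < Real.sqrt 1209 := by
    rw [Real.lt_sqrt (by norm_num)]; norm_num
  have h2 : Real.sqrt 1209 < (34.8 : ℝ) := by
    rw [Real.sqrt_lt' (by norm_num)]; norm_num
  have h3 : Real.sqrt 1209 ^ 2 = 1209 := Real.sq_sqrt (by norm_num)
  unfold kap
  refine ⟨?_, by linarith only [h2], by linarith only [h1]⟩
  linear_combination (1 / 4 : ℝ) * h3

/-- the envelope of `∂_z H` on compact sets -/
noncomputable def GG7 (z : ℝ) : ℝ := wk kap z * (kap + 1) * en z / (2 * z)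

theorem GG7_cont {z₁ z₂ : ℝ} (h1 : 0 < z₁) : ContinuousOn GG7 (Icc z₁ z₂) := by
  have hpos : ∀ z ∈ Icc z₁ z₂, (0 : ℝ) < z := fun z hz => lt_of_lt_of_le h1 hz.1
  have hw : ContinuousOn (wk kap) (Icc z₁ z₂) := fun z hz =>
    (hd_wk (k := kap) (hpos z hz)).continuousAt.continuousWithinAt
  have he : ContinuousOn en (Icc z₁ z₂) := by
    unfold en
    refine ContinuousOn.add ?_ (by fun_prop)
    exact continuousOn_id.rpow_const fun z hz => Or.inl (hpos z hz).ne'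
  unfold GG7
  exact ((hw.mul continuousOn_const).mul he).div (by fun_prop)
    fun z hz => mul_ne_zero two_ne_zero (hpos z hz).ne'

theorem core : ∀ r c : ℝ, ∃ s0 : ℝ, 0 < s0 ∧ (0 < r → r ≤ 1 → 0 ≤ c →
    ∀ sg : ℝ, 0 < sg → sg ≤ s0 →
    ∀ h h1 : ℝ → ℝ, (∀ z > 0, HasDerivAt h (h1 z) z) → ContinuousOn h1 (Ioi 0) →
    (∃ c₁ > 0, ∃ c₂ : ℝ, ∀ z > 0, z ∉ Icc c₁ c₂ → h z = 0) →
    (∀ z ∈ Icc ((r / 16) ^ 2 / 4) 40000, |h1 z| ≤ c * GG7 z) →
    (∀ i < 3, |SS.gam kap i h| ≤ sg) → |SS.gam kap 3 h - 1| ≤ sg → Ex kap h ≤ sg ^ 2 →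
    ∀ z ∈ Icc ((r / 16) ^ 2 / 4) 40000,
      (r / 16) ^ (-kap) * |h z - (Lag.ell (SS.aa kap) 3).eval z| ≤ Real.sqrt sg) := by
  intro r c
  by_cases hr : 0 < r ∧ r ≤ 1 ∧ 0 ≤ c
  swap
  · exact ⟨1, one_pos, fun h1 h2 h3 => absurd ⟨h1, h2, h3⟩ hr⟩
  obtain ⟨hr0, hr1, hc⟩ := hr
  have hz1 : (0 : ℝ) < (r / 16) ^ 2 / 4 := by positivity
  have hz12 : (r / 16) ^ 2 / 4 < (40000 : ℝ) := by nlinarith only [hr0, hr1]
  obtain ⟨G0, hG0⟩ := isCompact_Icc.exists_bound_of_continuousOn (GG7_cont (z₂ := 40000) hz1)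
  have hG0n : 0 ≤ G0 := (norm_nonneg _).trans (hG0 _ ⟨le_rfl, hz12.le⟩)
  obtain ⟨C, hC, hmain⟩ := s7s kap kk_kap ((r / 16) ^ 2 / 4) hz1 40000 hz12 (c * G0) 1
    (by positivity) zero_le_one
  have hrk : (0 : ℝ) < (r / 16) ^ (-kap) := Real.rpow_pos_of_pos (by positivity) _
  set D : ℝ := (r / 16) ^ (-kap) * C with hD
  have hD0 : 0 ≤ D := by positivity
  refine ⟨min 1 (((D + 1) ^ 6)⁻¹), lt_min one_pos (by positivity), fun _ _ _ => ?_⟩
  intro sg hsg hsg1 h h1 hd hcont hsupp hb hlow h3 hE z hz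
  have hsg11 : sg ≤ 1 := hsg1.trans (min_le_left _ _)
  have hres := hmain sg hsg hsg11 h h1 hd hcont hsupp (fun z hz => (hb z hz).trans (by
    refine mul_le_mul_of_nonneg_left ?_ hc
    exact (le_abs_self _).trans (hG0 z hz))) (by simpa using hlow) (by simpa using h3)
    (by simpa using hE) z hz
  have hx : sg ^ (2 / 3 : ℝ) = Real.sqrt sg * sg ^ (1 / 6 : ℝ) := by
    rw [Real.sqrt_eq_rpow, ← Real.rpow_add hsg]
    norm_num
  have hy : D * sg ^ (1 / 6 : ℝ) ≤ 1 := by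
    have h5 : sg ^ (1 / 6 : ℝ) ≤ (D + 1)⁻¹ := by
      have h6 : sg ^ (1 / 6 : ℝ) ≤ (((D + 1) ^ 6)⁻¹) ^ (1 / 6 : ℝ) :=
        Real.rpow_le_rpow hsg.le (hsg1.trans (min_le_right _ _)) (by norm_num)
      refine h6.trans (le_of_eq ?_)
      rw [← inv_pow, ← Real.rpow_natCast ((D + 1)⁻¹) 6, ← Real.rpow_mul (by (clear * - hr0 hC; positivity))]
      norm_num
    calc D * sg ^ (1 / 6 : ℝ) ≤ D * (D + 1)⁻¹ := mul_le_mul_of_nonneg_left h5 hD0
      _ ≤ 1 := by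
          rw [← div_eq_mul_inv, div_le_one (by positivity)]
          linarith only []
  calc (r / 16) ^ (-kap) * |h z - (Lag.ell (SS.aa kap) 3).eval z|
      ≤ (r / 16) ^ (-kap) * (C * sg ^ (2 / 3 : ℝ)) := mul_le_mul_of_nonneg_left hres hrk.le
    _ = (D * sg ^ (1 / 6 : ℝ)) * Real.sqrt sg := by rw [hx, hD]; ring
    _ ≤ 1 * Real.sqrt sg := mul_le_mul_of_nonneg_right hy (Real.sqrt_nonneg _)
    _ = Real.sqrt sg := one_mul _

/-- the cut-offs are constant on the parabolic region -/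
theorem cut_one {d N s z : ℝ} (h1 : 4 ≤ z / z0 d s) (h2 : be N s z ≤ 1) :
    ch d N s z = 1 ∧ ch1 d N s z = 0 := by
  unfold ch ch1
  rw [xi_one h1, xi_zero h2, xi1_zero (Or.inr h1), xi1_zero (Or.inl h2)]
  constructor <;> ring

theorem rhx_neg {w f : Fn} {T : ℝ} (hS : ConfSol 20 w f T) (hQ : Qual w f T) :
    ∀ t ∈ Ico 0 T, ∀ x ∈ Ioo (0 : ℝ) 1, RG.rhx (w t) (f t) x < 0 := by
  intro t ht x hx
  have h1 := RG.rh_deriv hS ht (x := x) ⟨by linarith only [hx, hx.1], hx.2⟩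
  have h2 : RG.rh 20 (w t) (f t) = rho w f t := funext fun x => CV.rh_eq x
  rw [h2] at h1
  rw [← h1.deriv]
  exact CV.rho_deriv_neg hQ ht hx

/-- the bound of `∂_z H` -/
theorem H1_bound {ε d N s z C : ℝ} {U U1 : ℝ → ℝ → ℝ} (he : 0 < ε) (hzp : 0 < z)
    (h4 : 4 ≤ z / z0 d s) (h5 : be N s z ≤ 1)
    (hU : |U (tt s) (lr s z)| ≤ C * Am kap ε s * en z)
    (hU1 : |U1 (tt s) (lr s z)| ≤ C * Am kap ε s * en z) :
    |H1 kap ε d N U U1 s z| ≤ C * GG7 z := by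
  obtain ⟨hc, hc1⟩ := cut_one h4 h5
  have hAm := Am_pos (k := kap) he s
  have hwk := wk_pos (k := kap) hzp
  unfold H1 HD GG7
  rw [hc, hc1, zero_mul, zero_add, one_mul]
  have hk0 : 0 < kap := by have := kk_kap.lo; linarith only [this]
  have h7 : |kap * U (tt s) (lr s z) + U1 (tt s) (lr s z)| ≤
      (kap + 1) * (C * Am kap ε s * en z) := by
    refine (abs_add_le _ _).trans ?_
    rw [abs_mul, abs_of_pos hk0]
    have := mul_le_mul_of_nonneg_left hU hk0.le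
    linarith only [hU1, this]
  rw [abs_div, abs_mul, abs_div, abs_of_pos hwk, abs_of_pos hAm,
    abs_of_pos (by positivity : (0 : ℝ) < 2 * z), ← mul_div_assoc]
  refine div_le_div_of_nonneg_right ?_ (by positivity)
  calc wk kap z / Am kap ε s * |kap * U (tt s) (lr s z) + U1 (tt s) (lr s z)|
      ≤ wk kap z / Am kap ε s * ((kap + 1) * (C * Am kap ε s * en z)) :=
        mul_le_mul_of_nonneg_left h7 (by positivity)
    _ = C * (wk kap z * (kap + 1) * en z) := by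
        field_simp

/-- back to the physical quantities -/
theorem back {A y u l r S : ℝ} (hA : 0 < A) (hr : 0 < r) (hy : r ≤ y)
    (h : r ^ (-kap) * |y ^ kap * u / A - l| ≤ S) :
    |u - A * (y ^ (-kap) * l)| ≤ S * A := by
  have hy0 : 0 < y := lt_of_lt_of_le hr hy
  have hyk : y ^ (-kap) * y ^ kap = 1 := by
    rw [← Real.rpow_add hy0]; simp
  have hkey : u - A * (y ^ (-kap) * l) = A * (y ^ (-kap) * (y ^ kap * u / A - l)) := by
    have hA' := hA.ne'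
    have : A * (y ^ (-kap) * (y ^ kap * u / A - l)) =
      (y ^ (-kap) * y ^ kap) * u - A * (y ^ (-kap) * l) := by
      field_simp
    rw [this, hyk, one_mul]
  rw [hkey, abs_mul, abs_of_pos hA, mul_comm, abs_mul,
    abs_of_pos (Real.rpow_pos_of_pos hy0 _)]
  refine mul_le_mul_of_nonneg_right ?_ hA.le
  refine le_trans (mul_le_mul_of_nonneg_right ?_ (abs_nonneg _)) h
  have hk0 : 0 < kap := by have := kk_kap.lo; linarith only [this]
  exact Real.rpow_le_rpow_of_nonpos hr hy (by linarith only [hk0])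

/-- the region of the r-gauge contains `r ≤ 2 √N` -/
theorem reg_of {w f : Fn} {t N : ℝ} (hN0 : 0 < N)
    (heq : ∀ t' ∈ Icc 0 t, 2 * Real.sqrt N < rr w f t' 0) :
    ∀ t' ∈ Icc 0 t, Real.log (4 * N) / 2 < RG.rh 20 (w t') (f t') 0 := by
  intro t' ht'
  rw [CV.rh_eq]
  have h1 := heq t' ht'
  have h2 : Real.log (2 * Real.sqrt N) < Real.log (rr w f t' 0) :=
    Real.log_lt_log (by positivity) h1
  unfold rr at h2
  rw [Real.log_exp] at h2
  have h3 : Real.log (4 * N) = 2 * Real.log (2 * Real.sqrt N) := by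
    rw [show (4 * N : ℝ) = (2 * Real.sqrt N) ^ 2 by
      rw [mul_pow, Real.sq_sqrt hN0.le]; norm_num, Real.log_pow]
    norm_num
  rw [h3]
  linarith only [h2]

theorem two_sqrt_lt {N : ℝ} (hN : 200000 ≤ N) : 2 * Real.sqrt N < N / 4 := by
  have h8 : 8 < Real.sqrt N := by
    rw [Real.lt_sqrt (by norm_num)]; linarith only [hN]
  have h9 := Real.sq_sqrt (by linarith only [hN] : (0 : ℝ) ≤ N)
  (by_contra nlg; linarith [mul_eq_zero_of_left (sub_eq_zero.2 h9) (√N - (8)), mul_pos (sub_pos.2 h8) (sub_pos.2 h8), mul_nonneg (sub_nonneg.2 (not_lt.1 nlg)) (le_of_lt (sub_pos.2 h8)), mul_nonneg (sq_nonneg (√N : ℝ)) (sub_nonneg.2 hN), mul_nonneg (sq_nonneg (√N : ℝ)) (sub_nonneg.2 (not_lt.1 nlg)), h8])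

/-- facts on the parabolic region -/
theorem region {d N s r τ z : ℝ} (hd : 0 < d) (hr : 0 < r) (hdr : d ≤ r / 32) (hN : 200000 ≤ N)
    (hs : 0 ≤ s) (hexp : Real.exp (-s) = τ) (hτ1 : τ ≤ 1)
    (hz : z ∈ Icc ((r / 16) ^ 2 / 4) 40000) :
    4 ≤ z / z0 d s ∧ be N s z ≤ 1 := by
  have hN0 : 0 < N := by linarith only [hN]
  have hz0 : z0 d s ≤ d ^ 2 / 4 := by
    unfold z0
    have : Real.exp (-s / 5) ≤ 1 := Real.exp_le_one_iff.2 (by linarith only [hs])
    linarith only [mul_nonneg (sub_nonneg.2 this) (sq_nonneg d)]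
  have hz0p := z0_pos hd s
  constructor
  · rw [le_div_iff₀ hz0p]
    have h1 : d ^ 2 ≤ (r / 32) ^ 2 := pow_le_pow_left₀ hd.le hdr 2
    have h2 := hz.1
    linarith only [h2, h1, hz0]
  · unfold be
    rw [hexp, div_le_one hN0]
    have h2 := hz.2
    have h3 : 0 < z := lt_of_lt_of_le (by positivity) hz.1
    nlinarith only [hN, hτ1, h2, h3]

theorem supp {ε d N s : ℝ} {U : ℝ → ℝ → ℝ} (hd : 0 < d) (hN0 : 0 < N) :
    ∃ c₁ > 0, ∃ c₂ : ℝ, ∀ z > 0, z ∉ Icc c₁ c₂ → HH kap ε d N U s z = 0 := by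
  refine ⟨z0 d s, z0_pos hd s, N * Real.exp s, fun z hz hzI => ?_⟩
  refine (all_zero (k := kap) (ε := ε) hd ?_ U U U U).1
  rw [mem_Icc, not_and_or] at hzI
  push Not at hzI
  rcases hzI with h | h
  · exact Or.inl h.le
  · right
    unfold be
    rw [le_div_iff₀ hN0]
    have h3 : Real.exp s * Real.exp (-s) = 1 := by rw [← Real.exp_add]; simp
    have h4 : N * Real.exp s * Real.exp (-s) ≤ z * Real.exp (-s) :=
      mul_le_mul_of_nonneg_right h.le (Real.exp_pos _).le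
    rw [mul_assoc, h3, mul_one] at h4
    linarith only [h4]

theorem st_nonneg {t : ℝ} (ht : 0 ≤ t) (hτ : 0 < tau t) : 0 ≤ st t := by
  unfold st
  have h1 : 1 - t ≤ 1 := by linarith only [ht]
  have h2 : 0 < 1 - t := hτ
  have := Real.log_nonpos h2.le h1
  linarith only [this]

theorem x_ne_zero {q : Par} {g : ℝ → ℝ} {w f : Fn} {t t₁ x : ℝ} (hN : 200000 ≤ q.N)
    (hτ : 0 < tau t) (hB : Boot q g w f t₁) (ht : t ∈ Icc 0 t₁) (hy2 : yv w f t x ≤ 400) :
    x ≠ 0 := by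
  rintro rfl
  have h1 := hB.b0 t ht
  have hτ1 : tau t ≤ 1 := by unfold tau; linarith only [ht, ht.1]
  have h2 : rr w f t 0 ≤ yv w f t 0 := by
    unfold yv
    rw [le_div_iff₀ (Real.sqrt_pos.2 hτ)]
    have h3 : Real.sqrt (tau t) ≤ 1 := Real.sqrt_le_one.2 hτ1
    have h4 : 0 < rr w f t 0 := Real.exp_pos _
    calc rr w f t 0 * Real.sqrt (tau t) ≤ rr w f t 0 * 1 := mul_le_mul_of_nonneg_left h3 h4.le
      _ = rr w f t 0 := mul_one _
  linarith only [hN, hy2, h1, h2]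

theorem Ex_le {q : Par} {w f : Fn} {t E : ℝ} (hen : enU q w f t = (4 : ℝ) ^ (20 - kap) * E)
    (h1 : enU q w f t ≤ q.sg ^ 2) : E ≤ q.sg ^ 2 := by
  rw [hen] at h1
  have h2 : (1 : ℝ) ≤ (4 : ℝ) ^ (20 - kap) :=
    Real.one_le_rpow (by norm_num) (by have := kk_kap.hi; linarith only [this])
  have h3 : 0 ≤ q.sg ^ 2 := sq_nonneg _
  by_contra hcon
  push Not at hcon
  have h4 : 0 < E := lt_of_le_of_lt h3 hcon
  have h5 : E ≤ (4 : ℝ) ^ (20 - kap) * E := le_mul_of_one_le_left h4.le h2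
  linarith only [h1, hcon, h5]

theorem slice_cont {Φ : ℝ → ℝ → ℝ} {A : Set ℝ} {s : ℝ} (hs : s ∈ A)
    (h : ContinuousOn (fun q : ℝ × ℝ => Φ q.1 q.2) (A ×ˢ Ioi (0 : ℝ))) :
    ContinuousOn (Φ s) (Ioi 0) := by
  have h1 : ContinuousOn (fun z : ℝ => ((s, z) : ℝ × ℝ)) (Ioi 0) := by fun_prop
  exact h.comp h1 (fun z hz => ⟨hs, hz⟩)

/-- the estimate of `H` for one `(t, x)` -/
theorem point {q : Par} {g : ℝ → ℝ} {w f : Fn} {T t₁ t x C s0 : ℝ}
    (hcore : ∀ sg : ℝ, 0 < sg → sg ≤ s0 →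
    ∀ h h1 : ℝ → ℝ, (∀ z > 0, HasDerivAt h (h1 z) z) → ContinuousOn h1 (Ioi 0) →
    (∃ c₁ > 0, ∃ c₂ : ℝ, ∀ z > 0, z ∉ Icc c₁ c₂ → h z = 0) →
    (∀ z ∈ Icc ((q.rho0 / 16) ^ 2 / 4) 40000, |h1 z| ≤ C * GG7 z) →
    (∀ i < 3, |SS.gam kap i h| ≤ sg) → |SS.gam kap 3 h - 1| ≤ sg → Ex kap h ≤ sg ^ 2 →
    ∀ z ∈ Icc ((q.rho0 / 16) ^ 2 / 4) 40000,
      (q.rho0 / 16) ^ (-kap) * |h z - (Lag.ell (SS.aa kap) 3).eval z| ≤ Real.sqrt sg)
    (hsg : q.sg ≤ s0) (hd0 : q.d0 ≤ q.rho0 / 32) (hK : ParPos 200000 q)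
    (hT : 0 < T) (hT1 : T ≤ 1) (hS : ConfSol 20 w f T) (hQ : Qual w f T) (ht₁ : t₁ ∈ Ico 0 T)
    (hB : Boot q g w f t₁) (ht : t ∈ Icc 0 t₁)
    (hy1 : q.rho0 / 16 ≤ yv w f t x) (hy2 : yv w f t x ≤ 400)
    {X U U1 U2 Z R : ℝ → ℝ → ℝ} (hR : RG.RSol 20 w f T X U U1 U2 Z R)
    (hPtIn : PtIn kap q.eps q.d0 q.N C (3 * q.eta) U U1 U2 Z (st t)) :
    (q.rho0 / 16) ^ (-kap) * |hh q U t (CV.zt w f t x) -
      (Lag.ell (SS.aa kap) 3).eval (CV.zt w f t x)| ≤ Real.sqrt q.sg := by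
  have htT : t ∈ Ico 0 T := ⟨ht.1, lt_of_le_of_lt ht.2 ht₁.2⟩
  have hτ : 0 < tau t := CV.tau_pos hT1 htT
  have hτ1 : tau t ≤ 1 := by unfold tau; linarith only [ht, ht.1]
  have hN : 200000 ≤ q.N := hK.N
  have hN0 : 0 < q.N := by linarith only [hN]
  have hN1 : 1 ≤ q.N := by linarith only [hN]
  have hρ0 := hK.rho0
  have he := hK.eps
  have hd := hK.d0
  have heq : ∀ t' ∈ Icc 0 t, 2 * Real.sqrt q.N < rr w f t' 0 := fun t' ht' =>
    lt_of_lt_of_le (two_sqrt_lt hN) (hB.b0 t' ⟨ht'.1, ht'.2.trans ht.2⟩)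
  obtain ⟨hgam, hen⟩ := CV.cv q hd hN0 he w f T hT hT1 hS hQ X U U1 U2 Z R hR t htT
    (heq t ⟨ht.1, le_rfl⟩)
  have hts : tt (st t) = t := CV.tt_st hτ
  have hst0 : 0 ≤ st t := st_nonneg ht.1 hτ
  have hreg : ∀ t' ∈ Icc 0 (tt (st t)), Real.log (4 * q.N) / 2 < RG.rh 20 (w t') (f t') 0 := by
    rw [hts]
    exact reg_of hN0 heq
  have hTs : tt (st t) < T := by rw [hts]; exact htT.2
  have hsI : st t ∈ Icc 0 (st t) := ⟨hst0, le_rfl⟩
  have hcont := (s3_cont (k := kap) (ε := q.eps) (d := q.d0) he hd hN1 hR hTs hreg).2.1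
  have hexp : Real.exp (-st t) = tau t := by
    have := CV.exp_st (t := t) hτ 1
    rwa [one_mul, Real.rpow_one] at this
  have hregz : ∀ z ∈ Icc ((q.rho0 / 16) ^ 2 / 4) 40000,
      4 ≤ z / z0 q.d0 (st t) ∧ be q.N (st t) z ≤ 1 := fun z hz =>
    region hd hρ0 hd0 hN hst0 hexp hτ1 hz
  have hzx : CV.zt w f t x ∈ Icc ((q.rho0 / 16) ^ 2 / 4) 40000 := by
    unfold CV.zt
    have h1 : 0 < yv w f t x := CV.yv_pos hτ x
    constructor
    · have := pow_le_pow_left₀ (by positivity : (0 : ℝ) ≤ q.rho0 / 16) hy1 2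
      linarith only [this]
    · have := pow_le_pow_left₀ h1.le hy2 2
      linarith only [this]
  have hder : ∀ z > 0, HasDerivAt (hh q U t) (H1 kap q.eps q.d0 q.N U U1 (st t) z) z :=
    fun z hz => s3_d1 he hd hN1 hR hTs hreg hsI hz
  have hc1 : ContinuousOn (H1 kap q.eps q.d0 q.N U U1 (st t)) (Ioi 0) := slice_cont hsI hcont
  have hbd : ∀ z ∈ Icc ((q.rho0 / 16) ^ 2 / 4) 40000,
      |H1 kap q.eps q.d0 q.N U U1 (st t) z| ≤ C * GG7 z := by
    intro z hz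
    obtain ⟨h4, h5⟩ := hregz z hz
    have hzp : 0 < z := lt_of_lt_of_le (by positivity) hz.1
    have h6 : z0 q.d0 (st t) ≤ z := by
      have := (le_div_iff₀ (z0_pos hd (st t))).1 h4
      linarith only [hzp, this, z0_pos hd (st t)]
    obtain ⟨hU, hU1, -⟩ := hPtIn z h6 (by linarith only [h5])
    exact H1_bound he hzp h4 h5 hU hU1
  have hE : Ex kap (hh q U t) ≤ q.sg ^ 2 := Ex_le hen (hB.b6 t ht).en
  have hl : ∀ i < 3, |SS.gam kap i (hh q U t)| ≤ q.sg := fun i hi => by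
    rw [← hgam i]; exact (hB.b6 t ht).low i hi
  have h3 : |SS.gam kap 3 (hh q U t) - 1| ≤ q.sg := by
    rw [← hgam 3]; exact (hB.b6 t ht).main
  exact hcore q.sg hK.sg hsg (hh q U t)
    (H1 kap q.eps q.d0 q.N U U1 (st t)) hder hc1 (supp hd hN0) hbd hl h3 hE (CV.zt w f t x) hzx

theorem chi_one {q : Par} {w f : Fn} {t x : ℝ} (hd0 : q.d0 ≤ q.rho0 / 32)
    (hK : ParPos 200000 q) (h0 : 0 ≤ t) (hτ : 0 < tau t)
    (hy1 : q.rho0 / 16 ≤ yv w f t x) (hy2 : yv w f t x ≤ 400) : chi q t (yv w f t x) = 1 := by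
  have hτ1 : tau t ≤ 1 := by unfold tau; linarith only [h0]
  have hexp : Real.exp (-st t) = tau t := by
    have := CV.exp_st (t := t) hτ 1
    rwa [one_mul, Real.rpow_one] at this
  have hzx : CV.zt w f t x ∈ Icc ((q.rho0 / 16) ^ 2 / 4) 40000 := by
    unfold CV.zt
    have h1 : 0 < yv w f t x := CV.yv_pos hτ x
    have h2 := hK.rho0
    constructor
    · have := pow_le_pow_left₀ (by positivity : (0 : ℝ) ≤ q.rho0 / 16) hy1 2
      linarith only [this]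
    · have := pow_le_pow_left₀ h1.le hy2 2
      linarith only [this]
  rw [← CV.ch_eq hτ q hK.d0 x]
  obtain ⟨h1, h2⟩ := region hK.d0 hK.rho0 hd0 hK.N (st_nonneg h0 hτ) hexp hτ1 hzx
  exact (cut_one h1 h2).1

/-- **S7** from the pointwise input. -/
theorem s7_of (hPt : PtStatement) : Vale.Agent.P244.ST.S7Statement := by
  intro g hg
  obtain ⟨C1, hC1, hC1n, hEv⟩ := hPt g hg
  choose s0 hs0 hcore using core
  have e1 : Ev fun q => q.sg ≤ s0 q.rho0 (C1 q) :=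
    ev_sg (F := fun q => s0 q.rho0 (C1 q)) (fun q q' h => by
      show s0 q.rho0 (C1 q) = s0 q'.rho0 (C1 q')
      rw [h.rho0, hC1 q q' h.B h.rho0 h.BV h.MU h.MP h.MV h.CU h.CP h.CV h.GR])
      (fun q _ => hs0 _ _)
  have e2 : Ev fun q => q.d0 ≤ q.rho0 / 32 :=
    ev_d0 (F := fun q => q.rho0 / 32) (fun q q' h _ => by
      show q.rho0 / 32 = q'.rho0 / 32
      rw [h.rho0]) (fun q h _ => by positivity)
  refine (((hEv.and e1).and e2).and (ev_pos (K := 200000) (by norm_num))).mono ?_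
  rintro q ⟨⟨⟨hpt, hsg⟩, hd0⟩, hK⟩ w f T hT hT1 hS hQ t₁ ht₁ hB t ht x hx hy1 hy2
  have htT : t ∈ Ico 0 T := ⟨ht.1, lt_of_le_of_lt ht.2 ht₁.2⟩
  have hτ : 0 < tau t := CV.tau_pos hT1 htT
  have hρ0 := hK.rho0
  have hρ1 : q.rho0 ≤ 1 := hK.rho0'.trans (by norm_num)
  have hA := CV.A_pos (q := q) hK.eps hτ
  have hx0 : x ≠ 0 := x_ne_zero hK.N hτ hB ht hy2
  have hx' : x ∈ Ioo (0 : ℝ) 1 := ⟨lt_of_le_of_ne hx.1 (Ne.symm hx0), hx.2⟩
  obtain ⟨X, U, U1, U2, Z, R, hR⟩ := RG.s8 20 (by norm_num) T hT w f hS (rhx_neg hS hQ)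
  have hPtIn := hpt w f T hT hT1 hS hQ X U U1 U2 Z R hR t₁ ht₁ hB t ht
  have hfin := point (hcore q.rho0 (C1 q) hρ0 hρ1 (hC1n q)) hsg hd0 hK hT hT1 hS hQ ht₁ hB ht
    hy1 hy2 hR hPtIn
  rw [CV.hh_eq hτ hR htT q hK.d0 hx', chi_one hd0 hK ht.1 hτ hy1 hy2, one_mul] at hfin
  have hph : ph 3 (yv w f t x) =
      yv w f t x ^ (-kap) * (Lag.ell (SS.aa kap) 3).eval (CV.zt w f t x) := by
    rw [← CV.ll_eq]
    rfl
  rw [hph]
  exact back hA (by positivity) hy1 hfin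

end Vale.Agent.P244.ST.SS.S7F
end

section

/-!
# P244 / ST / S : from the r-gauge functions to the functions of `Geo.lean` at a point
-/

open Set Filter
open scoped ContDiff Topology

namespace Vale.Agent.P244.ST.SS.PtBr

open Vale.Agent.P244.ST.M2

variable {w f : Fn} {T t : ℝ} {X U U1 U2 Z R : ℝ → ℝ → ℝ}

theorem sx_slice (hs : ConfSol 20 w f T) (ht : t ∈ Ico 0 T) : Apr.Sx (w t) ∧ Apr.Sx (f t) :=
  ⟨Apr.slice (h := w) hs.smooth_w ht, Apr.slice (h := f) hs.smooth_f ht⟩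

theorem mem1 {x : ℝ} (hx : x ∈ Ioo (0 : ℝ) 1) : x ∈ Ioo (-1 : ℝ) 1 := ⟨by linarith only [hx, hx.1], hx.2⟩

theorem r1_eq (hs : ConfSol 20 w f T) (ht : t ∈ Ico 0 T) {x : ℝ} (hx : x ∈ Ioo (0 : ℝ) 1) :
    r1 w f t x = RG.rhx (w t) (f t) x := by
  have h1 : HasDerivAt (rho w f t) (RG.rhx (w t) (f t) x) x := by
    have h2 := RG.rh_deriv (p := 20) hs ht (mem1 hx)
    have h3 : RG.rh 20 (w t) (f t) = rho w f t := by
      funext y; exact CV.rh_eq y
    rw [h3] at h2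
    exact h2
  exact h1.deriv

theorem ux_eq' (hs : ConfSol 20 w f T) (ht : t ∈ Ico 0 T) {x : ℝ} (hx : x ∈ Ioo (0 : ℝ) 1) :
    deriv (uu w f t) x = RG.ux (w t) (f t) x := by
  obtain ⟨h1, h2⟩ := sx_slice hs ht
  have h3 : HasDerivAt (RG.uu (w t) (f t)) (RG.ux (w t) (f t) x) x := RG.uu_deriv h1 h2 (mem1 hx)
  exact h3.deriv

theorem U1_pt (hs : ConfSol 20 w f T) (hR : RG.RSol 20 w f T X U U1 U2 Z R) (ht : t ∈ Ico 0 T)
    {x : ℝ} (hx : x ∈ Ioo (0 : ℝ) 1) (hr : 0 < rs w f t x) :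
    U1 t (rho w f t x) = -GG w f t x := by
  obtain ⟨h1, h2⟩ := hR.X_inv t ht x hx
  rw [CV.rh_eq] at h2
  rw [CV.rh_eq] at h1
  have h3 := hR.U1_eq (t, rho w f t x) ⟨ht, h1⟩
  simp only at h3
  rw [h3, h2, ← ux_eq' hs ht hx, ← r1_eq hs ht hx]
  have hk := (kk_neg (w := w) (t := t) (mem1 hx)).ne
  have hr1 := (r1_neg (mem1 hx) hr).ne
  have h4 : PP w f t x = kk w t x * deriv (uu w f t) x := rfl
  unfold GG
  rw [h4, rs_eq]
  field_simp

theorem Z_pt (hs : ConfSol 20 w f T) (hR : RG.RSol 20 w f T X U U1 U2 Z R) (ht : t ∈ Ico 0 T)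
    {x : ℝ} (hx : x ∈ Ioo (0 : ℝ) 1) : Z t (rho w f t x) = ZZ w f t x := by
  obtain ⟨h1, h2⟩ := hR.X_inv t ht x hx
  rw [CV.rh_eq] at h2
  rw [CV.rh_eq] at h1
  have h3 := hR.Z_eq (t, rho w f t x) ⟨ht, h1⟩
  simp only at h3
  rw [h3, h2]
  have hp := RG.one_sub_sq_pos (mem1 hx)
  have h0 : 0 < Real.sqrt (1 - x ^ 2) := Real.sqrt_pos.2 hp
  have e1 : rr w f t x ^ 2 = Real.exp (f t x + w t x) * Real.sqrt (1 - x ^ 2) / RG.ze 20 := by
    rw [← RG.exp_rh (p := 20) (w := w t) (f := f t) (mem1 hx) (by norm_num), CV.rh_eq]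
    unfold rr
    rw [← Real.exp_nat_mul]
    push_cast
    rfl
  unfold RG.ZZ ZZ
  rw [e1, rs_eq, r1_eq hs ht hx]
  unfold kk sx
  have e2 : Real.exp (f t x - w t x) = Real.exp (f t x) * Real.exp (-w t x) := by
    rw [← Real.exp_add]; rfl
  have e3 : Real.exp (f t x + w t x) = Real.exp (f t x) * Real.exp (w t x) := Real.exp_add _ _
  have e4 : Real.exp (w t x) * Real.exp (-w t x) = 1 := by rw [← Real.exp_add]; simp
  rw [e2, e3]
  generalize Real.sqrt (1 - x ^ 2) = s at *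
  generalize Real.exp (-w t x) = v at *
  generalize Real.exp (w t x) = v' at *
  generalize RG.ze 20 = z at *
  generalize RG.rhx (w t) (f t) x = r at *
  have : v' * v ^ 2 = v := by rw [pow_two, ← mul_assoc, e4, one_mul]
  calc Real.exp (f t x) * v * s ^ 3 * r ^ 2 / z = Real.exp (f t x) * (v' * v ^ 2) * s ^ 3 * r ^ 2 / z := by
        rw [this]
    _ = _ := by ring

/-- `E = D_r Z` -/
noncomputable def Ee (w f : Fn) (t x : ℝ) : ℝ :=
  39 * (Real.cosh (uu w f t x) - ZZ w f t x)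
      - (rr w f t x) ^ 2 * (PP w f t x) ^ 2 / 4 - (rr w f t x) ^ 2 * RR w f t x / 40

/-- (E2) for `u`: `r² V = Z U2 + (E/2 + 39 Z) U1 + 78 sinh u`. -/
theorem V_pt (hs : ConfSol 20 w f T) (hR : RG.RSol 20 w f T X U U1 U2 Z R) (ht : t ∈ Ico 0 T)
    (hrs : ∀ x ∈ Ioo (0 : ℝ) 1, 0 < rs w f t x)
    {x : ℝ} (hx : x ∈ Ioo (0 : ℝ) 1) :
    (rr w f t x) ^ 2 * VV w f t x = ZZ w f t x * U2 t (rho w f t x)
      + (Ee w f t x / 2 + 39 * ZZ w f t x) * U1 t (rho w f t x)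
      + 78 * Real.sinh (uu w f t x) := by
  have hsl : Slice w f t := slice_of_confSol hs ht
  obtain ⟨h1, h2⟩ := hR.X_inv t ht x hx
  rw [CV.rh_eq] at h1
  have hd2 := hR.d2 (t, rho w f t x) ⟨ht, h1⟩
  simp only at hd2
  -- PP = rs * U1
  have hPP : ∀ y ∈ Ioo (0 : ℝ) 1, PP w f t y = rs w f t y * U1 t (rho w f t y) := by
    intro y hy
    rw [U1_pt hs hR ht hy (hrs y hy)]
    unfold GG
    have := (hrs y hy).ne'
    field_simp
  have hrsd : HasDerivAt (rs w f t) (deriv (rs w f t) x) x :=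
    hasDerivAt_of_smooth (smooth_rs hsl) (mem1 hx)
  have hrho := hasDerivAt_rho hsl (mem1 hx)
  have hcomp : HasDerivAt (fun y => U1 t (rho w f t y)) (U2 t (rho w f t x) * r1 w f t x) x :=
    hd2.comp x hrho
  have hprod := hrsd.mul hcomp
  have hev : PP w f t =ᶠ[𝓝 x] fun y => rs w f t y * U1 t (rho w f t y) := by
    filter_upwards [Ioo_mem_nhds hx.1 hx.2] with y hy
    exact hPP y hy
  have hdPP : deriv (PP w f t) x = deriv (rs w f t) x * U1 t (rho w f t x)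
      + rs w f t x * (U2 t (rho w f t x) * r1 w f t x) :=
    (HasDerivAt.congr_of_eventuallyEq hprod hev).deriv
  -- ZZ
  have hZ1 := hasDerivAt_ZZ hsl (mem1 hx)
  have hZ2 : HasDerivAt (ZZ w f t) _ x := ((hasDerivAt_rr hsl (mem1 hx)).pow 2).mul (hrsd.pow 2)
  have hZ := hZ1.unique hZ2
  simp only [Pi.pow_apply] at hZ
  have hrr := (Vale.Agent.P244.ST.M2.rr_pos (w := w) (f := f) (t := t) x).ne'
  have hr0 := (hrs x hx).ne'
  have hr1 := (r1_neg (mem1 hx) (hrs x hx)).ne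
  have hk := (kk_neg (w := w) (t := t) (mem1 hx)).ne
  have hVV : VV w f t x = kk w t x * deriv (PP w f t) x + 40 * rs w f t x * PP w f t x
      + 78 * Real.sinh (uu w f t x) / (rr w f t x) ^ 2 := rfl
  have hEe : (39 * (Real.cosh (uu w f t x) - ZZ w f t x)
      - (rr w f t x) ^ 2 * (PP w f t x) ^ 2 / 4 - (rr w f t x) ^ 2 * RR w f t x / 40)
      = Ee w f t x := rfl
  rw [hEe] at hZ
  have hrsk := rs_eq (w := w) (f := f) (t := t) x
  -- E = 2 Z + 2 r² Ds rs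
  have hE : Ee w f t x = 2 * ZZ w f t x
      + 2 * (rr w f t x) ^ 2 * (kk w t x * deriv (rs w f t) x) := by
    have hZZ : ZZ w f t x = (rr w f t x) ^ 2 * (rs w f t x) ^ 2 := rfl
    have h5 : r1 w f t x * Ee w f t x = r1 w f t x * (2 * ZZ w f t x
      + 2 * (rr w f t x) ^ 2 * (kk w t x * deriv (rs w f t) x)) := by
      rw [hZ, hZZ, hrsk]
      push_cast
      ring
    exact mul_left_cancel₀ hr1 h5
  rw [hVV, hdPP, hPP x hx, hE]
  have hZZ : ZZ w f t x = (rr w f t x) ^ 2 * (rs w f t x) ^ 2 := rfl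
  rw [hZZ]
  have hrs2 : rs w f t x * (U2 t (rho w f t x) * r1 w f t x) * kk w t x =
      rs w f t x ^ 2 * U2 t (rho w f t x) := by
    have : r1 w f t x * kk w t x = rs w f t x := by rw [hrsk]; ring
    calc _ = rs w f t x * U2 t (rho w f t x) * (r1 w f t x * kk w t x) := by ring
      _ = _ := by rw [this]; ring
  have hmul : kk w t x * (deriv (rs w f t) x * U1 t (rho w f t x)
      + rs w f t x * (U2 t (rho w f t x) * r1 w f t x)) =
      kk w t x * deriv (rs w f t) x * U1 t (rho w f t x) +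
        rs w f t x ^ 2 * U2 t (rho w f t x) := by
    rw [← hrs2]; ring
  rw [hmul]
  field_simp
  ring

end Vale.Agent.P244.ST.SS.PtBr
end

section

/-!
# P244-ST, block M7 : chain rule for the functions of Geo.lean in r-gauge coordinates

`X = RG.XX 20 w f` is the inverse of `x ↦ ρ(t,x)`.  For `H(t,x)` differentiable,
`∂_ρ (H(t,X(t,ρ))) = (Dr H)(t,X)` and `∂_t (H(t,X(t,ρ))) = (Tr H)(t,X)`.
-/

set_option linter.all false

open Set Filter Topology
open scoped ContDiff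

namespace Vale.Agent.P244.ST.M7

open Vale.Agent.P244.ST
open Vale.Agent.P244.ST.Apr (Sx slice)

noncomputable section

variable {w f : Fn} {T : ℝ}

lemma ze20 : RG.ze 20 = zeta0 := by unfold RG.ze zeta0; norm_num

lemma rh_eq0 (t x : ℝ) : RG.rh 20 (w t) (f t) x = rho w f t x := by
  unfold RG.rh rho; rw [ze20]

lemma rh_eq0' (t : ℝ) : RG.rh 20 (w t) (f t) = rho w f t := funext (rh_eq0 t)

lemma one_sub_sq_pos {x : ℝ} (hx : x ∈ Ioo (-1 : ℝ) 1) : 0 < 1 - x ^ 2 := by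
  nlinarith only [hx, hx.1, hx.2]

lemma sx_pos {x : ℝ} (hx : x ∈ Ioo (-1 : ℝ) 1) : 0 < sx x := Real.sqrt_pos.2 (one_sub_sq_pos hx)

lemma sx_sq {x : ℝ} (hx : x ∈ Ioo (-1 : ℝ) 1) : sx x ^ 2 = 1 - x ^ 2 :=
  Real.sq_sqrt (one_sub_sq_pos hx).le

lemma sx_hasDeriv {x : ℝ} (hx : x ∈ Ioo (-1 : ℝ) 1) : HasDerivAt sx (-x / sx x) x := by
  have h3 : HasDerivAt (fun y : ℝ => 1 - y ^ 2) (-(2 * x)) x := by
    simpa using ((hasDerivAt_id x).pow 2).const_sub 1
  have h4 := h3.sqrt (one_sub_sq_pos hx).ne'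
  refine HasDerivAt.congr_deriv h4 ?_
  have : Real.sqrt (1 - x ^ 2) = sx x := rfl
  rw [this]
  have h0 := (sx_pos hx).ne'
  field_simp

section slice

variable (hs : ConfSol 20 w f T)
include hs

lemma w1 {t x : ℝ} (ht : t ∈ Ico 0 T) (hx : x ∈ Ioo (-1 : ℝ) 1) :
    HasDerivAt (w t) (dx (w t) x) x :=
  RG.hasDerivAt_of_sx (slice (h := w) hs.smooth_w ht) hx

lemma f1 {t x : ℝ} (ht : t ∈ Ico 0 T) (hx : x ∈ Ioo (-1 : ℝ) 1) :
    HasDerivAt (f t) (dx (f t) x) x :=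
  RG.hasDerivAt_of_sx (slice (h := f) hs.smooth_f ht) hx

lemma w2 {t x : ℝ} (ht : t ∈ Ico 0 T) (hx : x ∈ Ioo (-1 : ℝ) 1) :
    HasDerivAt (dx (w t)) (dx (dx (w t)) x) x :=
  RG.hasDerivAt_of_sx (slice (h := w) hs.smooth_w ht).dx hx

lemma f2 {t x : ℝ} (ht : t ∈ Ico 0 T) (hx : x ∈ Ioo (-1 : ℝ) 1) :
    HasDerivAt (dx (f t)) (dx (dx (f t)) x) x :=
  RG.hasDerivAt_of_sx (slice (h := f) hs.smooth_f ht).dx hx

lemma rho1 {t x : ℝ} (ht : t ∈ Ico 0 T) (hx : x ∈ Ioo (-1 : ℝ) 1) :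
    HasDerivAt (rho w f t) (RG.rhx (w t) (f t) x) x := by
  rw [← rh_eq0']
  exact RG.rh_deriv hs ht hx

lemma Dx_rho {t x : ℝ} (ht : t ∈ Ico 0 T) (hx : x ∈ Ioo (-1 : ℝ) 1) :
    Dx (rho w f) t x = RG.rhx (w t) (f t) x := (rho1 hs ht hx).deriv

lemma rhx1 {t x : ℝ} (ht : t ∈ Ico 0 T) (hx : x ∈ Ioo (-1 : ℝ) 1) :
    HasDerivAt (RG.rhx (w t) (f t))
      ((dx (dx (f t)) x + dx (dx (w t)) x - (1 + x ^ 2) / (1 - x ^ 2) ^ 2) / 2) x := by
  have h3 : HasDerivAt (fun y : ℝ => 1 - y ^ 2) (-(2 * x)) x := by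
    simpa using ((hasDerivAt_id x).pow 2).const_sub 1
  have hne := (one_sub_sq_pos hx).ne'
  have h4 := (hasDerivAt_id x).div h3 hne
  have h5 := (((f2 hs ht hx).add (w2 hs ht hx)).sub h4).div_const 2
  refine HasDerivAt.congr_deriv h5 ?_
  simp only [id]
  congr 2
  field_simp
  ring

lemma uu1 {t x : ℝ} (ht : t ∈ Ico 0 T) (hx : x ∈ Ioo (-1 : ℝ) 1) :
    HasDerivAt (uu w f t) (RG.ux (w t) (f t) x) x := by
  have h3 : HasDerivAt (fun y : ℝ => 1 - y ^ 2) (-(2 * x)) x := by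
    simpa using ((hasDerivAt_id x).pow 2).const_sub 1
  have hne := (one_sub_sq_pos hx).ne'
  have h4 := h3.log hne
  have h5 := (((f1 hs ht hx).sub (w1 hs ht hx)).sub (h4.div_const 2))
  refine HasDerivAt.congr_deriv h5 ?_
  unfold RG.ux
  field_simp
  ring

lemma ux1 {t x : ℝ} (ht : t ∈ Ico 0 T) (hx : x ∈ Ioo (-1 : ℝ) 1) :
    HasDerivAt (RG.ux (w t) (f t))
      (dx (dx (f t)) x - dx (dx (w t)) x + (1 + x ^ 2) / (1 - x ^ 2) ^ 2) x := by
  have h3 : HasDerivAt (fun y : ℝ => 1 - y ^ 2) (-(2 * x)) x := by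
    simpa using ((hasDerivAt_id x).pow 2).const_sub 1
  have hne := (one_sub_sq_pos hx).ne'
  have h4 := (hasDerivAt_id x).div h3 hne
  have h5 := (((f2 hs ht hx).sub (w2 hs ht hx)).add h4)
  refine HasDerivAt.congr_deriv h5 ?_
  simp only [id]
  congr 1
  field_simp
  ring

/-- `Ds (Ds H)` at a point, when `H_x = h1` near the point and `h1' = h2` -/
lemma DsDs {H : Fn} {h1 : ℝ → ℝ} {h2 t x : ℝ} (ht : t ∈ Ico 0 T) (hx : x ∈ Ioo (-1 : ℝ) 1)
    (a : ∀ y ∈ Ioo (-1 : ℝ) 1, HasDerivAt (H t) (h1 y) y) (b : HasDerivAt h1 h2 x) :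
    Ds w (Ds w H) t x = Real.exp (-2 * w t x) *
      (-x * h1 x - (1 - x ^ 2) * dx (w t) x * h1 x + (1 - x ^ 2) * h2) := by
  have hev : (fun y => Ds w H t y) =ᶠ[𝓝 x] fun y => -(sx y * Real.exp (-w t y)) * h1 y := by
    filter_upwards [isOpen_Ioo.mem_nhds hx] with y hy
    unfold Ds Dx
    rw [(a y hy).deriv]
  have c1 := (((sx_hasDeriv hx).mul ((w1 hs ht hx).neg.exp)).neg).mul b
  have c2 : deriv (Ds w H t) x = _ := (c1.congr_of_eventuallyEq hev).deriv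
  have c3 : Ds w (Ds w H) t x = -(sx x * Real.exp (-w t x)) * deriv (Ds w H t) x := rfl
  rw [c3, c2]
  have e1 : Real.exp (-2 * w t x) = Real.exp (-w t x) ^ 2 := by
    rw [← Real.exp_nat_mul]; congr 1; push_cast; ring
  have h0 := (sx_pos hx).ne'
  have hsq := sx_sq hx
  rw [e1, ← hsq]
  simp only [Pi.neg_apply, Pi.mul_apply]
  field_simp
  ring

lemma Ds_at {H : Fn} {h1 t x : ℝ} (a : HasDerivAt (H t) h1 x) :
    Ds w H t x = -(sx x * Real.exp (-w t x)) * h1 := by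
  unfold Ds Dx
  rw [a.deriv]

omit hs in
lemma cosh_r2 {t x : ℝ} (hx : x ∈ Ioo (-1 : ℝ) 1) :
    Real.cosh (uu w f t x) / (rr w f t x) ^ 2 =
      19 / 78 * (Real.exp (-2 * w t x) / (1 - x ^ 2) + Real.exp (-2 * f t x)) := by
  have hp := one_sub_sq_pos hx
  have hz : (0 : ℝ) < zeta0 := by unfold zeta0; norm_num
  have e0 : (rr w f t x) ^ 2 = Real.exp (f t x + w t x + Real.log (1 - x ^ 2) / 2) / zeta0 := by
    unfold rr rho
    rw [← Real.exp_nat_mul]
    rw [show ((2 : ℕ) : ℝ) * ((f t x + w t x + Real.log (1 - x ^ 2) / 2 - Real.log zeta0) / 2) =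
      f t x + w t x + Real.log (1 - x ^ 2) / 2 - Real.log zeta0 by push_cast; ring,
      Real.exp_sub, Real.exp_log hz]
  have e1 : Real.exp (-2 * w t x) / (1 - x ^ 2) = Real.exp (-2 * w t x - Real.log (1 - x ^ 2)) := by
    rw [Real.exp_sub, Real.exp_log hp]
  rw [e0, e1, Real.cosh_eq]
  unfold uu
  set L := Real.log (1 - x ^ 2)
  have e2 : Real.exp (f t x - w t x - L / 2) =
      Real.exp (-2 * w t x - L) * Real.exp (f t x + w t x + L / 2) := by
    rw [← Real.exp_add]; congr 1; ring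
  have e3 : Real.exp (-(f t x - w t x - L / 2)) =
      Real.exp (-2 * f t x) * Real.exp (f t x + w t x + L / 2) := by
    rw [← Real.exp_add]; congr 1; ring
  rw [e2, e3]
  have h1 := (Real.exp_pos (f t x + w t x + L / 2)).ne'
  unfold zeta0
  field_simp
  ring

omit hs in
lemma sinh_r2 {t x : ℝ} (hx : x ∈ Ioo (-1 : ℝ) 1) :
    Real.sinh (uu w f t x) / (rr w f t x) ^ 2 =
      19 / 78 * (Real.exp (-2 * w t x) / (1 - x ^ 2) - Real.exp (-2 * f t x)) := by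
  have hp := one_sub_sq_pos hx
  have hz : (0 : ℝ) < zeta0 := by unfold zeta0; norm_num
  have e0 : (rr w f t x) ^ 2 = Real.exp (f t x + w t x + Real.log (1 - x ^ 2) / 2) / zeta0 := by
    unfold rr rho
    rw [← Real.exp_nat_mul]
    rw [show ((2 : ℕ) : ℝ) * ((f t x + w t x + Real.log (1 - x ^ 2) / 2 - Real.log zeta0) / 2) =
      f t x + w t x + Real.log (1 - x ^ 2) / 2 - Real.log zeta0 by push_cast; ring,
      Real.exp_sub, Real.exp_log hz]
  have e1 : Real.exp (-2 * w t x) / (1 - x ^ 2) = Real.exp (-2 * w t x - Real.log (1 - x ^ 2)) := by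
    rw [Real.exp_sub, Real.exp_log hp]
  rw [e0, e1, Real.sinh_eq]
  unfold uu
  set L := Real.log (1 - x ^ 2)
  have e2 : Real.exp (f t x - w t x - L / 2) =
      Real.exp (-2 * w t x - L) * Real.exp (f t x + w t x + L / 2) := by
    rw [← Real.exp_add]; congr 1; ring
  have e3 : Real.exp (-(f t x - w t x - L / 2)) =
      Real.exp (-2 * f t x) * Real.exp (f t x + w t x + L / 2) := by
    rw [← Real.exp_add]; congr 1; ring
  rw [e2, e3]
  have h1 := (Real.exp_pos (f t x + w t x + L / 2)).ne'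
  unfold zeta0
  field_simp
  ring

/-- `D_t ρ = yy` -/
theorem DT_rho {t x : ℝ} (ht : t ∈ Ioo 0 T) (hx : x ∈ Ioo (-1 : ℝ) 1) :
    DT w f (rho w f) t x = yy w f t x := by
  have ht' : t ∈ Ico 0 T := ⟨ht.1.le, ht.2⟩
  have hIco : Ico 0 T ∈ 𝓝 t := Ico_mem_nhds ht.1 ht.2
  have hwt := (hs.eq_w t ht' x (Ioo_subset_Icc_self hx)).hasDerivAt hIco
  have hft := (hs.eq_f t ht' x (Ioo_subset_Icc_self hx)).hasDerivAt hIco
  have hrt : HasDerivAt (fun s => rho w f s x)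
      ((rhsF 20 (w t) (f t) x + rhsW 20 (w t) (f t) x) / 2) t :=
    (((hft.add hwt).add_const (Real.log (1 - x ^ 2) / 2)).sub_const (Real.log zeta0)).div_const 2
  have e1 : Dt (rho w f) t x = (rhsF 20 (w t) (f t) x + rhsW 20 (w t) (f t) x) / 2 := hrt.deriv
  have e2 := DsDs hs ht' hx (H := rho w f) (fun y hy => rho1 hs ht' hy) (rhx1 hs ht' hx)
  have e3 : Ds w (rho w f) t x = -(sx x * Real.exp (-w t x)) * RG.rhx (w t) (f t) x :=
    Ds_at hs (rho1 hs ht' hx)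
  have e4 : Dx (w) t x = dx (w t) x := (w1 hs ht' hx).deriv
  have e5 : Dx (f) t x = dx (f t) x := (f1 hs ht' hx).deriv
  have e6 : Real.exp (-2 * w t x) = Real.exp (-w t x) ^ 2 := by
    rw [← Real.exp_nat_mul]; congr 1; push_cast; ring
  have e7 : 39 * Real.cosh (uu w f t x) / (rr w f t x) ^ 2 =
      19 / 2 * (Real.exp (-2 * w t x) / (1 - x ^ 2) + Real.exp (-2 * f t x)) := by
    rw [mul_div_assoc, cosh_r2 hx]; ring
  have hne := (one_sub_sq_pos hx).ne'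
  have hsq := sx_sq hx
  unfold DT yy Lp
  rw [e1, e2, e3, e7, Dx_rho hs ht' hx]
  unfold Xg
  rw [e4, e5]
  unfold rhsF rhsW lap RG.rhx
  have e8 : (-(sx x * Real.exp (-w t x)) * ((dx (f t) x + dx (w t) x - x / (1 - x ^ 2)) / 2)) =
    (-(sx x * Real.exp (-w t x)) * ((dx (f t) x + dx (w t) x - x / (1 - x ^ 2)) / 2)) := rfl
  have e9 : 40 * (-(sx x * Real.exp (-w t x)) *
      ((dx (f t) x + dx (w t) x - x / (1 - x ^ 2)) / 2)) * (-(sx x * Real.exp (-w t x)) *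
      ((dx (f t) x + dx (w t) x - x / (1 - x ^ 2)) / 2)) =
      40 * ((1 - x ^ 2) * Real.exp (-2 * w t x)) *
        ((dx (f t) x + dx (w t) x - x / (1 - x ^ 2)) / 2) ^ 2 := by
    rw [e6, ← hsq]; ring
  rw [e9]
  push_cast
  field_simp
  ring

/-! ### the chain rule -/

section chain

variable (hpos : ∀ t ∈ Ico 0 T, ∀ x ∈ Ioo (0 : ℝ) 1, 0 < rs w f t x)
include hpos

lemma hneg : ∀ t ∈ Ico 0 T, ∀ x ∈ Ioo (0 : ℝ) 1, RG.rhx (w t) (f t) x < 0 := by
  intro t ht x hx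
  have hx' : x ∈ Ioo (-1 : ℝ) 1 := ⟨by linarith only [hx, hx.1], hx.2⟩
  have h1 := hpos t ht x hx
  have h2 : rs w f t x = -(sx x * Real.exp (-w t x)) * RG.rhx (w t) (f t) x :=
    Ds_at hs (rho1 hs ht hx')
  rw [h2] at h1
  by_contra h
  push Not at h
  have h3 := mul_pos (sx_pos hx') (Real.exp_pos (-w t x))
  nlinarith only [h1, h, h3, mul_nonneg h3.le h]

/-- `X(t,ρ) ∈ (0,1)` and `ρ(t,X) = ρ` -/
lemma X_spec {q : ℝ × ℝ} (hq : q ∈ RG.reg 20 w f (Ico 0 T)) :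
    RG.XX 20 w f q.1 q.2 ∈ Ioo (0 : ℝ) 1 ∧ rho w f q.1 (RG.XX 20 w f q.1 q.2) = q.2 := by
  have h := RG.XX_spec hs hq
  rw [rh_eq0] at h
  exact h

lemma X_rho {q : ℝ × ℝ} (hq : q ∈ RG.reg 20 w f (Ico 0 T)) :
    HasDerivAt (RG.XX 20 w f q.1) (Dx (rho w f) q.1 (RG.XX 20 w f q.1 q.2))⁻¹ q.2 := by
  have h := RG.XX_spec hs hq
  rw [Dx_rho hs hq.1 ⟨by linarith only [h, h.1.1], h.1.2⟩]
  exact RG.XX_deriv hs (hneg hs hpos) hq

lemma Dr_eq {H : Fn} {t x : ℝ} (ht : t ∈ Ico 0 T) (hx : x ∈ Ioo (0 : ℝ) 1) :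
    Dr w f H t x = Dx H t x / Dx (rho w f) t x := by
  have hx' : x ∈ Ioo (-1 : ℝ) 1 := ⟨by linarith only [hx, hx.1], hx.2⟩
  have h3 := mul_pos (sx_pos hx') (Real.exp_pos (-w t x))
  unfold Dr rs Ds
  rw [mul_div_mul_left _ _ (by linarith only [h3] : -(sx x * Real.exp (-w t x)) ≠ 0)]

/-- chain rule in `ρ` -/
theorem chain_rho {q : ℝ × ℝ} (hq : q ∈ RG.reg 20 w f (Ico 0 T)) {H : Fn}
    (hH : DifferentiableAt ℝ (H q.1) (RG.XX 20 w f q.1 q.2)) :
    HasDerivAt (fun r => H q.1 (RG.XX 20 w f q.1 r)) (Dr w f H q.1 (RG.XX 20 w f q.1 q.2)) q.2 := by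
  have h := RG.XX_spec hs hq
  have h1 := hH.hasDerivAt.comp q.2 (X_rho hs hpos hq)
  rw [Dr_eq hs hpos hq.1 h.1]
  exact h1

lemma X_t {q : ℝ × ℝ} (hq : q ∈ RG.reg 20 w f (Ioo 0 T)) :
    HasDerivAt (fun s => RG.XX 20 w f s q.2)
      (-(Dt (rho w f) q.1 (RG.XX 20 w f q.1 q.2)) /
        Dx (rho w f) q.1 (RG.XX 20 w f q.1 q.2)) q.1 := by
  have hq' : q ∈ RG.reg 20 w f (Ico 0 T) := ⟨⟨hq.1.1.le, hq.1.2⟩, hq.2⟩
  have h := RG.XX_spec hs hq'
  have hx' : RG.XX 20 w f q.1 q.2 ∈ Ioo (-1 : ℝ) 1 := ⟨by linarith only [h, h.1.1], h.1.2⟩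
  have hIco : Ico 0 T ∈ 𝓝 q.1 := Ico_mem_nhds hq.1.1 hq.1.2
  have hwt := (hs.eq_w q.1 hq'.1 _ (Ioo_subset_Icc_self hx')).hasDerivAt hIco
  have hft := (hs.eq_f q.1 hq'.1 _ (Ioo_subset_Icc_self hx')).hasDerivAt hIco
  have hrt : Dt (rho w f) q.1 (RG.XX 20 w f q.1 q.2) =
      (rhsF 20 (w q.1) (f q.1) (RG.XX 20 w f q.1 q.2) +
        rhsW 20 (w q.1) (f q.1) (RG.XX 20 w f q.1 q.2)) / 2 := by
    have h5 := (((hft.add hwt).add_const (Real.log (1 - (RG.XX 20 w f q.1 q.2) ^ 2) / 2)).sub_const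
      (Real.log zeta0)).div_const 2
    exact h5.deriv
  rw [hrt, Dx_rho hs hq'.1 hx']
  exact RG.XX_time hs (hneg hs hpos) hq

/-- chain rule in `t` -/
theorem chain_t {q : ℝ × ℝ} (hq : q ∈ RG.reg 20 w f (Ioo 0 T)) {H : Fn}
    (hH : DifferentiableAt ℝ (fun z : ℝ × ℝ => H z.1 z.2) (q.1, RG.XX 20 w f q.1 q.2)) :
    HasDerivAt (fun s => H s (RG.XX 20 w f s q.2)) (Tr w f H q.1 (RG.XX 20 w f q.1 q.2)) q.1 := by
  have hq' : q ∈ RG.reg 20 w f (Ico 0 T) := ⟨⟨hq.1.1.le, hq.1.2⟩, hq.2⟩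
  have hspec := RG.XX_spec hs hq'
  set x₀ := RG.XX 20 w f q.1 q.2 with hx₀
  have hx' : x₀ ∈ Ioo (-1 : ℝ) 1 := ⟨by linarith only [hspec, hspec.1.1], hspec.1.2⟩
  have hd := hH.hasFDerivAt
  set D := fderiv ℝ (fun z : ℝ × ℝ => H z.1 z.2) (q.1, x₀) with hD
  have e1 : D (1, 0) = Dt H q.1 x₀ := by
    have h1 : HasDerivAt (fun s : ℝ => ((s, x₀) : ℝ × ℝ)) (1, 0) q.1 :=
      (hasDerivAt_id q.1).prodMk (hasDerivAt_const q.1 x₀)
    have h2 := HasFDerivAt.comp_hasDerivAt (l := fun z : ℝ × ℝ => H z.1 z.2)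
      (f := fun s : ℝ => ((s, x₀) : ℝ × ℝ)) q.1 hd h1
    exact (HasDerivAt.deriv h2).symm
  have e2 : D (0, 1) = Dx H q.1 x₀ := by
    have h1 : HasDerivAt (fun y : ℝ => ((q.1, y) : ℝ × ℝ)) (0, 1) x₀ :=
      (hasDerivAt_const x₀ q.1).prodMk (hasDerivAt_id x₀)
    have h2 := HasFDerivAt.comp_hasDerivAt (l := fun z : ℝ × ℝ => H z.1 z.2)
      (f := fun y : ℝ => ((q.1, y) : ℝ × ℝ)) x₀ hd h1
    exact (HasDerivAt.deriv h2).symm
  have hX := X_t hs hpos hq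
  have h1 : HasDerivAt (fun s : ℝ => ((s, RG.XX 20 w f s q.2) : ℝ × ℝ))
      (1, -(Dt (rho w f) q.1 x₀) / Dx (rho w f) q.1 x₀) q.1 :=
    (hasDerivAt_id q.1).prodMk hX
  have h2 := HasFDerivAt.comp_hasDerivAt (l := fun z : ℝ × ℝ => H z.1 z.2)
    (f := fun s : ℝ => ((s, RG.XX 20 w f s q.2) : ℝ × ℝ)) q.1 hd h1
  have e3 : D (1, -(Dt (rho w f) q.1 x₀) / Dx (rho w f) q.1 x₀) = Tr w f H q.1 x₀ := by
    have hsplit : ((1 : ℝ), -(Dt (rho w f) q.1 x₀) / Dx (rho w f) q.1 x₀) =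
        ((1 : ℝ), (0 : ℝ)) + (-(Dt (rho w f) q.1 x₀) / Dx (rho w f) q.1 x₀) •
          ((0 : ℝ), (1 : ℝ)) := by ext <;> simp
    rw [hsplit, map_add, map_smul, e1, e2, smul_eq_mul]
    have hr := DT_rho hs hq.1 hx'
    unfold Tr
    rw [← hr, Dr_eq hs hpos hq'.1 hspec.1]
    have hne : Dx (rho w f) q.1 x₀ ≠ 0 := by
      rw [Dx_rho hs hq'.1 hx']
      exact (hneg hs hpos q.1 hq'.1 _ hspec.1).ne
    unfold DT
    field_simp
    ring
  rw [e3] at h2
  exact h2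

end chain

end slice

end

end Vale.Agent.P244.ST.M7
end
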