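import Mathlib
import Vale.Agent.P244.Bd3.B2
import Vale.Agent.P244.Bd3.B1
import Vale.Agent.P244.Bd3.B3

set_option linter.all false

section

set_option linter.all false

/-! # P244, block G1, part D: derivatives of the Christoffel symbols, algebra of the Ricci sums. -/

open scoped ContDiff
open Set
open Vale.Agent.P244.Flow (pd christoffel ricci)

namespace Vale.Agent.P244.Geo

variable {m p : ℕ}

/-! ### sums -/

lemma sum_dlkk : ∑ k : Fin m, dl k k = m := by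
  simp [dl]

/-- generic contraction -/
lemma sum_gen (u h X Y : Fin m → ℝ) (i j : Fin m) (a b c d : ℝ) :
    ∑ k, (dl j k * X k + dl i k * Y k + a * (u k * u k) + b * (u k * h k) + c * (h k * h k) +
      d * dl k k) = X j + Y i + a * ∑ k, u k * u k + b * ∑ k, u k * h k + c * ∑ k, h k * h k +
      d * m := by
  rw [Finset.sum_add_distrib, Finset.sum_add_distrib, Finset.sum_add_distrib,
    Finset.sum_add_distrib, Finset.sum_add_distrib, ← Finset.mul_sum, ← Finset.mul_sum,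
    ← Finset.mul_sum, ← Finset.mul_sum, sum_dl, sum_dl, sum_dlkk]

lemma sum_gen2 (P R h X Y Z : Fin m → ℝ) (i j k : Fin m) (a b c d : ℝ) :
    ∑ l, (dl k l * X l + dl i l * Y l + dl j l * Z l + a * (P l * R l) + b * (P l * h l) +
      c * (R l * h l) + d * (h l * h l)) = X k + Y i + Z j + a * ∑ l, P l * R l +
      b * ∑ l, P l * h l + c * ∑ l, R l * h l + d * ∑ l, h l * h l := by
  rw [Finset.sum_add_distrib, Finset.sum_add_distrib, Finset.sum_add_distrib,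
    Finset.sum_add_distrib, Finset.sum_add_distrib, Finset.sum_add_distrib, ← Finset.mul_sum,
    ← Finset.mul_sum, ← Finset.mul_sum, ← Finset.mul_sum, sum_dl, sum_dl, sum_dl]

lemma sum_gen3 (P R h X Y : Fin m → ℝ) (i j : Fin m) (a b c d e : ℝ) :
    ∑ l, (dl i l * X l + dl j l * Y l + e * dl l l + a * (P l * R l) + b * (P l * h l) +
      c * (R l * h l) + d * (h l * h l)) = X i + Y j + e * m + a * ∑ l, P l * R l +
      b * ∑ l, P l * h l + c * ∑ l, R l * h l + d * ∑ l, h l * h l := by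
  rw [Finset.sum_add_distrib, Finset.sum_add_distrib, Finset.sum_add_distrib,
    Finset.sum_add_distrib, Finset.sum_add_distrib, Finset.sum_add_distrib, ← Finset.mul_sum,
    ← Finset.mul_sum, ← Finset.mul_sum, ← Finset.mul_sum, ← Finset.mul_sum, sum_dl, sum_dl,
    sum_dlkk]

/-- the quadratic Christoffel term -/
lemma sum_GG (P R h : Fin m → ℝ) (w : ℝ) (i j : Fin m) :
    ∑ k, ∑ l, (dl l k * P j + dl j k * P l + dl j l * R k + w * (h j * h l * h k)) *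
      (dl k l * P i + dl i l * P k + dl i k * R l + w * (h i * h k * h l)) =
    (m + 3) * (P i * P j) + 2 * dl i j * ∑ k, P k * R k + 2 * w * (h i * h j) * ∑ k, P k * h k +
      w * (P j * h i + P i * h j) * ∑ k, h k * h k + (P j * R i + P i * R j) + R i * R j +
      2 * w * (h i * h j) * ∑ k, R k * h k + w ^ 2 * (h i * h j) * (∑ k, h k * h k) ^ 2 := by
  have h1 : ∀ k l, (dl l k * P j + dl j k * P l + dl j l * R k + w * (h j * h l * h k)) *
      (dl k l * P i + dl i l * P k + dl i k * R l + w * (h i * h k * h l)) =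
      dl k l * (P j * (P i + dl i l * P k + dl i k * R l + w * (h i * h k * h l)) +
        dl j k * P l * P i + w * (h j * h l * h k) * P i) +
      dl i l * (dl j k * P l * P k + w * (h j * h l * h k) * P k) +
      dl j l * (R k * (dl k l * P i + dl i l * P k + dl i k * R l + w * (h i * h k * h l))) +
      (dl j k * dl i k) * (P l * R l) + (dl j k * w * h i * h k) * (P l * h l) +
      (w * h j * h k * dl i k) * (R l * h l) + (w ^ 2 * h i * h j * h k * h k) * (h l * h l) := by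
    intro k l
    have e2 : dl k l * dl k l = dl k l := dl_mul_self k l
    rw [dl_comm l k]
    linear_combination (P i * P j) * e2
  have h2 : ∀ k, ∑ l, (dl l k * P j + dl j k * P l + dl j l * R k + w * (h j * h l * h k)) *
      (dl k l * P i + dl i l * P k + dl i k * R l + w * (h i * h k * h l)) =
      dl i k * (P j * P k + P j * R k + R j * R k + dl j k * ∑ l, P l * R l +
        w * h j * h k * ∑ l, R l * h l) +
      dl j k * (2 * P i * P k + R k * P i + w * h i * h k * ∑ l, P l * h l) +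
      (P j * P i) * dl k k + (dl i j) * (P k * R k) + (w * h i * h j) * (P k * h k) +
      (w * h i * h j) * (R k * h k) +
      (w * (P j * h i + P i * h j) + w ^ 2 * h i * h j * ∑ l, h l * h l) * (h k * h k) := by
    intro k
    rw [Finset.sum_congr rfl fun l _ => h1 k l, sum_gen2 P R h
      (fun l => P j * (P i + dl i l * P k + dl i k * R l + w * (h i * h k * h l)) +
        dl j k * P l * P i + w * (h j * h l * h k) * P i)
      (fun l => dl j k * P l * P k + w * (h j * h l * h k) * P k)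
      (fun l => R k * (dl k l * P i + dl i l * P k + dl i k * R l + w * (h i * h k * h l))) i j k,
      dl_self, dl_comm k j]
    ring
  rw [Finset.sum_congr rfl fun k _ => h2 k, sum_gen3 P R h
    (fun k => P j * P k + P j * R k + R j * R k + dl j k * ∑ l, P l * R l +
        w * h j * h k * ∑ l, R l * h l)
    (fun k => 2 * P i * P k + R k * P i + w * h i * h k * ∑ l, P l * h l), dl_comm j i]
  ring

/-! ### derivatives of the Christoffel symbols -/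

section der

variable {P : Prof} {b : EE m} {c : ℝ}

/-- `∂_k ∂_i log ρ` -/
noncomputable def du (i k : Fin m) (y : EE m) : ℝ := uu i y * uu k y - rho y / 2 * dl i k

/-- `∂_k ∂_i h` -/
noncomputable def dh (b : EE m) (c : ℝ) (i k : Fin m) (y : EE m) : ℝ :=
  uu i y * hi b c k y + uu k y * hi b c i y + ss b c y * dl i k

lemma HD_pp (hP : P.Good) (hb : ‖b‖ ^ 2 + c ^ 2 = 1) (i : Fin m) (y : EE m) :
    HD (pp P b c i) (fun k => du i k y + (P.al1 (hh b c y) * hi b c k y * hi b c i y +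
      P.al (hh b c y) * dh b c i k y)) y := by
  have hx := hh_mem hb y
  exact (HD_uu i y).add ((HD.compW (hP.der_al hx) (HD_hh b c y) (hh_mem hb)).mul (HD_hi b c i y))

lemma HD_rr (hP : P.Good) (hb : ‖b‖ ^ 2 + c ^ 2 = 1) (i : Fin m) (y : EE m) :
    HD (rr P b c i) (fun k => -du i k y + (P.ga1 (hh b c y) * hi b c k y * hi b c i y +
      P.ga (hh b c y) * dh b c i k y)) y := by
  have hx := hh_mem hb y
  exact (HD_uu i y).neg.add ((HD.compW (hP.der_ga hx) (HD_hh b c y) (hh_mem hb)).mul (HD_hi b c i y))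

lemma HD_om (hP : P.Good) (hb : ‖b‖ ^ 2 + c ^ 2 = 1) (y : EE m) :
    HD (om P b c) (fun k => P.be1 (hh b c y) * hi b c k y / rho y ^ 2 -
      2 * om P b c y * uu k y) y := by
  have hx := hh_mem hb y
  have hr := (rho_pos y).ne'
  refine ((HD.compW (hP.der_be hx) (HD_hh b c y) (hh_mem hb)).div (HD_rho2 y)
    (by positivity)).congr fun k => ?_
  unfold om
  field_simp

/-- derivative of `chF` -/
noncomputable def dchF (P : Prof) (b : EE m) (c : ℝ) (k i j l : Fin m) (y : EE m) : ℝ :=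
  dl j k * (du i l y + (P.al1 (hh b c y) * hi b c l y * hi b c i y + P.al (hh b c y) * dh b c i l y))
  + dl i k * (du j l y + (P.al1 (hh b c y) * hi b c l y * hi b c j y +
      P.al (hh b c y) * dh b c j l y))
  + dl i j * (-du k l y + (P.ga1 (hh b c y) * hi b c l y * hi b c k y +
      P.ga (hh b c y) * dh b c k l y))
  + ((P.be1 (hh b c y) * hi b c l y / rho y ^ 2 - 2 * om P b c y * uu l y) *
      (hi b c i y * hi b c j y * hi b c k y) +
    om P b c y * ((dh b c i l y * hi b c j y + hi b c i y * dh b c j l y) * hi b c k y +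
      hi b c i y * hi b c j y * dh b c k l y))

lemma HD_chF (hP : P.Good) (hb : ‖b‖ ^ 2 + c ^ 2 = 1) (k i j : Fin m) (y : EE m) :
    HD (chF P b c k i j) (fun l => dchF P b c k i j l y) y :=
  ((((HD_pp hP hb i y).const_mul (dl j k)).add ((HD_pp hP hb j y).const_mul (dl i k))).add
    ((HD_rr hP hb k y).const_mul (dl i j))).add ((HD_om hP hb y).mul
      (((HD_hi b c i y).mul (HD_hi b c j y)).mul (HD_hi b c k y)))

lemma HD_chS (k i j : Fin p) (y : EE p) :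
    HD (chS k i j) (fun l => dl j k * du i l y + dl i k * du j l y - dl i j * du k l y) y :=
  (((HD_uu i y).const_mul (dl j k)).add ((HD_uu j y).const_mul (dl i k))).sub
    ((HD_uu k y).const_mul (dl i j))

lemma HD_chM (hP : P.Good) (hb : ‖b‖ ^ 2 + c ^ 2 = 1) (k : Fin m) (y : EE m) :
    HD (chM P b c k) (fun l => -((P.la1 (hh b c y) * hi b c l y / rho y ^ 2 -
      2 * (P.la (hh b c y) / rho y ^ 2) * uu l y) * hi b c k y +
      P.la (hh b c y) / rho y ^ 2 * dh b c k l y)) y := by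
  have hx := hh_mem hb y
  have hr := (rho_pos y).ne'
  refine (((HD.compW (hP.der_la hx) (HD_hh b c y) (hh_mem hb)).div (HD_rho2 y)
    (by positivity)).mul (HD_hi b c k y)).neg.congr fun l => ?_
  unfold dh dl
  field_simp

lemma HD_kh (hP : P.Good) (hb : ‖b‖ ^ 2 + c ^ 2 = 1) (i : Fin m) (y : EE m) :
    HD (fun y => P.ka (hh b c y) * hi b c i y) (fun l => P.ka1 (hh b c y) * hi b c l y * hi b c i y +
      P.ka (hh b c y) * dh b c i l y) y := by
  have hx := hh_mem hb y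
  exact (HD.compW (hP.der_ka hx) (HD_hh b c y) (hh_mem hb)).mul (HD_hi b c i y)

/-! ### partial derivatives on the product -/

lemma PDc_lll (hP : P.Good) (hb : ‖b‖ ^ 2 + c ^ 2 = 1) (k i j : Fin m) (y : EE m × EE p) :
    PD (christoffel (frame m p) (G m p b c P.A P.B P.C) (Fin.castAdd p k) (Fin.castAdd p i)
      (Fin.castAdd p j)) (fun l => dchF P b c k i j l y.1) (fun _ => 0) y :=
  (PD.fst (HD_chF hP hb k i j y.1)).of_eq (ch_lll hP hb k i j)

lemma PDc_llr (hP : P.Good) (hb : ‖b‖ ^ 2 + c ^ 2 = 1) (k i : Fin m) (a : Fin p)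
    (y : EE m × EE p) :
    PD (christoffel (frame m p) (G m p b c P.A P.B P.C) (Fin.castAdd p k) (Fin.castAdd p i)
      (Fin.natAdd m a)) (fun _ => 0) (fun _ => 0) y :=
  (PD.const 0).of_eq (ch_llr hP hb k i a)

lemma PDc_lrl (hP : P.Good) (hb : ‖b‖ ^ 2 + c ^ 2 = 1) (k i : Fin m) (a : Fin p)
    (y : EE m × EE p) :
    PD (christoffel (frame m p) (G m p b c P.A P.B P.C) (Fin.castAdd p k) (Fin.natAdd m a)
      (Fin.castAdd p i)) (fun _ => 0) (fun _ => 0) y :=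
  (PD.const 0).of_eq (ch_lrl hP hb k i a)

lemma PDc_lrr (hP : P.Good) (hb : ‖b‖ ^ 2 + c ^ 2 = 1) (k : Fin m) (a a' : Fin p)
    (y : EE m × EE p) :
    PD (christoffel (frame m p) (G m p b c P.A P.B P.C) (Fin.castAdd p k) (Fin.natAdd m a)
      (Fin.natAdd m a')) (fun l => -((P.la1 (hh b c y.1) * hi b c l y.1 / rho y.1 ^ 2 -
      2 * (P.la (hh b c y.1) / rho y.1 ^ 2) * uu l y.1) * hi b c k y.1 +
      P.la (hh b c y.1) / rho y.1 ^ 2 * dh b c k l y.1) * (rho y.2 ^ 2 * dl a a'))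
      (fun l => chM P b c k y.1 * (2 * rho y.2 * (rho y.2 * uu l y.2) * dl a a')) y := by
  refine (((PD.fst (HD_chM hP hb k y.1)).mul ((PD.snd (HD_rho2 y.2)).mul
    (PD.const (dl a a')))).of_eq (ch_lrr hP hb k a a')).congr (fun l => ?_) (fun l => ?_)
  · ring
  · ring

lemma PDc_rll (hP : P.Good) (hb : ‖b‖ ^ 2 + c ^ 2 = 1) (a : Fin p) (i j : Fin m)
    (y : EE m × EE p) :
    PD (christoffel (frame m p) (G m p b c P.A P.B P.C) (Fin.natAdd m a) (Fin.castAdd p i)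
      (Fin.castAdd p j)) (fun _ => 0) (fun _ => 0) y :=
  (PD.const 0).of_eq (ch_rll hP hb a i j)

lemma PDc_rlr (hP : P.Good) (hb : ‖b‖ ^ 2 + c ^ 2 = 1) (a a' : Fin p) (i : Fin m)
    (y : EE m × EE p) :
    PD (christoffel (frame m p) (G m p b c P.A P.B P.C) (Fin.natAdd m a) (Fin.castAdd p i)
      (Fin.natAdd m a')) (fun l => (P.ka1 (hh b c y.1) * hi b c l y.1 * hi b c i y.1 +
      P.ka (hh b c y.1) * dh b c i l y.1) * dl a a') (fun _ => 0) y := by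
  refine (((PD.fst (HD_kh hP hb i y.1)).mul (PD.const (dl a a'))).of_eq
    (ch_rlr hP hb a a' i)).congr (fun l => ?_) (fun l => ?_)
  · ring
  · ring

lemma PDc_rrl (hP : P.Good) (hb : ‖b‖ ^ 2 + c ^ 2 = 1) (a a' : Fin p) (i : Fin m)
    (y : EE m × EE p) :
    PD (christoffel (frame m p) (G m p b c P.A P.B P.C) (Fin.natAdd m a) (Fin.natAdd m a')
      (Fin.castAdd p i)) (fun l => (P.ka1 (hh b c y.1) * hi b c l y.1 * hi b c i y.1 +
      P.ka (hh b c y.1) * dh b c i l y.1) * dl a a') (fun _ => 0) y := by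
  refine (((PD.fst (HD_kh hP hb i y.1)).mul (PD.const (dl a a'))).of_eq
    (ch_rrl hP hb a a' i)).congr (fun l => ?_) (fun l => ?_)
  · ring
  · ring

lemma PDc_rrr (hP : P.Good) (hb : ‖b‖ ^ 2 + c ^ 2 = 1) (k i j : Fin p) (y : EE m × EE p) :
    PD (christoffel (frame m p) (G m p b c P.A P.B P.C) (Fin.natAdd m k) (Fin.natAdd m i)
      (Fin.natAdd m j)) (fun _ => 0)
      (fun l => dl j k * du i l y.2 + dl i k * du j l y.2 - dl i j * du k l y.2) y :=
  (PD.snd (HD_chS k i j y.2)).of_eq (ch_rrr hP hb k i j)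

lemma chr_diff (hP : P.Good) (hb : ‖b‖ ^ 2 + c ^ 2 = 1) (K I J : Fin (m + p))
    (y : EE m × EE p) :
    DifferentiableAt ℝ (christoffel (frame m p) (G m p b c P.A P.B P.C) K I J) y := by
  refine Fin.addCases (fun k => ?_) (fun k => ?_) K <;>
  refine Fin.addCases (fun i => ?_) (fun i => ?_) I <;>
  refine Fin.addCases (fun j => ?_) (fun j => ?_) J
  · exact (PDc_lll hP hb _ _ _ y).1
  · exact (PDc_llr hP hb _ _ _ y).1
  · exact (PDc_lrl hP hb _ _ _ y).1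
  · exact (PDc_lrr hP hb _ _ _ y).1
  · exact (PDc_rll hP hb _ _ _ y).1
  · exact (PDc_rlr hP hb _ _ _ y).1
  · exact (PDc_rrl hP hb _ _ _ y).1
  · exact (PDc_rrr hP hb _ _ _ y).1

lemma chF_symm (k i j : Fin m) (y : EE m) : chF P b c k i j y = chF P b c k j i y := by
  unfold chF
  rw [dl_comm i j]
  ring

lemma chS_symm (k i j : Fin p) (y : EE p) : chS k i j y = chS k j i y := by
  unfold chS
  rw [dl_comm i j]
  ring

lemma chr_symm (hP : P.Good) (hb : ‖b‖ ^ 2 + c ^ 2 = 1) (K I J : Fin (m + p))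
    (y : EE m × EE p) :
    christoffel (frame m p) (G m p b c P.A P.B P.C) K I J y =
      christoffel (frame m p) (G m p b c P.A P.B P.C) K J I y := by
  refine Fin.addCases (fun k => ?_) (fun k => ?_) K <;>
  refine Fin.addCases (fun i => ?_) (fun i => ?_) I <;>
  refine Fin.addCases (fun j => ?_) (fun j => ?_) J
  · rw [ch_lll hP hb, ch_lll hP hb, chF_symm]
  · rw [ch_llr hP hb, ch_lrl hP hb]
  · rw [ch_llr hP hb, ch_lrl hP hb]
  · rw [ch_lrr hP hb, ch_lrr hP hb, dl_comm]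
  · rw [ch_rll hP hb, ch_rll hP hb]
  · rw [ch_rlr hP hb, ch_rrl hP hb]
  · rw [ch_rlr hP hb, ch_rrl hP hb]
  · rw [ch_rrr hP hb, ch_rrr hP hb, chS_symm]

end der

/-! ### the profile functions of the Ricci tensor -/

namespace Prof

variable (P : Prof) (m p : ℕ)

noncomputable def T (x : ℝ) : ℝ :=
  (m + 1) * P.al x + P.ga x + P.be x * (1 - x ^ 2) + p * P.ka x

noncomputable def T1 (x : ℝ) : ℝ :=
  (m + 1) * P.al1 x + P.ga1 x + (P.be1 x * (1 - x ^ 2) - 2 * x * P.be x) + p * P.ka1 x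

/-- coefficient of `g_{S^m}` in the Ricci tensor -/
noncomputable def F1 (x : ℝ) : ℝ :=
  (m - 1) - 2 * P.al x * x + P.ga1 x * (1 - x ^ 2) - m * P.ga x * x + P.T m p x * x +
    P.T m p x * P.ga x * (1 - x ^ 2) - 2 * P.al x * P.ga x * (1 - x ^ 2)

/-- coefficient of `dh ⊗ dh` in the Ricci tensor -/
noncomputable def F2 (x : ℝ) : ℝ :=
  -(m - 1) * P.al1 x - P.ga1 x - p * P.ka1 x - m * x * P.be x +
    (2 * P.al x + P.be x * (1 - x ^ 2)) * P.T m p x -
    ((m + 3) * P.al x ^ 2 + 2 * P.al x * P.ga x + 4 * P.al x * P.be x * (1 - x ^ 2) + P.ga x ^ 2 +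
      2 * P.ga x * P.be x * (1 - x ^ 2) + (P.be x * (1 - x ^ 2)) ^ 2) - p * P.ka x ^ 2

/-- coefficient of `g_{S^p}` in the Ricci tensor -/
noncomputable def F3 (x : ℝ) : ℝ :=
  (p - 1) - P.la1 x * (1 - x ^ 2) + m * x * P.la x - P.T m p x * P.la x * (1 - x ^ 2) +
    2 * P.ka x * P.la x * (1 - x ^ 2)

variable {P} (hP : P.Good) {x : ℝ} (hx : x ∈ Icc (-1 : ℝ) 1)
include hP hx

lemma Good.der_T : HasDerivWithinAt (P.T m p) (P.T1 m p x) (Icc (-1) 1) x := by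
  have hq : HasDerivWithinAt (fun x : ℝ => 1 - x ^ 2) (-(2 * x)) (Icc (-1) 1) x := by
    have := ((hasDerivAt_const x (1 : ℝ)).sub (hasDerivAt_pow 2 x)).hasDerivWithinAt (s := Icc (-1) 1)
    refine this.congr_deriv ?_
    simp
  have h1 := ((((hP.der_al hx).const_mul ((m : ℝ) + 1)).add (hP.der_ga hx)).add
    ((hP.der_be hx).mul hq)).add ((hP.der_ka hx).const_mul (p : ℝ))
  refine h1.congr_deriv ?_
  unfold T1
  ring

end Prof

/-! ### splitting of the Ricci tensor -/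

lemma ricci_split {n : ℕ} {V : Type*} [NormedAddCommGroup V] [NormedSpace ℝ V] (v : Fin n → V)
    (g : V → Matrix (Fin n) (Fin n) ℝ) (I J : Fin n) (y : V)
    (hd : ∀ K I J, DifferentiableAt ℝ (christoffel v g K I J) y)
    (hs : ∀ K I J, christoffel v g K I J y = christoffel v g K J I y) (tau : Fin n → V → ℝ)
    (ht : ∀ I z, ∑ K, christoffel v g K I K z = tau I z) :
    ricci v g I J y = ∑ K, pd v K (christoffel v g K I J) y - pd v J (tau I) y +
      ∑ L, tau L y * christoffel v g L I J y -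
      ∑ K, ∑ L, christoffel v g K J L y * christoffel v g L I K y := by
  have h1 : tau I = fun z => ∑ K, christoffel v g K I K z := by
    funext z; rw [ht]
  have h2 : pd v J (tau I) y = ∑ K, pd v J (christoffel v g K I K) y := by
    unfold pd
    rw [h1]
    have := fderiv_fun_sum (𝕜 := ℝ) (u := Finset.univ) (A := fun K z => christoffel v g K I K z)
      (x := y) (fun K _ => hd K I K)
    rw [this, ContinuousLinearMap.sum_apply]
  unfold ricci
  rw [h2, Finset.sum_sub_distrib]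
  have h3 : ∑ K, ∑ L, (christoffel v g K K L y * christoffel v g L I J y -
      christoffel v g K J L y * christoffel v g L I K y) =
      ∑ L, tau L y * christoffel v g L I J y -
      ∑ K, ∑ L, christoffel v g K J L y * christoffel v g L I K y := by
    simp only [Finset.sum_sub_distrib]
    congr 1
    rw [Finset.sum_comm]
    refine Finset.sum_congr rfl fun L _ => ?_
    rw [← ht, Finset.sum_mul]
    exact Finset.sum_congr rfl fun K _ => by rw [hs K K L]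
  rw [h3]
  ring

end Vale.Agent.P244.Geo
end

section

/-!
# P244-L : exact statements of all blocks (each block is a `def ... : Prop`)

`I = Icc (-1) 1`; every prover proves `theorem X : XStmt` in its own file.
-/

open Set Filter Topology
open scoped ContDiff

namespace Vale.Agent.P244.LW
open Vale.Agent.P244.ST

/-! ## B : elliptic solver -/

/-! ## C : the implicit scheme -/

/-- One implicit Euler step `(w,f) → (W,F)` of size `h`. -/
structure Step (p : ℕ) (h : ℝ) (w f W F : ℝ → ℝ) : Prop where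
  sW : Sm W
  sF : Sm F
  eW : ∀ x ∈ Icc (-1 : ℝ) 1,
    W x - h * (Real.exp (-2 * w x) * Ld ((p : ℝ) + 1) W x
        - (1 - x ^ 2) * Jf p w f x * dx W x)
      = w x + h * (-(p : ℝ) * Real.exp (-2 * w x) + x * Jf p w f x)
  eF : ∀ x ∈ Icc (-1 : ℝ) 1,
    F x - h * (Real.exp (-2 * w x) * Ld ((p : ℝ) + 1) F x
        - (1 - x ^ 2) * Jf p w f x * dx F x)
      = f x - h * (((p : ℝ) - 1) * Real.exp (-2 * f x))

/-- C1: solvability of the step (even solution), from B5. -/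
def C1Stmt : Prop := ∀ p : ℕ, 2 ≤ p → ∀ K : ℝ, ∃ h₀ : ℝ, 0 < h₀ ∧
  ∀ w f : ℝ → ℝ, ConfData w f → Bd 2 K w → Bd 2 K f → ∀ h ∈ Ioo 0 h₀,
    ∃ W F : ℝ → ℝ, Step p h w f W F ∧ ConfData W F

/-- C2: second order estimate (any bound `M` improves). -/
def C2Stmt : Prop := ∀ p : ℕ, 2 ≤ p → ∀ K : ℝ, ∃ C : ℝ, 0 ≤ C ∧
  ∀ h ∈ Ioc (0 : ℝ) 1, ∀ w f W F : ℝ → ℝ, Sm w → Sm f → Bd 2 K w → Bd 2 K f →
    Step p h w f W F → ∀ N M : ℝ, Bd 2 N w → Bd 2 N f → Bd 2 M W → Bd 2 M F →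
      Bd 2 (N + h * C * (1 + N + M)) W ∧ Bd 2 (N + h * C * (1 + N + M)) F

/-- C3: estimates of order `j ≥ 3` are linear once the order `j-1` is bounded. -/
def C3Stmt : Prop := ∀ p : ℕ, 2 ≤ p → ∀ j : ℕ, 3 ≤ j → ∀ K : ℝ, ∃ C : ℝ, 0 ≤ C ∧
  ∀ h ∈ Ioc (0 : ℝ) 1, ∀ w f W F : ℝ → ℝ, Sm w → Sm f →
    Bd (j - 1) K w → Bd (j - 1) K f → Bd (j - 1) K W → Bd (j - 1) K F →
    Step p h w f W F → ∀ N M : ℝ, Bd j N w → Bd j N f → Bd j M W → Bd j M F →
      Bd j (N + h * C * (1 + N + M)) W ∧ Bd j (N + h * C * (1 + N + M)) F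

/-- C4: output of the scheme (uniform bounds of all orders on a time interval that depends
only on the `C²` bound of the data). -/
def C4Stmt : Prop := ∀ p : ℕ, 2 ≤ p → ∀ K₀ : ℝ, ∃ T₀ ∈ Ioc (0 : ℝ) 1,
  ∀ w₀ f₀ : ℝ → ℝ, ConfData w₀ f₀ → Bd 2 K₀ w₀ → Bd 2 K₀ f₀ →
  ∃ (N : ℕ → ℕ) (w f : ℕ → ℕ → ℝ → ℝ) (K : ℕ → ℝ), Tendsto N atTop atTop ∧
    ∀ m, 0 < N m ∧ w m 0 = w₀ ∧ f m 0 = f₀ ∧
      (∀ n ≤ N m, ConfData (w m n) (f m n) ∧
        ∀ j, Bd j (K j) (w m n) ∧ Bd j (K j) (f m n)) ∧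
      ∀ n < N m, Step p (T₀ / (N m : ℝ)) (w m n) (f m n) (w m (n + 1)) (f m (n + 1))

/-! ## D : the limit `h → 0` -/

def DStmt : Prop := ∀ p : ℕ, 2 ≤ p → ∀ K₀ : ℝ, ∃ T₀ ∈ Ioc (0 : ℝ) 1,
  ∀ w₀ f₀ : ℝ → ℝ, ConfData w₀ f₀ → Bd 2 K₀ w₀ → Bd 2 K₀ f₀ →
  ∃ w f : ℝ → ℝ → ℝ, (∀ t ∈ Icc 0 T₀, ConfData (w t) (f t)) ∧
    (∀ x ∈ Icc (-1 : ℝ) 1, w 0 x = w₀ x ∧ f 0 x = f₀ x) ∧
    (∀ j, ∃ C : ℝ, ∀ s ∈ Icc 0 T₀, ∀ t ∈ Icc 0 T₀, ∀ x ∈ Icc (-1 : ℝ) 1,
      |dn j (w t) x - dn j (w s) x| ≤ C * |t - s| ∧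
      |dn j (f t) x - dn j (f s) x| ≤ C * |t - s|) ∧
    (∀ t ∈ Icc 0 T₀, ∀ x ∈ Icc (-1 : ℝ) 1,
      HasDerivWithinAt (fun s => w s x) (rhsW p (w t) (f t) x) (Icc 0 T₀) t) ∧
    (∀ t ∈ Icc 0 T₀, ∀ x ∈ Icc (-1 : ℝ) 1,
      HasDerivWithinAt (fun s => f s x) (rhsF p (w t) (f t) x) (Icc 0 T₀) t)

/-! ## E : joint smoothness -/

/-- E1: all `x`-derivatives jointly continuous + the equations ⇒ jointly smooth. -/
def E1Stmt : Prop := ∀ (p : ℕ) (T : ℝ), 0 < T → ∀ w f : ℝ → ℝ → ℝ,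
  (∀ t ∈ Ico 0 T, ConfData (w t) (f t)) →
  (∀ j, ContinuousOn (fun z : ℝ × ℝ => dn j (w z.1) z.2) (Ico 0 T ×ˢ Icc (-1) 1)) →
  (∀ j, ContinuousOn (fun z : ℝ × ℝ => dn j (f z.1) z.2) (Ico 0 T ×ˢ Icc (-1) 1)) →
  (∀ t ∈ Ico 0 T, ∀ x ∈ Icc (-1 : ℝ) 1,
    HasDerivWithinAt (fun s => w s x) (rhsW p (w t) (f t) x) (Ico 0 T) t) →
  (∀ t ∈ Ico 0 T, ∀ x ∈ Icc (-1 : ℝ) 1,
    HasDerivWithinAt (fun s => f s x) (rhsF p (w t) (f t) x) (Ico 0 T) t) →
  ConfSol p w f T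

/-! ## F : maximum principle in time, difference estimate -/

/-! ## G : `C¹` bound ⇒ `C²` bound for exact solutions -/

/-- G' : a priori estimate (one solution), criterion in `C¹`. -/
def AprStmt : Prop := ∀ p : ℕ, 2 ≤ p → ∀ T > 0, ∀ w f : ℝ → ℝ → ℝ, ConfSol p w f T → ∀ K : ℝ,
  (∀ t ∈ Ico 0 T, ∀ x ∈ Icc (-1 : ℝ) 1, size1 (w t) (f t) x ≤ K) → ∀ j : ℕ, ∃ C : ℝ,
  ∀ t ∈ Ico 0 T, ∀ x ∈ Icc (-1 : ℝ) 1, |dx^[j] (w t) x| ≤ C ∧ |dx^[j] (f t) x| ≤ C

/-! ## H : assembly -/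

/-- Local existence (from D and E1). -/
def LocStmt : Prop := ∀ p : ℕ, 2 ≤ p → ∀ K₀ : ℝ, ∃ T₀ ∈ Ioc (0 : ℝ) 1,
  ∀ w₀ f₀ : ℝ → ℝ, ConfData w₀ f₀ → Bd 2 K₀ w₀ → Bd 2 K₀ f₀ →
  ∃ w f : ℝ → ℝ → ℝ, ConfSol p w f T₀ ∧ ∀ x ∈ Icc (-1 : ℝ) 1, w 0 x = w₀ x ∧ f 0 x = f₀ x

/-- H1: `Loc + L2 + Apr ⇒ L1`. -/
def H1Stmt : Prop := LocStmt → L2Statement → AprStmt → L1Statement

end Vale.Agent.P244.LW
end

section

/-!
# P244-ST block L : polynomial jets, density, resolvent of `Lap_d` on jets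
-/

open Set Filter Topology Polynomial

namespace Vale.Agent.P244.ST.L

/-- Jet of a polynomial. -/
noncomputable def pj (P : ℝ[X]) (j : ℕ) (x : ℝ) : ℝ := (derivative^[j] P).eval x

theorem jet_pj (P : ℝ[X]) : Jet (pj P) := by
  intro j x _
  unfold pj
  rw [Function.iterate_succ_apply']
  exact ((derivative^[j] P).hasDerivAt x).hasDerivWithinAt

theorem exists_antideriv (P : ℝ[X]) : ∃ Q : ℝ[X], derivative Q = P := by
  induction P using Polynomial.induction_on' with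
  | add p q hp hq =>
    obtain ⟨a, ha⟩ := hp
    obtain ⟨b, hb⟩ := hq
    exact ⟨a + b, by rw [derivative_add, ha, hb]⟩
  | monomial n a =>
    refine ⟨monomial (n + 1) (a / (n + 1)), ?_⟩
    rw [derivative_monomial]
    congr 1
    push_cast
    field_simp

/-- Density of polynomials in every `C^n([-1,1])`. -/
theorem dense_pj (n : ℕ) : ∀ {g : ℕ → ℝ → ℝ}, Jet g → ∀ {ε : ℝ}, 0 < ε →
    ∃ P : ℝ[X], ∀ i ≤ n, ∀ x ∈ II, |pj P i x - g i x| ≤ ε := by
  induction n with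
  | zero =>
    intro g hg ε hε
    obtain ⟨P, hP⟩ := exists_polynomial_near_of_continuousOn (-1) 1 (g 0) (hg.continuousOn 0) ε hε
    refine ⟨P, fun i hi x hx => ?_⟩
    obtain rfl : i = 0 := by omega
    exact (hP x hx).le
  | succ n ih =>
    intro g hg ε hε
    obtain ⟨P1, hP1⟩ := ih (hg.shift 1) hε
    obtain ⟨Q, hQ⟩ := exists_antideriv P1
    have hder : ∀ i, derivative^[i + 1] (Q + C (g 0 0 - Q.eval 0)) = derivative^[i] P1 := by
      intro i
      rw [Function.iterate_succ_apply, derivative_add, derivative_C, add_zero, hQ]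
    refine ⟨Q + C (g 0 0 - Q.eval 0), fun i hi x hx => ?_⟩
    cases i with
    | succ i =>
      have := hP1 i (by omega) x hx
      unfold pj at this ⊢
      rw [hder]
      exact this
    | zero =>
      set R := Q + C (g 0 0 - Q.eval 0) with hR
      have hd : ∀ z ∈ II, HasDerivWithinAt (fun z => pj R 0 z - g 0 z) (pj R 1 z - g 1 z) II z :=
        fun z hz => (jet_pj R 0 z hz).sub (hg 0 z hz)
      have hb : ∀ z ∈ II, ‖pj R 1 z - g 1 z‖ ≤ ε := by
        intro z hz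
        have := hP1 0 (Nat.zero_le _) z hz
        unfold pj at this ⊢
        have h2 := hder 0
        simp only [Function.iterate_zero, id_eq, zero_add] at this h2 ⊢
        rw [h2]
        exact this
      have h3 := convex_II.norm_image_sub_le_of_norm_hasDerivWithin_le hd hb zero_mem_II hx
      have h4 : pj R 0 0 - g 0 0 = 0 := by
        simp [pj, hR]
      rw [h4, sub_zero, Real.norm_eq_abs, Real.norm_eq_abs, sub_zero] at h3
      refine h3.trans ?_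
      have : |x| ≤ 1 := abs_le.2 ⟨hx.1, hx.2⟩
      linarith only [mul_nonneg (le_of_lt (sub_pos.2 hε)) (sub_nonneg.2 this)]

/-- The operator `mu - h Lap_d` on polynomials. -/
noncomputable def Tpol (d mu h : ℝ) : ℝ[X] →ₗ[ℝ] ℝ[X] :=
  mu • LinearMap.id - h • ((LinearMap.mulLeft ℝ (1 - X ^ 2 : ℝ[X])) ∘ₗ derivative ∘ₗ derivative
    - d • ((LinearMap.mulLeft ℝ (X : ℝ[X])) ∘ₗ derivative))

theorem Tpol_apply (d mu h : ℝ) (P : ℝ[X]) :
    Tpol d mu h P = mu • P - h • ((1 - X ^ 2) * derivative (derivative P)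
      - d • (X * derivative P)) := by
  simp [Tpol]

theorem Tpol_X_pow (d mu h : ℝ) (n : ℕ) :
    Tpol d mu h (X ^ n) = (mu + h * (n * (n - 1 + d))) • (X ^ n : ℝ[X])
      - (h * (n * (n - 1))) • (X ^ (n - 2) : ℝ[X]) := by
  rw [Tpol_apply]
  match n with
  | 0 => simp
  | 1 => 
    simp only [pow_one, derivative_X, derivative_one, mul_zero, mul_one, Nat.cast_one]
    simp only [smul_eq_C_mul]
    simp only [map_add, map_mul, map_sub, map_one]
    simp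
    ring
  | n + 2 =>
    simp only [derivative_X_pow, derivative_mul, derivative_C, zero_mul, zero_add,
      Nat.add_sub_cancel, smul_eq_C_mul]
    rw [show n + 2 - 1 = n + 1 by omega, show n + 1 - 1 = n by omega]
    push_cast
    simp only [map_add, map_mul, map_sub, map_one, map_natCast]
    simp only [map_ofNat]
    ring

theorem Tpol_surj {d mu h : ℝ} (hd : 0 ≤ d) (hmu : 0 < mu) (hh : 0 ≤ h) (Q : ℝ[X]) :
    ∃ P, Tpol d mu h P = Q := by
  have key : ∀ n : ℕ, ∃ P, Tpol d mu h P = (X ^ n : ℝ[X]) := by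
    intro n
    induction n using Nat.strong_induction_on with
    | _ n ih =>
      have hpos : 0 < mu + h * ((n : ℝ) * ((n : ℝ) - 1 + d)) := by
        rcases Nat.eq_zero_or_pos n with h0 | h0
        · subst h0; simpa using hmu
        · have : (1 : ℝ) ≤ n := by exact_mod_cast h0
          have h1 : 0 ≤ (n : ℝ) - 1 + d := by linarith only [hd, this]
          positivity
      rcases Nat.lt_or_ge n 2 with h2 | h2
      · have hz : h * ((n : ℝ) * ((n : ℝ) - 1)) = 0 := by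
          interval_cases n <;> simp
        refine ⟨(mu + h * ((n : ℝ) * ((n : ℝ) - 1 + d)))⁻¹ • X ^ n, ?_⟩
        rw [map_smul, Tpol_X_pow, hz, zero_smul, sub_zero, smul_smul,
          inv_mul_cancel₀ hpos.ne', one_smul]
      · obtain ⟨P, hP⟩ := ih (n - 2) (by omega)
        refine ⟨(mu + h * ((n : ℝ) * ((n : ℝ) - 1 + d)))⁻¹ •
          (X ^ n + (h * ((n : ℝ) * ((n : ℝ) - 1))) • P), ?_⟩
        rw [map_smul, map_add, map_smul, hP, Tpol_X_pow, sub_add_cancel, smul_smul,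
          inv_mul_cancel₀ hpos.ne', one_smul]
  induction Q using Polynomial.induction_on' with
  | add p q hp hq =>
    obtain ⟨a, ha⟩ := hp
    obtain ⟨b, hb⟩ := hq
    exact ⟨a + b, by rw [map_add, ha, hb]⟩
  | monomial n a =>
    obtain ⟨P, hP⟩ := key n
    refine ⟨a • P, ?_⟩
    rw [map_smul, hP, smul_eq_C_mul, C_mul_X_pow_eq_monomial]

theorem pj_resolv {d mu h : ℝ} (hd : 0 ≤ d) (hmu : 0 < mu) (hh : 0 ≤ h) (Q : ℝ[X]) :
    ∃ P : ℝ[X], ∀ x, mu * pj P 0 x - h * lapJ d (pj P) 0 x = pj Q 0 x := by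
  obtain ⟨P, hP⟩ := Tpol_surj hd hmu hh Q
  refine ⟨P, fun x => ?_⟩
  have := congrArg (fun R : ℝ[X] => R.eval x) hP
  simp only [Tpol_apply, eval_sub, eval_smul, eval_mul, eval_one, eval_pow, eval_X,
    smul_eq_mul] at this
  unfold lapJ pj
  simp only [Function.iterate_succ, Function.iterate_zero, Function.comp_apply, id_eq,
    Nat.cast_zero]
  linarith only [this]

/-- Resolvent on jets. -/
theorem resolv {d mu h : ℝ} (hd : 0 ≤ d) (hmu : 0 < mu) (hh : 0 ≤ h) {g : ℕ → ℝ → ℝ}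
    (hg : Jet g) : ∃ u, Jet u ∧ (∀ x ∈ II, mu * u 0 x - h * lapJ d u 0 x = g 0 x) := by
  have h1 : ∀ n : ℕ, ∃ P Q : ℝ[X], (∀ i ≤ n, ∀ x ∈ II, |pj Q i x - g i x| ≤ 1 / ((n : ℝ) + 1)) ∧
      ∀ x, mu * pj P 0 x - h * lapJ d (pj P) 0 x = pj Q 0 x := by
    intro n
    obtain ⟨Q, hQ⟩ := dense_pj n hg (ε := 1 / ((n : ℝ) + 1)) (by positivity)
    obtain ⟨P, hP⟩ := pj_resolv hd hmu hh Q
    exact ⟨P, Q, hQ, hP⟩
  choose P Q hQ hP using h1
  -- Cauchy estimate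
  have hC : ∀ j, ∀ n m, j ≤ n → n ≤ m → ∀ x ∈ II,
      |pj (P m) j x - pj (P n) j x| ≤ (2 / ((n : ℝ) + 1)) / mu := by
    intro j n m hjn hnm
    refine resolv_bound (u := fun j x => pj (P m) j x - pj (P n) j x)
      (g := fun j x => pj (Q m) j x - pj (Q n) j x) hd hmu hh
      ((jet_pj _).sub (jet_pj _)) ((jet_pj _).sub (jet_pj _)) ?_ j ?_
    · intro x _
      have e1 := hP m x
      have e2 := hP n x
      unfold lapJ at e1 e2 ⊢
      linarith only [e1, e2]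
    · intro x hx
      have e1 := hQ m j (hjn.trans hnm) x hx
      have e2 := hQ n j hjn x hx
      have e3 : 1 / ((m : ℝ) + 1) ≤ 1 / ((n : ℝ) + 1) :=
        one_div_le_one_div_of_le (by positivity) (by
          have : (n : ℝ) ≤ m := by exact_mod_cast hnm
          linarith only [this])
      calc |pj (Q m) j x - pj (Q n) j x|
          = |(pj (Q m) j x - g j x) - (pj (Q n) j x - g j x)| := by congr 1; ring
        _ ≤ |pj (Q m) j x - g j x| + |pj (Q n) j x - g j x| := abs_sub _ _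
        _ ≤ 1 / ((n : ℝ) + 1) + 1 / ((n : ℝ) + 1) := add_le_add (e1.trans e3) e2
        _ = 2 / ((n : ℝ) + 1) := by ring
  have ht0 : Tendsto (fun n : ℕ => (2 / ((n : ℝ) + 1)) / mu) atTop (𝓝 0) := by
    have := (tendsto_one_div_add_atTop_nhds_zero_nat (𝕜 := ℝ)).const_mul (2 / mu)
    rw [mul_zero] at this
    refine this.congr fun n => by ring
  have hcau : ∀ j, UniformCauchySeqOn (fun n => pj (P n) j) atTop II := by
    intro j
    rw [Metric.uniformCauchySeqOn_iff]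
    intro ε hε
    obtain ⟨N, hN⟩ := eventually_atTop.1 (ht0.eventually (gt_mem_nhds (half_pos hε)))
    refine ⟨max N j, fun m hm n hn x hx => ?_⟩
    have e1 := hC j (max N j) m (le_max_right _ _) hm x hx
    have e2 := hC j (max N j) n (le_max_right _ _) hn x hx
    have e3 := hN (max N j) (le_max_left _ _)
    rw [Real.dist_eq]
    calc |pj (P m) j x - pj (P n) j x|
        = |(pj (P m) j x - pj (P (max N j)) j x) - (pj (P n) j x - pj (P (max N j)) j x)| := by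
          congr 1; ring
      _ ≤ |pj (P m) j x - pj (P (max N j)) j x| + |pj (P n) j x - pj (P (max N j)) j x| :=
          abs_sub _ _
      _ < ε := by
          have := add_le_add e1 e2
          linarith only [e1, e2, e3]
  have hlim : ∀ j, ∃ U : ℝ → ℝ, ∀ x ∈ II, Tendsto (fun n => pj (P n) j x) atTop (𝓝 (U x)) := by
    intro j
    have : ∀ x : ℝ, ∃ y : ℝ, x ∈ II → Tendsto (fun n => pj (P n) j x) atTop (𝓝 y) := by
      intro x
      by_cases hx : x ∈ II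
      · obtain ⟨y, hy⟩ := cauchySeq_tendsto_of_complete ((hcau j).cauchySeq hx)
        exact ⟨y, fun _ => hy⟩
      · exact ⟨0, fun h => absurd h hx⟩
    choose U hU using this
    exact ⟨U, fun x hx => hU x hx⟩
  choose U hU using hlim
  have hunif : ∀ j, TendstoUniformlyOn (fun n => pj (P n) j) (U j) atTop II := fun j =>
    (hcau j).tendstoUniformlyOn_of_tendsto (fun x hx => hU j x hx)
  refine ⟨U, Jet.of_unif (fun n => jet_pj (P n)) hunif, fun x hx => ?_⟩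
  have hQt : Tendsto (fun n => pj (Q n) 0 x) atTop (𝓝 (g 0 x)) := by
    rw [tendsto_iff_dist_tendsto_zero]
    refine squeeze_zero (fun n => dist_nonneg) (fun n => ?_) tendsto_one_div_add_atTop_nhds_zero_nat
    rw [Real.dist_eq]
    exact hQ n 0 (Nat.zero_le _) x hx
  have hL : Tendsto (fun n => mu * pj (P n) 0 x - h * lapJ d (pj (P n)) 0 x) atTop
      (𝓝 (mu * U 0 x - h * lapJ d U 0 x)) := by
    unfold lapJ
    exact ((hU 0 x hx).const_mul mu).sub (((((hU 2 x hx).const_mul _).sub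
      ((hU 1 x hx).const_mul _)).sub ((hU 0 x hx).const_mul _)).const_mul h)
  exact tendsto_nhds_unique (hL.congr fun n => hP n x) hQt

end Vale.Agent.P244.ST.L
end

section

/-!
# P244-ST block L : the equation `u - h a Lap_d u = g` on jets
-/

open Set Filter Topology
open scoped ContDiff

namespace Vale.Agent.P244.ST.L

/-- The jet of `1/a`. -/
theorem exists_jet_inv {a : ℕ → ℝ → ℝ} (ha : Jet a) (hpos : ∀ x ∈ II, a 0 x ≠ 0) :
    ∃ A, Jet A ∧ ∀ x ∈ II, A 0 x = (a 0 x)⁻¹ := by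
  refine ⟨_, jet_iteratedDerivWithin (ha.contDiffOn.inv hpos), fun x _ => by simp⟩

theorem exists_jet_of_contDiffOn {f : ℝ → ℝ} (hf : ContDiffOn ℝ ∞ f II) :
    ∃ u, Jet u ∧ ∀ x ∈ II, u 0 x = f x :=
  ⟨_, jet_iteratedDerivWithin hf, fun x _ => by simp⟩

/-- Product bound with the top order term of the second factor isolated. -/
theorem abs_jmul_le' {u v : ℕ → ℝ → ℝ} {x A B M : ℝ} {a0 : ℝ} (j : ℕ) (hA : 0 ≤ A) (hB : 0 ≤ B)
    (hu : ∀ i ≤ j, |u i x| ≤ A) (hv : ∀ i < j, |v i x| ≤ B) (h0 : |u 0 x| ≤ a0)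
    (hj : |v j x| ≤ M) : |jmul u v j x| ≤ a0 * M + 2 ^ j * (A * B) := by
  unfold jmul
  rw [Finset.sum_range_succ']
  have h1 : |∑ k ∈ Finset.range j, (j.choose (k + 1) : ℝ) * u (k + 1) x * v (j - (k + 1)) x|
      ≤ 2 ^ j * (A * B) := by
    refine (Finset.abs_sum_le_sum_abs _ _).trans ?_
    calc ∑ k ∈ Finset.range j, |(j.choose (k + 1) : ℝ) * u (k + 1) x * v (j - (k + 1)) x|
        ≤ ∑ k ∈ Finset.range j, (j.choose (k + 1) : ℝ) * (A * B) := by
          refine Finset.sum_le_sum fun k hk => ?_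
          have hk' : k < j := Finset.mem_range.1 hk
          rw [abs_mul, abs_mul, mul_assoc, Nat.abs_cast]
          exact mul_le_mul_of_nonneg_left (mul_le_mul (hu _ (by omega)) (hv _ (by omega))
            (abs_nonneg _) hA) (Nat.cast_nonneg _)
      _ ≤ 2 ^ j * (A * B) := by
          rw [← Finset.sum_mul]
          refine mul_le_mul_of_nonneg_right ?_ (mul_nonneg hA hB)
          have h2 := Nat.sum_range_choose j
          rw [Finset.sum_range_succ'] at h2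
          have h3 : (∑ k ∈ Finset.range j, j.choose (k + 1)) ≤ 2 ^ j := by omega
          exact_mod_cast h3
  refine (abs_add_le _ _).trans ?_
  rw [add_comm]
  refine add_le_add ?_ h1
  simp only [Nat.choose_zero_right, Nat.cast_one, one_mul, Nat.sub_zero]
  rw [abs_mul]
  exact mul_le_mul h0 hj (abs_nonneg _) ((abs_nonneg _).trans h0)

theorem lapJ_sub (d : ℝ) (u v : ℕ → ℝ → ℝ) (j : ℕ) (x : ℝ) :
    lapJ d (fun j x => u j x - v j x) j x = lapJ d u j x - lapJ d v j x := by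
  unfold lapJ; ring

/-- The elliptic equation with a variable coefficient. -/
theorem ell {d h : ℝ} (hd : 0 ≤ d) (hh : 0 ≤ h) {a g : ℕ → ℝ → ℝ} (ha : Jet a)
    (hpos : ∀ x ∈ II, 0 < a 0 x) (hg : Jet g) :
    ∃ u, Jet u ∧ ∀ x ∈ II, u 0 x - h * a 0 x * lapJ d u 0 x = g 0 x := by
  obtain ⟨A, hA, hA0⟩ := exists_jet_inv ha (fun x hx => (hpos x hx).ne')
  have hApos : ∀ x ∈ II, 0 < A 0 x := fun x hx => by rw [hA0 x hx]; exact inv_pos.2 (hpos x hx)
  obtain ⟨mu, hmu0, hmu⟩ := hA.bdd 0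
  obtain ⟨Ka, hKa0, hKa⟩ := ha.bdd 0
  have hmuA : ∀ x ∈ II, A 0 x ≤ mu := fun x hx => (abs_le.1 (hmu x hx)).2
  have hmupos : 0 < mu := lt_of_lt_of_le (hApos 0 zero_mem_II) (hmuA 0 zero_mem_II)
  have hKapos : 0 < Ka := lt_of_lt_of_le (hpos 0 zero_mem_II) (abs_le.1 (hKa 0 zero_mem_II)).2
  have hAlow : ∀ x ∈ II, Ka⁻¹ ≤ A 0 x := fun x hx => by
    rw [hA0 x hx]
    exact inv_anti₀ (hpos x hx) (abs_le.1 (hKa x hx)).2
  -- theta
  set th : ℝ := 1 - Ka⁻¹ / mu with hth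
  have hth1 : th < 1 := by
    have : 0 < Ka⁻¹ / mu := by positivity
    linarith only [this]
  have hth0 : 0 ≤ th := by
    have : Ka⁻¹ / mu ≤ 1 := by
      rw [div_le_one hmupos]
      exact (hAlow 0 zero_mem_II).trans (hmuA 0 zero_mem_II)
    linarith only [this]
  set rho : ℝ := (1 + th) / 2 with hrho
  have hr1 : rho < 1 := by linarith only [hth1, hrho]
  have hr0 : th < rho := by linarith only [hrho, hr1]
  have hrpos : 0 < rho := by linarith only [hth0, hrho, hr1]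
  -- b = mu - A
  set b : ℕ → ℝ → ℝ := fun j x => cst mu j x - A j x with hb
  have hbj : Jet b := (jet_cst mu).sub hA
  have hb0 : ∀ x ∈ II, |b 0 x| ≤ th * mu := by
    intro x hx
    have e1 := hmuA x hx
    have e2 := hAlow x hx
    have e3 : th * mu = mu - Ka⁻¹ := by
      rw [hth, sub_mul, one_mul, div_mul_cancel₀ _ hmupos.ne']
    have e4 : b 0 x = mu - A 0 x := rfl
    rw [e3, e4, abs_of_nonneg (by linarith only [e1])]
    linarith only [e2]
  -- the sequence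
  have hstep : ∀ v : ℕ → ℝ → ℝ, ∃ w : ℕ → ℝ → ℝ, Jet v → (Jet w ∧ ∀ x ∈ II,
      mu * w 0 x - h * lapJ d w 0 x = b 0 x * v 0 x + A 0 x * g 0 x) := by
    intro v
    by_cases hv : Jet v
    · obtain ⟨w, hw, hw2⟩ := resolv (mu := mu) (h := h) hd hmupos hh ((hbj.mul hv).add (hA.mul hg))
      refine ⟨w, fun _ => ⟨hw, fun x hx => ?_⟩⟩
      rw [hw2 x hx, jmul_zero, jmul_zero]
    · exact ⟨v, fun h => absurd h hv⟩
  choose S hS using hstep
  set U : ℕ → ℕ → ℝ → ℝ := fun m => S^[m] (cst 0) with hU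
  have hU0 : U 0 = cst 0 := rfl
  have hUs : ∀ m, U (m + 1) = S (U m) := fun m => Function.iterate_succ_apply' S m _
  have hUj : ∀ m, Jet (U m) := by
    intro m
    induction m with
    | zero => rw [hU0]; exact jet_cst 0
    | succ m ih => rw [hUs]; exact (hS _ ih).1
  have hUe : ∀ m, ∀ x ∈ II, mu * U (m + 1) 0 x - h * lapJ d (U (m + 1)) 0 x
      = b 0 x * U m 0 x + A 0 x * g 0 x := by
    intro m x hx
    rw [hUs]
    exact (hS _ (hUj m)).2 x hx
  set De : ℕ → ℕ → ℝ → ℝ := fun m j x => U (m + 1) j x - U m j x with hDe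
  have hDj : ∀ m, Jet (De m) := fun m => (hUj (m + 1)).sub (hUj m)
  have hDe_eq : ∀ m, ∀ x ∈ II, mu * De (m + 1) 0 x - h * lapJ d (De (m + 1)) 0 x
      = jmul b (De m) 0 x := by
    intro m x hx
    have e1 := hUe (m + 1) x hx
    have e2 := hUe m x hx
    rw [jmul_zero]
    have e3 : lapJ d (De (m + 1)) 0 x = lapJ d (U (m + 1 + 1)) 0 x - lapJ d (U (m + 1)) 0 x :=
      lapJ_sub d _ _ 0 x
    rw [e3]
    simp only [hDe]
    linarith only [e1, e2]
  have hbound : ∀ j, ∃ K : ℝ, 0 ≤ K ∧ ∀ m, ∀ x ∈ II, |De m j x| ≤ K * rho ^ m := by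
    intro j
    induction j using Nat.strong_induction_on with
    | _ j ih =>
      -- common constant for lower orders
      have hlow : ∃ K' : ℝ, 0 ≤ K' ∧ ∀ i < j, ∀ m, ∀ x ∈ II, |De m i x| ≤ K' * rho ^ m := by
        choose! K hK using ih
        refine ⟨∑ i ∈ Finset.range j, |K i|, Finset.sum_nonneg fun _ _ => abs_nonneg _,
          fun i hi m x hx => ?_⟩
        refine ((hK i hi).2 m x hx).trans (mul_le_mul_of_nonneg_right ?_ (by positivity))
        refine (le_abs_self _).trans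
          (Finset.single_le_sum (f := fun i => |K i|) (fun _ _ => abs_nonneg _)
            (Finset.mem_range.2 hi))
      obtain ⟨K', hK'0, hK'⟩ := hlow
      obtain ⟨B, hB0, hB⟩ := hbj.bdd_le j
      obtain ⟨M, hM0, hM⟩ := (hDj 0).bdd j
      set K := max M (2 ^ j * (B * K') / (mu * (rho - th))) with hK
      have hden : 0 < mu * (rho - th) := mul_pos hmupos (by linarith only [hrho, hr1])
      have hKge : 2 ^ j * (B * K') ≤ K * (mu * (rho - th)) := by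
        rw [← div_le_iff₀ hden]; exact le_max_right _ _
      have hK0 : 0 ≤ K := le_max_of_le_left hM0
      refine ⟨K, hK0, fun m => ?_⟩
      induction m with
      | zero =>
        intro x hx
        rw [pow_zero, mul_one]
        exact (hM x hx).trans (le_max_left _ _)
      | succ m ihm =>
        have hle : ∀ x ∈ II, |jmul b (De m) j x|
            ≤ th * mu * (K * rho ^ m) + 2 ^ j * (B * (K' * rho ^ m)) := by
          intro x hx
          exact abs_jmul_le' j hB0 (by positivity) (fun i hi => hB i hi x hx)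
            (fun i hi => hK' i hi m x hx) (hb0 x hx) (ihm x hx)
        have hres := resolv_bound hd hmupos hh (hDj (m + 1)) (hbj.mul (hDj m)) (hDe_eq m) j hle
        intro x hx
        refine (hres x hx).trans ?_
        rw [div_le_iff₀ hmupos, pow_succ]
        have hpm : 0 ≤ rho ^ m := by positivity
        linarith only [mul_le_mul_of_nonneg_right hKge hpm]
  -- uniform convergence
  have hsum : ∀ m j x, U m j x = U 0 j x + ∑ i ∈ Finset.range m, De i j x := by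
    intro m j x
    induction m with
    | zero => simp
    | succ m ih => rw [Finset.sum_range_succ, ← add_assoc, ← ih]; simp only [hDe]; ring
  have hU0' : ∀ j x, U 0 j x = 0 := by
    intro j x
    rw [hU0]
    cases j <;> rfl
  set V : ℕ → ℝ → ℝ := fun j x => ∑' m, De m j x with hV
  have hunif : ∀ j, TendstoUniformlyOn (fun m => U m j) (V j) atTop II := by
    intro j
    obtain ⟨K, hK0, hK⟩ := hbound j
    have hs : Summable fun m : ℕ => K * rho ^ m :=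
      (summable_geometric_of_lt_one hrpos.le hr1).mul_left K
    have := tendstoUniformlyOn_tsum_nat (f := fun m x => De m j x) hs (s := II)
      (fun m x hx => by rw [Real.norm_eq_abs]; exact hK m x hx)
    refine this.congr (Eventually.of_forall fun m x _ => ?_)
    show ∑ i ∈ Finset.range m, De i j x = U m j x
    rw [hsum m j x, hU0', zero_add]
  refine ⟨V, Jet.of_unif hUj hunif, fun x hx => ?_⟩
  have t0 : ∀ j, Tendsto (fun m => U m j x) atTop (𝓝 (V j x)) := fun j => (hunif j).tendsto_at hx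
  have t1 : ∀ j, Tendsto (fun m => U (m + 1) j x) atTop (𝓝 (V j x)) := fun j =>
    (t0 j).comp (tendsto_add_atTop_nat 1)
  have L1 : Tendsto (fun m => mu * U (m + 1) 0 x - h * lapJ d (U (m + 1)) 0 x) atTop
      (𝓝 (mu * V 0 x - h * lapJ d V 0 x)) := by
    unfold lapJ
    exact ((t1 0).const_mul mu).sub (((((t1 2).const_mul _).sub
      ((t1 1).const_mul _)).sub ((t1 0).const_mul _)).const_mul h)
  have L2 : Tendsto (fun m => b 0 x * U m 0 x + A 0 x * g 0 x) atTop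
      (𝓝 (b 0 x * V 0 x + A 0 x * g 0 x)) := ((t0 0).const_mul _).add tendsto_const_nhds
  have heq := tendsto_nhds_unique (L1.congr fun m => hUe m x hx) L2
  have hbx : b 0 x = mu - A 0 x := rfl
  rw [hbx] at heq
  have h3 : A 0 x * (V 0 x - g 0 x) = h * lapJ d V 0 x := by linarith only [heq]
  have h4 : a 0 x * (A 0 x * (V 0 x - g 0 x)) = V 0 x - g 0 x := by
    rw [hA0 x hx, ← mul_assoc, mul_inv_cancel₀ (hpos x hx).ne', one_mul]
  rw [h3] at h4
  linarith only [h4]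

end Vale.Agent.P244.ST.L
end

section

/-!
# P244-L : differential polynomials in `(w, f)`

`DP p c j G`: `G w f x` is a polynomial in `x`, `e^{-2w}`, `e^{-2f}`, `D^i w`, `D^i f` (`i ≤ j`)
and (if `c = true`) the nonlocal term `J`. They are stable under `D` (order `j + 1`), bounded and
Lipschitz on `C^j`-bounded sets; expansion of `D^j` of the right-hand sides.
-/

open Set Filter Topology
open scoped ContDiff

namespace Vale.Agent.P244.LW
open Vale.Agent.P244.ST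

/-- Differential polynomials of order `≤ j`. -/
inductive DP (p : ℕ) : Bool → ℕ → ((ℝ → ℝ) → (ℝ → ℝ) → ℝ → ℝ) → Prop
  | const (c : Bool) (j : ℕ) (a : ℝ) : DP p c j (fun _ _ _ => a)
  | var (c : Bool) (j : ℕ) : DP p c j (fun _ _ x => x)
  | ew (c : Bool) (j : ℕ) : DP p c j (fun w _ x => Real.exp (-2 * w x))
  | ef (c : Bool) (j : ℕ) : DP p c j (fun _ f x => Real.exp (-2 * f x))
  | dw (c : Bool) {i j : ℕ} (h : i ≤ j) : DP p c j (fun w _ x => dn i w x)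
  | df (c : Bool) {i j : ℕ} (h : i ≤ j) : DP p c j (fun _ f x => dn i f x)
  | J (j : ℕ) : DP p true j (fun w f x => Jf p w f x)
  | add {c : Bool} {j : ℕ} {G H : (ℝ → ℝ) → (ℝ → ℝ) → ℝ → ℝ} : DP p c j G → DP p c j H →
      DP p c j (fun w f x => G w f x + H w f x)
  | mul {c : Bool} {j : ℕ} {G H : (ℝ → ℝ) → (ℝ → ℝ) → ℝ → ℝ} : DP p c j G → DP p c j H →
      DP p c j (fun w f x => G w f x * H w f x)

variable {p : ℕ} {c : Bool} {j : ℕ} {G H : (ℝ → ℝ) → (ℝ → ℝ) → ℝ → ℝ}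

theorem DP.mono (h : DP p c j G) {k : ℕ} (hk : j ≤ k) : DP p c k G := by
  induction h with
  | const c j a => exact DP.const c k a
  | var c j => exact DP.var c k
  | ew c j => exact DP.ew c k
  | ef c j => exact DP.ef c k
  | dw c h => exact DP.dw c (h.trans hk)
  | df c h => exact DP.df c (h.trans hk)
  | J j => exact DP.J k
  | add _ _ ih1 ih2 => exact (ih1 hk).add (ih2 hk)
  | mul _ _ ih1 ih2 => exact (ih1 hk).mul (ih2 hk)

theorem DP.neg (h : DP p c j G) : DP p c j (fun w f x => -G w f x) := by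
  have h1 := (DP.const (p := p) c j (-1)).mul h
  simpa only [neg_one_mul] using h1

theorem DP.sub (h : DP p c j G) (h' : DP p c j H) :
    DP p c j (fun w f x => G w f x - H w f x) := by
  have h1 := h.add h'.neg
  simpa only [← sub_eq_add_neg] using h1

theorem DP.cmul (a : ℝ) (h : DP p c j G) : DP p c j (fun w f x => a * G w f x) :=
  (DP.const c j a).mul h

theorem DP.sq (h : DP p c j G) : DP p c j (fun w f x => G w f x ^ 2) := by
  have h1 := h.mul h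
  simpa only [← pow_two] using h1

theorem DP.sxx (p : ℕ) (c : Bool) (j : ℕ) : DP p c j (fun _ _ x => 1 - x ^ 2) :=
  (DP.const c j 1).sub (DP.var c j).sq

theorem DP.jd (p : ℕ) (c : Bool) {j : ℕ} (hj : 1 ≤ j) : DP p c j (fun w f x => Jd p w f x) :=
  (DP.ew c j).mul (((DP.dw c hj).sq.cmul ((p : ℝ) - 1)).add ((DP.df c hj).sq.cmul (p : ℝ)))

theorem DP.sm (h : DP p c j G) {w f : ℝ → ℝ} (hw : Sm w) (hf : Sm f) : Sm (G w f) := by
  induction h with
  | const c j a => exact Sm.const a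
  | var c j => exact Sm.id
  | ew c j => exact (hw.cmul (-2)).exp
  | ef c j => exact (hf.cmul (-2)).exp
  | @dw c i j h => exact hw.dn i
  | @df c i j h => exact hf.dn i
  | J j => exact hw.Jf p hf
  | add _ _ ih1 ih2 => exact ih1.add ih2
  | mul _ _ ih1 ih2 => exact ih1.mul ih2

/-- Derivatives of differential polynomials. -/
theorem DP.exists_dx (h : DP p c j G) : ∃ G', DP p c (j + 1) G' ∧
    ∀ w f : ℝ → ℝ, Sm w → Sm f → ∀ x ∈ Icc (-1 : ℝ) 1, dx (G w f) x = G' w f x := by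
  induction h with
  | const c j a => exact ⟨_, DP.const c (j + 1) 0, fun w f _ _ x _ => dx_const a x⟩
  | var c j => exact ⟨_, DP.const c (j + 1) 1, fun w f _ _ x hx => dx_id hx⟩
  | ew c j =>
    refine ⟨_, (DP.ew c (j + 1)).mul ((DP.dw c (i := 1) (by omega)).cmul (-2)),
      fun w f hw hf x hx => ?_⟩
    rw [dx_exp (hw.cmul (-2)) hx, dx_cmul (-2) hw hx, dn_one]
  | ef c j =>
    refine ⟨_, (DP.ef c (j + 1)).mul ((DP.df c (i := 1) (by omega)).cmul (-2)),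
      fun w f hw hf x hx => ?_⟩
    rw [dx_exp (hf.cmul (-2)) hx, dx_cmul (-2) hf hx, dn_one]
  | @dw c i j h =>
    refine ⟨_, DP.dw c (i := i + 1) (by omega), fun w f hw hf x hx => ?_⟩
    rw [dn_succ']
  | @df c i j h =>
    refine ⟨_, DP.df c (i := i + 1) (by omega), fun w f hw hf x hx => ?_⟩
    rw [dn_succ']
  | J j => exact ⟨_, DP.jd p true (by omega), fun w f hw hf x hx => dx_Jf p hw hf hx⟩
  | @add c j G H hG hH ih1 ih2 =>
    obtain ⟨G', h1, h1'⟩ := ih1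
    obtain ⟨H', h2, h2'⟩ := ih2
    refine ⟨_, h1.add h2, fun w f hw hf x hx => ?_⟩
    rw [dx_add (hG.sm hw hf) (hH.sm hw hf) hx, h1' w f hw hf x hx, h2' w f hw hf x hx]
  | @mul c j G H hG hH ih1 ih2 =>
    obtain ⟨G', h1, h1'⟩ := ih1
    obtain ⟨H', h2, h2'⟩ := ih2
    refine ⟨_, (h1.mul (hH.mono (Nat.le_succ j))).add ((hG.mono (Nat.le_succ j)).mul h2),
      fun w f hw hf x hx => ?_⟩
    rw [dx_mul (hG.sm hw hf) (hH.sm hw hf) hx, h1' w f hw hf x hx, h2' w f hw hf x hx]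

/-! ### bounds -/

/-- Boundedness and Lipschitz property of a functional on `C^j`-bounded sets. -/
def BL (j : ℕ) (K : ℝ) (G : (ℝ → ℝ) → (ℝ → ℝ) → ℝ → ℝ) : Prop :=
  ∃ M : ℝ, 0 ≤ M ∧
    (∀ w f : ℝ → ℝ, Sm w → Sm f → Bd j K w → Bd j K f → ∀ x ∈ Icc (-1 : ℝ) 1, |G w f x| ≤ M) ∧
    ∀ w f w' f' : ℝ → ℝ, Sm w → Sm f → Sm w' → Sm f' → Bd j K w → Bd j K f → Bd j K w' →
      Bd j K f' → ∀ N : ℝ, (∀ i ≤ j, ∀ x ∈ Icc (-1 : ℝ) 1, |dn i w' x - dn i w x| ≤ N) →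
      (∀ i ≤ j, ∀ x ∈ Icc (-1 : ℝ) 1, |dn i f' x - dn i f x| ≤ N) →
      ∀ x ∈ Icc (-1 : ℝ) 1, |G w' f' x - G w f x| ≤ M * N

theorem abs_exp_sub_le {a b m : ℝ} (ha : a ≤ m) (hb : b ≤ m) :
    |Real.exp a - Real.exp b| ≤ Real.exp m * |a - b| := by
  wlog h : b ≤ a generalizing a b
  · rw [abs_sub_comm, abs_sub_comm a b]
    exact this hb ha (le_of_not_ge h)
  have h1 : Real.exp b = Real.exp a * Real.exp (b - a) := by rw [← Real.exp_add]; ring_nf
  have h2 : b - a + 1 ≤ Real.exp (b - a) := Real.add_one_le_exp _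
  rw [abs_of_nonneg (sub_nonneg.2 (Real.exp_le_exp.2 h)), abs_of_nonneg (sub_nonneg.2 h), h1]
  have h3 : Real.exp a ≤ Real.exp m := Real.exp_le_exp.2 ha
  have h4 := Real.exp_pos a
  calc Real.exp a - Real.exp a * Real.exp (b - a)
      = Real.exp a * (1 - Real.exp (b - a)) := by ring
    _ ≤ Real.exp a * (a - b) := mul_le_mul_of_nonneg_left (by linarith only [h2]) h4.le
    _ ≤ Real.exp m * (a - b) := mul_le_mul_of_nonneg_right h3 (sub_nonneg.2 h)

theorem BL.exp_aux {K u u' : ℝ} (hu : |u| ≤ K) (hu' : |u'| ≤ K) {N : ℝ} (hN : |u' - u| ≤ N) :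
    |Real.exp (-2 * u)| ≤ 2 * Real.exp (2 * K) ∧
      |Real.exp (-2 * u') - Real.exp (-2 * u)| ≤ 2 * Real.exp (2 * K) * N := by
  have h1 : -2 * u ≤ 2 * K := by linarith only [hu, (abs_le.1 hu).1]
  have h2 : -2 * u' ≤ 2 * K := by linarith only [hu', (abs_le.1 hu').1]
  have h3 := Real.exp_pos (2 * K)
  constructor
  · rw [abs_of_pos (Real.exp_pos _)]
    linarith only [h1, h3, Real.exp_le_exp.2 h1]
  · refine (abs_exp_sub_le h2 h1).trans ?_
    have h4 : |-2 * u' - -2 * u| = 2 * |u' - u| := by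
      rw [show -2 * u' - -2 * u = (-2) * (u' - u) by ring, abs_mul]
      norm_num
    rw [h4]
    linarith only [mul_nonneg (sub_nonneg.2 hN) (le_of_lt (sub_pos.2 h3))]

theorem BL.add {j : ℕ} {K : ℝ} (hG : BL j K G) (hH : BL j K H) :
    BL j K (fun w f x => G w f x + H w f x) := by
  obtain ⟨M, hM, h1, h2⟩ := hG
  obtain ⟨M', hM', h1', h2'⟩ := hH
  refine ⟨M + M', add_nonneg hM hM', ?_, ?_⟩
  · intro w f hw hf hbw hbf x hx
    exact (abs_add_le _ _).trans (add_le_add (h1 w f hw hf hbw hbf x hx)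
      (h1' w f hw hf hbw hbf x hx))
  · intro w f w' f' hw hf hw' hf' b1 b2 b3 b4 N n1 n2 x hx
    have e : G w' f' x + H w' f' x - (G w f x + H w f x) =
      (G w' f' x - G w f x) + (H w' f' x - H w f x) := by ring
    rw [e, add_mul]
    exact (abs_add_le _ _).trans (add_le_add (h2 w f w' f' hw hf hw' hf' b1 b2 b3 b4 N n1 n2 x hx)
      (h2' w f w' f' hw hf hw' hf' b1 b2 b3 b4 N n1 n2 x hx))

theorem BL.mul {j : ℕ} {K : ℝ} (hG : BL j K G) (hH : BL j K H) :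
    BL j K (fun w f x => G w f x * H w f x) := by
  obtain ⟨M, hM, h1, h2⟩ := hG
  obtain ⟨M', hM', h1', h2'⟩ := hH
  refine ⟨2 * (M * M'), by positivity, ?_, ?_⟩
  · intro w f hw hf hbw hbf x hx
    rw [abs_mul]
    have := mul_le_mul (h1 w f hw hf hbw hbf x hx) (h1' w f hw hf hbw hbf x hx) (abs_nonneg _) hM
    linarith only [mul_nonneg hM hM', this]
  · intro w f w' f' hw hf hw' hf' b1 b2 b3 b4 N n1 n2 x hx
    have e : G w' f' x * H w' f' x - G w f x * H w f x =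
      (G w' f' x - G w f x) * H w' f' x + G w f x * (H w' f' x - H w f x) := by ring
    have a1 := h2 w f w' f' hw hf hw' hf' b1 b2 b3 b4 N n1 n2 x hx
    have a2 := h2' w f w' f' hw hf hw' hf' b1 b2 b3 b4 N n1 n2 x hx
    have a3 := h1 w f hw hf b1 b2 x hx
    have a4 := h1' w' f' hw' hf' b3 b4 x hx
    have hN : 0 ≤ N := (abs_nonneg _).trans (n1 0 (Nat.zero_le _) x hx)
    rw [e]
    refine (abs_add_le _ _).trans ?_
    rw [abs_mul, abs_mul]
    have a5 := mul_le_mul a1 a4 (abs_nonneg _) (mul_nonneg hM hN)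
    have a6 := mul_le_mul a3 a2 (abs_nonneg _) hM
    calc _ ≤ M * N * M' + M * (M' * N) := add_le_add a5 a6
      _ = 2 * (M * M') * N := by ring

/-- Main induction: `BL` for differential polynomials, given `BL` for `J` if it occurs. -/
theorem DP.bl_aux (h : DP p c j G) (K : ℝ) (hJ : c = true → BL j K (fun w f x => Jf p w f x)) :
    BL j K G := by
  induction h with
  | const c j a =>
    refine ⟨|a|, abs_nonneg a, fun _ _ _ _ _ _ _ _ => le_rfl, ?_⟩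
    intro w f w' f' _ _ _ _ _ _ _ _ N n1 _ x hx
    have hN : 0 ≤ N := (abs_nonneg _).trans (n1 0 (Nat.zero_le _) x hx)
    rw [sub_self, abs_zero]
    exact mul_nonneg (abs_nonneg a) hN
  | var c j =>
    refine ⟨1, zero_le_one, fun _ _ _ _ _ _ x hx => abs_le.2 hx, ?_⟩
    intro w f w' f' _ _ _ _ _ _ _ _ N n1 _ x hx
    have hN : 0 ≤ N := (abs_nonneg _).trans (n1 0 (Nat.zero_le _) x hx)
    rw [sub_self, abs_zero, one_mul]
    exact hN
  | ew c j =>
    refine ⟨2 * Real.exp (2 * K), by positivity, ?_, ?_⟩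
    · intro w f _ _ b1 _ x hx
      exact (BL.exp_aux (b1 0 (Nat.zero_le _) x hx) (b1 0 (Nat.zero_le _) x hx) (N := 0)
        (by simp)).1
    · intro w f w' f' _ _ _ _ b1 _ b3 _ N n1 _ x hx
      exact (BL.exp_aux (b1 0 (Nat.zero_le _) x hx) (b3 0 (Nat.zero_le _) x hx)
        (n1 0 (Nat.zero_le _) x hx)).2
  | ef c j =>
    refine ⟨2 * Real.exp (2 * K), by positivity, ?_, ?_⟩
    · intro w f _ _ _ b1 x hx
      exact (BL.exp_aux (b1 0 (Nat.zero_le _) x hx) (b1 0 (Nat.zero_le _) x hx) (N := 0)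
        (by simp)).1
    · intro w f w' f' _ _ _ _ _ b1 _ b3 N _ n1 x hx
      exact (BL.exp_aux (b1 0 (Nat.zero_le _) x hx) (b3 0 (Nat.zero_le _) x hx)
        (n1 0 (Nat.zero_le _) x hx)).2
  | @dw c i j h =>
    refine ⟨max K 1, le_max_of_le_right zero_le_one, ?_, ?_⟩
    · intro w f _ _ b1 _ x hx
      exact (b1 i h x hx).trans (le_max_left _ _)
    · intro w f w' f' _ _ _ _ _ _ _ _ N n1 _ x hx
      have hN : 0 ≤ N := (abs_nonneg _).trans (n1 0 (Nat.zero_le _) x hx)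
      exact (n1 i h x hx).trans (le_mul_of_one_le_left hN (le_max_right _ _))
  | @df c i j h =>
    refine ⟨max K 1, le_max_of_le_right zero_le_one, ?_, ?_⟩
    · intro w f _ _ _ b1 x hx
      exact (b1 i h x hx).trans (le_max_left _ _)
    · intro w f w' f' _ _ _ _ _ _ _ _ N _ n1 x hx
      have hN : 0 ≤ N := (abs_nonneg _).trans (n1 0 (Nat.zero_le _) x hx)
      exact (n1 i h x hx).trans (le_mul_of_one_le_left hN (le_max_right _ _))
  | J j => exact hJ rfl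
  | add _ _ ih1 ih2 => exact (ih1 hJ).add (ih2 hJ)
  | mul _ _ ih1 ih2 => exact (ih1 hJ).mul (ih2 hJ)

theorem abs_integral_le {v : ℝ → ℝ} {M x : ℝ} (hM : ∀ y ∈ Icc (-1 : ℝ) 1, |v y| ≤ M)
    (hx : x ∈ Icc (-1 : ℝ) 1) : |∫ y in (0 : ℝ)..x, v y| ≤ M := by
  have hM0 : 0 ≤ M := (abs_nonneg _).trans (hM x hx)
  have h1 := intervalIntegral.norm_integral_le_of_norm_le_const (a := 0) (b := x) (f := v)
    (C := M) (fun y hy => by
      refine hM y ?_
      have hy' := uIoc_subset_uIcc hy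
      rcases le_total 0 x with h | h
      · rw [uIcc_of_le h] at hy'; exact ⟨by linarith only [hy', hy'.1], hy'.2.trans hx.2⟩
      · rw [uIcc_of_ge h] at hy'; exact ⟨hx.1.trans hy'.1, by linarith only [hy', hy'.2]⟩)
  rw [Real.norm_eq_abs, sub_zero] at h1
  have h2 : |x| ≤ 1 := abs_le.2 hx
  calc _ ≤ M * |x| := h1
    _ ≤ M * 1 := mul_le_mul_of_nonneg_left h2 hM0
    _ = M := mul_one M

theorem BL.jf (p : ℕ) {j : ℕ} (hj : 1 ≤ j) (K : ℝ) : BL j K (fun w f x => Jf p w f x) := by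
  obtain ⟨M, hM, h1, h2⟩ := (DP.jd p false hj).bl_aux K (fun h => absurd h (by simp))
  refine ⟨M, hM, ?_, ?_⟩
  · intro w f hw hf b1 b2 x hx
    exact abs_integral_le (h1 w f hw hf b1 b2) hx
  · intro w f w' f' hw hf hw' hf' b1 b2 b3 b4 N n1 n2 x hx
    have h3 := abs_integral_le (h2 w f w' f' hw hf hw' hf' b1 b2 b3 b4 N n1 n2) hx
    rw [intervalIntegral.integral_sub (intOn (hw'.Jd p hf').cont zero_mem_I hx)
      (intOn (hw.Jd p hf).cont zero_mem_I hx)] at h3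
    exact h3

/-- Differential polynomials are bounded and Lipschitz on `C^j`-bounded sets. -/
theorem DP.bl (h : DP p c j G) (hj : 1 ≤ j) (K : ℝ) : BL j K G :=
  h.bl_aux K fun _ => BL.jf p hj K

/-! ### expansion of the right-hand sides -/

/-- Coefficient of `(1-x²) D^{j+1}` in the expansion of `D^j rhs`. -/
noncomputable def BB (p j : ℕ) (w f : ℝ → ℝ) (x : ℝ) : ℝ :=
  -Jf p w f x - (2 * (j : ℝ)) * (Real.exp (-2 * w x) * dn 1 w x)

theorem DP.bb (p j : ℕ) {k : ℕ} (hk : 1 ≤ k) : DP p true k (fun w f x => BB p j w f x) :=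
  (DP.J k).neg.sub (((DP.ew true k).mul (DP.dw true hk)).cmul (2 * (j : ℝ)))

theorem exists_dx_bb (p j : ℕ) : ∃ D, DP p true (j + 1) D ∧ ∀ w f : ℝ → ℝ, Sm w → Sm f →
    ∀ x ∈ Icc (-1 : ℝ) 1, dx (BB p j w f) x = D w f x := by
  rcases Nat.eq_zero_or_pos j with rfl | hj
  · obtain ⟨D, h1, h2⟩ := (DP.J (p := p) 0).neg.exists_dx
    refine ⟨D, h1, fun w f hw hf x hx => ?_⟩
    rw [← h2 w f hw hf x hx]
    exact dx_congr (fun y _ => by simp [BB]) hx
  · obtain ⟨D, h1, h2⟩ := (DP.bb p j (k := 1) le_rfl).exists_dx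
    exact ⟨D, h1.mono (by omega), h2⟩

theorem sm_bb (p j : ℕ) {w f : ℝ → ℝ} (hw : Sm w) (hf : Sm f) : Sm (BB p j w f) :=
  (DP.bb p j (k := 1) le_rfl).sm hw hf

/-- General expansion. -/
theorem exp_gen (p : ℕ) (U R : (ℝ → ℝ) → (ℝ → ℝ) → ℝ → ℝ)
    (hU : ∀ i j : ℕ, i ≤ j → DP p true j (fun w f x => dn i (U w f) x))
    (hUs : ∀ w f : ℝ → ℝ, Sm w → Sm f → Sm (U w f))
    {P0 : (ℝ → ℝ) → (ℝ → ℝ) → ℝ → ℝ} (hP0 : DP p true 0 P0)
    (h0 : ∀ w f : ℝ → ℝ, Sm w → Sm f → ∀ x ∈ Icc (-1 : ℝ) 1, R w f x =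
      Real.exp (-2 * w x) * Ld ((p : ℝ) + 1) (U w f) x +
        (1 - x ^ 2) * dx (U w f) x * (-Jf p w f x) + P0 w f x) (j : ℕ) :
    ∃ P, DP p true j P ∧ ∀ w f : ℝ → ℝ, Sm w → Sm f → ∀ x ∈ Icc (-1 : ℝ) 1,
      dn j (R w f) x = Real.exp (-2 * w x) * Ld ((p : ℝ) + 1 + 2 * j) (dn j (U w f)) x +
        (1 - x ^ 2) * dn (j + 1) (U w f) x * BB p j w f x + P w f x := by
  induction j with
  | zero =>
    refine ⟨P0, hP0, fun w f hw hf x hx => ?_⟩
    rw [dn_zero, dn_zero, h0 w f hw hf x hx]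
    simp only [Nat.cast_zero, mul_zero, add_zero, zero_add, dn_one, BB, zero_mul, sub_zero]
  | succ j ih =>
    obtain ⟨P, hP, hPe⟩ := ih
    obtain ⟨P', hP', hPe'⟩ := hP.exists_dx
    obtain ⟨D, hD, hDe⟩ := exists_dx_bb p j
    set N : ℝ := (p : ℝ) + 1 + 2 * j with hN
    -- the new remainder
    have hu := hU (j + 1) (j + 1) le_rfl
    have hE := DP.ew (p := p) true (j + 1)
    have hx' := DP.var (p := p) true (j + 1)
    have hs := DP.sxx p true (j + 1)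
    have hb := DP.bb p j (k := j + 1) (by omega)
    have hw1 := DP.dw (p := p) true (i := 1) (j := j + 1) (by omega)
    refine ⟨_, ((((hx'.mul ((hw1.mul hE).mul hu)).cmul (2 * N)).sub
      ((hE.mul hu).cmul N)).sub ((hx'.mul (hu.mul hb)).cmul 2)).add
      ((hs.mul (hu.mul hD)).add hP'), fun w f hw hf x hx => ?_⟩
    have hUw := hUs w f hw hf
    have e1 : dn (j + 1) (R w f) x = dx (fun y => Real.exp (-2 * w y) *
        Ld N (dn j (U w f)) y + (1 - y ^ 2) * dn (j + 1) (U w f) y * BB p j w f y +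
        P w f y) x := by
      rw [dn_succ']
      exact dx_congr (fun y hy => hPe w f hw hf y hy) hx
    have s1 : Sm (fun y => Real.exp (-2 * w y)) := (hw.cmul (-2)).exp
    have s2 : Sm (Ld N (dn j (U w f))) := (hUw.dn j).Ld N
    have s3 : Sm (fun y => (1 - y ^ 2) * dn (j + 1) (U w f) y) := Sm.sxx.mul (hUw.dn (j + 1))
    have s4 := sm_bb p j hw hf
    have s5 := hP.sm hw hf
    rw [e1, dx_add ((s1.mul s2).add (s3.mul s4)) s5 hx, dx_add (s1.mul s2) (s3.mul s4) hx,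
      dx_mul s1 s2 hx, dx_mul s3 s4 hx, dx_mul Sm.sxx (hUw.dn (j + 1)) hx, dx_sxx hx,
      dx_exp (hw.cmul (-2)) hx, dx_cmul (-2) hw hx, dx_Ld (hUw.dn j) N hx,
      hPe' w f hw hf x hx, hDe w f hw hf x hx]
    have e2 : dx (dn j (U w f)) = dn (j + 1) (U w f) := (dn_succ' j _).symm
    have e3 : dx (dn (j + 1) (U w f)) x = dn (j + 1 + 1) (U w f) x := by rw [dn_succ' (j + 1)]
    have e4 : Ld N (dn j (U w f)) x = (1 - x ^ 2) * dn (j + 1 + 1) (U w f) x -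
        N * x * dn (j + 1) (U w f) x := by
      rw [← e3, ← e2]; rfl
    rw [e4, e2, e3, dn_one]
    have e5 : (p : ℝ) + 1 + 2 * ((j + 1 : ℕ) : ℝ) = N + 2 := by rw [hN]; push_cast; ring
    rw [e5]
    have e6 : BB p (j + 1) w f x = BB p j w f x - 2 * (Real.exp (-2 * w x) * dx w x) := by
      simp only [BB, dn_one]; push_cast; ring
    rw [e6]
    ring

/-- Expansion of `D^j rhsW`. -/
theorem exp_rhsW (p j : ℕ) : ∃ P, DP p true j P ∧ ∀ w f : ℝ → ℝ, Sm w → Sm f →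
    ∀ x ∈ Icc (-1 : ℝ) 1, dn j (rhsW p w f) x =
      Real.exp (-2 * w x) * Ld ((p : ℝ) + 1 + 2 * j) (dn j w) x +
        (1 - x ^ 2) * dn (j + 1) w x * BB p j w f x + P w f x := by
  refine exp_gen p (fun w _ => w) (fun w f => rhsW p w f) (fun i j h => DP.dw true h)
    (fun w f hw _ => hw)
    (((DP.ew true 0).cmul (-(p : ℝ))).add ((DP.var true 0).mul (DP.J 0))) ?_ j
  intro w f hw hf x hx
  simp only [rhsW, lap_eq]
  ring

/-- Expansion of `D^j rhsF`. -/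
theorem exp_rhsF (p j : ℕ) : ∃ P, DP p true j P ∧ ∀ w f : ℝ → ℝ, Sm w → Sm f →
    ∀ x ∈ Icc (-1 : ℝ) 1, dn j (rhsF p w f) x =
      Real.exp (-2 * w x) * Ld ((p : ℝ) + 1 + 2 * j) (dn j f) x +
        (1 - x ^ 2) * dn (j + 1) f x * BB p j w f x + P w f x := by
  refine exp_gen p (fun _ f => f) (fun w f => rhsF p w f) (fun i j h => DP.df true h)
    (fun w f _ hf => hf)
    ((DP.ef true 0).cmul (-((p : ℝ) - 1))) ?_ j
  intro w f hw hf x hx
  simp only [rhsF, lap_eq]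
  ring

end Vale.Agent.P244.LW
end

section

/-!
# P244-L : jointly smooth functions on `[0,T) × [-1,1]`
-/

open Set Filter Topology
open scoped ContDiff

namespace Vale.Agent.P244.L

open Vale.Agent.P244.ST

/-- The strip. -/
abbrev Str (T : ℝ) : Set (ℝ × ℝ) := Ico 0 T ×ˢ I

/-- Jointly smooth functions. -/
def JS (T : ℝ) (u : ℝ → ℝ → ℝ) : Prop := ContDiffOn ℝ ∞ (fun z : ℝ × ℝ => u z.1 z.2) (Str T)

theorem uStr (T : ℝ) : UniqueDiffOn ℝ (Str T) := (uniqueDiffOn_Ico 0 T).prod uI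

theorem JS.slice {T : ℝ} {u : ℝ → ℝ → ℝ} (h : JS T u) {t : ℝ} (ht : t ∈ Ico 0 T) : Sm (u t) := by
  have : ContDiffOn ℝ ∞ (fun x : ℝ => ((t, x) : ℝ × ℝ)) I := by fun_prop
  exact ContDiffOn.comp (g := fun z : ℝ × ℝ => u z.1 z.2) h this (fun x hx => ⟨ht, hx⟩)

section
variable {T : ℝ} {U : ℝ × ℝ → ℝ}

private theorem hasDeriv_x (h : DifferentiableOn ℝ U (Str T)) {t x : ℝ} (ht : t ∈ Ico 0 T)
    (hx : x ∈ I) :
    HasDerivWithinAt (fun y => U (t, y)) (fderivWithin ℝ U (Str T) (t, x) (0, 1)) I x := by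
  have h1 : HasFDerivWithinAt U (fderivWithin ℝ U (Str T) (t, x)) (Str T) (t, x) :=
    (h (t, x) ⟨ht, hx⟩).hasFDerivWithinAt
  have h2 : HasDerivWithinAt (fun y : ℝ => ((t, y) : ℝ × ℝ)) ((0, 1) : ℝ × ℝ) I x :=
    (hasDerivWithinAt_const x I t).prodMk (hasDerivWithinAt_id x I)
  exact h1.comp_hasDerivWithinAt x h2 (fun y hy => ⟨ht, hy⟩)

private theorem hasDeriv_t (h : DifferentiableOn ℝ U (Str T)) {t x : ℝ} (ht : t ∈ Ico 0 T)
    (hx : x ∈ I) :
    HasDerivWithinAt (fun s => U (s, x)) (fderivWithin ℝ U (Str T) (t, x) (1, 0)) (Ico 0 T) t := by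
  have h1 : HasFDerivWithinAt U (fderivWithin ℝ U (Str T) (t, x)) (Str T) (t, x) :=
    (h (t, x) ⟨ht, hx⟩).hasFDerivWithinAt
  have h2 : HasDerivWithinAt (fun s : ℝ => ((s, x) : ℝ × ℝ)) ((1, 0) : ℝ × ℝ) (Ico 0 T) t :=
    (hasDerivWithinAt_id t _).prodMk (hasDerivWithinAt_const t _ x)
  exact h1.comp_hasDerivWithinAt t h2 (fun s hs => (⟨hs, hx⟩ : ((s, x) : ℝ × ℝ) ∈ Str T))

private theorem dx_fd (h : DifferentiableOn ℝ U (Str T)) {t x : ℝ} (ht : t ∈ Ico 0 T)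
    (hx : x ∈ I) : dx (fun y => U (t, y)) x = fderivWithin ℝ U (Str T) (t, x) (0, 1) :=
  dx_eq hx (hasDeriv_x h ht hx)

end

theorem JS.dx {T : ℝ} {u : ℝ → ℝ → ℝ} (h : JS T u) : JS T (fun t => dx (u t)) := by
  have h1 : ContDiffOn ℝ ∞ (fderivWithin ℝ (fun z : ℝ × ℝ => u z.1 z.2) (Str T)) (Str T) :=
    ContDiffOn.fderivWithin h (uStr T) (by simp)
  have h2 := h1.clm_apply (contDiffOn_const (c := ((0, 1) : ℝ × ℝ)))
  refine ContDiffOn.congr h2 ?_
  rintro ⟨t, x⟩ ⟨ht, hx⟩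
  exact dx_fd (U := fun z : ℝ × ℝ => u z.1 z.2) (h.differentiableOn (by simp)) ht hx

/-- Time derivative and `x` derivative commute. -/
theorem JS.dx_dt {T : ℝ} {u g : ℝ → ℝ → ℝ} (h : JS T u)
    (hg : ∀ t ∈ Ico 0 T, ∀ x ∈ I, HasDerivWithinAt (fun s => u s x) (g t x) (Ico 0 T) t)
    {t x : ℝ} (ht : t ∈ Ico 0 T) (hx : x ∈ I) :
    HasDerivWithinAt (fun s => ST.dx (u s) x) (ST.dx (g t) x) (Ico 0 T) t := by
  set U : ℝ × ℝ → ℝ := fun z => u z.1 z.2 with hU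
  set S := Str T with hS
  have hUS : UniqueDiffOn ℝ S := uStr T
  have hd : DifferentiableOn ℝ U S := h.differentiableOn (by simp)
  have h1 : ContDiffOn ℝ ∞ (fderivWithin ℝ U S) S := ContDiffOn.fderivWithin h hUS (by simp)
  have hd1 : DifferentiableOn ℝ (fderivWithin ℝ U S) S := h1.differentiableOn (by simp)
  have key : ∀ v : ℝ × ℝ, HasFDerivWithinAt (fun z => fderivWithin ℝ U S z v)
      ((fderivWithin ℝ (fderivWithin ℝ U S) S (t, x)).flip v) S (t, x) := by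
    intro v
    exact (ContinuousLinearMap.apply ℝ ℝ v).hasFDerivAt.comp_hasFDerivWithinAt _
      ((hd1 (t, x) ⟨ht, hx⟩).hasFDerivWithinAt)
  -- the `x` derivative as function of time
  have hA : HasDerivWithinAt (fun s => fderivWithin ℝ U S (s, x) (0, 1))
      (fderivWithin ℝ (fderivWithin ℝ U S) S (t, x) (1, 0) (0, 1)) (Ico 0 T) t := by
    have h2 : HasDerivWithinAt (fun s : ℝ => ((s, x) : ℝ × ℝ)) ((1, 0) : ℝ × ℝ) (Ico 0 T) t :=
      (hasDerivWithinAt_id t _).prodMk (hasDerivWithinAt_const t _ x)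
    exact (key (0, 1)).comp_hasDerivWithinAt t h2 (fun s hs => (⟨hs, hx⟩ : ((s, x) : ℝ × ℝ) ∈ S))
  have hB : HasDerivWithinAt (fun y => fderivWithin ℝ U S (t, y) (1, 0))
      (fderivWithin ℝ (fderivWithin ℝ U S) S (t, x) (0, 1) (1, 0)) I x := by
    have h2 : HasDerivWithinAt (fun y : ℝ => ((t, y) : ℝ × ℝ)) ((0, 1) : ℝ × ℝ) I x :=
      (hasDerivWithinAt_const x I t).prodMk (hasDerivWithinAt_id x I)
    exact (key (1, 0)).comp_hasDerivWithinAt x h2 (fun y hy => ⟨ht, hy⟩)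
  have hsymm : IsSymmSndFDerivWithinAt ℝ U S (t, x) := by
    have hT : 0 < T := lt_of_le_of_lt ht.1 ht.2
    refine ContDiffWithinAt.isSymmSndFDerivWithinAt (n := ∞) (h (t, x) ⟨ht, hx⟩)
      (by
        simp only [minSmoothness_of_isRCLikeNormedField]
        exact ENat.LEInfty.out) hUS ?_
      ⟨ht, hx⟩
    rw [hS, interior_prod_eq, interior_Ico, interior_Icc, closure_prod_eq,
      closure_Ioo hT.ne, closure_Ioo (by norm_num)]
    exact ⟨⟨ht.1, ht.2.le⟩, hx⟩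
  have e1 : ∀ s ∈ Ico 0 T, ST.dx (u s) x = fderivWithin ℝ U S (s, x) (0, 1) := fun s hs =>
    dx_fd (U := U) hd hs hx
  have e2 : ∀ y ∈ I, g t y = fderivWithin ℝ U S (t, y) (1, 0) := by
    intro y hy
    exact ((hg t ht y hy).derivWithin (uniqueDiffOn_Ico 0 T t ht)).symm.trans
      ((hasDeriv_t (U := U) hd ht hy).derivWithin (uniqueDiffOn_Ico 0 T t ht))
  have e3 : ST.dx (g t) x = fderivWithin ℝ (fderivWithin ℝ U S) S (t, x) (0, 1) (1, 0) := by
    rw [dx_congr e2 hx]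
    exact dx_eq hx hB
  rw [e3, hsymm.eq (0, 1) (1, 0)]
  exact hA.congr e1 (e1 t ht)

end Vale.Agent.P244.L
end

section

/-!
# P244-L : the difference estimate (all orders `j ≥ 1`) and uniqueness
-/

open Set Filter Topology
open scoped ContDiff

namespace Vale.Agent.P244.LW
open Vale.Agent.P244.ST

theorem Ld_sub {d : ℝ} {u v : ℝ → ℝ} (hu : Sm u) (hv : Sm v) {x : ℝ}
    (hx : x ∈ Icc (-1 : ℝ) 1) : Ld d (fun y => u y - v y) x = Ld d u x - Ld d v x := by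
  unfold Ld
  rw [dx_congr (fun y hy => dx_sub hu hv hy) hx, dx_sub hu.dx hv.dx hx, dx_sub hu hv hx]
  ring

theorem Ld_abs_le {d K : ℝ} {u : ℝ → ℝ} {x : ℝ} (hx : x ∈ Icc (-1 : ℝ) 1)
    (h1 : |dx u x| ≤ K) (h2 : |dx (dx u) x| ≤ K) : |Ld d u x| ≤ (1 + |d|) * K := by
  have hK : 0 ≤ K := (abs_nonneg _).trans h1
  have h3 : |1 - x ^ 2| ≤ 1 := by
    rw [abs_le]; constructor <;> nlinarith only [hx, hx.1, hx.2]
  have h4 : |x| ≤ 1 := abs_le.2 hx
  unfold Ld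
  refine (abs_sub _ _).trans ?_
  rw [abs_mul, abs_mul, abs_mul]
  have h5 : |1 - x ^ 2| * |dx (dx u) x| ≤ 1 * K := mul_le_mul h3 h2 (abs_nonneg _) zero_le_one
  have h6 : |d| * |x| * |dx u x| ≤ |d| * 1 * K :=
    mul_le_mul (mul_le_mul_of_nonneg_left h4 (abs_nonneg _)) h1 (abs_nonneg _) (by positivity)
  calc _ ≤ 1 * K + |d| * 1 * K := add_le_add h5 h6
    _ = (1 + |d|) * K := by ring

/-- The estimate of the time derivative of `σ D^i (U w' f' - U w f)` at a spatial maximum. -/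
theorem point_est (p j i : ℕ) (hj : 1 ≤ j) (hij : i ≤ j) (K : ℝ)
    (U R : (ℝ → ℝ) → (ℝ → ℝ) → ℝ → ℝ)
    (hUs : ∀ w f : ℝ → ℝ, Sm w → Sm f → Sm (U w f))
    (hUB : ∀ (k : ℕ) (w f : ℝ → ℝ), Bd k K w → Bd k K f → Bd k K (U w f))
    (hexp : ∃ P, DP p true i P ∧ ∀ w f : ℝ → ℝ, Sm w → Sm f → ∀ x ∈ Icc (-1 : ℝ) 1,
      dn i (R w f) x = Real.exp (-2 * w x) * Ld ((p : ℝ) + 1 + 2 * i) (dn i (U w f)) x +
        (1 - x ^ 2) * dn (i + 1) (U w f) x * BB p i w f x + P w f x) :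
    ∃ C : ℝ, 0 ≤ C ∧ ∀ w f w' f' : ℝ → ℝ, Sm w → Sm f → Sm w' → Sm f' →
      Bd (j + 2) K w → Bd (j + 2) K f → Bd j K w' → Bd j K f' →
      ∀ N : ℝ, (∀ k ≤ j, ∀ x ∈ Icc (-1 : ℝ) 1, |dn k w' x - dn k w x| ≤ N) →
      (∀ k ≤ j, ∀ x ∈ Icc (-1 : ℝ) 1, |dn k f' x - dn k f x| ≤ N) →
      ∀ σ : ℝ, |σ| = 1 → ∀ x ∈ Icc (-1 : ℝ) 1,
      (∀ y ∈ Icc (-1 : ℝ) 1, σ * (dn i (U w' f') y - dn i (U w f) y) ≤
        σ * (dn i (U w' f') x - dn i (U w f) x)) →
      σ * (dn i (R w' f') x - dn i (R w f) x) ≤ C * N := by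
  obtain ⟨P, hP, hPe⟩ := hexp
  obtain ⟨M1, hM1, -, l1⟩ := (hP.mono hij).bl hj K
  obtain ⟨M2, hM2, -, l2⟩ := (DP.bb p i hj).bl hj K
  obtain ⟨M3, hM3, -, l3⟩ := (DP.ew (p := p) true j).bl hj K
  set d : ℝ := (p : ℝ) + 1 + 2 * i with hd
  have hd0 : 0 ≤ d := by positivity
  refine ⟨M3 * ((1 + |d|) * |K|) + |K| * M2 + M1, by (clear * - hM3 hM2 hM1; positivity), ?_⟩
  intro w f w' f' hw hf hw' hf' b1 b2 b3 b4 N n1 n2 σ hσ x hx hmax
  have hN : 0 ≤ N := (abs_nonneg _).trans (n1 0 (Nat.zero_le _) x hx)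
  have b1' : Bd j K w := b1.le_idx (by omega)
  have b2' : Bd j K f := b2.le_idx (by omega)
  have hK : 0 ≤ K := b1'.nonneg
  have hu := hUs w f hw hf
  have hu' := hUs w' f' hw' hf'
  have bu := hUB (j + 2) w f b1 b2
  -- the difference at its maximum
  have hS : Sm (fun y => σ * (dn i (U w' f') y - dn i (U w f) y)) :=
    ((hu'.dn i).sub (hu.dn i)).cmul σ
  obtain ⟨g1, g2⟩ := max_pt hS hx hmax
  have g2 := g2 d hd0
  have hσ0 : σ ≠ 0 := by
    intro h; rw [h, abs_zero] at hσ; exact zero_ne_one hσ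
  rw [dx_cmul σ ((hu'.dn i).sub (hu.dn i)) hx, dx_sub (hu'.dn i) (hu.dn i) hx, ← dn_succ',
    ← dn_succ'] at g1
  have g1' : (1 - x ^ 2) * dn (i + 1) (U w' f') x = (1 - x ^ 2) * dn (i + 1) (U w f) x := by
    have h1 : σ * ((1 - x ^ 2) * (dn (i + 1) (U w' f') x - dn (i + 1) (U w f) x)) = 0 := by
      rw [← g1]; ring
    have h2 := (mul_eq_zero.1 h1).resolve_left hσ0
    linarith only [h2]
  have g2' : σ * (Ld d (dn i (U w' f')) x - Ld d (dn i (U w f)) x) ≤ 0 := by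
    have h1 : Ld d (fun y => σ * (dn i (U w' f') y - dn i (U w f) y)) x =
        σ * (Ld d (dn i (U w' f')) x - Ld d (dn i (U w f)) x) := by
      rw [← Ld_sub (hu'.dn i) (hu.dn i) hx]
      unfold Ld
      rw [dx_congr (fun y hy => dx_cmul σ ((hu'.dn i).sub (hu.dn i)) hy) hx,
        dx_cmul σ ((hu'.dn i).sub (hu.dn i)).dx hx, dx_cmul σ ((hu'.dn i).sub (hu.dn i)) hx]
      ring
    rwa [h1] at g2
  have hLd : |Ld d (dn i (U w f)) x| ≤ (1 + |d|) * |K| := by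
    rw [abs_of_nonneg hK]
    apply Ld_abs_le hx
    · rw [← dn_succ']; exact bu (i + 1) (by omega) x hx
    · rw [← dn_succ', ← dn_succ']; exact bu (i + 1 + 1) (by omega) x hx
  have hUi : |(1 - x ^ 2) * dn (i + 1) (U w f) x| ≤ |K| := by
    rw [abs_of_nonneg hK, abs_mul]
    have h3 : |1 - x ^ 2| ≤ 1 := by
      rw [abs_le]; constructor <;> nlinarith only [hx, hx.1, hx.2]
    have h4 := mul_le_mul h3 (bu (i + 1) (by omega) x hx) (abs_nonneg _) zero_le_one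
    rwa [one_mul] at h4
  rw [hPe w' f' hw' hf' x hx, hPe w f hw hf x hx, g1']
  have e : σ * (Real.exp (-2 * w' x) * Ld d (dn i (U w' f')) x +
      (1 - x ^ 2) * dn (i + 1) (U w f) x * BB p i w' f' x + P w' f' x -
      (Real.exp (-2 * w x) * Ld d (dn i (U w f)) x +
      (1 - x ^ 2) * dn (i + 1) (U w f) x * BB p i w f x + P w f x)) =
      Real.exp (-2 * w' x) * (σ * (Ld d (dn i (U w' f')) x - Ld d (dn i (U w f)) x)) +
      (σ * ((Real.exp (-2 * w' x) - Real.exp (-2 * w x)) * Ld d (dn i (U w f)) x) +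
      σ * ((1 - x ^ 2) * dn (i + 1) (U w f) x * (BB p i w' f' x - BB p i w f x)) +
      σ * (P w' f' x - P w f x)) := by ring
  rw [e]
  have t1 : Real.exp (-2 * w' x) * (σ * (Ld d (dn i (U w' f')) x - Ld d (dn i (U w f)) x)) ≤ 0 :=
    mul_nonpos_of_nonneg_of_nonpos (Real.exp_pos _).le g2'
  have hσa : ∀ a : ℝ, σ * a ≤ |a| := fun a => by
    calc σ * a ≤ |σ * a| := le_abs_self _
      _ = |a| := by rw [abs_mul, hσ, one_mul]
  have t2 : σ * ((Real.exp (-2 * w' x) - Real.exp (-2 * w x)) * Ld d (dn i (U w f)) x) ≤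
      M3 * N * ((1 + |d|) * |K|) := by
    refine (hσa _).trans ?_
    rw [abs_mul]
    exact mul_le_mul (l3 w f w' f' hw hf hw' hf' b1' b2' b3 b4 N n1 n2 x hx) hLd (abs_nonneg _)
      (mul_nonneg hM3 hN)
  have t3 : σ * ((1 - x ^ 2) * dn (i + 1) (U w f) x * (BB p i w' f' x - BB p i w f x)) ≤
      |K| * (M2 * N) := by
    refine (hσa _).trans ?_
    rw [abs_mul]
    exact mul_le_mul hUi (l2 w f w' f' hw hf hw' hf' b1' b2' b3 b4 N n1 n2 x hx) (abs_nonneg _)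
      (abs_nonneg _)
  have t4 : σ * (P w' f' x - P w f x) ≤ M1 * N :=
    (hσa _).trans (l1 w f w' f' hw hf hw' hf' b1' b2' b3 b4 N n1 n2 x hx)
  calc _ ≤ 0 + (M3 * N * ((1 + |d|) * |K|) + |K| * (M2 * N) + M1 * N) := by linarith only [t1, t2, t3, t4]
    _ = (M3 * ((1 + |d|) * |K|) + |K| * M2 + M1) * N := by ring

/-! ### time derivatives -/

theorem js_dn {T : ℝ} {u : ℝ → ℝ → ℝ} (h : L.JS T u) (i : ℕ) : L.JS T (fun t => dn i (u t)) := by
  induction i with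
  | zero => exact h
  | succ i ih =>
    have h1 := ih.dx
    simpa only [dn_succ'] using h1

theorem dt_dn {T : ℝ} {u g : ℝ → ℝ → ℝ} (h : L.JS T u)
    (hg : ∀ t ∈ Ico 0 T, ∀ x ∈ Icc (-1 : ℝ) 1,
      HasDerivWithinAt (fun s => u s x) (g t x) (Ico 0 T) t) (i : ℕ) :
    ∀ t ∈ Ico 0 T, ∀ x ∈ Icc (-1 : ℝ) 1,
      HasDerivWithinAt (fun s => dn i (u s) x) (dn i (g t) x) (Ico 0 T) t := by
  induction i with
  | zero => exact hg
  | succ i ih =>
    intro t ht x hx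
    have h1 := (js_dn h i).dx_dt (g := fun t => dn i (g t)) ih ht hx
    simpa only [dn_succ'] using h1

theorem js_cont {T T₁ : ℝ} (hT : T₁ < T) {u : ℝ → ℝ → ℝ} (h : L.JS T u) :
    ContinuousOn (fun z : ℝ × ℝ => u z.1 z.2) (Icc 0 T₁ ×ˢ Icc (-1) 1) :=
  ContinuousOn.mono (ContDiffOn.continuousOn h) fun _ hz => ⟨⟨hz.1.1, hz.1.2.trans_lt hT⟩, hz.2⟩

theorem js_sm {T : ℝ} {u : ℝ → ℝ → ℝ} (h : L.JS T u) {t : ℝ} (ht : t ∈ Ico 0 T) : Sm (u t) :=
  h.slice ht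

/-! ### the difference estimate -/

/-- THE DIFFERENCE ESTIMATE (order `j ≥ 1`): the reference solution is bounded in `C^{j+2}`, the
other one only in `C^j`. -/
theorem diff_est (p j : ℕ) (hj : 1 ≤ j) (K : ℝ) : ∃ C : ℝ, 0 ≤ C ∧
    ∀ (T T' T₁ : ℝ) (w f w' f' : ℝ → ℝ → ℝ), ConfSol p w f T → ConfSol p w' f' T' →
    T₁ < T → T₁ < T' →
    (∀ t ∈ Icc 0 T₁, Bd (j + 2) K (w t) ∧ Bd (j + 2) K (f t) ∧ Bd j K (w' t) ∧ Bd j K (f' t)) →
    ∀ B : ℝ, 0 ≤ B →
    (∀ i ≤ j, ∀ x ∈ Icc (-1 : ℝ) 1, |dn i (w' 0) x - dn i (w 0) x| ≤ B ∧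
      |dn i (f' 0) x - dn i (f 0) x| ≤ B) →
    ∀ t ∈ Icc 0 T₁, ∀ i ≤ j, ∀ x ∈ Icc (-1 : ℝ) 1,
      |dn i (w' t) x - dn i (w t) x| ≤ B * Real.exp (C * t) ∧
      |dn i (f' t) x - dn i (f t) x| ≤ B * Real.exp (C * t) := by
  have hCw : ∀ i : Fin (j + 1), _ := fun i => point_est p j i hj (by omega) K
    (fun w _ => w) (fun w f => rhsW p w f) (fun w f hw _ => hw) (fun k w f h _ => h)
    (exp_rhsW p i)
  have hCf : ∀ i : Fin (j + 1), _ := fun i => point_est p j i hj (by omega) K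
    (fun _ f => f) (fun w f => rhsF p w f) (fun w f _ hf => hf) (fun k w f _ h => h)
    (exp_rhsF p i)
  choose Cw hCw0 hCw using hCw
  choose Cf hCf0 hCf using hCf
  set C : ℝ := ∑ i, Cw i + ∑ i, Cf i with hCdef
  have hC : 0 ≤ C := add_nonneg (Finset.sum_nonneg fun i _ => hCw0 i)
    (Finset.sum_nonneg fun i _ => hCf0 i)
  have hCwle : ∀ i, Cw i ≤ C := fun i => by
    have h1 : Cw i ≤ ∑ i, Cw i := Finset.single_le_sum (fun i _ => hCw0 i) (Finset.mem_univ i)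
    have h2 : 0 ≤ ∑ i, Cf i := Finset.sum_nonneg fun i _ => hCf0 i
    linarith only [h1, h2]
  have hCfle : ∀ i, Cf i ≤ C := fun i => by
    have h1 : Cf i ≤ ∑ i, Cf i := Finset.single_le_sum (fun i _ => hCf0 i) (Finset.mem_univ i)
    have h2 : 0 ≤ ∑ i, Cw i := Finset.sum_nonneg fun i _ => hCw0 i
    linarith only [h1, h2]
  refine ⟨C, hC, ?_⟩
  intro T T' T₁ w f w' f' hS hS' hT hT' hb B hB h0
  have jw : L.JS T w := hS.smooth_w
  have jf : L.JS T f := hS.smooth_f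
  have jw' : L.JS T' w' := hS'.smooth_w
  have jf' : L.JS T' f' := hS'.smooth_f
  -- the family
  let sg : Bool → ℝ := fun b => if b then 1 else -1
  have hsg : ∀ b, |sg b| = 1 := fun b => by cases b <;> simp [sg]
  let V : Bool → ℕ → ℝ → ℝ → ℝ := fun b i t x =>
    if b then dn i (w' t) x - dn i (w t) x else dn i (f' t) x - dn i (f t) x
  let Vt : Bool → ℕ → ℝ → ℝ → ℝ := fun b i t x =>
    if b then dn i (rhsW p (w' t) (f' t)) x - dn i (rhsW p (w t) (f t)) x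
    else dn i (rhsF p (w' t) (f' t)) x - dn i (rhsF p (w t) (f t)) x
  have key := L.gron (ι := Fin (j + 1) × Bool × Bool) (T := T₁)
    (fun i t x => sg i.2.2 * V i.2.1 i.1 t x) (fun i t x => sg i.2.2 * Vt i.2.1 i.1 t x)
    (fun i => by
      refine continuousOn_const.mul ?_
      rcases i with ⟨i, b, s⟩
      cases b
      · exact (js_cont hT' (js_dn jf' i)).sub (js_cont hT (js_dn jf i))
      · exact (js_cont hT' (js_dn jw' i)).sub (js_cont hT (js_dn jw i)))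
    (fun i t ht x hx => by
      rcases i with ⟨i, b, s⟩
      have m1 : Icc 0 T₁ ⊆ Ico 0 T := fun r hr => ⟨hr.1, hr.2.trans_lt hT⟩
      have m2 : Icc 0 T₁ ⊆ Ico 0 T' := fun r hr => ⟨hr.1, hr.2.trans_lt hT'⟩
      refine HasDerivWithinAt.const_mul _ ?_
      cases b
      · exact ((dt_dn jf' hS'.eq_f i t (m2 ht) x hx).mono m2).sub
          ((dt_dn jf hS.eq_f i t (m1 ht) x hx).mono m1)
      · exact ((dt_dn jw' hS'.eq_w i t (m2 ht) x hx).mono m2).sub
          ((dt_dn jw hS.eq_w i t (m1 ht) x hx).mono m1))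
    hC hB
    (fun i x hx => by
      rcases i with ⟨i, b, s⟩
      have hi : (i : ℕ) ≤ j := by omega
      have h1 : |V b i 0 x| ≤ B := by
        cases b
        · exact (h0 i hi x hx).2
        · exact (h0 i hi x hx).1
      calc sg s * V b i 0 x ≤ |sg s * V b i 0 x| := le_abs_self _
        _ = |V b i 0 x| := by rw [abs_mul, hsg, one_mul]
        _ ≤ B := h1)
    (fun i t ht x hx hpos hmax _ => by
      rcases i with ⟨i, b, s⟩
      have ht' : t ∈ Icc 0 T₁ := ⟨ht.1.le, ht.2⟩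
      obtain ⟨c1, c2, c3, c4⟩ := hb t ht'
      have hi : (i : ℕ) ≤ j := by omega
      set N : ℝ := sg s * V b i t x with hN
      have hall : ∀ (b' : Bool) (k : ℕ), k ≤ j → ∀ y ∈ Icc (-1 : ℝ) 1, |V b' k t y| ≤ N := by
        intro b' k hk y hy
        rw [abs_le]
        have h1 := hmax ⟨⟨k, by omega⟩, b', true⟩ y hy
        have h2 := hmax ⟨⟨k, by omega⟩, b', false⟩ y hy
        simp only [sg, if_true, one_mul, Bool.false_eq_true, if_false, neg_one_mul] at h1 h2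
        constructor
        · linarith only [h2]
        · exact h1
      have n1 : ∀ k ≤ j, ∀ y ∈ Icc (-1 : ℝ) 1, |dn k (w' t) y - dn k (w t) y| ≤ N :=
        fun k hk y hy => hall true k hk y hy
      have n2 : ∀ k ≤ j, ∀ y ∈ Icc (-1 : ℝ) 1, |dn k (f' t) y - dn k (f t) y| ≤ N :=
        fun k hk y hy => hall false k hk y hy
      have hN0 : 0 ≤ N := hpos.le
      have sw := js_sm jw ⟨ht'.1, ht'.2.trans_lt hT⟩
      have sf := js_sm jf ⟨ht'.1, ht'.2.trans_lt hT⟩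
      have sw' := js_sm jw' ⟨ht'.1, ht'.2.trans_lt hT'⟩
      have sf' := js_sm jf' ⟨ht'.1, ht'.2.trans_lt hT'⟩
      cases b
      · have h3 := hCf i (w t) (f t) (w' t) (f' t) sw sf sw' sf' c1 c2 c3 c4 N n1 n2 (sg s)
          (hsg s) x hx (fun y hy => hmax ⟨i, false, s⟩ y hy)
        exact h3.trans (mul_le_mul_of_nonneg_right (hCfle i) hN0)
      · have h3 := hCw i (w t) (f t) (w' t) (f' t) sw sf sw' sf' c1 c2 c3 c4 N n1 n2 (sg s)
          (hsg s) x hx (fun y hy => hmax ⟨i, true, s⟩ y hy)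
        exact h3.trans (mul_le_mul_of_nonneg_right (hCwle i) hN0))
  intro t ht i hi x hx
  have hfin : ∀ b : Bool, |V b i t x| ≤ B * Real.exp (C * t) := by
    intro b
    have h1 := key ⟨⟨i, by omega⟩, b, true⟩ t ht x hx
    have h2 := key ⟨⟨i, by omega⟩, b, false⟩ t ht x hx
    simp only [sg, if_true, one_mul, Bool.false_eq_true, if_false, neg_one_mul] at h1 h2
    rw [abs_le]
    constructor
    · linarith only [h2]
    · exact h1
  exact ⟨hfin true, hfin false⟩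

end Vale.Agent.P244.LW
end

section

/-! P244, assembly A: openness of the bootstrap for one solution (helper155). -/

open Set Filter
open scoped ContDiff Topology

namespace Vale.Agent.P244.ST

namespace OpA

open JA

variable {q : Par} {g : ℝ → ℝ} {w f : Fn} {T K : ℝ}

theorem tauT {z : ℝ × ℝ} : Tendsto (fun z' : ℝ × ℝ => tau z'.1) (𝓝[Di T] z) (𝓝 (tau z.1)) := by
  have h : Continuous fun z' : ℝ × ℝ => tau z'.1 := by unfold tau; fun_prop
  exact h.continuousWithinAt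

theorem AT {z : ℝ × ℝ} (hτ : 0 < tau z.1) :
    Tendsto (fun z' : ℝ × ℝ => q.A z'.1) (𝓝[Di T] z) (𝓝 (q.A z.1)) :=
  ((tauT (T := T)).rpow_const (Or.inl hτ.ne')).const_mul q.eps

theorem A_pos (hq : ParPos K q) {t : ℝ} (hτ : 0 < tau t) : 0 < q.A t :=
  mul_pos hq.eps (Real.rpow_pos_of_pos hτ _)

theorem T0_pos (hq : ParPos K q) {t : ℝ} (hτ : 0 < tau t) : 0 < q.T0 t :=
  mul_pos (A_pos hq hτ) (Real.rpow_pos_of_pos hq.rho0 _)

theorem T0T {z : ℝ × ℝ} (hτ : 0 < tau z.1) :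
    Tendsto (fun z' : ℝ × ℝ => q.T0 z'.1) (𝓝[Di T] z) (𝓝 (q.T0 z.1)) :=
  (AT hτ).mul_const _

theorem sqT {z : ℝ × ℝ} : Tendsto (fun z' : ℝ × ℝ => Real.sqrt (tau z'.1)) (𝓝[Di T] z)
    (𝓝 (Real.sqrt (tau z.1))) := (tauT (T := T)).sqrt

theorem tanh_pos {u : ℝ} (hu : 0 < u) : 0 < Real.tanh u := by
  rw [Real.tanh_eq_sinh_div_cosh]
  exact div_pos (Real.sinh_pos_iff.2 hu) (Real.cosh_pos u)

theorem cont_tanh : Continuous Real.tanh := by
  have : Real.tanh = fun x => Real.sinh x / Real.cosh x := by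
    funext x; exact Real.tanh_eq_sinh_div_cosh x
  rw [this]
  exact Real.continuous_sinh.div Real.continuous_cosh fun x => (Real.cosh_pos x).ne'

theorem fbT (hq : ParPos K q) {z : ℝ × ℝ} (hτ : 0 < tau z.1) {U : ℝ × ℝ → ℝ}
    (hU : Tendsto U (𝓝[Di T] z) (𝓝 (U z))) (hu : 0 < U z) :
    Tendsto (fun z' : ℝ × ℝ => q.fb z'.1 (U z')) (𝓝[Di T] z) (𝓝 (q.fb z.1 (U z))) := by
  have h1 := (tendsto_const_nhds (x := q.B)).div (tauT (T := T) (z := z)) hτ.ne'
  have h2 := ((cont_tanh.tendsto _).comp hU).div (T0T (q := q) (T := T) hτ) (T0_pos hq hτ).ne'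
  have h3 := h2.rpow_const (p := aa) (Or.inl (div_pos (tanh_pos hu) (T0_pos hq hτ)).ne')
  have h4 := ((Real.continuous_cosh.tendsto _).comp hU).rpow_const (p := -(1 - aa))
    (Or.inl (Real.cosh_pos _).ne')
  exact (h1.mul h3).mul h4

theorem VbT (hq : ParPos K q) {z : ℝ × ℝ} (hτ : 0 < tau z.1) {U : ℝ × ℝ → ℝ}
    (hU : Tendsto U (𝓝[Di T] z) (𝓝 (U z))) (hu : 0 < U z) :
    Tendsto (fun z' : ℝ × ℝ => q.Vb z'.1 (U z')) (𝓝[Di T] z) (𝓝 (q.Vb z.1 (U z))) := by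
  have h1 := (tendsto_const_nhds (x := q.BV)).div (tauT (T := T) (z := z)) hτ.ne'
  have h2 := ((cont_tanh.tendsto _).comp hU).div (T0T (q := q) (T := T) hτ) (T0_pos hq hτ).ne'
  have h3 := h2.rpow_const (p := aa) (Or.inl (div_pos (tanh_pos hu) (T0_pos hq hτ)).ne')
  have h4 := ((Real.continuous_cosh.tendsto _).comp hU).rpow_const (p := aa)
    (Or.inl (Real.cosh_pos _).ne')
  exact ((h1.mul h3).mul ((cont_tanh.tendsto _).comp hU)).mul h4

theorem powT {z : ℝ × ℝ} {U : ℝ × ℝ → ℝ} {p : ℝ}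
    (hU : Tendsto U (𝓝[Di T] z) (𝓝 (U z))) (hu : 0 < U z) :
    Tendsto (fun z' : ℝ × ℝ => (U z') ^ p) (𝓝[Di T] z) (𝓝 ((U z) ^ p)) :=
  hU.rpow_const (Or.inl hu.ne')

theorem RBT {z : ℝ × ℝ} (hτ : 0 < tau z.1) {U r : ℝ × ℝ → ℝ}
    (hU : Tendsto U (𝓝[Di T] z) (𝓝 (U z))) (hr : Tendsto r (𝓝[Di T] z) (𝓝 (r z))) :
    Tendsto (fun z' : ℝ × ℝ => q.RB z'.1 (r z') (U z')) (𝓝[Di T] z)
      (𝓝 (q.RB z.1 (r z) (U z))) := by
  have ht : Tendsto (fun z' : ℝ × ℝ => z'.1) (𝓝[Di T] z) (𝓝 z.1) :=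
    continuous_fst.continuousWithinAt
  have h1 : Tendsto (fun z' : ℝ × ℝ => q.eta * (1 + z'.1)) (𝓝[Di T] z)
    (𝓝 (q.eta * (1 + z.1))) := (ht.const_add 1).const_mul _
  have h2 : Tendsto (fun z' : ℝ × ℝ => tau z'.1 + (r z') ^ 2 / 100) (𝓝[Di T] z)
    (𝓝 (tau z.1 + (r z) ^ 2 / 100)) := tauT.add ((hr.pow 2).div_const _)
  have h3 := powT (p := -gam) (U := fun z' : ℝ × ℝ => tau z'.1 + (r z') ^ 2 / 100) h2
    (by positivity)
  have h4 : Tendsto (fun z' : ℝ × ℝ => q.GR * (r z') ^ 2 * (Real.cosh (U z') - 1) *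
      q.eps ^ (-(2 * aa))) (𝓝[Di T] z) (𝓝 (q.GR * (r z) ^ 2 * (Real.cosh (U z) - 1) *
      q.eps ^ (-(2 * aa)))) :=
    (((hr.pow 2).const_mul _).mul
      (((Real.continuous_cosh.tendsto _).comp hU).sub_const 1)).mul_const _
  exact h1.add (h4.mul h3)

theorem UBT {z : ℝ × ℝ} {r : ℝ × ℝ → ℝ}
    (hr : Tendsto r (𝓝[Di T] z) (𝓝 (r z))) (hr0 : 0 < r z) :
    Tendsto (fun z' : ℝ × ℝ => q.UB z'.1 (r z')) (𝓝[Di T] z) (𝓝 (q.UB z.1 (r z))) := by
  unfold Par.UB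
  exact (((powT hr hr0).sub (((tauT (T := T)).const_mul 300).mul (powT hr hr0)))).const_mul _

theorem PBT {z : ℝ × ℝ} {r : ℝ × ℝ → ℝ}
    (hr : Tendsto r (𝓝[Di T] z) (𝓝 (r z))) (hr0 : 0 < r z) :
    Tendsto (fun z' : ℝ × ℝ => q.PB z'.1 (r z')) (𝓝[Di T] z) (𝓝 (q.PB z.1 (r z))) := by
  unfold Par.PB
  exact (((powT hr hr0).sub (((tauT (T := T)).const_mul 300).mul (powT hr hr0)))).const_mul _

theorem VBT {z : ℝ × ℝ} {r : ℝ × ℝ → ℝ}
    (hr : Tendsto r (𝓝[Di T] z) (𝓝 (r z))) (hr0 : 0 < r z) :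
    Tendsto (fun z' : ℝ × ℝ => q.VB z'.1 (r z')) (𝓝[Di T] z) (𝓝 (q.VB z.1 (r z))) := by
  unfold Par.VB
  have ht : Tendsto (fun z' : ℝ × ℝ => q.CV * q.eps * Real.exp z'.1) (𝓝[Di T] z)
      (𝓝 (q.CV * q.eps * Real.exp z.1)) :=
    ((Real.continuous_exp.comp continuous_fst).continuousWithinAt.tendsto).const_mul _
  exact ht.mul (((powT hr hr0).sub (((tauT (T := T)).const_mul 300).mul (powT hr hr0))))

/-- strict bootstrap at a point implies the bootstrap near that point -/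
theorem boot_nhds (hg : IsBub g) (hq : ParPos K q) (hK : 101 ≤ K) (h : ConfSol 20 w f T)
    (Q : Qual w f T) (hT : T ≤ 1) {z : ℝ × ℝ} (ht : z.1 ∈ Ico 0 T) (hx : z.2 ∈ Ico (0 : ℝ) 1)
    (hS : BootAtS q g w f z.1 z.2) (hr : q.N / 4 < rr w f z.1 0) :
    ∀ᶠ z' in 𝓝[Di T] z, BootAt q g w f z'.1 z'.2 := by
  have hz : z ∈ Di T := ⟨ht, by linarith only [hx, hx.1], hx.2⟩
  have hτ : 0 < tau z.1 := tau_pos hT ht
  have hτ1 : tau z.1 ≤ 1 := by unfold tau; linarith only [ht, ht.1]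
  have hrpos : 0 < rr w f z.1 z.2 := Real.exp_pos _
  have hu : Tendsto (fun z' : ℝ × ℝ => uu w f z'.1 z'.2) (𝓝[Di T] z) (𝓝 (uu w f z.1 z.2)) :=
    cont_uu h z hz
  have hrr : Tendsto (fun z' : ℝ × ℝ => rr w f z'.1 z'.2) (𝓝[Di T] z) (𝓝 (rr w f z.1 z.2)) :=
    cont_rr h z hz
  have hy : Tendsto (fun z' : ℝ × ℝ => yv w f z'.1 z'.2) (𝓝[Di T] z) (𝓝 (yv w f z.1 z.2)) :=
    cont_yv h hT z hz
  have hP : Tendsto (fun z' : ℝ × ℝ => PP w f z'.1 z'.2) (𝓝[Di T] z) (𝓝 (PP w f z.1 z.2)) :=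
    cont_PP h z hz
  have hV : Tendsto (fun z' : ℝ × ℝ => VV w f z'.1 z'.2) (𝓝[Di T] z) (𝓝 (VV w f z.1 z.2)) :=
    cont_VV h z hz
  have hR : Tendsto (fun z' : ℝ × ℝ => RR w f z'.1 z'.2) (𝓝[Di T] z) (𝓝 (RR w f z.1 z.2)) :=
    cont_RR h z hz
  have hA : Tendsto (fun z' : ℝ × ℝ => q.A z'.1) (𝓝[Di T] z) (𝓝 (q.A z.1)) := AT hτ
  -- `y > 25` at the equator
  have hy0 : 25 < yv w f z.1 0 := by
    have h1 : 25 < rr w f z.1 0 := by linarith only [hq, hK, hr, hq.N]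
    have h2 : Real.sqrt (tau z.1) ≤ 1 := Real.sqrt_le_one.2 hτ1 |>.trans le_rfl
    have h3 : 0 < Real.sqrt (tau z.1) := Real.sqrt_pos.2 hτ
    unfold yv
    rw [lt_div_iff₀ h3]
    linarith only [h2, h1]
  have hrho : q.rho0 < 1 := lt_of_le_of_lt hq.rho0' (by
    rw [div_lt_one (by linarith only [hK])]; linarith only [hK])
  -- b1
  have e1 : ∀ᶠ z' in 𝓝[Di T] z, 0 < z'.2 → yv w f z'.1 z'.2 ≤ q.rho0 →
      0 < uu w f z'.1 z'.2 ∧ |ff g w f z'.1 z'.2| ≤ q.fb z'.1 (uu w f z'.1 z'.2) ∧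
        |VV w f z'.1 z'.2| ≤ q.Vb z'.1 (uu w f z'.1 z'.2) := by
    by_cases hc : q.rho0 < yv w f z.1 z.2
    · filter_upwards [hy.eventually_const_lt hc] with z' hz' _ h2
      linarith only [hz', h2]
    · push Not at hc
      have hx0 : 0 < z.2 := by
        rcases hx.1.lt_or_eq with h1 | h1
        · exact h1
        · rw [← h1] at hc; linarith only [hy0, hrho, hc]
      obtain ⟨u0, f0⟩ := hS.b1 hx0 hc
      have v0 := hS.b2 hx0 hc
      have hrs : rs w f z.1 z.2 ≠ 0 := (Q.rs_pos z.1 ht z.2 ⟨hx0, hx.2⟩).ne'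
      have hrsT : Tendsto (fun z' : ℝ × ℝ => rs w f z'.1 z'.2) (𝓝[Di T] z)
        (𝓝 (rs w f z.1 z.2)) := cont_rs h z hz
      have hG : Tendsto (fun z' : ℝ × ℝ => GG w f z'.1 z'.2) (𝓝[Di T] z)
        (𝓝 (GG w f z.1 z.2)) := (hP.div hrsT hrs).neg
      have hgc : Tendsto g (𝓝 (uu w f z.1 z.2)) (𝓝 (g (uu w f z.1 z.2))) :=
        (hg.ode _ u0).continuousAt
      have hgpos : 0 < g (uu w f z.1 z.2) := lt_trans
        (mul_pos two_pos (tanh_pos u0)) (hg.lower _ u0)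
      have hgT := hgc.comp hu
      have hee : Tendsto (fun z' : ℝ × ℝ => ff g w f z'.1 z'.2) (𝓝[Di T] z)
          (𝓝 (ff g w f z.1 z.2)) :=
        ((hG.div hgT hgpos.ne').const_sub 1).div (hrr.pow 2) (by positivity)
      have h1 := hu.eventually_const_lt u0
      have h2 := hee.abs.eventually_lt (fbT hq hτ hu u0) f0
      have h3 := hV.abs.eventually_lt (VbT hq hτ hu u0) v0
      filter_upwards [h1, h2, h3] with z' a1 a2 a3 _ _
      exact ⟨a1, a2.le, a3.le⟩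
  -- b3
  have e3 : ∀ᶠ z' in 𝓝[Di T] z, RR w f z'.1 z'.2 ≤
      q.RB z'.1 (rr w f z'.1 z'.2) (uu w f z'.1 z'.2) :=
    (hR.eventually_lt (RBT hτ hu hrr) hS.b3).mono fun _ h => h.le
  -- b4
  have e4 : ∀ᶠ z' in 𝓝[Di T] z, q.rho0 ≤ yv w f z'.1 z'.2 → yv w f z'.1 z'.2 ≤ 25 →
      |uu w f z'.1 z'.2| ≤ q.MU * q.A z'.1 ∧
      |PP w f z'.1 z'.2| ≤ q.MP * q.A z'.1 / Real.sqrt (tau z'.1) ∧
      |VV w f z'.1 z'.2| ≤ q.MV * q.A z'.1 / tau z'.1 := by
    by_cases hc : yv w f z.1 z.2 < q.rho0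
    · filter_upwards [hy.eventually_lt_const hc] with z' hz' h1
      linarith only [hz', h1]
    by_cases hc' : 25 < yv w f z.1 z.2
    · filter_upwards [hy.eventually_const_lt hc'] with z' hz' _ h1
      linarith only [hz', h1]
    push Not at hc hc'
    obtain ⟨u0, p0, v0⟩ := hS.b4 hc hc'
    have h1 := hu.abs.eventually_lt (hA.const_mul q.MU) u0
    have h2 := hP.abs.eventually_lt ((hA.const_mul q.MP).div sqT (Real.sqrt_pos.2 hτ).ne') p0
    have h3 := hV.abs.eventually_lt ((hA.const_mul q.MV).div tauT hτ.ne') v0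
    filter_upwards [h1, h2, h3] with z' a1 a2 a3 _ _
    exact ⟨a1.le, a2.le, a3.le⟩
  -- b5
  have e5 : ∀ᶠ z' in 𝓝[Di T] z, 25 ≤ yv w f z'.1 z'.2 →
      |uu w f z'.1 z'.2| ≤ q.UB z'.1 (rr w f z'.1 z'.2) ∧
      |PP w f z'.1 z'.2| ≤ q.PB z'.1 (rr w f z'.1 z'.2) ∧
      |VV w f z'.1 z'.2| ≤ q.VB z'.1 (rr w f z'.1 z'.2) := by
    by_cases hc : yv w f z.1 z.2 < 25
    · filter_upwards [hy.eventually_lt_const hc] with z' hz' h1
      linarith only [hz', h1]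
    push Not at hc
    obtain ⟨u0, p0, v0⟩ := hS.b5 hc
    have h1 := hu.abs.eventually_lt (UBT hrr hrpos) u0
    have h2 := hP.abs.eventually_lt (PBT hrr hrpos) p0
    have h3 := hV.abs.eventually_lt (VBT hrr hrpos) v0
    filter_upwards [h1, h2, h3] with z' a1 a2 a3 _
    exact ⟨a1.le, a2.le, a3.le⟩
  filter_upwards [e1, e3, e4, e5] with z' a1 a3 a4 a5
  exact ⟨fun b1 b2 => ⟨(a1 b1 b2).1, (a1 b1 b2).2.1⟩, fun b1 b2 => (a1 b1 b2).2.2, a3, a4, a5⟩

/-- openness in time -/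
theorem open_step (hg : IsBub g) (hq : ParPos K q) (hK : 101 ≤ K) (h : ConfSol 20 w f T)
    (Q : Qual w f T) (hT : T ≤ 1) {t : ℝ} (ht : t ∈ Ico 0 T)
    (hS : ∀ x ∈ Ico (0 : ℝ) 1, BootAtS q g w f t x) (hr : q.N / 4 < rr w f t 0)
    (tip : ∃ δ > 0, ∀ s ∈ Ico 0 T, |s - t| < δ → ∀ x ∈ Ioo (1 - δ) 1, BootAt q g w f s x) :
    ∀ᶠ s in 𝓝[Ico 0 T] t, (∀ x ∈ Ico (0 : ℝ) 1, BootAt q g w f s x) ∧
      q.N / 4 ≤ rr w f s 0 := by
  obtain ⟨δ, hδ, tip⟩ := tip
  have h1 : ∀ᶠ s in 𝓝 t, ∀ x ∈ Icc (0 : ℝ) (1 - δ), s ∈ Ico 0 T → BootAt q g w f s x := by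
    refine IsCompact.eventually_forall_of_forall_eventually isCompact_Icc fun x hx => ?_
    have hx1 : x ∈ Ico (0 : ℝ) 1 := ⟨hx.1, by linarith only [hδ, hx, hx.2]⟩
    have h2 := boot_nhds hg hq hK h Q hT (z := (t, x)) ht hx1 (hS x hx1) hr
    rw [eventually_nhdsWithin_iff] at h2
    have h3 : ∀ᶠ z' : ℝ × ℝ in 𝓝 (t, x), z'.2 ∈ Ioo (-1 : ℝ) 1 := by
      have : Tendsto (fun z' : ℝ × ℝ => z'.2) (𝓝 (t, x)) (𝓝 x) := continuous_snd.tendsto _
      exact this.eventually (Ioo_mem_nhds (by linarith only [hx1, hx1.1]) hx1.2)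
    filter_upwards [h2, h3] with z' a1 a2 a3
    exact a1 ⟨a3, a2⟩
  have h4 : ∀ᶠ s in 𝓝 t, |s - t| < δ := by
    have : Tendsto (fun s : ℝ => |s - t|) (𝓝 t) (𝓝 |t - t|) :=
      (by fun_prop : Continuous fun s : ℝ => |s - t|).tendsto _
    simp only [sub_self, abs_zero] at this
    exact this.eventually_lt_const hδ
  have h5 : ∀ᶠ s in 𝓝[Ico 0 T] t, q.N / 4 < rr w f s 0 := by
    have hc : ContinuousOn (fun s : ℝ => rr w f s 0) (Ico 0 T) :=
      (cont_rr h).comp (f := fun s : ℝ => ((s, 0) : ℝ × ℝ)) (by fun_prop)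
        fun s hs => ⟨hs, by norm_num⟩
    exact (hc t ht).tendsto.eventually_const_lt hr
  filter_upwards [eventually_nhdsWithin_of_eventually_nhds h1,
    eventually_nhdsWithin_of_eventually_nhds h4, h5, self_mem_nhdsWithin] with s a1 a2 a3 a4
  refine ⟨fun x hx => ?_, a3.le⟩
  by_cases hc : x ≤ 1 - δ
  · exact a1 x ⟨hx.1, hc⟩ a4
  · push Not at hc
    exact tip s a4 a2 x ⟨hc, hx.2⟩

end OpA

end Vale.Agent.P244.ST
end

section

/-!
# P244-ST, block A: the family of solutions (helper57)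
-/

open Set Filter
open scoped ContDiff Topology

namespace Vale.Agent.P244.ST

/-! ### dependence on the time slice only -/

section slice

variable (g : ℝ → ℝ) (w f : Fn) (t x : ℝ)

end slice

theorem BootAtS.of_slice {q : Par} {g : ℝ → ℝ} {w f : Fn} {x : ℝ}
    (h : BootAtS q g (fun _ => w 0) (fun _ => f 0) 0 x) : BootAtS q g w f 0 x :=
  ⟨h.b1, h.b2, h.b3, h.b4, h.b5⟩

/-- `InitOK` only depends on the time slice `t = 0`. -/
theorem InitOK.of_slice {q : Par} {g : ℝ → ℝ} {b : Fin 3 → ℝ} {w f : Fn}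
    (h : InitOK q g b (fun _ => w 0) (fun _ => f 0)) : InitOK q g b w f where
  R_nonneg := h.R_nonneg
  rs_lower := h.rs_lower
  G_lt := h.G_lt
  boot := fun x hx => (h.boot x hx).of_slice
  equator := h.equator
  equator_le := h.equator_le
  close_u := h.close_u
  close_P := h.close_P
  bound_V := h.bound_V
  mode_main := h.mode_main
  mode_low := h.mode_low
  en := h.en

/-! ### modification outside `[-1,1]` -/

theorem dx_congr {h h' : ℝ → ℝ} (hh : ∀ y ∈ Icc (-1 : ℝ) 1, h y = h' y) {x : ℝ}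
    (hx : x ∈ Icc (-1 : ℝ) 1) : dx h x = dx h' x :=
  derivWithin_congr hh (hh x hx)

theorem lap_congr {p : ℕ} {h h' : ℝ → ℝ} (hh : ∀ y ∈ Icc (-1 : ℝ) 1, h y = h' y) {x : ℝ}
    (hx : x ∈ Icc (-1 : ℝ) 1) : lap p h x = lap p h' x := by
  unfold lap
  rw [dx_congr (fun y hy => dx_congr hh hy) hx, dx_congr hh hx]

theorem Jf_congr {p : ℕ} {w w' f f' : ℝ → ℝ} (hw : ∀ y ∈ Icc (-1 : ℝ) 1, w y = w' y)
    (hf : ∀ y ∈ Icc (-1 : ℝ) 1, f y = f' y) {x : ℝ} (hx : x ∈ Icc (-1 : ℝ) 1) :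
    Jf p w f x = Jf p w' f' x := by
  unfold Jf
  apply intervalIntegral.integral_congr
  intro y hy
  have hy' : y ∈ Icc (-1 : ℝ) 1 := by
    have h0 : (0 : ℝ) ∈ Icc (-1 : ℝ) 1 := ⟨by norm_num, by norm_num⟩
    exact (uIcc_subset_Icc h0 hx) hy
  simp only [Jd]
  rw [hw y hy', dx_congr hw hy', dx_congr hf hy']

theorem rhsW_congr {p : ℕ} {w w' f f' : ℝ → ℝ} (hw : ∀ y ∈ Icc (-1 : ℝ) 1, w y = w' y)
    (hf : ∀ y ∈ Icc (-1 : ℝ) 1, f y = f' y) {x : ℝ} (hx : x ∈ Icc (-1 : ℝ) 1) :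
    rhsW p w f x = rhsW p w' f' x := by
  unfold rhsW
  rw [hw x hx, lap_congr hw hx, dx_congr hw hx, Jf_congr hw hf hx]

theorem rhsF_congr {p : ℕ} {w w' f f' : ℝ → ℝ} (hw : ∀ y ∈ Icc (-1 : ℝ) 1, w y = w' y)
    (hf : ∀ y ∈ Icc (-1 : ℝ) 1, f y = f' y) {x : ℝ} (hx : x ∈ Icc (-1 : ℝ) 1) :
    rhsF p w f x = rhsF p w' f' x := by
  unfold rhsF
  rw [hw x hx, hf x hx, lap_congr hf hx, dx_congr hf hx, Jf_congr hw hf hx]

theorem size1_congr {w w' f f' : ℝ → ℝ} (hw : ∀ y ∈ Icc (-1 : ℝ) 1, w y = w' y)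
    (hf : ∀ y ∈ Icc (-1 : ℝ) 1, f y = f' y) {x : ℝ} (hx : x ∈ Icc (-1 : ℝ) 1) :
    size1 w f x = size1 w' f' x := by
  unfold size1
  rw [hw x hx, hf x hx, dx_congr hw hx, dx_congr hf hx]

theorem ConfSol.congr {p : ℕ} {w f w' f' : ℝ → ℝ → ℝ} {T : ℝ} (h : ConfSol p w f T)
    (hw : ∀ t, ∀ y ∈ Icc (-1 : ℝ) 1, w' t y = w t y)
    (hf : ∀ t, ∀ y ∈ Icc (-1 : ℝ) 1, f' t y = f t y) : ConfSol p w' f' T where
  smooth_w := h.smooth_w.congr fun z hz => hw z.1 z.2 hz.2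
  smooth_f := h.smooth_f.congr fun z hz => hf z.1 z.2 hz.2
  even_w := fun t ht x hx => by
    rw [hw t x hx, hw t (-x) ⟨by linarith only [hx, hx.2], by linarith only [hx, hx.1]⟩, h.even_w t ht x hx]
  even_f := fun t ht x hx => by
    rw [hf t x hx, hf t (-x) ⟨by linarith only [hx, hx.2], by linarith only [hx, hx.1]⟩, h.even_f t ht x hx]
  eq_w := fun t ht x hx => by
    rw [rhsW_congr (hw t) (hf t) hx, show (fun s => w' s x) = fun s => w s x from
      funext fun s => hw s x hx]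
    exact h.eq_w t ht x hx
  eq_f := fun t ht x hx => by
    rw [rhsF_congr (hw t) (hf t) hx, show (fun s => f' s x) = fun s => f s x from
      funext fun s => hf s x hx]
    exact h.eq_f t ht x hx

/-- What L1 gives for the data of block B. -/
structure SolFam (q : Par) (g : ℝ → ℝ) (w₀ f₀ : (Fin 3 → ℝ) → ℝ → ℝ)
    (Tm : (Fin 3 → ℝ) → ℝ) (w f : (Fin 3 → ℝ) → ℝ → ℝ → ℝ) (b : Fin 3 → ℝ) : Prop where
  data : ConfData (w₀ b) (f₀ b)
  time : Tm b ∈ Ioc (0 : ℝ) 1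
  sol : ConfSol 20 (w b) (f b) (Tm b)
  start : ∀ x ∈ Icc (-1 : ℝ) 1, w b 0 x = w₀ b x ∧ f b 0 x = f₀ b x
  life : Tm b = 1 ∨ ∀ A : ℝ, ∃ t ∈ Ico 0 (Tm b), ∃ x ∈ Icc (-1 : ℝ) 1,
    A < size1 (w b t) (f b t) x
  init : InitOK q g b (w b) (f b)

theorem exists_solFam (hL1 : L1Statement) {q : Par} {g : ℝ → ℝ}
    {w₀ f₀ : (Fin 3 → ℝ) → ℝ → ℝ}
    (h : ∀ b ∈ Bx, ConfData (w₀ b) (f₀ b) ∧ InitOK q g b (fun _ => w₀ b) (fun _ => f₀ b)) :
    ∃ (Tm : (Fin 3 → ℝ) → ℝ) (w f : (Fin 3 → ℝ) → ℝ → ℝ → ℝ),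
      ∀ b ∈ Bx, SolFam q g w₀ f₀ Tm w f b := by
  classical
  have key : ∀ b ∈ Bx, ∃ (T : ℝ) (w f : ℝ → ℝ → ℝ), T ∈ Ioc (0 : ℝ) 1 ∧ ConfSol 20 w f T ∧
      (∀ x ∈ Icc (-1 : ℝ) 1, w 0 x = w₀ b x ∧ f 0 x = f₀ b x) ∧
      (T = 1 ∨ ∀ A : ℝ, ∃ t ∈ Ico 0 T, ∃ x ∈ Icc (-1 : ℝ) 1, A < size1 (w t) (f t) x) ∧
      InitOK q g b w f := by
    intro b hb
    obtain ⟨T, hT, w, f, hsol, hst, hlife⟩ := hL1 20 (by norm_num) (w₀ b) (f₀ b) (h b hb).1
    set w' : ℝ → ℝ → ℝ := fun t x => if x ∈ Icc (-1 : ℝ) 1 then w t x else w₀ b x with hw'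
    set f' : ℝ → ℝ → ℝ := fun t x => if x ∈ Icc (-1 : ℝ) 1 then f t x else f₀ b x with hf'
    have ew : ∀ t, ∀ y ∈ Icc (-1 : ℝ) 1, w' t y = w t y := fun t y hy => by
      simp only [hw', if_pos hy]
    have ef : ∀ t, ∀ y ∈ Icc (-1 : ℝ) 1, f' t y = f t y := fun t y hy => by
      simp only [hf', if_pos hy]
    have ew0 : w' 0 = w₀ b := by
      funext x
      by_cases hx : x ∈ Icc (-1 : ℝ) 1
      · rw [ew 0 x hx, (hst x hx).1]
      · simp only [hw', if_neg hx]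
    have ef0 : f' 0 = f₀ b := by
      funext x
      by_cases hx : x ∈ Icc (-1 : ℝ) 1
      · rw [ef 0 x hx, (hst x hx).2]
      · simp only [hf', if_neg hx]
    refine ⟨T, w', f', hT, hsol.congr ew ef, ?_, ?_, ?_⟩
    · intro x _
      rw [ew0, ef0]
      exact ⟨rfl, rfl⟩
    · rcases hlife with hl | hl
      · exact Or.inl hl
      · refine Or.inr fun A => ?_
        obtain ⟨t, ht, x, hx, hA⟩ := hl A
        refine ⟨t, ht, x, hx, ?_⟩
        rw [size1_congr (ew t) (ef t) hx]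
        exact hA
    · apply InitOK.of_slice
      rw [ew0, ef0]
      exact (h b hb).2
  choose! Tm w f h1 using key
  refine ⟨Tm, w, f, fun b hb => ?_⟩
  obtain ⟨a1, a2, a3, a4, a5⟩ := h1 b hb
  exact ⟨(h b hb).1, a1, a2, a3, a4, a5⟩

/-- the life time is lower semicontinuous in the parameter -/
theorem solFam_open (hL3 : L3Statement) {q : Par} {g : ℝ → ℝ}
    {w₀ f₀ : (Fin 3 → ℝ) → ℝ → ℝ}
    (hw₀ : ContDiffOn ℝ ∞ (fun z : (Fin 3 → ℝ) × ℝ => w₀ z.1 z.2) (univ ×ˢ Icc (-1) 1))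
    (hf₀ : ContDiffOn ℝ ∞ (fun z : (Fin 3 → ℝ) × ℝ => f₀ z.1 z.2) (univ ×ˢ Icc (-1) 1))
    {Tm : (Fin 3 → ℝ) → ℝ} {w f : (Fin 3 → ℝ) → ℝ → ℝ → ℝ}
    (h : ∀ b ∈ Bx, SolFam q g w₀ f₀ Tm w f b) {b : Fin 3 → ℝ} (hb : b ∈ Bx) {t : ℝ}
    (ht : 0 ≤ t) (htT : t < Tm b) : ∀ᶠ b' in 𝓝[Bx] b, t < Tm b' := by
  have h1 := hL3 20 (by norm_num) Bx isCompact_Icc w₀ f₀ hw₀ hf₀ Tm w f
    (fun b hb => ⟨(h b hb).data, (h b hb).time, (h b hb).sol, (h b hb).start, (h b hb).life⟩)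
    b hb t ⟨ht, htT⟩ 1 one_pos
  filter_upwards [h1] with b' hb'
  exact hb'.1

end Vale.Agent.P244.ST
end

section

/-! P244, assembly A, A5: continuity of the modes `gami`, `enU` in the parameters and in time
(helper460). -/

open Set Filter MeasureTheory
open scoped ContDiff Topology Uniformity

namespace Vale.Agent.P244.ST

namespace Gam

open JA

/-- parametric integrals over `[0,1]` -/
theorem contOn_int {Y : Type*} [TopologicalSpace Y] {S : Set Y} {K : Y → ℝ → ℝ}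
    (hK : ContinuousOn (fun p : Y × ℝ => K p.1 p.2) (S ×ˢ Icc (0 : ℝ) 1)) :
    ContinuousOn (fun z => ∫ x in (0 : ℝ)..1, K z x) S := by
  have hslice : ∀ z ∈ S, ContinuousOn (K z) (Icc 0 1) := fun z hz =>
    hK.comp (f := fun x : ℝ => ((z, x) : Y × ℝ)) (by fun_prop) fun x hx => ⟨hz, hx⟩
  have hii : ∀ z ∈ S, IntervalIntegrable (K z) volume 0 1 := fun z hz =>
    ContinuousOn.intervalIntegrable (by rw [uIcc_of_le zero_le_one]; exact hslice z hz)
  intro q hq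
  rw [ContinuousWithinAt, Metric.tendsto_nhds]
  intro ε hε
  obtain ⟨v, hv, hvK⟩ := IsCompact.mem_uniformity_of_prod (isCompact_Icc (a := (0 : ℝ)) (b := 1))
    (f := K) hK hq (Metric.dist_mem_uniformity (half_pos hε))
  filter_upwards [hv, self_mem_nhdsWithin] with z hz hzS
  rw [dist_eq_norm, ← intervalIntegral.integral_sub (hii z hzS) (hii q hq)]
  have h1 := intervalIntegral.norm_integral_le_of_norm_le_const (a := (0 : ℝ)) (b := 1)
    (f := fun x => K z x - K q x) (C := ε / 2) (by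
      intro x hx
      rw [uIoc_of_le zero_le_one] at hx
      have h2 := hvK z hz x ⟨hx.1.le, hx.2⟩
      rw [← dist_eq_norm]
      exact le_of_lt h2)
  rw [sub_zero, abs_one, mul_one] at h1
  linarith only [hε, h1]

variable {Ω : Type*} [TopologicalSpace Ω]

/-- a continuous family of pairs of functions -/
structure Fml (S : Set (Ω × ℝ)) (W F : Ω → Fn) : Prop where
  lt : ∀ z ∈ S, z.2 < 1
  cW : ContinuousOn (fun p : (Ω × ℝ) × ℝ => W p.1.1 p.1.2 p.2) (S ×ˢ Icc (-1) 1)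
  cF : ContinuousOn (fun p : (Ω × ℝ) × ℝ => F p.1.1 p.1.2 p.2) (S ×ˢ Icc (-1) 1)
  cWx : ContinuousOn (fun p : (Ω × ℝ) × ℝ => dx (W p.1.1 p.1.2) p.2) (S ×ˢ Icc (-1) 1)
  cFx : ContinuousOn (fun p : (Ω × ℝ) × ℝ => dx (F p.1.1 p.1.2) p.2) (S ×ˢ Icc (-1) 1)
  dW : ∀ z ∈ S, ContDiffOn ℝ ∞ (W z.1 z.2) (Icc (-1) 1)
  dF : ∀ z ∈ S, ContDiffOn ℝ ∞ (F z.1 z.2) (Icc (-1) 1)

/-- the regular part of `y`, continuous up to `x = 1` -/
noncomputable def By (W F : Ω → Fn) (p : (Ω × ℝ) × ℝ) : ℝ :=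
  Real.exp ((F p.1.1 p.1.2 p.2 + W p.1.1 p.1.2 p.2 - Real.log zeta0) / 2) *
    (1 - p.2 ^ 2) ^ (1 / 4 : ℝ) / Real.sqrt (tau p.1.2)

theorem yv_eq (W F : Ω → Fn) {p : (Ω × ℝ) × ℝ} (hx : p.2 ∈ Ico (0 : ℝ) 1) :
    yv (W p.1.1) (F p.1.1) p.1.2 p.2 = By W F p := by
  have hS : 0 < 1 - p.2 ^ 2 := by nlinarith only [hx, hx.1, hx.2]
  unfold yv rr rho By
  congr 1
  rw [Real.rpow_def_of_pos hS, ← Real.exp_add]
  congr 1
  ring

section

variable {S : Set (Ω × ℝ)} {W F : Ω → Fn} (E : Fml S W F)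
include E

theorem tau_pos {z : Ω × ℝ} (hz : z ∈ S) : 0 < tau z.2 := by
  unfold tau
  linarith only [E, hz, E.lt z hz]

theorem sub01 : S ×ˢ Icc (0 : ℝ) 1 ⊆ S ×ˢ Icc (-1 : ℝ) 1 :=
  Set.prod_mono le_rfl (Icc_subset_Icc_left (by norm_num))

theorem sub01' : S ×ˢ Ico (0 : ℝ) 1 ⊆ S ×ˢ Icc (-1 : ℝ) 1 :=
  (Set.prod_mono le_rfl Ico_subset_Icc_self).trans (sub01 E)

theorem cont_tau : Continuous fun p : (Ω × ℝ) × ℝ => tau p.1.2 := by
  unfold tau
  fun_prop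

theorem cont_By : ContinuousOn (By W F) (S ×ˢ Icc (0 : ℝ) 1) := by
  unfold By
  have h1 := E.cW.mono (sub01 E)
  have h2 := E.cF.mono (sub01 E)
  apply ContinuousOn.div
  · apply ContinuousOn.mul
    · exact Real.continuous_exp.comp_continuousOn (((h2.add h1).sub continuousOn_const).div_const 2)
    · exact ContinuousOn.rpow_const (by fun_prop) fun p _ => Or.inr (by norm_num)
  · exact (Real.continuous_sqrt.comp (cont_tau E)).continuousOn
  · intro p hp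
    exact (Real.sqrt_pos.2 (tau_pos E hp.1)).ne'

theorem By_pos {p : (Ω × ℝ) × ℝ} (hp : p ∈ S ×ˢ Ico (0 : ℝ) 1) : 0 < By W F p := by
  have hS : 0 < 1 - p.2 ^ 2 := by nlinarith only [hp, hp.2.1, hp.2.2]
  unfold By
  have := Real.sqrt_pos.2 (tau_pos E hp.1)
  have := Real.rpow_pos_of_pos hS (1 / 4)
  positivity

theorem cont_uu : ContinuousOn (fun p : (Ω × ℝ) × ℝ => uu (W p.1.1) (F p.1.1) p.1.2 p.2)
    (S ×ˢ Ico (0 : ℝ) 1) := by
  unfold uu
  have h1 := E.cW.mono (sub01' E)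
  have h2 := E.cF.mono (sub01' E)
  have h3 : ContinuousOn (fun p : (Ω × ℝ) × ℝ => Real.log (1 - p.2 ^ 2)) (S ×ˢ Ico (0 : ℝ) 1) := by
    apply ContinuousOn.log (by fun_prop)
    intro p hp
    nlinarith only [hp, hp.2.1, hp.2.2]
  exact (h2.sub h1).sub (h3.div_const 2)

theorem deriv_yv {p : (Ω × ℝ) × ℝ} (hp : p ∈ S ×ˢ Ico (0 : ℝ) 1) :
    deriv (yv (W p.1.1) (F p.1.1) p.1.2) p.2 = By W F p *
      ((dx (F p.1.1 p.1.2) p.2 + dx (W p.1.1 p.1.2) p.2 - p.2 / (1 - p.2 ^ 2)) / 2) := by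
  have hx : p.2 ∈ Ioo (-1 : ℝ) 1 := ⟨by linarith only [hp, hp.2.1], hp.2.2⟩
  have h1 := hasDerivAt_rho (E.dW _ hp.1) (E.dF _ hp.1) hx
  have h2 : HasDerivAt (yv (W p.1.1) (F p.1.1) p.1.2)
      (Real.exp (rho (W p.1.1) (F p.1.1) p.1.2 p.2) *
        ((dx (F p.1.1 p.1.2) p.2 + dx (W p.1.1 p.1.2) p.2 - p.2 / (1 - p.2 ^ 2)) / 2) /
        Real.sqrt (tau p.1.2)) p.2 := (h1.exp).div_const _
  rw [h2.deriv, ← yv_eq W F hp.2]
  unfold yv rr
  ring

theorem cont_deriv : ContinuousOn (fun p : (Ω × ℝ) × ℝ =>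
    deriv (yv (W p.1.1) (F p.1.1) p.1.2) p.2) (S ×ˢ Ico (0 : ℝ) 1) := by
  have h1 := E.cWx.mono (sub01' E)
  have h2 := E.cFx.mono (sub01' E)
  have h3 : ContinuousOn (By W F) (S ×ˢ Ico (0 : ℝ) 1) :=
    (cont_By E).mono (Set.prod_mono le_rfl Ico_subset_Icc_self)
  have h4 : ContinuousOn (fun p : (Ω × ℝ) × ℝ => p.2 / (1 - p.2 ^ 2)) (S ×ˢ Ico (0 : ℝ) 1) := by
    apply ContinuousOn.div (by fun_prop) (by fun_prop)
    intro p hp
    nlinarith only [hp, hp.2.1, hp.2.2]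
  refine (h3.mul (((h2.add h1).sub h4).div_const 2)).congr fun p hp => deriv_yv E hp

theorem cont_stp : Continuous stp := by
  unfold stp
  exact Real.smoothTransition.continuous.comp (by fun_prop)

theorem cont_chi {q : Par} (hd : 0 < q.d0) : ContinuousOn (fun p : (Ω × ℝ) × ℝ =>
    chi q p.1.2 (By W F p)) (S ×ˢ Icc (0 : ℝ) 1) := by
  unfold chi
  have h1 := cont_By E
  have h2 : ContinuousOn (fun p : (Ω × ℝ) × ℝ => q.d0 * tau p.1.2 ^ ((1 : ℝ) / 10))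
      (S ×ˢ Icc (0 : ℝ) 1) :=
    continuousOn_const.mul (ContinuousOn.rpow_const (cont_tau E).continuousOn
      fun p _ => Or.inr (by norm_num))
  have h3 : ContinuousOn (fun p : (Ω × ℝ) × ℝ => Real.sqrt (tau p.1.2) * By W F p / Real.sqrt q.N)
      (S ×ˢ Icc (0 : ℝ) 1) :=
    ((Real.continuous_sqrt.comp (cont_tau E)).continuousOn.mul h1).div_const _
  refine ((cont_stp E).comp_continuousOn (h1.div h2 fun p hp => ?_)).mul
    (continuousOn_const.sub ((cont_stp E).comp_continuousOn h3))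
  have := Real.rpow_pos_of_pos (tau_pos E hp.1) ((1 : ℝ) / 10)
  positivity

/-- near `x = 1` the cut-off vanishes -/
theorem chi_zero {q : Par} (hd : 0 < q.d0) {z : Ω × ℝ} (hz : z ∈ S) :
    ∀ᶠ p in 𝓝[S ×ˢ Icc (0 : ℝ) 1] (z, (1 : ℝ)), chi q p.1.2 (By W F p) = 0 := by
  have hmem : (z, (1 : ℝ)) ∈ S ×ˢ Icc (0 : ℝ) 1 := ⟨hz, zero_le_one, le_rfl⟩
  have h1 := cont_By E (z, (1 : ℝ)) hmem
  have h2 : ContinuousWithinAt (fun p : (Ω × ℝ) × ℝ => q.d0 * tau p.1.2 ^ ((1 : ℝ) / 10))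
      (S ×ˢ Icc (0 : ℝ) 1) (z, (1 : ℝ)) :=
    (continuousOn_const.mul (ContinuousOn.rpow_const (cont_tau E).continuousOn
      fun p _ => Or.inr (by norm_num))) _ hmem
  have h0 : By W F (z, (1 : ℝ)) = 0 := by
    unfold By
    simp
  have hpos : 0 < q.d0 * tau z.2 ^ ((1 : ℝ) / 10) := by
    have := Real.rpow_pos_of_pos (tau_pos E hz) ((1 : ℝ) / 10)
    positivity
  have h3 : ∀ᶠ p in 𝓝[S ×ˢ Icc (0 : ℝ) 1] (z, (1 : ℝ)),
      By W F p < q.d0 * tau p.1.2 ^ ((1 : ℝ) / 10) := by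
    apply h1.eventually_lt h2
    rw [h0]
    exact hpos
  filter_upwards [h3, self_mem_nhdsWithin] with p hp hpS
  have hpos' : 0 < q.d0 * tau p.1.2 ^ ((1 : ℝ) / 10) := by
    have := Real.rpow_pos_of_pos (tau_pos E hpS.1) ((1 : ℝ) / 10)
    positivity
  unfold chi
  have : stp (By W F p / (q.d0 * tau p.1.2 ^ ((1 : ℝ) / 10))) = 0 := by
    unfold stp
    apply Real.smoothTransition.zero_of_nonpos
    rw [sub_nonpos, div_le_one hpos']
    exact hp.le
  rw [this, zero_mul]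

/-- continuity of the integrals -/
theorem cont_main {q : Par} (hd : 0 < q.d0) {Φ : (Ω × ℝ) × ℝ → ℝ}
    (hΦ : ContinuousOn Φ (S ×ˢ Ico (0 : ℝ) 1)) :
    ContinuousOn (fun z : Ω × ℝ => ∫ x in (0 : ℝ)..1, chi q z.2 (yv (W z.1) (F z.1) z.2 x) *
      Φ (z, x) * (-(deriv (yv (W z.1) (F z.1) z.2) x))) S := by
  classical
  set K : Ω × ℝ → ℝ → ℝ := fun z x => if x < 1 then
    chi q z.2 (By W F (z, x)) * (Φ (z, x) * (-(deriv (yv (W z.1) (F z.1) z.2) x))) else 0 with hK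
  have h1 : ContinuousOn (fun p : (Ω × ℝ) × ℝ => K p.1 p.2) (S ×ˢ Icc (0 : ℝ) 1) := by
    rintro ⟨z, x⟩ ⟨hz, hx⟩
    rcases hx.2.lt_or_eq with hx1 | hx1
    · have hmem : (z, x) ∈ S ×ˢ Ico (0 : ℝ) 1 := ⟨hz, hx.1, hx1⟩
      have hc : ContinuousWithinAt (fun p : (Ω × ℝ) × ℝ => chi q p.1.2 (By W F p) *
          (Φ p * (-(deriv (yv (W p.1.1) (F p.1.1) p.1.2) p.2)))) (S ×ˢ Ico (0 : ℝ) 1) (z, x) :=
        (((cont_chi E hd).mono (Set.prod_mono le_rfl Ico_subset_Icc_self)) _ hmem).mul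
          ((hΦ _ hmem).mul ((cont_deriv E) _ hmem).neg)
      have hnhd : S ×ˢ Ico (0 : ℝ) 1 ∈ 𝓝[S ×ˢ Icc (0 : ℝ) 1] (z, x) := by
        have : {p : (Ω × ℝ) × ℝ | p.2 < 1} ∈ 𝓝 (z, x) :=
          (isOpen_lt continuous_snd continuous_const).mem_nhds hx1
        filter_upwards [mem_nhdsWithin_of_mem_nhds this, self_mem_nhdsWithin] with p hp hpS
        exact ⟨hpS.1, hpS.2.1, hp⟩
      have hc' := hc.mono_of_mem_nhdsWithin hnhd
      refine hc'.congr_of_eventuallyEq ?_ ?_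
      · filter_upwards [hnhd] with p hp
        simp only [hK]
        rw [if_pos hp.2.2]
      · simp only [hK]
        rw [if_pos hx1]
    · subst hx1
      have h2 := chi_zero E hd hz
      have h3 : (fun p : (Ω × ℝ) × ℝ => K p.1 p.2) =ᶠ[𝓝[S ×ˢ Icc (0 : ℝ) 1] (z, (1 : ℝ))]
          fun _ => 0 := by
        filter_upwards [h2] with p hp
        simp only [hK]
        split_ifs
        · have : chi q p.1.2 (By W F (p.1, p.2)) = 0 := hp
          rw [this, zero_mul]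
        · rfl
      refine continuousWithinAt_const.congr_of_eventuallyEq h3 ?_
      simp only [hK]
      rw [if_neg (lt_irrefl _)]
  refine (contOn_int h1).congr fun z hz => ?_
  apply intervalIntegral.integral_congr_ae
  have h4 : ∀ᵐ x : ℝ, x ≠ 1 := by
    have := Set.finite_singleton (1 : ℝ) |>.measure_zero (volume : Measure ℝ)
    exact measure_eq_zero_iff_ae_notMem.1 this
  filter_upwards [h4] with x hx1 hx
  rw [uIoc_of_le zero_le_one] at hx
  have hlt : x < 1 := lt_of_le_of_ne hx.2 hx1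
  simp only [hK]
  rw [if_pos hlt, ← yv_eq W F (p := (z, x)) ⟨hx.1.le, hlt⟩]
  ring

theorem cont_ph (i : ℕ) : ContinuousOn (fun p : (Ω × ℝ) × ℝ =>
    ph i (yv (W p.1.1) (F p.1.1) p.1.2 p.2)) (S ×ˢ Ico (0 : ℝ) 1) := by
  have h3 : ContinuousOn (By W F) (S ×ˢ Ico (0 : ℝ) 1) :=
    (cont_By E).mono (Set.prod_mono le_rfl Ico_subset_Icc_self)
  have h4 : ContinuousOn (fun p => ph i (By W F p)) (S ×ˢ Ico (0 : ℝ) 1) := by
    unfold ph ll
    apply ContinuousOn.mul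
    · exact h3.rpow_const fun p hp => Or.inl (By_pos E hp).ne'
    · apply continuousOn_finsetSum
      intro j _
      exact continuousOn_const.mul (((h3.pow 2).div_const 4).pow j)
  exact h4.congr fun p hp => by rw [yv_eq W F hp.2]

theorem cont_Wt : ContinuousOn (fun p : (Ω × ℝ) × ℝ =>
    Wt (yv (W p.1.1) (F p.1.1) p.1.2 p.2)) (S ×ˢ Ico (0 : ℝ) 1) := by
  have h3 : ContinuousOn (By W F) (S ×ˢ Ico (0 : ℝ) 1) :=
    (cont_By E).mono (Set.prod_mono le_rfl Ico_subset_Icc_self)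
  have h4 : Continuous Wt := by
    unfold Wt
    fun_prop
  exact (h4.comp_continuousOn h3).congr fun p hp => by
    simp only [Function.comp]
    rw [yv_eq W F hp.2]

theorem cont_A {q : Par} : ContinuousOn (fun z : Ω × ℝ => q.A z.2) S := by
  unfold Par.A tau
  apply ContinuousOn.mul continuousOn_const
  apply ContinuousOn.rpow_const (by fun_prop)
  intro z hz
  left
  have := E.lt z hz
  linarith only [this]

theorem A_ne {q : Par} (he : 0 < q.eps) {z : Ω × ℝ} (hz : z ∈ S) : q.A z.2 ≠ 0 := by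
  unfold Par.A
  have := Real.rpow_pos_of_pos (tau_pos E hz) (lam 3)
  positivity

/-- continuity of the modes -/
theorem cont_gami {q : Par} (hd : 0 < q.d0) (he : 0 < q.eps) (i : ℕ) :
    ContinuousOn (fun z : Ω × ℝ => gami q (W z.1) (F z.1) i z.2) S := by
  have h1 := cont_main E hd (Φ := fun p => uu (W p.1.1) (F p.1.1) p.1.2 p.2 *
    ph i (yv (W p.1.1) (F p.1.1) p.1.2 p.2) * Wt (yv (W p.1.1) (F p.1.1) p.1.2 p.2))
    (((cont_uu E).mul (cont_ph E i)).mul (cont_Wt E))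
  refine ((h1.div (cont_A E) fun z hz => A_ne E he hz).div_const (nph i)).congr fun z _ => ?_
  unfold gami
  rw [div_mul_eq_div_div]
  congr 3
  funext x
  ring

theorem cont_nrmU {q : Par} (hd : 0 < q.d0) (he : 0 < q.eps) :
    ContinuousOn (fun z : Ω × ℝ => nrmU q (W z.1) (F z.1) z.2) S := by
  have hchi : ContinuousOn (fun p : (Ω × ℝ) × ℝ => chi q p.1.2
      (yv (W p.1.1) (F p.1.1) p.1.2 p.2)) (S ×ˢ Ico (0 : ℝ) 1) :=
    ((cont_chi E hd).mono (Set.prod_mono le_rfl Ico_subset_Icc_self)).congr fun p hp => by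
      rw [yv_eq W F hp.2]
  have h1 := cont_main E hd (Φ := fun p => chi q p.1.2 (yv (W p.1.1) (F p.1.1) p.1.2 p.2) *
    uu (W p.1.1) (F p.1.1) p.1.2 p.2 ^ 2 * Wt (yv (W p.1.1) (F p.1.1) p.1.2 p.2))
    ((hchi.mul ((cont_uu E).pow 2)).mul (cont_Wt E))
  refine (h1.div ((cont_A E).pow 2) fun z hz => pow_ne_zero 2 (A_ne E he hz)).congr
    fun z _ => ?_
  unfold nrmU
  congr 2
  funext x
  ring

theorem cont_enU {q : Par} (hd : 0 < q.d0) (he : 0 < q.eps) :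
    ContinuousOn (fun z : Ω × ℝ => enU q (W z.1) (F z.1) z.2) S := by
  unfold enU
  apply (cont_nrmU E hd he).sub
  apply continuousOn_finsetSum
  intro i _
  exact ((cont_gami E hd he i).pow 2).mul continuousOn_const

end

/-! ### one solution -/

/-- one solution is a continuous family over `Unit` -/
theorem fml_sol {w f : Fn} {T : ℝ} (hT : T ≤ 1) (h : ConfSol 20 w f T) :
    Fml (Ω := Unit) (univ ×ˢ Ico 0 T) (fun _ => w) (fun _ => f) where
  lt := fun z hz => lt_of_lt_of_le hz.2.2 hT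
  cW := h.smooth_w.continuousOn.comp (f := fun p : (Unit × ℝ) × ℝ => ((p.1.2, p.2) : ℝ × ℝ))
    (by fun_prop) fun p hp => ⟨hp.1.2, hp.2⟩
  cF := h.smooth_f.continuousOn.comp (f := fun p : (Unit × ℝ) × ℝ => ((p.1.2, p.2) : ℝ × ℝ))
    (by fun_prop) fun p hp => ⟨hp.1.2, hp.2⟩
  cWx := (smooth_dx h.smooth_w).continuousOn.comp
    (f := fun p : (Unit × ℝ) × ℝ => ((p.1.2, p.2) : ℝ × ℝ)) (by fun_prop) fun p hp => ⟨hp.1.2, hp.2⟩
  cFx := (smooth_dx h.smooth_f).continuousOn.comp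
    (f := fun p : (Unit × ℝ) × ℝ => ((p.1.2, p.2) : ℝ × ℝ)) (by fun_prop) fun p hp => ⟨hp.1.2, hp.2⟩
  dW := fun _ hz => smooth_slice h.smooth_w hz.2
  dF := fun _ hz => smooth_slice h.smooth_f hz.2

theorem sol_gami {w f : Fn} {T : ℝ} (hT : T ≤ 1) (h : ConfSol 20 w f T) {q : Par}
    (hd : 0 < q.d0) (he : 0 < q.eps) (i : ℕ) : ContinuousOn (fun t => gami q w f i t) (Ico 0 T) :=
  (cont_gami (fml_sol hT h) hd he i).comp (f := fun t : ℝ => (((), t) : Unit × ℝ))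
    (by fun_prop) fun _ ht => ⟨mem_univ _, ht⟩

theorem sol_enU {w f : Fn} {T : ℝ} (hT : T ≤ 1) (h : ConfSol 20 w f T) {q : Par}
    (hd : 0 < q.d0) (he : 0 < q.eps) : ContinuousOn (fun t => enU q w f t) (Ico 0 T) :=
  (cont_enU (fml_sol hT h) hd he).comp (f := fun t : ℝ => (((), t) : Unit × ℝ))
    (by fun_prop) fun _ ht => ⟨mem_univ _, ht⟩

/-! ### the family of solutions -/

/-- uniform closeness and continuity of each member give joint continuity -/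
theorem cont_joint {B : Set (Fin 3 → ℝ)} {Tm : (Fin 3 → ℝ) → ℝ}
    {H : (Fin 3 → ℝ) → ℝ → ℝ → ℝ}
    (hc : ∀ b ∈ B, ContinuousOn (fun z : ℝ × ℝ => H b z.1 z.2) (Ico 0 (Tm b) ×ˢ Icc (-1) 1))
    (hu : ∀ b ∈ B, ∀ T₁ ∈ Ico 0 (Tm b), ∀ ε > 0, ∀ᶠ b' in 𝓝[B] b,
      ∀ t ∈ Icc 0 T₁, ∀ x ∈ Icc (-1 : ℝ) 1, |H b' t x - H b t x| ≤ ε) :
    ContinuousOn (fun p : ((Fin 3 → ℝ) × ℝ) × ℝ => H p.1.1 p.1.2 p.2)
      ({z : (Fin 3 → ℝ) × ℝ | z.1 ∈ B ∧ 0 ≤ z.2 ∧ z.2 < Tm z.1} ×ˢ Icc (-1) 1) := by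
  rintro ⟨⟨b, t⟩, x⟩ ⟨⟨hb, ht0, htT⟩, hx⟩
  simp only at hb ht0 htT hx
  rw [ContinuousWithinAt, Metric.tendsto_nhds]
  intro ε hε
  obtain ⟨T₁, h1, h2⟩ := exists_between htT
  have hT₁ : T₁ ∈ Ico 0 (Tm b) := ⟨ht0.trans h1.le, h2⟩
  have e1 := hu b hb T₁ hT₁ (ε / 2) (half_pos hε)
  have e2 : ∀ᶠ p in 𝓝[{z : (Fin 3 → ℝ) × ℝ | z.1 ∈ B ∧ 0 ≤ z.2 ∧ z.2 < Tm z.1} ×ˢ Icc (-1) 1]
      (((b, t), x) : ((Fin 3 → ℝ) × ℝ) × ℝ), ∀ s ∈ Icc 0 T₁, ∀ y ∈ Icc (-1 : ℝ) 1,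
      |H p.1.1 s y - H b s y| ≤ ε / 2 := by
    have hmap : Tendsto (fun p : ((Fin 3 → ℝ) × ℝ) × ℝ => p.1.1)
        (𝓝[{z : (Fin 3 → ℝ) × ℝ | z.1 ∈ B ∧ 0 ≤ z.2 ∧ z.2 < Tm z.1} ×ˢ Icc (-1) 1]
        ((b, t), x)) (𝓝[B] b) := by
      apply tendsto_nhdsWithin_of_tendsto_nhds_of_eventually_within
      · have : Continuous fun p : ((Fin 3 → ℝ) × ℝ) × ℝ => p.1.1 := by fun_prop
        exact this.continuousAt.tendsto.mono_left nhdsWithin_le_nhds
      · filter_upwards [self_mem_nhdsWithin] with p hp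
        exact hp.1.1
    exact hmap.eventually e1
  have e3 : ∀ᶠ p in 𝓝[{z : (Fin 3 → ℝ) × ℝ | z.1 ∈ B ∧ 0 ≤ z.2 ∧ z.2 < Tm z.1} ×ˢ Icc (-1) 1]
      (((b, t), x) : ((Fin 3 → ℝ) × ℝ) × ℝ), p.1.2 < T₁ := by
    have : {p : ((Fin 3 → ℝ) × ℝ) × ℝ | p.1.2 < T₁} ∈ 𝓝 (((b, t), x) : ((Fin 3 → ℝ) × ℝ) × ℝ) :=
      (isOpen_lt (by fun_prop) continuous_const).mem_nhds h1
    exact mem_nhdsWithin_of_mem_nhds this
  have e4 : Tendsto (fun p : ((Fin 3 → ℝ) × ℝ) × ℝ => H b p.1.2 p.2)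
      (𝓝[{z : (Fin 3 → ℝ) × ℝ | z.1 ∈ B ∧ 0 ≤ z.2 ∧ z.2 < Tm z.1} ×ˢ Icc (-1) 1]
      ((b, t), x)) (𝓝 (H b t x)) := by
    have hc' := hc b hb (t, x) ⟨⟨ht0, htT⟩, hx⟩
    have hmap : Tendsto (fun p : ((Fin 3 → ℝ) × ℝ) × ℝ => ((p.1.2, p.2) : ℝ × ℝ))
        (𝓝[{z : (Fin 3 → ℝ) × ℝ | z.1 ∈ B ∧ 0 ≤ z.2 ∧ z.2 < Tm z.1} ×ˢ Icc (-1) 1]
        ((b, t), x)) (𝓝[Ico 0 (Tm b) ×ˢ Icc (-1) 1] (t, x)) := by
      apply tendsto_nhdsWithin_of_tendsto_nhds_of_eventually_within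
      · have : Continuous fun p : ((Fin 3 → ℝ) × ℝ) × ℝ => ((p.1.2, p.2) : ℝ × ℝ) := by fun_prop
        exact this.continuousAt.tendsto.mono_left nhdsWithin_le_nhds
      · filter_upwards [self_mem_nhdsWithin, e3] with p hp hp3
        exact ⟨⟨hp.1.2.1, hp3.trans h2⟩, hp.2⟩
    exact hc'.tendsto.comp hmap
  have e5 := (Metric.tendsto_nhds.1 e4) (ε / 2) (half_pos hε)
  filter_upwards [e2, e3, e5, self_mem_nhdsWithin] with p h3 h4 h5 h6
  have h7 := h3 p.1.2 ⟨h6.1.2.1, h4.le⟩ p.2 h6.2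
  rw [Real.dist_eq] at h5 ⊢
  calc |H p.1.1 p.1.2 p.2 - H b t x| ≤
        |H p.1.1 p.1.2 p.2 - H b p.1.2 p.2| + |H b p.1.2 p.2 - H b t x| := abs_sub_le _ _ _
    _ < ε := by linarith only [h5, h7]

/-- the family of L1/L3 is a continuous family -/
theorem fml_fam (hL3 : L3Statement) {q : Par} {g : ℝ → ℝ} {w₀ f₀ : (Fin 3 → ℝ) → ℝ → ℝ}
    (hw₀ : ContDiffOn ℝ ∞ (fun z : (Fin 3 → ℝ) × ℝ => w₀ z.1 z.2) (univ ×ˢ Icc (-1) 1))
    (hf₀ : ContDiffOn ℝ ∞ (fun z : (Fin 3 → ℝ) × ℝ => f₀ z.1 z.2) (univ ×ˢ Icc (-1) 1))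
    {Tm : (Fin 3 → ℝ) → ℝ} {w f : (Fin 3 → ℝ) → ℝ → ℝ → ℝ}
    (h : ∀ b ∈ Bx, SolFam q g w₀ f₀ Tm w f b) (hB : IsCompact Bx) :
    Fml {z : (Fin 3 → ℝ) × ℝ | z.1 ∈ Bx ∧ 0 ≤ z.2 ∧ z.2 < Tm z.1} w f := by
  have h3 := hL3 20 (by norm_num) Bx hB w₀ f₀ hw₀ hf₀ Tm w f fun b hb =>
    ⟨(h b hb).data, (h b hb).time, (h b hb).sol, (h b hb).start, (h b hb).life⟩
  refine ⟨fun z hz => lt_of_lt_of_le hz.2.2 (h z.1 hz.1).time.2, ?_, ?_, ?_, ?_, ?_, ?_⟩
  · exact cont_joint (fun b hb => (h b hb).sol.smooth_w.continuousOn) fun b hb T₁ hT₁ ε hε =>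
      (h3 b hb T₁ hT₁ ε hε).mono fun b' hb' t ht x hx => (hb'.2 t ht x hx).1
  · exact cont_joint (fun b hb => (h b hb).sol.smooth_f.continuousOn) fun b hb T₁ hT₁ ε hε =>
      (h3 b hb T₁ hT₁ ε hε).mono fun b' hb' t ht x hx => (hb'.2 t ht x hx).2.1
  · exact cont_joint (H := fun b t => dx (w b t))
      (fun b hb => (smooth_dx (h b hb).sol.smooth_w).continuousOn) fun b hb T₁ hT₁ ε hε =>
      (h3 b hb T₁ hT₁ ε hε).mono fun b' hb' t ht x hx => (hb'.2 t ht x hx).2.2.1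
  · exact cont_joint (H := fun b t => dx (f b t))
      (fun b hb => (smooth_dx (h b hb).sol.smooth_f).continuousOn) fun b hb T₁ hT₁ ε hε =>
      (h3 b hb T₁ hT₁ ε hε).mono fun b' hb' t ht x hx => (hb'.2 t ht x hx).2.2.2
  · exact fun z hz => smooth_slice (h z.1 hz.1).sol.smooth_w hz.2
  · exact fun z hz => smooth_slice (h z.1 hz.1).sol.smooth_f hz.2

theorem compact_Bx : IsCompact Bx := by
  unfold Bx
  exact isCompact_Icc

/-- joint continuity of the modes of the family of solutions -/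
theorem fam_gami (hL3 : L3Statement) {q : Par} (hd : 0 < q.d0) (he : 0 < q.eps) {g : ℝ → ℝ}
    {w₀ f₀ : (Fin 3 → ℝ) → ℝ → ℝ}
    (hw₀ : ContDiffOn ℝ ∞ (fun z : (Fin 3 → ℝ) × ℝ => w₀ z.1 z.2) (univ ×ˢ Icc (-1) 1))
    (hf₀ : ContDiffOn ℝ ∞ (fun z : (Fin 3 → ℝ) × ℝ => f₀ z.1 z.2) (univ ×ˢ Icc (-1) 1))
    {Tm : (Fin 3 → ℝ) → ℝ} {w f : (Fin 3 → ℝ) → ℝ → ℝ → ℝ}
    (h : ∀ b ∈ Bx, SolFam q g w₀ f₀ Tm w f b) (i : ℕ) :
    ContinuousOn (fun z : (Fin 3 → ℝ) × ℝ => gami q (w z.1) (f z.1) i z.2)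
      {z : (Fin 3 → ℝ) × ℝ | z.1 ∈ Bx ∧ 0 ≤ z.2 ∧ z.2 < Tm z.1} :=
  cont_gami (fml_fam hL3 hw₀ hf₀ h compact_Bx) hd he i

end Gam

end Vale.Agent.P244.ST
end

section

/-!
# P244-ST, block B : the bubble profile exists (`BubStatement`)
-/

open Set Filter Topology

namespace Vale.Agent.P244.ST.BD.BubG


variable {m κ : ℝ} {g : ℝ → ℝ}

theorem bub_tendsto (h : BubPar m κ) (hg : IsBub0 m κ g) : Tendsto g atTop (𝓝 2) := by
  have hlim : Tendsto (fun u : ℝ => 2 + 4 / 3 * (4 / u)) atTop (𝓝 2) := by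
    have h1 : Tendsto (fun u : ℝ => 4 / u) atTop (𝓝 0) := tendsto_const_nhds.div_atTop tendsto_id
    have h2 := (h1.const_mul (4 / 3)).const_add 2
    simpa using h2
  have hlow : Tendsto (fun u : ℝ => 2 - 2 * (4 / u)) atTop (𝓝 2) := by
    have h1 : Tendsto (fun u : ℝ => 4 / u) atTop (𝓝 0) := tendsto_const_nhds.div_atTop tendsto_id
    have h2 := (h1.const_mul 2).const_sub 2
    simpa using h2
  refine tendsto_of_tendsto_of_tendsto_of_le_of_le' hlow hlim ?_ ?_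
  · filter_upwards [eventually_gt_atTop 0] with u hu
    have h1 := hg.lo u hu
    have h2 := one_sub_tanh_sq_le hu
    have hT := tanh_pos hu
    have hT1 := Real.tanh_lt_one u
    have h3 : 1 - Real.tanh u ≤ 1 - Real.tanh u ^ 2 := by nlinarith only [hT, hT1]
    linarith only [h3, h2, h1]
  · filter_upwards [eventually_gt_atTop 0] with u hu
    have h1 := bub_near_top h hg hu
    have h2 := one_sub_tanh_sq_le hu
    have hT := tanh_pos hu
    have hT1 := Real.tanh_lt_one u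
    have h3 : g u ≤ g u / Real.tanh u := by
      rw [le_div_iff₀ hT]
      exact mul_le_of_le_one_right (bub_pos hg hu).le hT1.le
    linarith only [h1, h2, h3]

/-- B1 + B2. -/
theorem bubStatement : BubStatement := by
  obtain ⟨g, hg, h0, hodd⟩ := exists_core
  obtain ⟨hP, hC1, hC2⟩ := bubPar_forty
  exact ⟨g, h0, hodd, hg.ode, hg.lo, hg.hi, fun u hu => bub_lt_two hP hg hu,
    fun u hu => bub_rhs_pos hP hg hu, fun u hu => bub_quot hP hg hu,
    ⟨1 / 4, fun u hu => bub_near_zero hP hg hC1 hC2 hu⟩,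
    ⟨4 / 3, fun u hu => bub_near_top hP hg hu⟩,
    BubTip.tip_of 40 (by norm_num) g 0 hg.ode (bub_tendsto hP hg)⟩

end Vale.Agent.P244.ST.BD.BubG
end

section

/-!
# P244-ST, block B1 : `B1Statement` of the interface file
-/

open Set Filter Topology
open scoped ContDiff

namespace Vale.Agent.P244.ST.BBridge

theorem glue_smooth {hl G : ℝ → ℝ} {ε : ℝ} (hε : 0 < ε) (hl_s : ContDiffOn ℝ ∞ hl (Ioo (-ε) ε))
    (hG : ContDiffOn ℝ ∞ G (Ioo 0 1)) (heq : ∀ X, 0 < X → X < ε → hl X = G X) :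
    ∃ h : ℝ → ℝ, ContDiffOn ℝ ∞ h (Ioo (-1) 1) ∧ ∀ X ∈ Ioo (0 : ℝ) 1, h X = G X := by
  set st : ℝ → ℝ := fun X => Real.smoothTransition ((X + 2 * ε / 3) / (ε / 3)) with hst
  have hst_s : ContDiff ℝ ∞ st := by
    have h1 : ContDiff ℝ ∞ (fun X : ℝ => (X + 2 * ε / 3) / (ε / 3)) := by fun_prop
    exact Real.smoothTransition.contDiff.comp h1
  have hst1 : ∀ X, -ε / 3 ≤ X → st X = 1 := by
    intro X hX
    refine Real.smoothTransition.one_of_one_le ?_
    rw [le_div_iff₀ (by positivity)]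
    linarith only [hX]
  have hst0 : ∀ X, X ≤ -(2 * ε / 3) → st X = 0 := by
    intro X hX
    refine Real.smoothTransition.zero_of_nonpos ?_
    exact div_nonpos_of_nonpos_of_nonneg (by linarith only [hX]) (by positivity)
  set h : ℝ → ℝ := fun X => if X < ε / 2 then st X * hl X else G X with hh
  have e1 : ∀ X ∈ Ioo (0 : ℝ) 1, h X = G X := by
    intro X hX
    rw [hh]
    simp only
    split_ifs with hlt
    · rw [hst1 X (by linarith only [hε, hX, hX.1]), one_mul, heq X hX.1 (by linarith only [hε, hlt])]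
    · rfl
  refine ⟨h, ?_, e1⟩
  intro x hx
  refine ContDiffAt.contDiffWithinAt ?_
  rcases lt_or_ge 0 x with hpos | hneg
  · have h2 : ContDiffAt ℝ ∞ G x := (hG x ⟨hpos, hx.2⟩).contDiffAt (Ioo_mem_nhds hpos hx.2)
    refine h2.congr_of_eventuallyEq ?_
    filter_upwards [Ioo_mem_nhds hpos hx.2] with X hX
    exact e1 X hX
  · rcases lt_or_ge x (-(2 * ε / 3)) with hx2 | hx2
    · refine (contDiffAt_const (c := (0 : ℝ))).congr_of_eventuallyEq ?_
      filter_upwards [Iio_mem_nhds hx2] with X hX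
      rw [hh]
      simp only
      have hX' : X < -(2 * ε / 3) := hX
      rw [if_pos (by linarith only [hX', hε]), hst0 X hX'.le, zero_mul]
    · have hx3 : x ∈ Ioo (-ε) (ε / 2) := ⟨by linarith only [hε, hx2], by linarith only [hε, hneg]⟩
      have h2 : ContDiffAt ℝ ∞ hl x :=
        (hl_s x ⟨hx3.1, by linarith only [hε, hneg, hx3.2]⟩).contDiffAt (Ioo_mem_nhds hx3.1 (by linarith only [hε, hneg, hx3.2]))
      refine (hst_s.contDiffAt.mul h2).congr_of_eventuallyEq ?_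
      filter_upwards [Ioo_mem_nhds hx3.1 hx3.2] with X hX
      rw [hh]
      simp only
      rw [if_pos hX.2]

theorem kap_eq : BD.kap 40 = kap := by
  unfold BD.kap kap
  norm_num

theorem gRhs_eq (u y : ℝ) :
    BD.gRhs 40 u y = (39 - y ^ 2 / 4) * (y - 2 * Real.tanh u) / y := by
  unfold BD.gRhs BD.qf
  norm_num

/-- The interface structure from the structure of block B. -/
theorem isBub_of {g : ℝ → ℝ} (hg : BD.IsBub 40 g) : IsBub g := by
  have h0 : BD.BubG.IsBub0 40 (BD.kap 40) g := ⟨hg.deriv, hg.lower, hg.upper⟩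
  have hder : ∀ u > 0, deriv g u = BD.gRhs 40 u (g u) := fun u hu => (hg.deriv u hu).deriv
  refine ⟨BD.BubG.bub_smooth h0, ?_, hg.lower, ?_, hg.lt_two, ?_, ?_, ?_, ?_, ?_⟩
  · intro u hu
    rw [← gRhs_eq]
    exact hg.deriv u hu
  · intro u hu
    rw [← kap_eq]
    exact hg.upper u hu
  · intro u hu
    rw [hder u hu]
    exact hg.rhs_pos u hu
  · intro u hu
    rw [hder u hu]
    exact hg.quot u hu
  · obtain ⟨C, hC⟩ := hg.near_zero
    refine ⟨C, fun u hu => ?_⟩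
    have hT := BD.BubG.tanh_pos hu
    have h1 := mul_le_mul_of_nonneg_right (hC u hu) hT.le
    rw [← kap_eq]
    have h2 : (BD.kap 40 - g u / Real.tanh u) * Real.tanh u = BD.kap 40 * Real.tanh u - g u := by
      rw [sub_mul, div_mul_cancel₀ _ hT.ne']
    rw [h2] at h1
    calc _ ≤ _ := h1
      _ = _ := by ring
  · obtain ⟨C, hC⟩ := hg.near_top
    refine ⟨C, fun u hu => ?_⟩
    have hT := BD.BubG.tanh_pos hu
    have hT1 := Real.tanh_lt_one u
    have h3 := hC u hu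
    have h2 : g u - 2 * Real.tanh u = (g u / Real.tanh u - 2) * Real.tanh u := by
      rw [sub_mul, div_mul_cancel₀ _ hT.ne']
    have h4 : 0 ≤ g u / Real.tanh u - 2 := by
      rw [sub_nonneg, le_div_iff₀ hT]
      exact (hg.lower u hu).le
    rw [h2]
    exact (mul_le_of_le_one_right h4 hT1.le).trans h3
  · obtain ⟨hl, ε, hε, hsm, h2, hgu⟩ := hg.tip
    set ε' := min ε 1 with hε'
    have hε'0 : 0 < ε' := by positivity
    have hle : ε' ≤ ε := min_le_left _ _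
    have hG : ContDiffOn ℝ ∞ (fun X : ℝ => g (-(Real.log X) / 2)) (Ioo 0 1) := by
      have h1 : ContDiffOn ℝ ∞ (fun X : ℝ => -(Real.log X) / 2) (Ioo 0 1) := by
        refine ((ContDiffOn.log contDiffOn_id ?_).neg).div_const 2
        intro x hx
        exact hx.1.ne'
      refine (BD.BubG.bub_smooth h0).comp h1 ?_
      intro x hx
      have : Real.log x < 0 := Real.log_neg hx.1 hx.2
      simp only [mem_Ioi]
      linarith only [this]
    obtain ⟨h, hh1, hh2⟩ := glue_smooth hε'0 (hsm.mono (Ioo_subset_Ioo (by linarith only [hle]) hle)) hG (by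
      intro X hX1 hX2
      have h5 := hgu (-(Real.log X) / 2) (by
        have : -2 * (-(Real.log X) / 2) = Real.log X := by ring
        rw [this, Real.exp_log hX1]
        linarith only [hle, hX2])
      have : -2 * (-(Real.log X) / 2) = Real.log X := by ring
      rw [this, Real.exp_log hX1] at h5
      exact h5.symm)
    refine ⟨h, hh1, fun u hu => ?_⟩
    have h6 : Real.exp (-2 * u) < 1 := by
      rw [← Real.exp_zero]
      exact Real.exp_lt_exp.mpr (by linarith only [hu])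
    rw [hh2 _ ⟨Real.exp_pos _, h6⟩, Real.log_exp]
    congr 1
    ring

/-- BLOCK B1. -/
theorem b1Statement : B1Statement := by
  obtain ⟨g, hg⟩ := BD.BubG.bubStatement
  exact ⟨g, isBub_of hg⟩

end Vale.Agent.P244.ST.BBridge
end

section

/-!
# P244-ST, block M4 : closure of the barrier for `V` in region I (numerical core)

`Vb = K T^{1+a} cosh^a`; derivatives of the barrier, the pure inequality, and the strict
inequality at a touching point (pure real numbers).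
-/

open Set Filter Topology

namespace Vale.Agent.P244.ST.M4c

noncomputable section

/-! ### elementary facts -/

lemma hasDerivAt_tanh (u : ℝ) : HasDerivAt Real.tanh (1 - Real.tanh u ^ 2) u := by
  have hc : Real.cosh u ≠ 0 := (Real.cosh_pos u).ne'
  have h : HasDerivAt (fun x => Real.sinh x / Real.cosh x)
      ((Real.cosh u * Real.cosh u - Real.sinh u * Real.sinh u) / Real.cosh u ^ 2) u :=
    (Real.hasDerivAt_sinh u).div (Real.hasDerivAt_cosh u) hc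
  have h2 : (Real.cosh u * Real.cosh u - Real.sinh u * Real.sinh u) / Real.cosh u ^ 2
      = 1 - Real.tanh u ^ 2 := by
    rw [Real.tanh_eq_sinh_div_cosh]
    field_simp
  rw [h2] at h
  exact h.congr_of_eventuallyEq (Eventually.of_forall fun x => Real.tanh_eq_sinh_div_cosh x)

lemma tanh_pos {u : ℝ} (hu : 0 < u) : 0 < Real.tanh u := by
  rw [Real.tanh_eq_sinh_div_cosh]
  exact div_pos (Real.sinh_pos_iff.2 hu) (Real.cosh_pos u)

lemma sinh_eq (u : ℝ) : Real.sinh u = Real.tanh u * Real.cosh u := by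
  rw [Real.tanh_eq_sinh_div_cosh, div_mul_cancel₀ _ (Real.cosh_pos u).ne']

lemma kap_bounds : 2.1146 < kap ∧ kap < 2.1147 := by
  have h1 : Real.sqrt 1209 < 34.7708 := by
    rw [Real.sqrt_lt' (by norm_num)]; norm_num
  have h2 : 34.7706 < Real.sqrt 1209 := by
    rw [Real.lt_sqrt (by norm_num)]; norm_num
  unfold kap
  constructor <;> linarith only [h1, h2]

/-! ### derivatives of the barrier -/

/-- `(log h)'` for `h = T^{1+a} cosh^a` -/
def l1 (u : ℝ) : ℝ := (1 + aa) * (1 - Real.tanh u ^ 2) / Real.tanh u + aa * Real.tanh u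

/-- `(log h)''` -/
def l1' (u : ℝ) : ℝ :=
  -((1 + aa) * (1 - Real.tanh u ^ 2) * (1 + Real.tanh u ^ 2) / Real.tanh u ^ 2)
    + aa * (1 - Real.tanh u ^ 2)

/-- `h''/h` -/
def l2 (u : ℝ) : ℝ := l1 u ^ 2 + l1' u

lemma hasDerivAt_l1 {u : ℝ} (hu : 0 < u) : HasDerivAt l1 (l1' u) u := by
  have hT := hasDerivAt_tanh u
  have hT0 : Real.tanh u ≠ 0 := (tanh_pos hu).ne'
  have h1 := ((((hT.pow 2).const_sub 1).const_mul (1 + aa)).div hT hT0).add (hT.const_mul aa)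
  refine h1.congr_deriv ?_
  unfold l1'
  simp only [Nat.cast_ofNat, Nat.add_one_sub_one, pow_one, Pi.pow_apply]
  field_simp
  ring

lemma hasDerivAt_Vb {q : Par} {t u : ℝ} (hu : 0 < u) (hT0 : 0 < q.T0 t) :
    HasDerivAt (fun u => q.Vb t u) (q.Vb t u * l1 u) u := by
  have hT := hasDerivAt_tanh u
  have hTp := tanh_pos hu
  have hC := Real.cosh_pos u
  have hx : 0 < Real.tanh u / q.T0 t := div_pos hTp hT0
  have h1 := (hT.div_const (q.T0 t)).rpow_const (p := aa) (Or.inl hx.ne')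
  have h2 := (Real.hasDerivAt_cosh u).rpow_const (p := aa) (Or.inl hC.ne')
  have h3 := ((h1.const_mul (q.BV / tau t)).mul hT).mul h2
  refine h3.congr_deriv ?_
  rw [Real.rpow_sub_one hx.ne', Real.rpow_sub_one hC.ne', sinh_eq]
  simp only [Pi.mul_apply]
  unfold Par.Vb l1
  have := hT0.ne'
  have := hTp.ne'
  have := hC.ne'
  field_simp
  ring

lemma hasDerivAt_Vb1 {q : Par} {t u : ℝ} (hu : 0 < u) (hT0 : 0 < q.T0 t) :
    HasDerivAt (fun u => q.Vb t u * l1 u) (q.Vb t u * l2 u) u := by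
  refine ((hasDerivAt_Vb hu hT0).mul (hasDerivAt_l1 hu)).congr_deriv ?_
  unfold l2
  ring

lemma T0_pos {q : Par} {t : ℝ} (hr : 0 < q.rho0) (he : 0 < q.eps) (ht : t < 1) :
    0 < q.T0 t := by
  have h1 : 0 < tau t := by unfold tau; linarith only [ht]
  unfold Par.T0 Par.A
  positivity

/-- time derivative of `log T0` is `-λ₃/τ` -/
lemma hasDerivAt_T0 {q : Par} {t : ℝ} (ht : t < 1) :
    HasDerivAt (fun t => q.T0 t) (-(lam 3 / tau t) * q.T0 t) t := by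
  have h1 : 0 < tau t := by unfold tau; linarith only [ht]
  have h2 : HasDerivAt tau (-1) t := by
    have := (hasDerivAt_id t).const_sub 1
    exact this
  have h3 := ((h2.rpow_const (p := lam 3) (Or.inl h1.ne')).const_mul q.eps).mul_const
    (q.rho0 ^ (-kap))
  refine h3.congr_deriv ?_
  rw [Real.rpow_sub_one h1.ne']
  unfold Par.T0 Par.A
  have := h1.ne'
  field_simp

lemma hasDerivAt_Vb_t {q : Par} {t u : ℝ} (hu : 0 < u) (hT0 : 0 < q.T0 t) (ht : t < 1) :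
    HasDerivAt (fun t => q.Vb t u) (q.Vb t u * ((1 + aa * lam 3) / tau t)) t := by
  have h1 : 0 < tau t := by unfold tau; linarith only [ht]
  have h2 : HasDerivAt tau (-1) t := by
    have := (hasDerivAt_id t).const_sub 1
    exact this
  have hTp := tanh_pos hu
  have hx : 0 < Real.tanh u / q.T0 t := div_pos hTp hT0
  have h4 : HasDerivAt (fun t => q.BV / tau t) (q.BV / tau t ^ 2) t := by
    have := (h2.inv h1.ne').const_mul q.BV
    refine (this.congr_deriv ?_)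
    field_simp
  have h5 : HasDerivAt (fun t => Real.tanh u / q.T0 t)
      (Real.tanh u / q.T0 t * (lam 3 / tau t)) t := by
    have := ((hasDerivAt_T0 (q := q) ht).inv hT0.ne').const_mul (Real.tanh u)
    refine (this.congr_deriv ?_)
    have := hT0.ne'
    field_simp
  have h6 := h5.rpow_const (p := aa) (Or.inl hx.ne')
  have h7 := ((h4.mul h6).mul_const (Real.tanh u)).mul_const (Real.cosh u ^ aa)
  refine h7.congr_deriv ?_
  rw [Real.rpow_sub_one hx.ne']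
  unfold Par.Vb
  have := hT0.ne'
  have := h1.ne'
  have := hTp.ne'
  field_simp

/-! ### the pure inequality -/

/-- pure inequality, `s = T²`, `ω = G₁²/q`. -/
lemma pure_ineq {s ω : ℝ} (hs0 : 0 ≤ s) (hs1 : s ≤ 1) (h1 : 4 / 39 ≤ ω) (h2 : ω ≤ 0.118) :
    0.0937 ≤ 0.1 - 2 * s + ω * (-0.0525 + 22.05 * s - 2 * s ^ 2) := by
  by_cases h : 0 ≤ -0.0525 + 22.05 * s - 2 * s ^ 2
  · have : (4 / 39) * (-0.0525 + 22.05 * s - 2 * s ^ 2) ≤
        ω * (-0.0525 + 22.05 * s - 2 * s ^ 2) := mul_le_mul_of_nonneg_right h1 h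
    nlinarith only [hs0, hs1, h, this]
  · push Not at h
    have : 0.118 * (-0.0525 + 22.05 * s - 2 * s ^ 2) ≤
        ω * (-0.0525 + 22.05 * s - 2 * s ^ 2) := by linarith only [mul_nonneg (sub_nonneg.2 h2) (le_of_lt (sub_pos.2 h))]
    have hs : s ≤ 0.003 := by nlinarith only [hs0, hs1, h]
    nlinarith only [hs0, hs1, this]

lemma delta_bound {e θ : ℝ} (he : |e| ≤ 1 / 10 ^ 4) (hθ : |θ| ≤ 1 / 10 ^ 3) :
    |(1 + θ) * (1 - e) ^ 2 - 1| ≤ 0.00121 := by
  have h1 : (1 + θ) * (1 - e) ^ 2 - 1 = θ * (1 - e) ^ 2 + (e * (e - 2)) := by ring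
  obtain ⟨h2, h3⟩ := abs_le.1 he
  have h4 : |θ * (1 - e) ^ 2| ≤ 1 / 10 ^ 3 * 1.0003 := by
    rw [abs_mul, abs_of_nonneg (sq_nonneg (1 - e))]
    exact mul_le_mul hθ (by nlinarith only [h2, h3]) (sq_nonneg _) (by norm_num)
  have h5 : |e * (e - 2)| ≤ 1 / 10 ^ 4 * 2.001 := by
    rw [abs_mul]
    refine mul_le_mul he ?_ (abs_nonneg _) (by norm_num)
    rw [abs_le]; constructor <;> linarith only [h2, h3]
  rw [h1]
  refine (abs_add_le _ _).trans ?_
  linarith only [h4, h5]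

lemma delta_bound' {e θ : ℝ} (he : |e| ≤ 1 / 10 ^ 4) (hθ : |θ| ≤ 1 / 10 ^ 3) :
    |(1 + θ) * (1 - e) - 1| ≤ 0.0012 := by
  have h1 : (1 + θ) * (1 - e) - 1 = θ * (1 - e) + (-e) := by ring
  obtain ⟨h2, h3⟩ := abs_le.1 he
  have h4 : |θ * (1 - e)| ≤ 1 / 10 ^ 3 * 1.001 := by
    rw [abs_mul]
    refine mul_le_mul hθ ?_ (abs_nonneg _) (by norm_num)
    rw [abs_le]; constructor <;> linarith only [h3, h2]
  rw [h1]
  refine (abs_add_le _ _).trans ?_
  rw [abs_neg]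
  linarith only [he, h4]

lemma omega_bounds {G1 Q : ℝ} (hG1 : 2 ≤ G1) (hG2 : G1 ≤ 2.1147)
    (hQ1 : 38 ≤ Q) (hQ2 : Q ≤ 39) : 4 / 39 ≤ G1 ^ 2 / Q ∧ G1 ^ 2 / Q ≤ 0.118 ∧
      2 ≤ 39 * G1 / Q ∧ 39 * G1 / Q ≤ 2.1704 := by
  have hQ0 : 0 < Q := by linarith only [hQ1]
  refine ⟨?_, ?_, ?_, ?_⟩
  · rw [div_le_div_iff₀ (by norm_num) hQ0]; nlinarith only [hG1, hQ2]
  · rw [div_le_iff₀ hQ0]; nlinarith only [hG1, hG2, hQ1]
  · rw [le_div_iff₀ hQ0]; linarith only [hQ2, hG1]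
  · rw [div_le_iff₀ hQ0]; linarith only [hQ1, hG2]

lemma bracket_bound {s : ℝ} (hs0 : 0 ≤ s) (hs1 : s ≤ 1) :
    |(-0.0525 + 22.05 * s - 2 * s ^ 2 : ℝ)| ≤ 20.5 := by
  rw [abs_le]; constructor <;> nlinarith only [hs0, hs1]

lemma k_bound {k δ : ℝ} (hk1 : 2 ≤ k) (hk2 : k ≤ 2.1704) (hδ : |δ| ≤ 0.0012) :
    |k - 1.95 + k * δ| ≤ 0.2232 := by
  have h1 : |k * δ| ≤ 2.1704 * 0.0012 := by
    rw [abs_mul, abs_of_pos (by linarith only [hk1] : 0 < k)]
    exact mul_le_mul hk2 hδ (abs_nonneg _) (by norm_num)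
  obtain ⟨h3, h4⟩ := abs_le.1 h1
  rw [abs_le]; constructor <;> linarith only [hk1, h3, hk2, h4]

/-- the good term -/
lemma main_part {T C ω δ W : ℝ} (hT0 : 0 < T) (hT1 : T < 1) (hC : 0 < C)
    (hω1 : 4 / 39 ≤ ω) (hω2 : ω ≤ 0.118) (hδ1 : |δ| ≤ 0.00121)
    (hW1 : W = 39 * C * ω * T ^ 2 * (1 + δ)) :
    3.539 * C ≤ 78 * (T * C) * ((1 + 1 / 20) * (1 - T ^ 2) / T + 1 / 20 * T) - 78 * C
      - (((1 + 1 / 20) * (1 - T ^ 2) / T + 1 / 20 * T) ^ 2
          + (-((1 + 1 / 20) * (1 - T ^ 2) * (1 + T ^ 2) / T ^ 2) + 1 / 20 * (1 - T ^ 2))) * W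
      + 20 * W := by
  have hω0 : 0 < ω := by linarith only [hT0, hT1, hω1]
  set L1 : ℝ := (1 + 1 / 20) * (1 - T ^ 2) / T + 1 / 20 * T with hL1
  set L2 : ℝ := L1 ^ 2
          + (-((1 + 1 / 20) * (1 - T ^ 2) * (1 + T ^ 2) / T ^ 2) + 1 / 20 * (1 - T ^ 2)) with hL2
  have hTL1 : T * L1 = 1.05 - T ^ 2 := by
    rw [hL1]; field_simp; ring
  have hTL2 : T ^ 2 * L2 = 0.0525 - 2.05 * T ^ 2 + 2 * (T ^ 2) ^ 2 := by
    have h1 : T ^ 2 * L2 = (T * L1) ^ 2 + (-((1 + 1 / 20) * (1 - T ^ 2) * (1 + T ^ 2))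
        + 1 / 20 * (1 - T ^ 2) * T ^ 2) := by
      rw [hL2]; field_simp
    rw [h1, hTL1]; ring
  have hs0 : 0 ≤ T ^ 2 := by positivity
  have hs1 : T ^ 2 ≤ 1 := pow_le_one₀ hT0.le hT1.le
  have hpure := pure_ineq hs0 hs1 hω1 hω2
  have hid : 78 * (T * C) * L1 - 78 * C - L2 * W + 20 * W =
      39 * C * (0.1 - 2 * T ^ 2 + ω * (-0.0525 + 22.05 * T ^ 2 - 2 * (T ^ 2) ^ 2))
      + 39 * C * ω * δ * (-0.0525 + 22.05 * T ^ 2 - 2 * (T ^ 2) ^ 2) := by
    have h1 : 78 * (T * C) * L1 = 78 * C * (1.05 - T ^ 2) := by rw [← hTL1]; ring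
    have h2 : L2 * W = 39 * C * ω * (1 + δ) * (0.0525 - 2.05 * T ^ 2 + 2 * (T ^ 2) ^ 2) := by
      rw [← hTL2, hW1]; ring
    rw [h1, h2, hW1]; ring
  have hbr : |(-0.0525 + 22.05 * T ^ 2 - 2 * (T ^ 2) ^ 2 : ℝ)| ≤ 20.5 :=
    bracket_bound hs0 hs1
  have hpert : |39 * C * ω * δ * (-0.0525 + 22.05 * T ^ 2 - 2 * (T ^ 2) ^ 2)| ≤ 0.115 * C := by
    rw [abs_mul, abs_mul, abs_of_pos (by positivity : 0 < 39 * C * ω)]
    have h1 : 39 * C * ω * |δ| ≤ 39 * C * 0.118 * 0.00121 := by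
      have : 39 * C * ω ≤ 39 * C * 0.118 := mul_le_mul_of_nonneg_left hω2 (by positivity)
      exact mul_le_mul this hδ1 (abs_nonneg _) (by positivity)
    calc 39 * C * ω * |δ| * |(-0.0525 + 22.05 * T ^ 2 - 2 * (T ^ 2) ^ 2 : ℝ)|
        ≤ 39 * C * 0.118 * 0.00121 * 20.5 :=
          mul_le_mul h1 hbr (abs_nonneg _) (by positivity)
      _ ≤ 0.115 * C := by linarith only [hC]
  rw [hid]
  have h1 := (abs_le.1 hpert).1
  have h2 : 39 * C * 0.0937 ≤
      39 * C * (0.1 - 2 * T ^ 2 + ω * (-0.0525 + 22.05 * T ^ 2 - 2 * (T ^ 2) ^ 2)) :=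
    mul_le_mul_of_nonneg_left hpure (by positivity)
  linarith only [h2, h1, hC]

/-- the curvature term -/
lemma curv_part {T C ω r E Rs φ : ℝ} (hT0 : 0 < T) (hT1 : T < 1) (hC : 0 < C)
    (hω2 : ω ≤ 0.118) (hr2 : 0 < r ^ 2) (hφ : 0 < φ) (heb : r ^ 2 * φ ≤ 1 / 10 ^ 4)
    (hrRs : r ^ 2 * Rs ≤ 1 / 10 ^ 3)
    (hE : |E| ≤ 1.1 * Rs + 11 * (39 * C * ω * T ^ 2) * φ) :
    |E| * r ^ 2 ≤ 0.0011 + 0.0051 * C := by
  have hs0 : 0 ≤ T ^ 2 := by positivity
  have hs1 : T ^ 2 ≤ 1 := pow_le_one₀ hT0.le hT1.le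
  have h1 : |E| * r ^ 2 ≤ (1.1 * Rs + 11 * (39 * C * ω * T ^ 2) * φ) * r ^ 2 :=
    mul_le_mul_of_nonneg_right hE hr2.le
  have hX1 : 39 * C * ω * T ^ 2 ≤ 4.602 * C * T ^ 2 := by
    have : 39 * C * ω ≤ 39 * C * 0.118 := mul_le_mul_of_nonneg_left hω2 (by positivity)
    exact mul_le_mul_of_nonneg_right (by linarith only [this]) hs0
  have h2 : 39 * C * ω * T ^ 2 ≤ 4.602 * C :=
    hX1.trans (mul_le_of_le_one_right (by positivity) hs1)
  have h3 : 11 * (39 * C * ω * T ^ 2) * (r ^ 2 * φ) ≤ 11 * (4.602 * C) * (1 / 10 ^ 4) :=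
    mul_le_mul (by linarith only [h2]) heb (by positivity) (by positivity)
  have h4 : (1.1 * Rs + 11 * (39 * C * ω * T ^ 2) * φ) * r ^ 2 =
    1.1 * (r ^ 2 * Rs) + 11 * (39 * C * ω * T ^ 2) * (r ^ 2 * φ) := by ring
  rw [h4] at h1
  linarith only [h3, h1, hrRs, hC]

/-- the forcing term -/
lemma force_part {T C ω k δ' U E R Rs φ v B BV : ℝ}
    (hT0 : 0 < T) (hT1 : T < 1) (hC : 0 < C) (hω2 : ω ≤ 0.118)
    (hk1 : 2 ≤ k) (hk2 : k ≤ 2.1704) (hδ1' : |δ'| ≤ 0.0012)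
    (hU1 : U = k * (T * C) * (1 + δ')) (hφ : 0 < φ) (hv : 0 < v)
    (hBV : 1000 * B ≤ BV) (hrel : C * φ * T * BV = B * v)
    (hv2 : 9 / 10 * BV * T ≤ v) (hBV1 : 1 ≤ BV) (hR : 0 ≤ R) (hR1 : R ≤ Rs) (hRs : Rs ≤ 1 / 100)
    (hE : |E| ≤ 1.1 * Rs + 11 * (39 * C * ω * T ^ 2) * φ) :
    |2 * (U - 39 / 20 * (T * C)) * (41 * E - R)| ≤ 1.16 * C * v := by
  have hs0 : 0 ≤ T ^ 2 := by positivity
  have hs1 : T ^ 2 ≤ 1 := pow_le_one₀ hT0.le hT1.le
  have hRs0 : 0 ≤ Rs := hR.trans hR1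
  have hX1 : 39 * C * ω * T ^ 2 ≤ 4.602 * C * T ^ 2 := by
    have : 39 * C * ω ≤ 39 * C * 0.118 := mul_le_mul_of_nonneg_left hω2 (by positivity)
    exact mul_le_mul_of_nonneg_right (by linarith only [this]) hs0
  have hER : |41 * E - R| ≤ 46.1 * Rs + 2075.6 * (C * T ^ 2 * φ) := by
    have h1 : |41 * E - R| ≤ 41 * |E| + R := by
      have := abs_sub (41 * E) R
      rw [abs_mul, abs_of_nonneg hR] at this
      norm_num at this
      exact this
    have h3 : 11 * (39 * C * ω * T ^ 2) * φ ≤ 11 * (4.602 * C * T ^ 2) * φ :=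
      mul_le_mul_of_nonneg_right (by linarith only [hX1]) hφ.le
    linarith only [hC, hφ, hR1, hE, hs0, h1, h3, mul_nonneg (mul_nonneg hC.le hs0) hφ.le]
  have hb : |U - 39 / 20 * (T * C)| ≤ 0.2232 * (T * C) := by
    have h1 : U - 39 / 20 * (T * C) = (T * C) * (k - 1.95 + k * δ') := by rw [hU1]; ring
    rw [h1, abs_mul, abs_of_pos (by positivity : 0 < T * C)]
    have h2 : |k - 1.95 + k * δ'| ≤ 0.2232 := k_bound hk1 hk2 hδ1'
    have := mul_le_mul_of_nonneg_left h2 (by positivity : 0 ≤ T * C)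
    linarith only [this]
  have hCφ : C * T * φ ≤ v / 1000 := by
    have h0 : 0 < BV := by linarith only [hT0, hT1, hBV1]
    have h1 : (C * T * φ) * BV = B * v := by rw [← hrel]; ring
    have h2 : B * v ≤ BV / 1000 * v := mul_le_mul_of_nonneg_right (by linarith only [hBV]) hv.le
    have h3 : (C * T * φ) * BV ≤ (v / 1000) * BV := by rw [h1]; linarith only [h2]
    exact le_of_mul_le_mul_right h3 h0
  have hTR : T * Rs ≤ v / 90 := by
    have h1 : T ≤ 10 / 9 * v := by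
      have : 1 * T ≤ BV * T := mul_le_mul_of_nonneg_right hBV1 hT0.le
      linarith only [hv2, this]
    have h2 : T * Rs ≤ 10 / 9 * v * (1 / 100) := mul_le_mul h1 hRs hRs0 (by positivity)
    linarith only [h2]
  rw [abs_mul, abs_mul]
  have h1 : |(2 : ℝ)| * |U - 39 / 20 * (T * C)| ≤ 2 * (0.2232 * (T * C)) := by
    rw [abs_of_pos (by norm_num : (0 : ℝ) < 2)]; linarith only [hb]
  calc |(2 : ℝ)| * |U - 39 / 20 * (T * C)| * |41 * E - R|
      ≤ 2 * (0.2232 * (T * C)) * (46.1 * Rs + 2075.6 * (C * T ^ 2 * φ)) :=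
        mul_le_mul h1 hER (abs_nonneg _) (by positivity)
    _ = 0.4464 * C * (46.1 * (T * Rs) + 2075.6 * T ^ 2 * (C * T * φ)) := by ring
    _ ≤ 0.4464 * C * (46.1 * (v / 90) + 2075.6 * 1 * (v / 1000)) := by
        refine mul_le_mul_of_nonneg_left ?_ (by positivity)
        have h2 : 2075.6 * T ^ 2 * (C * T * φ) ≤ 2075.6 * 1 * (v / 1000) :=
          mul_le_mul (by linarith only [hs1]) hCφ (by positivity) (by norm_num)
        linarith only [hTR, h2]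
    _ ≤ 1.16 * C * v := by
        have : 0 < C * v := mul_pos hC hv
        linarith only [this]

/-- combination -/
lemma comb_part {A W L1 L2 C v M r E F K : ℝ} (hr2 : 0 < r ^ 2) (hv : 0 < v) (hC : 1 ≤ C)
    (hM : 0 ≤ M) (h1 : 3.539 * C ≤ K * L1 - A - L2 * W + 20 * W)
    (h2 : |E| * r ^ 2 ≤ 0.0011 + 0.0051 * C) (h3 : |F| ≤ 1.16 * C * v) :
    ((A - 20 * W) / r ^ 2 + 2 * E) * v + |F / r ^ 2|
      < v * M + v * L1 * (K / r ^ 2) - v * L2 * (W / r ^ 2) := by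
  have hr : r ≠ 0 := by rintro rfl; simp at hr2
  have h4 : ((A - 20 * W) / r ^ 2 + 2 * E) * v + |F / r ^ 2| ≤
      (v * (A - 20 * W) + 2 * (|E| * r ^ 2) * v + |F|) / r ^ 2 := by
    have h5 : (v * (A - 20 * W) + 2 * (|E| * r ^ 2) * v + |F|) / r ^ 2 =
      ((A - 20 * W) / r ^ 2 + 2 * |E|) * v + |F| / r ^ 2 := by
      field_simp
    rw [h5, abs_div, abs_of_pos hr2]
    have h6 := mul_le_mul_of_nonneg_right (le_abs_self E) hv.le
    linarith only [h6]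
  refine lt_of_le_of_lt h4 ?_
  have h6 : v * M + v * L1 * (K / r ^ 2) - v * L2 * (W / r ^ 2) =
      v * M + (v * (K * L1) - v * (L2 * W)) / r ^ 2 := by
    field_simp
    ring
  rw [h6]
  have hfin : v * (A - 20 * W) + 2 * (|E| * r ^ 2) * v + |F| <
      v * (K * L1) - v * (L2 * W) := by
    have h7 : 2 * (|E| * r ^ 2) * v ≤ 2 * (0.0011 + 0.0051 * C) * v :=
      mul_le_mul_of_nonneg_right (by linarith only [h2]) hv.le
    have h8 : v * (3.539 * C) ≤ v * (K * L1 - A - L2 * W + 20 * W) :=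
      mul_le_mul_of_nonneg_left h1 hv.le
    have h9 : v ≤ v * C := le_mul_of_one_le_right hv.le hC
    linarith only [hv, h3, h7, h8, h9]
  have h7 := (div_lt_div_iff_of_pos_right hr2).2 hfin
  have h8 : 0 ≤ v * M := mul_nonneg hv.le hM
  linarith only [h8, h7]

/-- The numerical core of the closure of (b2): all quantities are real numbers.
`T = tanh u`, `C = cosh u`, `G1 = g/T`, `Q = q(u)`, `φ = fb`, `v = Vb`, `M = (1+aλ)/τ`. -/
lemma num_core {T C G1 Q e θ r E R Rs φ v B BV M : ℝ}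
    (hT0 : 0 < T) (hT1 : T < 1) (hC : 1 ≤ C) (hG1 : 2 ≤ G1) (hG2 : G1 ≤ 2.1147)
    (hQ1 : 38 ≤ Q) (hQ2 : Q ≤ 39) (he : |e| ≤ r ^ 2 * φ) (heb : r ^ 2 * φ ≤ 1 / 10 ^ 4)
    (hθ : |θ| ≤ 1 / 10 ^ 3) (hr : 0 < r) (hφ : 0 < φ) (hv : 0 < v)
    (hBV : 1000 * B ≤ BV) (hrel : C * φ * T * BV = B * v)
    (hv2 : 9 / 10 * BV * T ≤ v) (hBV1 : 1 ≤ BV) (hR : 0 ≤ R) (hR1 : R ≤ Rs) (hRs : Rs ≤ 1 / 100)
    (hrRs : r ^ 2 * Rs ≤ 1 / 10 ^ 3)
    (hE : |E| ≤ 1.1 * Rs + 11 * (39 * C / Q * (G1 * T) ^ 2) * φ) (hM : 0 ≤ M) :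
    ((78 * C - 20 * ((39 * C / Q * (1 + θ)) * (G1 * T * (1 - e)) ^ 2)) / r ^ 2 + 2 * E) * v
      + |2 * (((39 * C / Q * (1 + θ)) * (G1 * T * (1 - e)) - 39 / 20 * (T * C)) / r ^ 2)
          * (41 * E - R)|
    < v * M + v * ((1 + 1 / 20) * (1 - T ^ 2) / T + 1 / 20 * T) * (78 * (T * C) / r ^ 2)
      - v * (((1 + 1 / 20) * (1 - T ^ 2) / T + 1 / 20 * T) ^ 2
          + (-((1 + 1 / 20) * (1 - T ^ 2) * (1 + T ^ 2) / T ^ 2) + 1 / 20 * (1 - T ^ 2)))
        * ((39 * C / Q * (1 + θ)) * (G1 * T * (1 - e)) ^ 2 / r ^ 2) := by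
  have hQ0 : 0 < Q := by linarith only [hT0, hT1, hQ1]
  have hC0 : 0 < C := by linarith only [hT0, hT1, hC]
  have hr2 : 0 < r ^ 2 := by positivity
  obtain ⟨hω1, hω2, hk1, hk2⟩ := omega_bounds hG1 hG2 hQ1 hQ2
  have he1 : |e| ≤ 1 / 10 ^ 4 := he.trans heb
  have hδ1 := delta_bound he1 hθ
  have hδ1' := delta_bound' he1 hθ
  have hX : 39 * C / Q * (G1 * T) ^ 2 = 39 * C * (G1 ^ 2 / Q) * T ^ 2 := by
    field_simp
  rw [hX] at hE
  have hW1 : (39 * C / Q * (1 + θ)) * (G1 * T * (1 - e)) ^ 2 =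
      39 * C * (G1 ^ 2 / Q) * T ^ 2 * (1 + ((1 + θ) * (1 - e) ^ 2 - 1)) := by
    field_simp; ring
  have hU1 : (39 * C / Q * (1 + θ)) * (G1 * T * (1 - e)) =
      (39 * G1 / Q) * (T * C) * (1 + ((1 + θ) * (1 - e) - 1)) := by
    field_simp; ring
  have h1 := main_part hT0 hT1 hC0 hω1 hω2 hδ1 hW1
  have h2 := curv_part hT0 hT1 hC0 hω2 hr2 hφ heb hrRs hE
  have h3 := force_part hT0 hT1 hC0 hω2 hk1 hk2 hδ1' hU1 hφ hv hBV hrel hv2 hBV1 hR hR1 hRs hE
  have h4 := comb_part (K := 78 * (T * C)) hr2 hv hC hM h1 h2 h3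
  have h5 : 2 * (((39 * C / Q * (1 + θ)) * (G1 * T * (1 - e)) - 39 / 20 * (T * C)) / r ^ 2)
          * (41 * E - R) =
      2 * ((39 * C / Q * (1 + θ)) * (G1 * T * (1 - e)) - 39 / 20 * (T * C)) * (41 * E - R)
        / r ^ 2 := by ring
  rw [h5]
  exact h4

end

end Vale.Agent.P244.ST.M4c
end

section

/-!
# P244-ST, block M : the touching principle for the functions of Geo.lean
-/

open Set Filter
open scoped ContDiff Topology

namespace Vale.Agent.P244.ST.M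

open Vale.Agent.P244.ST

noncomputable section

/-- one-dimensional second derivative test -/
lemma localMax_deriv2 {h h1 : ℝ → ℝ} {x c : ℝ} (hmax : IsLocalMax h x)
    (h1' : ∀ᶠ y in 𝓝 x, HasDerivAt h (h1 y) y) (h2 : HasDerivAt h1 c x) : c ≤ 0 := by
  by_contra hc
  push Not at hc
  have hz : h1 x = 0 := hmax.hasDerivAt_eq_zero h1'.self_of_nhds
  -- h1 > 0 on a right neighbourhood
  have hpos : ∀ᶠ y in 𝓝[>] x, 0 < h1 y := by
    have := (hasDerivAt_iff_tendsto_slope.mp h2)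
    have h3 : ∀ᶠ y in 𝓝[≠] x, 0 < slope h1 x y := this.eventually (lt_mem_nhds hc)
    have h4 : ∀ᶠ y in 𝓝[>] x, 0 < slope h1 x y :=
      h3.filter_mono (nhdsWithin_mono x (fun y hy => ne_of_gt hy))
    filter_upwards [h4, self_mem_nhdsWithin] with y hy hxy
    rw [slope_def_field, hz, sub_zero] at hy
    have h5 : (0 : ℝ) < y - x := sub_pos.mpr hxy
    exact (div_pos_iff_of_pos_right h5).mp hy
  obtain ⟨δ, hδ, hI⟩ : ∃ δ > 0, ∀ y ∈ Ioo x (x + δ), 0 < h1 y := by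
    rw [eventually_nhdsWithin_iff, Metric.eventually_nhds_iff] at hpos
    obtain ⟨δ, hδ, h5⟩ := hpos
    refine ⟨δ, hδ, fun y hy => h5 ?_ hy.1⟩
    rw [Real.dist_eq, abs_of_pos (sub_pos.mpr hy.1)]; linarith only [hy, hy.2]
  obtain ⟨δ', hδ', hJ⟩ : ∃ δ > 0, ∀ y, |y - x| < δ → HasDerivAt h (h1 y) y := by
    rw [Metric.eventually_nhds_iff] at h1'
    obtain ⟨δ, hδ, h5⟩ := h1'
    exact ⟨δ, hδ, fun y hy => h5 (by rwa [Real.dist_eq])⟩
  obtain ⟨δ'', hδ'', hK⟩ : ∃ δ > 0, ∀ y, |y - x| < δ → h y ≤ h x := by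
    have := Metric.eventually_nhds_iff.mp hmax
    obtain ⟨δ, hδ, h5⟩ := this
    exact ⟨δ, hδ, fun y hy => h5 (by rwa [Real.dist_eq])⟩
  set d := min δ (min δ' δ'') / 2 with hd
  have hd0 : 0 < d := by positivity
  have hd1 : d < δ := by
    have : min δ (min δ' δ'') ≤ δ := min_le_left _ _
    have h6 : 0 < min δ (min δ' δ'') := by positivity
    linarith only [hd, hd0, this]
  have hd2 : d < δ' := by
    have : min δ (min δ' δ'') ≤ δ' := le_trans (min_le_right _ _) (min_le_left _ _)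
    have h6 : 0 < min δ (min δ' δ'') := by positivity
    linarith only [hd, hd0, this]
  have hd3 : d < δ'' := by
    have : min δ (min δ' δ'') ≤ δ'' := le_trans (min_le_right _ _) (min_le_right _ _)
    have h6 : 0 < min δ (min δ' δ'') := by positivity
    linarith only [hd, hd0, this]
  have hmono : StrictMonoOn h (Icc x (x + d)) := by
    refine strictMonoOn_of_deriv_pos (convex_Icc _ _) ?_ ?_
    · intro y hy
      refine (hJ y ?_).continuousAt.continuousWithinAt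
      rw [abs_of_nonneg (sub_nonneg.mpr hy.1)]; linarith only [hd2, hy, hy.2]
    · intro y hy
      rw [interior_Icc] at hy
      have h7 : |y - x| < δ' := by
        rw [abs_of_pos (sub_pos.mpr hy.1)]; linarith only [hd2, hy, hy.2]
      rw [(hJ y h7).deriv]
      exact hI y ⟨hy.1, by linarith only [hd1, hy, hy.2]⟩
  have h8 := hmono (left_mem_Icc.mpr (by linarith only [hd0])) (right_mem_Icc.mpr (by linarith only [hd0]))
    (by linarith only [hd0] : x < x + d)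
  have h9 := hK (x + d) (by rw [add_sub_cancel_left, abs_of_pos hd0]; exact hd3)
  linarith only [h8, h9]

/-- one-sided time derivative test -/
lemma deriv_nonneg_of_le_left {h : ℝ → ℝ} {t c : ℝ} (hd : HasDerivAt h c t)
    (hle : ∀ᶠ s in 𝓝 t, s ≤ t → h s ≤ h t) : 0 ≤ c := by
  by_contra hc
  push Not at hc
  have h1 := hasDerivAt_iff_tendsto_slope.mp hd
  have h3 : ∀ᶠ y in 𝓝[≠] t, slope h t y < 0 := h1.eventually (gt_mem_nhds hc)
  have h4 : ∀ᶠ y in 𝓝[<] t, slope h t y < 0 :=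
    h3.filter_mono (nhdsWithin_mono t (fun y hy => ne_of_lt hy))
  have h5 : ∀ᶠ y in 𝓝[<] t, y ≤ t → h y ≤ h t := hle.filter_mono nhdsWithin_le_nhds
  obtain ⟨y, hy1, hy2, hy3⟩ := (h4.and (h5.and self_mem_nhdsWithin)).exists
  rw [slope_def_field] at hy1
  have h6 : y - t < 0 := sub_neg.mpr hy3
  have h7 := hy2 (le_of_lt hy3)
  have h8 : 0 ≤ (h y - h t) / (y - t) := div_nonneg_of_nonpos (by linarith only [h7]) h6.le
  linarith only [hy1, h8]

/-- sections of a `C²` function -/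
lemma sec_x {H : Fn} {t x : ℝ} (hH : ContDiffAt ℝ 2 (fun z : ℝ × ℝ => H z.1 z.2) (t, x)) :
    ContDiffAt ℝ 2 (H t) x := by
  have h1 : ContDiffAt ℝ 2 (fun y : ℝ => ((t, y) : ℝ × ℝ)) x :=
    contDiffAt_const.prodMk contDiffAt_id
  exact ContDiffAt.comp x (f := fun y : ℝ => ((t, y) : ℝ × ℝ))
    (g := fun z : ℝ × ℝ => H z.1 z.2) hH h1

lemma sec_t {H : Fn} {t x : ℝ} (hH : ContDiffAt ℝ 2 (fun z : ℝ × ℝ => H z.1 z.2) (t, x)) :
    ContDiffAt ℝ 2 (fun s => H s x) t := by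
  have h1 : ContDiffAt ℝ 2 (fun s : ℝ => ((s, x) : ℝ × ℝ)) t :=
    contDiffAt_id.prodMk contDiffAt_const
  exact ContDiffAt.comp t (f := fun s : ℝ => ((s, x) : ℝ × ℝ))
    (g := fun z : ℝ × ℝ => H z.1 z.2) hH h1

/-- the touching lemma in `(t,x)` coordinates -/
theorem touch_coord {H : Fn} {t x : ℝ}
    (hH : ContDiffAt ℝ 2 (fun z : ℝ × ℝ => H z.1 z.2) (t, x)) (h0 : H t x = 0)
    (hle : ∀ᶠ z : ℝ × ℝ in 𝓝 (t, x), z.1 ≤ t → H z.1 z.2 ≤ 0) :
    Dx H t x = 0 ∧ Dx (Dx H) t x ≤ 0 ∧ 0 ≤ Dt H t x := by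
  have hx := sec_x hH
  have ht := sec_t hH
  have hle1 : ∀ᶠ y in 𝓝 x, H t y ≤ H t x := by
    have hc : ContinuousAt (fun y : ℝ => ((t, y) : ℝ × ℝ)) x := by fun_prop
    have := hc.eventually hle
    filter_upwards [this] with y hy
    rw [h0]; exact hy le_rfl
  have hle2 : ∀ᶠ s in 𝓝 t, s ≤ t → H s x ≤ H t x := by
    have hc : ContinuousAt (fun s : ℝ => ((s, x) : ℝ × ℝ)) t := by fun_prop
    have := hc.eventually hle
    filter_upwards [this] with y hy hyt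
    rw [h0]; exact hy hyt
  have hev : ∀ᶠ y in 𝓝 x, ContDiffAt ℝ 2 (H t) y := hx.eventually (by simp)
  have hmax : IsLocalMax (H t) x := hle1
  have hD1 : ∀ᶠ y in 𝓝 x, HasDerivAt (H t) (Dx H t y) y := by
    filter_upwards [hev] with y hy
    exact (hy.differentiableAt (by norm_num)).hasDerivAt
  have hD2 : HasDerivAt (Dx H t) (Dx (Dx H) t x) x := by
    have h1 : ContDiffAt ℝ 1 (deriv (H t)) x := by
      have h2 : ContDiffAt ℝ 1 (fun y => fderiv ℝ (H t) y 1) x := by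
        have h3 : ContDiffAt ℝ 1 (fderiv ℝ (H t)) x :=
          hx.fderiv_right (m := 1) (by norm_num)
        exact h3.clm_apply contDiffAt_const
      exact h2
    exact (h1.differentiableAt (by norm_num)).hasDerivAt
  refine ⟨hmax.deriv_eq_zero, localMax_deriv2 hmax hD1 hD2, ?_⟩
  exact deriv_nonneg_of_le_left (ht.differentiableAt (by norm_num)).hasDerivAt hle2

/-- smoothness of `w` at interior points -/
lemma smooth_w_at {w f : Fn} {T t x : ℝ} (hs : ConfSol 20 w f T) (ht : t ∈ Ioo 0 T)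
    (hx : x ∈ Ioo (-1 : ℝ) 1) : ContDiffAt ℝ ∞ (fun z : ℝ × ℝ => w z.1 z.2) (t, x) := by
  refine (hs.smooth_w (t, x) ⟨Ioo_subset_Ico_self ht, Ioo_subset_Icc_self hx⟩).contDiffAt ?_
  exact prod_mem_nhds (Ico_mem_nhds ht.1 ht.2) (Icc_mem_nhds hx.1 hx.2)

lemma smooth_f_at {w f : Fn} {T t x : ℝ} (hs : ConfSol 20 w f T) (ht : t ∈ Ioo 0 T)
    (hx : x ∈ Ioo (-1 : ℝ) 1) : ContDiffAt ℝ ∞ (fun z : ℝ × ℝ => f z.1 z.2) (t, x) := by
  refine (hs.smooth_f (t, x) ⟨Ioo_subset_Ico_self ht, Ioo_subset_Icc_self hx⟩).contDiffAt ?_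
  exact prod_mem_nhds (Ico_mem_nhds ht.1 ht.2) (Icc_mem_nhds hx.1 hx.2)

/-- `w` is smooth in `x`, also at `t = 0` -/
lemma smooth_wx_at {w f : Fn} {T t x : ℝ} (hs : ConfSol 20 w f T) (ht : t ∈ Ico 0 T)
    (hx : x ∈ Ioo (-1 : ℝ) 1) : ContDiffAt ℝ ∞ (w t) x := by
  have h1 : ContDiffOn ℝ ∞ (w t) (Icc (-1) 1) := by
    have h2 : ContDiffOn ℝ ∞ (fun y : ℝ => ((t, y) : ℝ × ℝ)) (Icc (-1) 1) :=
      (contDiff_const.prodMk contDiff_id).contDiffOn
    exact hs.smooth_w.comp h2 (fun y hy => ⟨ht, hy⟩)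
  exact (h1 x (Ioo_subset_Icc_self hx)).contDiffAt (Icc_mem_nhds hx.1 hx.2)

lemma one_sub_sq_pos {x : ℝ} (hx : x ∈ Ioo (-1 : ℝ) 1) : 0 < 1 - x ^ 2 := by
  nlinarith only [hx, hx.1, hx.2]

/-- **Touching lemma** (interior points, positive times): `H ≤ 0` up to time `t` near `(t,x)`,
with equality at `(t,x)`. -/
theorem touch {w f H : Fn} {T t x : ℝ} (hs : ConfSol 20 w f T) (ht : t ∈ Ioo 0 T)
    (hx : x ∈ Ioo (-1 : ℝ) 1)
    (hH : ContDiffAt ℝ 2 (fun z : ℝ × ℝ => H z.1 z.2) (t, x)) (h0 : H t x = 0)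
    (hle : ∀ᶠ z : ℝ × ℝ in 𝓝 (t, x), z.1 ≤ t → H z.1 z.2 ≤ 0) :
    Dx H t x = 0 ∧ Ds w H t x = 0 ∧ Ds w (Ds w H) t x ≤ 0 ∧ Lp w f H t x ≤ 0 ∧
      0 ≤ Dt H t x ∧ 0 ≤ DT w f H t x ∧ 0 ≤ DT w f H t x - Lp w f H t x := by
  obtain ⟨h1, h2, h3⟩ := touch_coord hH h0 hle
  have e1 : Ds w H t x = 0 := by rw [Ds, h1, mul_zero]
  have hxx := one_sub_sq_pos hx
  have e2 : Ds w (Ds w H) t x ≤ 0 := by
    -- derivative of the product at `x`
    have hw := smooth_wx_at hs (Ioo_subset_Ico_self ht) hx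
    have hsec := sec_x hH
    have hD2 : HasDerivAt (Dx H t) (Dx (Dx H) t x) x := by
      have h1 : ContDiffAt ℝ 1 (deriv (H t)) x := by
        have h2 : ContDiffAt ℝ 1 (fun y => fderiv ℝ (H t) y 1) x := by
          have h3 : ContDiffAt ℝ 1 (fderiv ℝ (H t)) x :=
            hsec.fderiv_right (m := 1) (by norm_num)
          exact h3.clm_apply contDiffAt_const
        exact h2
      exact (h1.differentiableAt (by norm_num)).hasDerivAt
    have hA : DifferentiableAt ℝ (fun y => -(sx y * Real.exp (-w t y))) x := by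
      have hsx : DifferentiableAt ℝ sx x := by
        unfold sx
        exact DifferentiableAt.sqrt (by fun_prop) hxx.ne'
      have hww : DifferentiableAt ℝ (w t) x := hw.differentiableAt (by norm_num)
      exact (hsx.mul hww.neg.exp).neg
    have hD : HasDerivAt (fun y => -(sx y * Real.exp (-w t y)) * Dx H t y)
        (deriv (fun y => -(sx y * Real.exp (-w t y))) x * Dx H t x +
          -(sx x * Real.exp (-w t x)) * Dx (Dx H) t x) x := hA.hasDerivAt.mul hD2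
    have e3 : Dx (Ds w H) t x = -(sx x * Real.exp (-w t x)) * Dx (Dx H) t x := by
      have : Dx (Ds w H) t x = deriv (fun y => -(sx y * Real.exp (-w t y)) * Dx H t y) x := rfl
      rw [this, hD.deriv, h1, mul_zero, zero_add]
    rw [Ds, e3]
    have e4 : -(sx x * Real.exp (-w t x)) * (-(sx x * Real.exp (-w t x)) * Dx (Dx H) t x) =
        (sx x * Real.exp (-w t x)) ^ 2 * Dx (Dx H) t x := by ring
    rw [e4]
    exact mul_nonpos_of_nonneg_of_nonpos (sq_nonneg _) h2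
  have e3 : Lp w f H t x ≤ 0 := by
    rw [Lp, e1, mul_zero, add_zero]; exact e2
  have e4 : 0 ≤ DT w f H t x := by
    rw [DT, h1, mul_zero, sub_zero]; exact h3
  exact ⟨h1, e1, e2, e3, h3, e4, by linarith only [e3, e4]⟩

end

end Vale.Agent.P244.ST.M
end

section

/-!
# P244-ST, block C2, part 3: the barrier of `R` is bounded (helper264)
-/

open Set Filter Topology
open scoped ContDiff

namespace Vale.Agent.P244.ST.C2

/-- the variable term of the barrier `RB` -/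
noncomputable def TT (t r u : ℝ) : ℝ :=
  r ^ 2 * (Real.cosh u - 1) * (tau t + r ^ 2 / 100) ^ (-gam)

theorem RB_eq (q : Par) (t r u : ℝ) :
    q.RB t r u = q.eta * (1 + t) + q.GR * q.eps ^ (-(2 * aa)) * TT t r u := by
  unfold Par.RB TT
  ring

theorem eta_nonneg (q : Par) : 0 ≤ q.eta := by unfold Par.eta; positivity

theorem RB_le {q : Par} (hGR : 0 ≤ q.GR) (heps : 0 ≤ q.eps) {t r u C : ℝ} (ht : t ≤ 1)
    (h : TT t r u ≤ C) : q.RB t r u ≤ 2 * q.eta + q.GR * q.eps ^ (-(2 * aa)) * C := by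
  rw [RB_eq]
  have h1 := eta_nonneg q
  have h2 : 0 ≤ q.GR * q.eps ^ (-(2 * aa)) := mul_nonneg hGR (Real.rpow_nonneg heps _)
  have h3 := mul_le_mul_of_nonneg_left h h2
  linarith only [mul_nonneg (sub_nonneg.2 ht) (sub_nonneg.2 h1), h3]

theorem cosh_sub_one_le {u U : ℝ} (hu : |u| ≤ U) :
    Real.cosh u - 1 ≤ Real.cosh U / 2 * u ^ 2 := by
  have h1 : Real.cosh u - 1 = 2 * Real.sinh (|u| / 2) ^ 2 := by
    have h2 := Real.cosh_two_mul (|u| / 2)
    have h3 := Real.cosh_sq (|u| / 2)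
    rw [mul_div_cancel₀ _ (two_ne_zero), Real.cosh_abs] at h2
    linarith only [h2, h3]
  have h4 : Real.sinh (|u| / 2) ≤ |u| / 2 * Real.cosh (|u| / 2) := by
    have h0 : 0 ≤ |u| / 2 := by positivity
    have hm : MonotoneOn (fun x => x * Real.cosh x - Real.sinh x) (Ici 0) := by
      refine monotoneOn_of_deriv_nonneg (convex_Ici 0) (by fun_prop) (by fun_prop) ?_
      intro x hx
      rw [interior_Ici] at hx
      have hd : HasDerivAt (fun x => x * Real.cosh x - Real.sinh x) (x * Real.sinh x) x := by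
        have := ((hasDerivAt_id x).mul (Real.hasDerivAt_cosh x)).sub (Real.hasDerivAt_sinh x)
        refine this.congr_deriv ?_
        simp only [id]
        ring
      rw [hd.deriv]
      exact mul_nonneg (le_of_lt hx) (Real.sinh_nonneg_iff.2 (le_of_lt hx))
    have := hm (mem_Ici.2 le_rfl) (mem_Ici.2 h0) h0
    simp only [Real.sinh_zero, zero_mul, sub_zero] at this
    linarith only [this]
  have h5 : 0 ≤ Real.sinh (|u| / 2) := Real.sinh_nonneg_iff.2 (by positivity)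
  have h6 : Real.sinh (|u| / 2) ^ 2 ≤ (|u| / 2 * Real.cosh (|u| / 2)) ^ 2 :=
    pow_le_pow_left₀ h5 h4 2
  have h7 : Real.cosh (|u| / 2) ^ 2 ≤ Real.cosh U := by
    have h8 := Real.cosh_two_mul (|u| / 2)
    have h9 := Real.cosh_sq (|u| / 2)
    rw [mul_div_cancel₀ _ (two_ne_zero)] at h8
    have h10 : Real.cosh |u| ≤ Real.cosh U := by
      rw [Real.cosh_le_cosh, abs_abs]
      exact hu.trans (le_abs_self U)
    have h11 := Real.one_le_cosh |u|
    linarith only [h8, h9, h10, h11]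
  have h8 : (|u| / 2) ^ 2 = u ^ 2 / 4 := by
    rw [div_pow, sq_abs]
    norm_num
  rw [h1]
  rw [mul_pow, h8] at h6
  linarith only [mul_le_mul_of_nonneg_left h7 (sq_nonneg u), h6]

theorem cosh_sub_one_nonneg (u : ℝ) : 0 ≤ Real.cosh u - 1 := by
  linarith only [Real.one_le_cosh u]

theorem lam3_bounds : 1.9426 < lam 3 ∧ lam 3 < 1.9428 := by
  have h1 := M2.kap_lt
  have h2 := M2.kap_gt
  unfold lam
  push_cast
  constructor <;> linarith only [h1, h2]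

theorem gam_bounds : 2.1942 < gam ∧ gam < 2.1943 := by
  have h := lam3_bounds
  unfold gam aa
  constructor <;> linarith only [h.2, h.1]

theorem bb_bounds : 3.8853 ≤ bb ∧ bb ≤ 3.8854 := by
  have h1 := M2.kap_lt
  have h2 := M2.kap_gt
  unfold bb
  constructor <;> linarith only [h1, h2]

/-- comparison with a pure power of `τ` -/
theorem TT_le_tau {t r u K s : ℝ} (hτ : 0 < tau t) (hτ1 : tau t ≤ 1) (hK : 0 ≤ K)
    (hs : gam ≤ s) (h : r ^ 2 * (Real.cosh u - 1) ≤ K * tau t ^ s) : TT t r u ≤ K := by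
  have h1 : (tau t + r ^ 2 / 100) ^ (-gam) ≤ tau t ^ (-gam) := by
    refine Real.rpow_le_rpow_of_nonpos hτ ?_ (by linarith only [gam_bounds.1])
    linarith only [sq_nonneg r]
  have h2 : 0 ≤ r ^ 2 * (Real.cosh u - 1) := mul_nonneg (sq_nonneg _) (cosh_sub_one_nonneg u)
  calc TT t r u = r ^ 2 * (Real.cosh u - 1) * (tau t + r ^ 2 / 100) ^ (-gam) := rfl
    _ ≤ (K * tau t ^ s) * tau t ^ (-gam) := by
        refine mul_le_mul h h1 ?_ ?_
        · exact Real.rpow_nonneg (by positivity) _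
        · exact mul_nonneg hK (Real.rpow_nonneg hτ.le _)
    _ = K * tau t ^ (s - gam) := by
        rw [mul_assoc, ← Real.rpow_add hτ, ← sub_eq_add_neg]
    _ ≤ K * 1 := mul_le_mul_of_nonneg_left
        (Real.rpow_le_one hτ.le hτ1 (by linarith only [hs])) hK
    _ = K := mul_one K

/-- region II -/
theorem TT_II {q : Par} {t r u : ℝ} (hτ : 0 < tau t) (hτ1 : tau t ≤ 1) (heps : 0 ≤ q.eps)
    (hMU : 0 ≤ q.MU) (hr0 : 0 ≤ r) (hr : r / Real.sqrt (tau t) ≤ 25) (hu : |u| ≤ q.MU * q.A t) :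
    TT t r u ≤ 625 * (Real.cosh (q.MU * q.eps) / 2 * (q.MU * q.eps) ^ 2) := by
  have hs := Real.sqrt_pos.2 hτ
  have hl := lam3_bounds
  have hA0 : 0 ≤ q.A t := mul_nonneg heps (Real.rpow_nonneg hτ.le _)
  have hA1 : q.A t ≤ q.eps := by
    have := Real.rpow_le_one hτ.le hτ1 (z := lam 3) (by linarith only [hl.1])
    unfold Par.A
    linarith only [mul_nonneg (sub_nonneg.2 heps) (sub_nonneg.2 this)]
  have hr2 : r ^ 2 ≤ 625 * tau t := by
    rw [div_le_iff₀ hs] at hr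
    have h1 := Real.sq_sqrt hτ.le
    linarith only [mul_nonneg (sub_nonneg.2 hr) (sub_nonneg.2 hr), mul_nonneg (sub_nonneg.2 hr0) (sub_nonneg.2 hr), h1]
  have hc := cosh_sub_one_le (u := u) (U := q.MU * q.eps)
    (hu.trans (mul_le_mul_of_nonneg_left hA1 hMU))
  have hu2 : u ^ 2 ≤ (q.MU * q.A t) ^ 2 := by
    rw [← sq_abs u]
    exact pow_le_pow_left₀ (abs_nonneg u) hu 2
  have hcp := Real.cosh_pos (q.MU * q.eps)
  refine TT_le_tau (s := 1 + 2 * lam 3) hτ hτ1 (by positivity) ?_ ?_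
  · linarith only [gam_bounds.2, hl.1]
  · have h3 : tau t ^ (1 + 2 * lam 3) = tau t * (tau t ^ lam 3) ^ 2 := by
      rw [Real.rpow_add hτ, Real.rpow_one, mul_comm (2 : ℝ), Real.rpow_mul hτ.le,
        Real.rpow_two]
    have h4 : Real.cosh u - 1 ≤ Real.cosh (q.MU * q.eps) / 2 * (q.MU * q.A t) ^ 2 :=
      hc.trans (mul_le_mul_of_nonneg_left hu2 (by positivity))
    calc r ^ 2 * (Real.cosh u - 1)
        ≤ 625 * tau t * (Real.cosh (q.MU * q.eps) / 2 * (q.MU * q.A t) ^ 2) :=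
          mul_le_mul hr2 h4 (cosh_sub_one_nonneg u) (by positivity)
      _ = _ := by
          rw [h3]
          unfold Par.A
          ring

/-- region III -/
theorem TT_III {q : Par} {t r u R : ℝ} (hτ : 0 < tau t) (heps : 0 ≤ q.eps)
    (hCU : 0 ≤ q.CU) (hr0 : 0 < r) (hrR : r ≤ R) (hu : |u| ≤ q.UB t r) :
    TT t r u ≤ Real.cosh (q.CU * q.eps * R ^ bb) / 2 * (q.CU * q.eps) ^ 2 * 100 ^ gam *
      R ^ (2 + 2 * bb - 2 * gam) := by
  have hb := bb_bounds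
  have hg := gam_bounds
  have h1 : |u| ≤ q.CU * q.eps * r ^ bb := by
    refine hu.trans ?_
    unfold Par.UB
    have : 0 ≤ 300 * tau t * r ^ (bb - 2) := by positivity
    have h2 : 0 ≤ q.CU * q.eps := mul_nonneg hCU heps
    linarith only [mul_nonneg (sub_nonneg.2 this) (sub_nonneg.2 h2)]
  have h2 : |u| ≤ q.CU * q.eps * R ^ bb :=
    h1.trans (mul_le_mul_of_nonneg_left (Real.rpow_le_rpow hr0.le hrR (by linarith only [hb.1]))
      (mul_nonneg hCU heps))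
  have hc := cosh_sub_one_le h2
  have hu2 : u ^ 2 ≤ (q.CU * q.eps * r ^ bb) ^ 2 := by
    rw [← sq_abs u]
    exact pow_le_pow_left₀ (abs_nonneg u) h1 2
  have hcp := Real.cosh_pos (q.CU * q.eps * R ^ bb)
  have h4 : Real.cosh u - 1 ≤ Real.cosh (q.CU * q.eps * R ^ bb) / 2 *
      (q.CU * q.eps * r ^ bb) ^ 2 :=
    hc.trans (mul_le_mul_of_nonneg_left hu2 (by positivity))
  have h5 : (tau t + r ^ 2 / 100) ^ (-gam) ≤ (r ^ 2 / 100) ^ (-gam) := by
    refine Real.rpow_le_rpow_of_nonpos (by positivity) ?_ (by linarith only [hg.1])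
    linarith only [hτ]
  have h6 : (r ^ 2 / 100) ^ (-gam) = 100 ^ gam * r ^ (-(2 * gam)) := by
    rw [Real.div_rpow (by positivity) (by norm_num), ← Real.rpow_natCast r 2,
      ← Real.rpow_mul hr0.le, Real.rpow_neg (by norm_num : (0 : ℝ) ≤ 100), div_inv_eq_mul]
    push_cast
    rw [mul_comm (100 ^ gam)]
    congr 2
    ring
  have h7 : 0 ≤ 100 ^ gam * r ^ (-(2 * gam)) := by positivity
  calc TT t r u = r ^ 2 * (Real.cosh u - 1) * (tau t + r ^ 2 / 100) ^ (-gam) := rfl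
    _ ≤ r ^ 2 * (Real.cosh (q.CU * q.eps * R ^ bb) / 2 * (q.CU * q.eps * r ^ bb) ^ 2) *
        (100 ^ gam * r ^ (-(2 * gam))) := by
        rw [← h6]
        refine mul_le_mul (mul_le_mul_of_nonneg_left h4 (sq_nonneg r)) h5
          (Real.rpow_nonneg (by positivity) _) (by (clear * - hr0; positivity))
    _ = Real.cosh (q.CU * q.eps * R ^ bb) / 2 * (q.CU * q.eps) ^ 2 * 100 ^ gam *
        r ^ (2 + 2 * bb - 2 * gam) := by
        have h8 : r ^ (2 + 2 * bb - 2 * gam) = r ^ 2 * (r ^ bb) ^ 2 * r ^ (-(2 * gam)) := by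
          rw [sub_eq_add_neg, Real.rpow_add hr0, Real.rpow_add hr0, Real.rpow_two,
            mul_comm (2 : ℝ) bb, Real.rpow_mul hr0.le, Real.rpow_two]
        rw [h8]
        ring
    _ ≤ _ := by
        refine mul_le_mul_of_nonneg_left (Real.rpow_le_rpow hr0.le hrR ?_) (by positivity)
        linarith only [hg.2, hb.1]

end Vale.Agent.P244.ST.C2
end

section

/-! P244, block S: evolution of the Laguerre modes and of the remainder (helper155).

`f_s = L f + λ f + g` on `[s0,s1] × (0,∞)`, everything supported in `[z1,z2]`, `0 < z1`. -/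

open MeasureTheory Set Filter Polynomial
open scoped Topology ENNReal

namespace Vale.Agent.P244.ST.Lag

/-! ### general facts on integrals of functions supported in `[z1,z2]` -/

section General

variable {a s0 s1 z1 z2 : ℝ}

theorem aesm_of_continuousOn {h : ℝ → ℝ} (hc : ContinuousOn h (Ioi 0)) :
    AEStronglyMeasurable h (mu a) := by
  unfold mu
  exact (hc.aestronglyMeasurable measurableSet_Ioi).mono_ac (withDensity_absolutelyContinuous _ _)

theorem slice_cont {G : ℝ → ℝ → ℝ}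
    (cG : ContinuousOn (fun p : ℝ × ℝ => G p.1 p.2) (Icc s0 s1 ×ˢ Ioi 0)) {s : ℝ}
    (hs : s ∈ Icc s0 s1) : ContinuousOn (G s) (Ioi 0) :=
  cG.comp (f := fun z : ℝ => (s, z)) (by fun_prop) fun z hz => ⟨hs, hz⟩

theorem slice_cont' {G : ℝ → ℝ → ℝ}
    (cG : ContinuousOn (fun p : ℝ × ℝ => G p.1 p.2) (Icc s0 s1 ×ˢ Ioi 0)) {z : ℝ}
    (hz : 0 < z) : ContinuousOn (fun s => G s z) (Icc s0 s1) :=
  cG.comp (f := fun s : ℝ => (s, z)) (by fun_prop) fun s hs => ⟨hs, hz⟩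

theorem exists_bound (hz1 : 0 < z1) {G : ℝ → ℝ → ℝ}
    (cG : ContinuousOn (fun p : ℝ × ℝ => G p.1 p.2) (Icc s0 s1 ×ˢ Ioi 0))
    (supp : ∀ s ∈ Icc s0 s1, ∀ z, 0 < z → z ∉ Icc z1 z2 → G s z = 0) :
    ∃ C : ℝ, 0 ≤ C ∧ ∀ s ∈ Icc s0 s1, ∀ z, 0 < z → |G s z| ≤ C := by
  have hcomp : IsCompact (Icc s0 s1 ×ˢ Icc z1 z2) := isCompact_Icc.prod isCompact_Icc
  have hsub : Icc s0 s1 ×ˢ Icc z1 z2 ⊆ Icc s0 s1 ×ˢ Ioi (0 : ℝ) := by
    intro p hp
    exact ⟨hp.1, lt_of_lt_of_le hz1 hp.2.1⟩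
  obtain ⟨C, hC⟩ := hcomp.exists_bound_of_continuousOn (cG.mono hsub)
  refine ⟨|C|, abs_nonneg _, fun s hs z hz => ?_⟩
  by_cases h : z ∈ Icc z1 z2
  · have := hC (s, z) ⟨hs, h⟩
    rw [Real.norm_eq_abs] at this
    exact this.trans (le_abs_self _)
  · rw [supp s hs z hz h, abs_zero]
    exact abs_nonneg _

theorem memLp_slice (ha : -1 < a) (hz1 : 0 < z1) {G : ℝ → ℝ → ℝ}
    (cG : ContinuousOn (fun p : ℝ × ℝ => G p.1 p.2) (Icc s0 s1 ×ˢ Ioi 0))
    (supp : ∀ s ∈ Icc s0 s1, ∀ z, 0 < z → z ∉ Icc z1 z2 → G s z = 0) {s : ℝ}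
    (hs : s ∈ Icc s0 s1) : MemLp (G s) 2 (mu a) := by
  have := finite_mu ha
  obtain ⟨C, -, hC⟩ := exists_bound hz1 cG supp
  refine MemLp.of_bound (aesm_of_continuousOn (slice_cont cG hs)) C ?_
  filter_upwards [ae_mu a] with z hz
  exact hC s hs z hz

theorem integrable_slice (ha : -1 < a) (hz1 : 0 < z1) {G : ℝ → ℝ → ℝ}
    (cG : ContinuousOn (fun p : ℝ × ℝ => G p.1 p.2) (Icc s0 s1 ×ˢ Ioi 0))
    (supp : ∀ s ∈ Icc s0 s1, ∀ z, 0 < z → z ∉ Icc z1 z2 → G s z = 0) {s : ℝ}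
    (hs : s ∈ Icc s0 s1) : Integrable (G s) (mu a) := by
  have := finite_mu ha
  exact (memLp_slice ha hz1 cG supp hs).integrable (by norm_num)

theorem continuousOn_int (ha : -1 < a) (hz1 : 0 < z1) {G : ℝ → ℝ → ℝ}
    (cG : ContinuousOn (fun p : ℝ × ℝ => G p.1 p.2) (Icc s0 s1 ×ˢ Ioi 0))
    (supp : ∀ s ∈ Icc s0 s1, ∀ z, 0 < z → z ∉ Icc z1 z2 → G s z = 0) :
    ContinuousOn (fun s => ∫ z, G s z ∂(mu a)) (Icc s0 s1) := by
  have := finite_mu ha
  obtain ⟨C, -, hC⟩ := exists_bound hz1 cG supp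
  refine continuousOn_of_dominated (bound := fun _ => C) (fun s hs => ?_) (fun s hs => ?_)
    (integrable_const _) ?_
  · exact aesm_of_continuousOn (slice_cont cG hs)
  · filter_upwards [ae_mu a] with z hz
    exact hC s hs z hz
  · filter_upwards [ae_mu a] with z hz
    exact slice_cont' cG hz

theorem hasDerivAt_int (ha : -1 < a) (hz1 : 0 < z1) {G G' : ℝ → ℝ → ℝ}
    (cG : ContinuousOn (fun p : ℝ × ℝ => G p.1 p.2) (Icc s0 s1 ×ˢ Ioi 0))
    (cG' : ContinuousOn (fun p : ℝ × ℝ => G' p.1 p.2) (Icc s0 s1 ×ˢ Ioi 0))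
    (d : ∀ s ∈ Ioo s0 s1, ∀ z, 0 < z → HasDerivAt (fun s => G s z) (G' s z) s)
    (supp : ∀ s ∈ Icc s0 s1, ∀ z, 0 < z → z ∉ Icc z1 z2 → G s z = 0)
    (supp' : ∀ s ∈ Icc s0 s1, ∀ z, 0 < z → z ∉ Icc z1 z2 → G' s z = 0) {s : ℝ}
    (hs : s ∈ Ioo s0 s1) :
    HasDerivAt (fun s => ∫ z, G s z ∂(mu a)) (∫ z, G' s z ∂(mu a)) s := by
  have := finite_mu ha
  obtain ⟨C, -, hC⟩ := exists_bound hz1 cG' supp'
  have hn : Ioo s0 s1 ∈ 𝓝 s := Ioo_mem_nhds hs.1 hs.2
  have hsI : s ∈ Icc s0 s1 := Ioo_subset_Icc_self hs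
  refine (hasDerivAt_integral_of_dominated_loc_of_deriv_le (μ := mu a) (F := G) (F' := G')
    (bound := fun _ => C) (s := Ioo s0 s1) hn ?_ ?_ ?_ ?_ (integrable_const _) ?_).2
  · filter_upwards [hn] with t ht
    exact aesm_of_continuousOn (slice_cont cG (Ioo_subset_Icc_self ht))
  · exact integrable_slice ha hz1 cG supp hsI
  · exact aesm_of_continuousOn (slice_cont cG' hsI)
  · filter_upwards [ae_mu a] with z hz t ht
    exact hC t (Ioo_subset_Icc_self ht) z hz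
  · filter_upwards [ae_mu a] with z hz t ht
    exact d t ht z hz

/-- an integral against `mu a` of a function supported in `[z1,z2]` as an interval integral -/
theorem int_mu_eq (hz1 : 0 < z1) (hz : z1 ≤ z2) {h : ℝ → ℝ}
    (supp : ∀ z, 0 < z → z ∉ Icc z1 z2 → h z = 0) :
    ∫ z, h z ∂(mu a) = ∫ z in (z1 / 2)..(z2 + 1), h z * (z ^ a * Real.exp (-z)) := by
  rw [integral_mu, intervalIntegral.integral_of_le (by linarith only [hz1, hz])]
  apply setIntegral_eq_of_subset_of_forall_sdiff_eq_zero measurableSet_Ioi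
  · intro z hz'
    exact lt_trans (by linarith only [hz1]) hz'.1
  · intro z hz'
    rw [supp z hz'.1, zero_mul]
    intro h1
    exact hz'.2 ⟨by linarith only [hz1, h1, h1.1], by linarith only [h1, h1.2]⟩

theorem int3 {u v w : ℝ → ℝ} (hu : Integrable u (mu a)) (hv : Integrable v (mu a))
    (hw : Integrable w (mu a)) :
    ∫ z, (u z + (v z + w z)) ∂(mu a)
      = ∫ z, u z ∂(mu a) + (∫ z, v z ∂(mu a) + ∫ z, w z ∂(mu a)) := by
  have h : Integrable (fun z => v z + w z) (mu a) := hv.add hw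
  rw [integral_add hu h, integral_add hv hw]

/-- integration by parts against a polynomial -/
theorem ibp_Lp (hz1 : 0 < z1) (hz : z1 ≤ z2) {φ φ1 φ2 : ℝ → ℝ}
    (d1 : ∀ z, 0 < z → HasDerivAt φ (φ1 z) z) (d2 : ∀ z, 0 < z → HasDerivAt φ1 (φ2 z) z)
    (c2 : ContinuousOn φ2 (Ioi 0)) (supp : ∀ z, 0 < z → z ∉ Icc z1 z2 → φ z = 0)
    (supp1 : ∀ z, 0 < z → z ∉ Icc z1 z2 → φ1 z = 0)
    (supp2 : ∀ z, 0 < z → z ∉ Icc z1 z2 → φ2 z = 0) (p : ℝ[X]) :
    ∫ z, (z * φ2 z + (a + 1 - z) * φ1 z) * p.eval z ∂(mu a)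
      = ∫ z, φ z * (Lp a p).eval z ∂(mu a) := by
  have c1 : ContinuousOn φ1 (Ioi 0) := fun z hz => (d2 z hz).continuousAt.continuousWithinAt
  have c0 : ContinuousOn φ (Ioi 0) := fun z hz => (d1 z hz).continuousAt.continuousWithinAt
  rw [int_mu_eq hz1 hz (h := fun z => (z * φ2 z + (a + 1 - z) * φ1 z) * p.eval z)
    (fun z h0 h => by rw [supp1 z h0 h, supp2 z h0 h]; ring),
    int_mu_eq hz1 hz (h := fun z => φ z * (Lp a p).eval z)
    (fun z h0 h => by rw [supp z h0 h]; ring)]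
  have hpos : ∀ z ∈ Set.uIcc (z1 / 2) (z2 + 1), 0 < z := by
    intro z h
    rw [Set.uIcc_of_le (by linarith only [hz1, hz])] at h
    linarith only [hz1, h, h.1]
  have hsub : Set.uIcc (z1 / 2) (z2 + 1) ⊆ Ioi 0 := hpos
  have cw : ContinuousOn (fun z : ℝ => z ^ a * Real.exp (-z)) (Ioi 0) := by
    refine ContinuousOn.mul ?_ (by fun_prop)
    exact ContinuousOn.rpow_const continuousOn_id fun z hz => Or.inl (ne_of_gt hz)
  have cp : ∀ q : ℝ[X], ContinuousOn (fun z => q.eval z) (Ioi 0) := fun q => by fun_prop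
  have i1 : IntervalIntegrable (fun z => (z * φ2 z + (a + 1 - z) * φ1 z) * p.eval z
      * (z ^ a * Real.exp (-z))) volume (z1 / 2) (z2 + 1) := by
    apply ContinuousOn.intervalIntegrable
    refine ContinuousOn.mono ?_ hsub
    exact ((((continuousOn_id).mul c2).add ((by fun_prop : ContinuousOn (fun z : ℝ => a + 1 - z)
      (Ioi 0)).mul c1)).mul (cp p)).mul cw
  have i2 : IntervalIntegrable (fun z => φ z * (Lp a p).eval z
      * (z ^ a * Real.exp (-z))) volume (z1 / 2) (z2 + 1) := by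
    apply ContinuousOn.intervalIntegrable
    refine ContinuousOn.mono ?_ hsub
    exact (c0.mul (cp _)).mul cw
  rw [← sub_eq_zero, ← intervalIntegral.integral_sub i1 i2]
  set W : ℝ → ℝ := fun z => z ^ (a + 1) * Real.exp (-z)
    * (φ1 z * p.eval z - φ z * (derivative p).eval z) with hW
  have hder : ∀ z ∈ Set.uIcc (z1 / 2) (z2 + 1), HasDerivAt W
      ((z * φ2 z + (a + 1 - z) * φ1 z) * p.eval z * (z ^ a * Real.exp (-z))
        - φ z * (Lp a p).eval z * (z ^ a * Real.exp (-z))) z := by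
    intro z hzm
    have h0 := hpos z hzm
    have e1 : HasDerivAt (fun z : ℝ => z ^ (a + 1)) ((a + 1) * z ^ (a + 1 - 1)) z :=
      Real.hasDerivAt_rpow_const (Or.inl h0.ne')
    have e2 : HasDerivAt (fun z : ℝ => Real.exp (-z)) (Real.exp (-z) * (-1)) z :=
      (hasDerivAt_neg z).exp
    have e3 := (e1.mul e2).mul (((d2 z h0).mul (p.hasDerivAt z)).sub
      ((d1 z h0).mul ((derivative p).hasDerivAt z)))
    refine e3.congr_deriv ?_
    have e4 : z ^ (a + 1) = z * z ^ a := by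
      rw [Real.rpow_add_one h0.ne']; ring
    have e5 : z ^ (a + 1 - 1) = z ^ a := by rw [add_sub_cancel_right]
    simp only [Lp, eval_add, eval_mul, eval_sub, eval_X, eval_C, e4, e5, Pi.mul_apply,
      Pi.sub_apply]
    ring
  rw [intervalIntegral.integral_eq_sub_of_hasDerivAt hder (i1.sub i2)]
  have hb1 : z1 / 2 ∉ Icc z1 z2 := fun h => by linarith only [hz1, h, h.1]
  have hb2 : z2 + 1 ∉ Icc z1 z2 := fun h => by linarith [h.2]
  simp only [hW]
  rw [supp _ (by linarith only [hz1]) hb1, supp1 _ (by linarith only [hz1]) hb1, supp _ (by linarith only [hz1, hz]) hb2,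
    supp1 _ (by linarith only [hz1, hz]) hb2]
  ring

end General

/-! ### the evolution lemma -/

/-- `f_s = L f + lam f + g` on `[s0,s1] × (0,∞)`, `L = z ∂² + (a+1-z) ∂`, supports in `[z1,z2]`. -/
structure Evo (a lam s0 s1 z1 z2 : ℝ) (f fs fz fzz g : ℝ → ℝ → ℝ) : Prop where
  ha : -1 < a
  hs : s0 < s1
  hz1 : 0 < z1
  hz : z1 ≤ z2
  cf : ContinuousOn (fun p : ℝ × ℝ => f p.1 p.2) (Icc s0 s1 ×ˢ Ioi 0)
  cfs : ContinuousOn (fun p : ℝ × ℝ => fs p.1 p.2) (Icc s0 s1 ×ˢ Ioi 0)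
  cfz : ContinuousOn (fun p : ℝ × ℝ => fz p.1 p.2) (Icc s0 s1 ×ˢ Ioi 0)
  cfzz : ContinuousOn (fun p : ℝ × ℝ => fzz p.1 p.2) (Icc s0 s1 ×ˢ Ioi 0)
  cg : ContinuousOn (fun p : ℝ × ℝ => g p.1 p.2) (Icc s0 s1 ×ˢ Ioi 0)
  ds : ∀ s ∈ Ioo s0 s1, ∀ z, 0 < z → HasDerivAt (fun s => f s z) (fs s z) s
  dz : ∀ s ∈ Ioo s0 s1, ∀ z, 0 < z → HasDerivAt (fun z => f s z) (fz s z) z
  dzz : ∀ s ∈ Ioo s0 s1, ∀ z, 0 < z → HasDerivAt (fun z => fz s z) (fzz s z) z
  supp : ∀ s ∈ Icc s0 s1, ∀ z, 0 < z → z ∉ Icc z1 z2 → f s z = 0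
  eq : ∀ s ∈ Ioo s0 s1, ∀ z, 0 < z →
    fs s z = z * fzz s z + (a + 1 - z) * fz s z + lam * f s z + g s z

theorem zero_of_Ioo {s0 s1 : ℝ} (hs01 : s0 < s1) {h : ℝ → ℝ} (hc : ContinuousOn h (Icc s0 s1))
    (h0 : ∀ s ∈ Ioo s0 s1, h s = 0) : ∀ s ∈ Icc s0 s1, h s = 0 := by
  intro s hs
  have h1 : s ∈ closure (Ioo s0 s1) := by rwa [closure_Ioo hs01.ne]
  have h2 : Set.EqOn h (fun _ => 0) (Icc s0 s1) := by
    have h3 : Set.EqOn h (fun _ => 0) (Ioo s0 s1) := h0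
    exact h3.of_subset_closure hc continuousOn_const Ioo_subset_Icc_self
      (by rw [closure_Ioo hs01.ne])
  exact h2 hs

namespace Evo

variable {a lam s0 s1 z1 z2 : ℝ} {f fs fz fzz g : ℝ → ℝ → ℝ}
  (E : Evo a lam s0 s1 z1 z2 f fs fz fzz g)
include E

omit E in
theorem nbhd {z : ℝ} (h0 : 0 < z) (h : z ∉ Icc z1 z2) : ∀ᶠ w in 𝓝 z, 0 < w ∧ w ∉ Icc z1 z2 :=
  (lt_mem_nhds h0).and (isClosed_Icc.isOpen_compl.mem_nhds h)

theorem supp_fs : ∀ s ∈ Icc s0 s1, ∀ z, 0 < z → z ∉ Icc z1 z2 → fs s z = 0 := by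
  intro s hs z h0 h
  refine zero_of_Ioo E.hs (h := fun s => fs s z) (slice_cont' E.cfs h0) (fun t ht => ?_) s hs
  have h1 : HasDerivAt (fun s => f s z) 0 t := by
    refine (hasDerivAt_const t (0 : ℝ)).congr_of_eventuallyEq ?_
    filter_upwards [Ioo_mem_nhds ht.1 ht.2] with u hu
    exact E.supp u (Ioo_subset_Icc_self hu) z h0 h
  exact (E.ds t ht z h0).unique h1

theorem supp_fz : ∀ s ∈ Icc s0 s1, ∀ z, 0 < z → z ∉ Icc z1 z2 → fz s z = 0 := by
  intro s hs z h0 h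
  refine zero_of_Ioo E.hs (h := fun s => fz s z) (slice_cont' E.cfz h0) (fun t ht => ?_) s hs
  have h1 : HasDerivAt (fun z => f t z) 0 z := by
    refine (hasDerivAt_const z (0 : ℝ)).congr_of_eventuallyEq ?_
    filter_upwards [Evo.nbhd h0 h] with w hw
    exact E.supp t (Ioo_subset_Icc_self ht) w hw.1 hw.2
  exact (E.dz t ht z h0).unique h1

theorem supp_fzz : ∀ s ∈ Icc s0 s1, ∀ z, 0 < z → z ∉ Icc z1 z2 → fzz s z = 0 := by
  intro s hs z h0 h
  refine zero_of_Ioo E.hs (h := fun s => fzz s z) (slice_cont' E.cfzz h0) (fun t ht => ?_) s hs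
  have h1 : HasDerivAt (fun z => fz t z) 0 z := by
    refine (hasDerivAt_const z (0 : ℝ)).congr_of_eventuallyEq ?_
    filter_upwards [Evo.nbhd h0 h] with w hw
    exact E.supp_fz t (Ioo_subset_Icc_self ht) w hw.1 hw.2
  exact (E.dzz t ht z h0).unique h1

theorem supp_g : ∀ s ∈ Icc s0 s1, ∀ z, 0 < z → z ∉ Icc z1 z2 → g s z = 0 := by
  intro s hs z h0 h
  refine zero_of_Ioo E.hs (h := fun s => g s z) (slice_cont' E.cg h0) (fun t ht => ?_) s hs
  have ht' := Ioo_subset_Icc_self ht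
  have h1 := E.eq t ht z h0
  rw [E.supp_fs t ht' z h0 h, E.supp_fz t ht' z h0 h, E.supp_fzz t ht' z h0 h,
    E.supp t ht' z h0 h] at h1
  show g t z = 0
  linarith only [h1]

/-- the coefficient of `f s` -/
theorem cont_coef (i : ℕ) :
    ContinuousOn (fun s => ∫ z, f s z * (en a i).eval z ∂(mu a)) (Icc s0 s1) := by
  refine continuousOn_int (z2 := z2) E.ha E.hz1 (G := fun s z => f s z * (en a i).eval z) ?_ ?_
  · exact E.cf.mul (by fun_prop)
  · intro s hs z h0 h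
    rw [E.supp s hs z h0 h, zero_mul]

theorem cont_gcoef (i : ℕ) :
    ContinuousOn (fun s => ∫ z, g s z * (en a i).eval z ∂(mu a)) (Icc s0 s1) := by
  refine continuousOn_int (z2 := z2) E.ha E.hz1 (G := fun s z => g s z * (en a i).eval z) ?_ ?_
  · exact E.cg.mul (by fun_prop)
  · intro s hs z h0 h
    rw [E.supp_g s hs z h0 h, zero_mul]

theorem cont_sq : ContinuousOn (fun s => ∫ z, f s z ^ 2 ∂(mu a)) (Icc s0 s1) := by
  refine continuousOn_int (z2 := z2) E.ha E.hz1 (G := fun s z => f s z ^ 2) (E.cf.pow 2) ?_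
  intro s hs z h0 h
  rw [E.supp s hs z h0 h]
  norm_num

theorem cont_gsq : ContinuousOn (fun s => ∫ z, g s z ^ 2 ∂(mu a)) (Icc s0 s1) := by
  refine continuousOn_int (z2 := z2) E.ha E.hz1 (G := fun s z => g s z ^ 2) (E.cg.pow 2) ?_
  intro s hs z h0 h
  rw [E.supp_g s hs z h0 h]
  norm_num

theorem memLp_f {s : ℝ} (hs : s ∈ Icc s0 s1) : MemLp (f s) 2 (mu a) :=
  memLp_slice E.ha E.hz1 E.cf E.supp hs

theorem memLp_g {s : ℝ} (hs : s ∈ Icc s0 s1) : MemLp (g s) 2 (mu a) :=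
  memLp_slice E.ha E.hz1 E.cg E.supp_g hs

/-- the function `-L f` -/
theorem cont_L : ContinuousOn
    (fun p : ℝ × ℝ => p.2 * fzz p.1 p.2 + (a + 1 - p.2) * fz p.1 p.2) (Icc s0 s1 ×ˢ Ioi 0) :=
  ((by fun_prop : ContinuousOn (fun p : ℝ × ℝ => p.2) (Icc s0 s1 ×ˢ Ioi 0)).mul E.cfzz).add
    ((by fun_prop : ContinuousOn (fun p : ℝ × ℝ => a + 1 - p.2) (Icc s0 s1 ×ˢ Ioi 0)).mul E.cfz)

theorem supp_L : ∀ s ∈ Icc s0 s1, ∀ z, 0 < z → z ∉ Icc z1 z2 →
    z * fzz s z + (a + 1 - z) * fz s z = 0 := by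
  intro s hs z h0 h
  rw [E.supp_fz s hs z h0 h, E.supp_fzz s hs z h0 h]
  ring

theorem memLp_L {s : ℝ} (hs : s ∈ Icc s0 s1) :
    MemLp (fun z => z * fzz s z + (a + 1 - z) * fz s z) 2 (mu a) :=
  memLp_slice (G := fun s z => z * fzz s z + (a + 1 - z) * fz s z) E.ha E.hz1 E.cont_L E.supp_L hs

/-- `∫ (L f) e_i = -i ∫ f e_i` -/
theorem L_coef {s : ℝ} (hs : s ∈ Ioo s0 s1) (i : ℕ) :
    ∫ z, (z * fzz s z + (a + 1 - z) * fz s z) * (en a i).eval z ∂(mu a)
      = -(i : ℝ) * ∫ z, f s z * (en a i).eval z ∂(mu a) := by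
  have hs' := Ioo_subset_Icc_self hs
  rw [ibp_Lp E.hz1 E.hz (E.dz s hs) (E.dzz s hs) (slice_cont E.cfzz hs') (E.supp s hs')
    (E.supp_fz s hs') (E.supp_fzz s hs') (en a i), Lp_en E.ha, ← integral_const_mul]
  congr 1
  funext z
  rw [eval_mul, eval_C]
  ring

/-- **the modes**: `c_i' = (lam - i) c_i + g_i` -/
theorem hasDerivAt_coef {s : ℝ} (hs : s ∈ Ioo s0 s1) (i : ℕ) :
    HasDerivAt (fun s => ∫ z, f s z * (en a i).eval z ∂(mu a))
      ((lam - i) * (∫ z, f s z * (en a i).eval z ∂(mu a))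
        + ∫ z, g s z * (en a i).eval z ∂(mu a)) s := by
  have hs' := Ioo_subset_Icc_self hs
  have h := hasDerivAt_int E.ha E.hz1 (G := fun s z => f s z * (en a i).eval z)
    (G' := fun s z => fs s z * (en a i).eval z) (E.cf.mul (by fun_prop)) (E.cfs.mul (by fun_prop))
    (fun t ht z hz => (E.ds t ht z hz).mul_const _)
    (fun t ht z h0 h => by rw [E.supp t ht z h0 h, zero_mul])
    (fun t ht z h0 h => by rw [E.supp_fs t ht z h0 h, zero_mul]) hs
  refine h.congr_deriv ?_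
  have e1 : ∫ z, fs s z * (en a i).eval z ∂(mu a)
      = ∫ z, ((z * fzz s z + (a + 1 - z) * fz s z) * (en a i).eval z
        + (lam * (f s z * (en a i).eval z) + g s z * (en a i).eval z)) ∂(mu a) := by
    apply integral_congr_ae
    filter_upwards [ae_mu a] with z hz
    rw [E.eq s hs z hz]
    ring
  have m := poly_memLp E.ha (en a i)
  have i1 := (E.memLp_L hs').integrable_mul m
  have i2 := (E.memLp_f hs').integrable_mul m
  have i3 := (E.memLp_g hs').integrable_mul m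
  simp only [Pi.mul_def] at i1 i2 i3
  rw [e1, int3 i1 (i2.const_mul lam) i3, integral_const_mul, E.L_coef hs i]
  ring

/-- derivative of the `L²` norm -/
theorem hasDerivAt_sq {s : ℝ} (hs : s ∈ Ioo s0 s1) :
    HasDerivAt (fun s => ∫ z, f s z ^ 2 ∂(mu a))
      (2 * (∫ z, (z * fzz s z + (a + 1 - z) * fz s z) * f s z ∂(mu a))
        + 2 * lam * (∫ z, f s z ^ 2 ∂(mu a)) + 2 * ∫ z, f s z * g s z ∂(mu a)) s := by
  have hs' := Ioo_subset_Icc_self hs
  have h := hasDerivAt_int E.ha E.hz1 (G := fun s z => f s z ^ 2)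
    (G' := fun s z => 2 * (f s z * fs s z)) (E.cf.pow 2)
    (continuousOn_const.mul (E.cf.mul E.cfs))
    (fun t ht z hz => ((E.ds t ht z hz).pow 2).congr_deriv (by norm_num; ring))
    (fun t ht z h0 h => by rw [E.supp t ht z h0 h]; norm_num)
    (fun t ht z h0 h => by rw [E.supp t ht z h0 h]; ring) hs
  refine h.congr_deriv ?_
  have e1 : ∫ z, 2 * (f s z * fs s z) ∂(mu a)
      = ∫ z, (2 * ((z * fzz s z + (a + 1 - z) * fz s z) * f s z)
        + (2 * lam * (f s z ^ 2) + 2 * (f s z * g s z))) ∂(mu a) := by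
    apply integral_congr_ae
    filter_upwards [ae_mu a] with z hz
    rw [E.eq s hs z hz]
    ring
  have i1 := (E.memLp_L hs').integrable_mul (E.memLp_f hs')
  have i2 := (E.memLp_f hs').integrable_sq
  have i3 := (E.memLp_f hs').integrable_mul (E.memLp_g hs')
  simp only [Pi.mul_def] at i1 i3
  rw [e1, int3 (i1.const_mul 2) (i2.const_mul (2 * lam)) (i3.const_mul 2),
    integral_const_mul, integral_const_mul, integral_const_mul]
  ring

end Evo

/-! ### the remainder -/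

/-- the part of `∫ f²` above the first `N` modes -/
noncomputable def rem (a : ℝ) (N : ℕ) (f : ℝ → ℝ) : ℝ :=
  ∫ z, f z ^ 2 ∂(mu a) - ∑ i ∈ Finset.range N, (∫ z, f z * (en a i).eval z ∂(mu a)) ^ 2

/-- the polar form of `rem` -/
noncomputable def remB (a : ℝ) (N : ℕ) (f g : ℝ → ℝ) : ℝ :=
  ∫ z, f z * g z ∂(mu a) - ∑ i ∈ Finset.range N,
    (∫ z, f z * (en a i).eval z ∂(mu a)) * ∫ z, g z * (en a i).eval z ∂(mu a)

theorem rem_nonneg {a : ℝ} (ha : -1 < a) (N : ℕ) {f : ℝ → ℝ} (hf : MemLp f 2 (mu a)) :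
    0 ≤ rem a N f := sub_nonneg.2 (bessel ha hf _)

theorem rem_le {a : ℝ} (N : ℕ) (f : ℝ → ℝ) : rem a N f ≤ ∫ z, f z ^ 2 ∂(mu a) := by
  unfold rem
  have := Finset.sum_nonneg (s := Finset.range N)
    (f := fun i => (∫ z, f z * (en a i).eval z ∂(mu a)) ^ 2) fun _ _ => sq_nonneg _
  linarith only [this]

theorem rem_add_smul {a : ℝ} (ha : -1 < a) (N : ℕ) {f g : ℝ → ℝ} (hf : MemLp f 2 (mu a))
    (hg : MemLp g 2 (mu a)) (t : ℝ) :
    rem a N (fun z => f z + t * g z) = rem a N g * (t * t) + 2 * remB a N f g * t + rem a N f := by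
  have i1 := hf.integrable_sq
  have i2 := hg.integrable_sq
  have i3 := hf.integrable_mul hg
  simp only [Pi.mul_def] at i3
  have e1 : ∫ z, (f z + t * g z) ^ 2 ∂(mu a)
      = ∫ z, f z ^ 2 ∂(mu a) + (2 * t * (∫ z, f z * g z ∂(mu a)) + t * t * ∫ z, g z ^ 2 ∂(mu a)) := by
    have e : ∀ z, (f z + t * g z) ^ 2 = f z ^ 2 + (2 * t * (f z * g z) + t * t * g z ^ 2) := by
      intro z; ring
    simp_rw [e]
    rw [int3 i1 (i3.const_mul _) (i2.const_mul _), integral_const_mul, integral_const_mul]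
  have e2 : ∀ i, ∫ z, (f z + t * g z) * (en a i).eval z ∂(mu a)
      = (∫ z, f z * (en a i).eval z ∂(mu a)) + t * ∫ z, g z * (en a i).eval z ∂(mu a) := by
    intro i
    have m := poly_memLp ha (en a i)
    have j1 := hf.integrable_mul m
    have j2 := hg.integrable_mul m
    simp only [Pi.mul_def] at j1 j2
    have e : ∀ z, (f z + t * g z) * (en a i).eval z
        = f z * (en a i).eval z + t * (g z * (en a i).eval z) := by intro z; ring
    simp_rw [e]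
    rw [integral_add j1 (j2.const_mul _), integral_const_mul]
  unfold rem remB
  rw [e1]
  simp_rw [e2]
  have e3 : ∀ i, ((∫ z, f z * (en a i).eval z ∂(mu a)) + t * ∫ z, g z * (en a i).eval z ∂(mu a)) ^ 2
      = (∫ z, f z * (en a i).eval z ∂(mu a)) ^ 2
        + (2 * t * ((∫ z, f z * (en a i).eval z ∂(mu a)) * ∫ z, g z * (en a i).eval z ∂(mu a))
        + t * t * (∫ z, g z * (en a i).eval z ∂(mu a)) ^ 2) := by intro i; ring
  simp_rw [e3, Finset.sum_add_distrib, ← Finset.mul_sum]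
  ring

/-- Cauchy-Schwarz for the remainder -/
theorem remB_sq_le {a : ℝ} (ha : -1 < a) (N : ℕ) {f g : ℝ → ℝ} (hf : MemLp f 2 (mu a))
    (hg : MemLp g 2 (mu a)) : remB a N f g ^ 2 ≤ rem a N f * rem a N g := by
  have h : ∀ t : ℝ, 0 ≤ rem a N g * (t * t) + 2 * remB a N f g * t + rem a N f := by
    intro t
    rw [← rem_add_smul ha N hf hg t]
    exact rem_nonneg ha N (hf.add (hg.const_mul t))
  have h1 := discrim_le_zero h
  unfold discrim at h1
  linarith only [h1]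

theorem remB_le {a : ℝ} (ha : -1 < a) (N : ℕ) {f g : ℝ → ℝ} (hf : MemLp f 2 (mu a))
    (hg : MemLp g 2 (mu a)) :
    remB a N f g ≤ √(rem a N f) * √(∫ z, g z ^ 2 ∂(mu a)) := by
  rw [← Real.sqrt_mul (rem_nonneg ha N hf)]
  apply Real.le_sqrt_of_sq_le
  exact (remB_sq_le ha N hf hg).trans
    (mul_le_mul_of_nonneg_left (rem_le N g) (rem_nonneg ha N hf))

namespace Evo

variable {a lam s0 s1 z1 z2 : ℝ} {f fs fz fzz g : ℝ → ℝ → ℝ}
  (E : Evo a lam s0 s1 z1 z2 f fs fz fzz g)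
include E

theorem cont_rem (N : ℕ) : ContinuousOn (fun s => rem a N (f s)) (Icc s0 s1) := by
  unfold rem
  exact E.cont_sq.sub (continuousOn_finsetSum _ fun i _ => (E.cont_coef i).pow 2)

/-- **differential inequality for the remainder** -/
theorem hasDerivAt_rem {s : ℝ} (hs : s ∈ Ioo s0 s1) (N : ℕ) :
    ∃ R' : ℝ, HasDerivAt (fun s => rem a N (f s)) R' s ∧
      R' ≤ 2 * (lam - N) * rem a N (f s) + 2 * (√(rem a N (f s)) * √(∫ z, g s z ^ 2 ∂(mu a))) := by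
  have hs' := Ioo_subset_Icc_self hs
  have h1 := E.hasDerivAt_sq hs
  have h2 : HasDerivAt (fun s => ∑ i ∈ Finset.range N,
      (∫ z, f s z * (en a i).eval z ∂(mu a)) ^ 2)
      (∑ i ∈ Finset.range N, 2 * (∫ z, f s z * (en a i).eval z ∂(mu a)) *
        ((lam - i) * (∫ z, f s z * (en a i).eval z ∂(mu a))
          + ∫ z, g s z * (en a i).eval z ∂(mu a))) s := by
    refine HasDerivAt.fun_sum fun i _ => ?_
    exact ((E.hasDerivAt_coef hs i).pow 2).congr_deriv (by norm_num)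
  refine ⟨_, h1.sub h2, ?_⟩
  -- the form inequality for `-L f`
  have h3 := form_lower E.ha (f := f s)
    (g := fun z => -(z * fzz s z + (a + 1 - z) * fz s z)) (lam := fun i => (i : ℝ))
    (E.memLp_f hs') (E.memLp_L hs').neg (fun i => by
      have h4 := E.L_coef hs i
      simp only [neg_mul, integral_neg] at h4 ⊢
      linarith only [h4]) N (K := N) (fun i hi => by exact_mod_cast hi)
  simp only [neg_mul, integral_neg] at h3
  have h5 := remB_le E.ha N (E.memLp_f hs') (E.memLp_g hs')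
  unfold remB at h5
  set c : ℕ → ℝ := fun i => ∫ z, f s z * (en a i).eval z ∂(mu a) with hc
  set γ : ℕ → ℝ := fun i => ∫ z, g s z * (en a i).eval z ∂(mu a) with hγ
  have h6 : rem a N (f s) = ∫ z, f s z ^ 2 ∂(mu a) - ∑ i ∈ Finset.range N, c i ^ 2 := rfl
  have h7 : ∑ i ∈ Finset.range N, 2 * c i * ((lam - i) * c i + γ i)
      = 2 * lam * ∑ i ∈ Finset.range N, c i ^ 2 - 2 * ∑ i ∈ Finset.range N, (i : ℝ) * c i ^ 2
        + 2 * ∑ i ∈ Finset.range N, c i * γ i := by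
    rw [Finset.mul_sum, Finset.mul_sum, Finset.mul_sum, ← Finset.sum_sub_distrib,
      ← Finset.sum_add_distrib]
    refine Finset.sum_congr rfl fun i _ => ?_
    ring
  have h8 : ∑ i ∈ Finset.range N, (i : ℝ) * c i ^ 2 + N * rem a N (f s)
      ≤ -∫ z, (z * fzz s z + (a + 1 - z) * fz s z) * f s z ∂(mu a) := h3
  rw [h7]
  have h9 : ∫ z, f s z ^ 2 ∂(mu a) = rem a N (f s) + ∑ i ∈ Finset.range N, c i ^ 2 := by
    rw [h6]; ring
  rw [h9]
  linarith only [h5, h8, h5, h8]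

end Evo

/-! ### integrated forms -/

theorem prim_deriv {s0 s1 : ℝ} {h : ℝ → ℝ} (hc : ContinuousOn h (Icc s0 s1)) {s : ℝ}
    (hs : s ∈ Ioo s0 s1) : HasDerivAt (fun s => ∫ t in s0..s, h t) (h s) s := by
  have hi : IntervalIntegrable h volume s0 s := by
    apply ContinuousOn.intervalIntegrable
    rw [Set.uIcc_of_le hs.1.le]
    exact hc.mono (Icc_subset_Icc le_rfl hs.2.le)
  refine intervalIntegral.integral_hasDerivAt_right hi ?_
    (hc.continuousAt (Icc_mem_nhds hs.1 hs.2))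
  exact ContinuousOn.stronglyMeasurableAtFilter isOpen_Ioo (hc.mono Ioo_subset_Icc_self) s hs

theorem prim_cont {s0 s1 : ℝ} (h01 : s0 ≤ s1) {h : ℝ → ℝ} (hc : ContinuousOn h (Icc s0 s1)) :
    ContinuousOn (fun s => ∫ t in s0..s, h t) (Icc s0 s1) := by
  have h1 : IntegrableOn h (Set.uIcc s0 s1) volume := by
    rw [Set.uIcc_of_le h01]
    exact hc.integrableOn_Icc
  have h2 := intervalIntegral.continuousOn_primitive_interval h1
  rwa [Set.uIcc_of_le h01] at h2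

/-- Gronwall for square roots -/
theorem sqrt_gronwall {s0 s1 κ : ℝ} {R γ : ℝ → ℝ} (cR : ContinuousOn R (Icc s0 s1))
    (hR : ∀ s ∈ Icc s0 s1, 0 ≤ R s) (cγ : ContinuousOn γ (Icc s0 s1))
    (hγ : ∀ s ∈ Icc s0 s1, 0 ≤ γ s)
    (hd : ∀ s ∈ Ioo s0 s1, ∃ R' : ℝ, HasDerivAt R R' s ∧
      R' ≤ 2 * κ * R s + 2 * (√(R s) * γ s)) {s : ℝ} (hs : s ∈ Icc s0 s1) :
    √(R s) ≤ Real.exp (κ * (s - s0)) * √(R s0)
      + ∫ σ in s0..s, Real.exp (κ * (s - σ)) * γ σ := by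
  have h01 : s0 ≤ s1 := hs.1.trans hs.2
  set Y : ℝ → ℝ := fun σ => Real.exp (-(2 * κ * (σ - s0))) * R σ with hY
  set h : ℝ → ℝ := fun σ => Real.exp (-(κ * (σ - s0))) * γ σ with hh
  have ch : ContinuousOn h (Icc s0 s1) :=
    (by fun_prop : ContinuousOn (fun σ : ℝ => Real.exp (-(κ * (σ - s0)))) (Icc s0 s1)).mul cγ
  have cY : ContinuousOn Y (Icc s0 s1) :=
    (by fun_prop : ContinuousOn (fun σ : ℝ => Real.exp (-(2 * κ * (σ - s0)))) (Icc s0 s1)).mul cR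
  have hYn : ∀ σ ∈ Icc s0 s1, 0 ≤ Y σ := fun σ hσ => mul_nonneg (Real.exp_pos _).le (hR σ hσ)
  have key : ∀ δ : ℝ, 0 < δ → √(Y s + δ) ≤ √(Y s0 + δ) + ∫ σ in s0..s, h σ := by
    intro δ hδ
    have hanti : AntitoneOn (fun σ => √(Y σ + δ) - ∫ t in s0..σ, h t) (Icc s0 s1) := by
      apply antitoneOn_of_deriv_nonpos (convex_Icc _ _)
      · exact ((cY.add continuousOn_const).sqrt).sub (prim_cont h01 ch)
      · intro σ hσ
        rw [interior_Icc] at hσ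
        obtain ⟨R', hR', -⟩ := hd σ hσ
        have hpos : Y σ + δ ≠ 0 := by
          have := hYn σ (Ioo_subset_Icc_self hσ)
          linarith only [hδ, this]
        have e : DifferentiableAt ℝ (fun σ : ℝ => Real.exp (-(2 * κ * (σ - s0)))) σ := by
          fun_prop
        exact (((e.mul hR'.differentiableAt).add_const δ).sqrt hpos |>.sub
          (prim_deriv ch hσ).differentiableAt).differentiableWithinAt
      · intro σ hσ
        rw [interior_Icc] at hσ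
        have hσ' := Ioo_subset_Icc_self hσ
        obtain ⟨R', hR', hle⟩ := hd σ hσ
        have hY0 := hYn σ hσ'
        have hpos : Y σ + δ ≠ 0 := by linarith only [hδ, hY0]
        have e : HasDerivAt (fun σ : ℝ => Real.exp (-(2 * κ * (σ - s0))))
            (Real.exp (-(2 * κ * (σ - s0))) * (-(2 * κ))) σ := by
          have e1 : HasDerivAt (fun σ : ℝ => -(2 * κ * (σ - s0))) (-(2 * κ)) σ :=
            (((hasDerivAt_id σ).sub_const s0).const_mul (2 * κ)).fun_neg.congr_deriv (by ring)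
          exact e1.exp
        have e2 : HasDerivAt (fun σ => √(Y σ + δ) - ∫ t in s0..σ, h t)
            ((Real.exp (-(2 * κ * (σ - s0))) * -(2 * κ) * R σ
              + Real.exp (-(2 * κ * (σ - s0))) * R') / (2 * √(Y σ + δ)) - h σ) σ :=
          (((e.mul hR').add_const δ).sqrt hpos).sub (prim_deriv ch hσ)
        rw [e2.deriv]
        have hsq : 0 < √(Y σ + δ) := Real.sqrt_pos.2 (by linarith only [hδ, hY0])
        rw [sub_nonpos, div_le_iff₀ (by positivity)]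
        set E1 := Real.exp (-(κ * (σ - s0))) with hE1
        have hE : Real.exp (-(2 * κ * (σ - s0))) = E1 * E1 := by
          rw [hE1, ← Real.exp_add]; congr 1; ring
        have hE0 : 0 < E1 := Real.exp_pos _
        have hsY : √(Y σ) = E1 * √(R σ) := by
          simp only [hY]
          rw [hE, Real.sqrt_mul (mul_self_nonneg E1), Real.sqrt_mul_self hE0.le]
        have h1 : √(Y σ) ≤ √(Y σ + δ) := Real.sqrt_le_sqrt (by linarith only [hδ])
        have h2 : E1 * √(R σ) ≤ √(Y σ + δ) := by rw [← hsY]; exact h1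
        have h3 : 0 ≤ E1 * γ σ := mul_nonneg hE0.le (hγ σ hσ')
        have h4 := mul_le_mul_of_nonneg_left h2 h3
        have h5 : E1 * E1 * R' ≤ E1 * E1 * (2 * κ * R σ + 2 * (√(R σ) * γ σ)) :=
          mul_le_mul_of_nonneg_left hle (mul_nonneg hE0.le hE0.le)
        simp only [hh]
        rw [hE, ← hE1]
        linarith only [h5, h4]
    have := hanti (left_mem_Icc.2 h01) hs hs.1
    simp only [intervalIntegral.integral_same, sub_zero] at this
    linarith only [this]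
  have hY0 : Y s0 = R s0 := by simp [hY]
  have hR0 := hR s0 (left_mem_Icc.2 h01)
  have h1 : √(Y s) ≤ √(R s0) + ∫ σ in s0..s, h σ := by
    apply le_of_forall_pos_le_add
    intro ε hε
    have h2 := key (ε ^ 2) (by positivity)
    rw [hY0] at h2
    have h3 : √(Y s) ≤ √(Y s + ε ^ 2) := Real.sqrt_le_sqrt (by (by_contra nlg; linarith [mul_pos (sub_pos.2 (not_le.1 nlg)) (sub_pos.2 (not_le.1 nlg)), mul_nonneg (sq_nonneg (ε : ℝ)) (le_of_lt (sub_pos.2 (not_le.1 nlg)))]))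
    have h4 : √(R s0 + ε ^ 2) ≤ √(R s0) + ε := by
      rw [Real.sqrt_le_left (by positivity)]
      (by_contra nlg; linarith [mul_eq_zero_of_left (sub_eq_zero.2 (Real.sq_sqrt hR0)) (ε - (0)), mul_pos (sub_pos.2 (not_le.1 nlg)) (sub_pos.2 hε), mul_nonneg (sq_nonneg (ε : ℝ)) (sub_nonneg.2 (Real.sqrt_nonneg (R s0)))])
    linarith only [h2, h3, h4]
  have hE0 : 0 < Real.exp (κ * (s - s0)) := Real.exp_pos _
  have h5 := mul_le_mul_of_nonneg_left h1 hE0.le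
  have h6 : Real.exp (κ * (s - s0)) * √(Y s) = √(R s) := by
    have h7 : Real.exp (-(2 * κ * (s - s0)))
        = Real.exp (-(κ * (s - s0))) * Real.exp (-(κ * (s - s0))) := by
      rw [← Real.exp_add]; congr 1; ring
    simp only [hY]
    rw [h7, Real.sqrt_mul (mul_self_nonneg _), Real.sqrt_mul_self (Real.exp_pos _).le,
      ← mul_assoc, ← Real.exp_add]
    rw [add_neg_cancel, Real.exp_zero, one_mul]
  rw [h6, mul_add] at h5
  refine h5.trans (le_of_eq ?_)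
  congr 1
  rw [← intervalIntegral.integral_const_mul]
  congr 1
  funext σ
  simp only [hh]
  rw [← mul_assoc, ← Real.exp_add]
  congr 2
  ring

/-- variation of constants -/
theorem ode_formula {s0 s1 κ : ℝ} {c γ : ℝ → ℝ} (cc : ContinuousOn c (Icc s0 s1))
    (cγ : ContinuousOn γ (Icc s0 s1))
    (hd : ∀ s ∈ Ioo s0 s1, HasDerivAt c (κ * c s + γ s) s) {s : ℝ} (hs : s ∈ Icc s0 s1) :
    c s = Real.exp (κ * (s - s0)) * c s0 + ∫ σ in s0..s, Real.exp (κ * (s - σ)) * γ σ := by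
  have h01 : s0 ≤ s1 := hs.1.trans hs.2
  set h : ℝ → ℝ := fun σ => Real.exp (-(κ * (σ - s0))) * γ σ with hh
  have ch : ContinuousOn h (Icc s0 s1) :=
    (by fun_prop : ContinuousOn (fun σ : ℝ => Real.exp (-(κ * (σ - s0)))) (Icc s0 s1)).mul cγ
  have h1 : ∫ σ in s0..s, h σ = Real.exp (-(κ * (s - s0))) * c s - c s0 := by
    have h2 := intervalIntegral.integral_eq_sub_of_hasDerivAt_of_le hs.1
      (f := fun σ => Real.exp (-(κ * (σ - s0))) * c σ) (f' := h) ?_ ?_ ?_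
    · rw [h2]
      simp
    · exact ContinuousOn.mono ((by fun_prop : ContinuousOn
        (fun σ : ℝ => Real.exp (-(κ * (σ - s0)))) (Icc s0 s1)).mul cc)
        (Icc_subset_Icc le_rfl hs.2)
    · intro σ hσ
      have e1 : HasDerivAt (fun σ : ℝ => -(κ * (σ - s0))) (-κ) σ :=
        (((hasDerivAt_id σ).sub_const s0).const_mul κ).fun_neg.congr_deriv (by ring)
      refine (e1.exp.mul (hd σ ⟨hσ.1, hσ.2.trans_le hs.2⟩)).congr_deriv ?_
      simp only [hh]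
      ring
    · apply ContinuousOn.intervalIntegrable
      rw [Set.uIcc_of_le hs.1]
      exact ch.mono (Icc_subset_Icc le_rfl hs.2)
  have h3 : ∫ σ in s0..s, Real.exp (κ * (s - σ)) * γ σ
      = Real.exp (κ * (s - s0)) * (∫ σ in s0..s, h σ) := by
    rw [← intervalIntegral.integral_const_mul]
    congr 1
    funext σ
    simp only [hh]
    rw [← mul_assoc, ← Real.exp_add]
    congr 2
    ring
  have h4 : Real.exp (κ * (s - s0)) * Real.exp (-(κ * (s - s0))) = 1 := by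
    rw [← Real.exp_add, add_neg_cancel, Real.exp_zero]
  rw [h3, h1]
  linear_combination (-c s) * h4

namespace Evo

variable {a lam s0 s1 z1 z2 : ℝ} {f fs fz fzz g : ℝ → ℝ → ℝ}
  (E : Evo a lam s0 s1 z1 z2 f fs fz fzz g)
include E

/-- **the remainder, integrated** (`N = 4` in the application) -/
theorem sqrt_rem_le (N : ℕ) {s : ℝ} (hs : s ∈ Icc s0 s1) :
    √(rem a N (f s)) ≤ Real.exp ((lam - N) * (s - s0)) * √(rem a N (f s0))
      + ∫ σ in s0..s, Real.exp ((lam - N) * (s - σ)) * √(∫ z, g σ z ^ 2 ∂(mu a)) :=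
  sqrt_gronwall (R := fun s => rem a N (f s)) (γ := fun s => √(∫ z, g s z ^ 2 ∂(mu a)))
    (E.cont_rem N) (fun _ ht => rem_nonneg E.ha N (E.memLp_f ht)) E.cont_gsq.sqrt
    (fun _ _ => Real.sqrt_nonneg _) (fun _ ht => E.hasDerivAt_rem ht N) hs

/-- **the modes, integrated** -/
theorem coef_eq (i : ℕ) {s : ℝ} (hs : s ∈ Icc s0 s1) :
    ∫ z, f s z * (en a i).eval z ∂(mu a)
      = Real.exp ((lam - i) * (s - s0)) * (∫ z, f s0 z * (en a i).eval z ∂(mu a))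
      + ∫ σ in s0..s, Real.exp ((lam - i) * (s - σ)) * ∫ z, g σ z * (en a i).eval z ∂(mu a) :=
  ode_formula (c := fun s => ∫ z, f s z * (en a i).eval z ∂(mu a))
    (γ := fun s => ∫ z, g s z * (en a i).eval z ∂(mu a))
    (E.cont_coef i) (E.cont_gcoef i) (fun _ ht => E.hasDerivAt_coef ht i) hs

theorem abs_gcoef_le (i : ℕ) {s : ℝ} (hs : s ∈ Icc s0 s1) :
    |∫ z, g s z * (en a i).eval z ∂(mu a)| ≤ √(∫ z, g s z ^ 2 ∂(mu a)) := by
  apply Real.abs_le_sqrt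
  have := bessel E.ha (E.memLp_g hs) {i}
  simpa using this

end Evo

end Vale.Agent.P244.ST.Lag
end

section

/-!
# P244-ST : mixed partial derivatives of a smooth function on an open set of the plane
-/

open Set Filter Topology
open scoped ContDiff

namespace Vale.Agent.P244.ST.M7a

/-- If `G` is smooth on the open set `O`, `G1 = ∂_ρ G`, `Gt = ∂_t G` on `O`, and `Gt(t₀,·)` has
derivative `c` at `ρ₀`, then `G1(·,ρ₀)` has derivative `c` at `t₀`. -/
theorem mixed_deriv {O : Set (ℝ × ℝ)} (hO : IsOpen O) {G G1 Gt : ℝ → ℝ → ℝ} {c : ℝ}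
    (hG : ContDiffOn ℝ ∞ (fun q : ℝ × ℝ => G q.1 q.2) O)
    (h1 : ∀ q ∈ O, HasDerivAt (G q.1) (G1 q.1 q.2) q.2)
    (ht : ∀ q ∈ O, HasDerivAt (fun t => G t q.2) (Gt q.1 q.2) q.1)
    {q₀ : ℝ × ℝ} (hq₀ : q₀ ∈ O) (hc : HasDerivAt (Gt q₀.1) c q₀.2) :
    HasDerivAt (fun t => G1 t q₀.2) c q₀.1 := by
  set g : ℝ × ℝ → ℝ := fun q => G q.1 q.2 with hg
  have hcd : ∀ q ∈ O, ContDiffAt ℝ ∞ g q := fun q hq => hG.contDiffAt (hO.mem_nhds hq)
  have hdiff : ∀ q ∈ O, DifferentiableAt ℝ g q := fun q hq => (hcd q hq).differentiableAt (by simp)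
  have e1 : ∀ q ∈ O, G1 q.1 q.2 = fderiv ℝ g q (0, 1) := by
    intro q hq
    have h3 : HasDerivAt (fun ρ : ℝ => (q.1, ρ)) ((0 : ℝ), (1 : ℝ)) q.2 :=
      (hasDerivAt_const q.2 q.1).prodMk (hasDerivAt_id q.2)
    have h4 : HasFDerivAt g (fderiv ℝ g q) (q.1, q.2) := (hdiff q hq).hasFDerivAt
    have h5 := h4.comp_hasDerivAt q.2 h3
    exact (h1 q hq).unique h5
  have e2 : ∀ q ∈ O, Gt q.1 q.2 = fderiv ℝ g q (1, 0) := by
    intro q hq
    have h3 : HasDerivAt (fun t : ℝ => (t, q.2)) ((1 : ℝ), (0 : ℝ)) q.1 :=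
      (hasDerivAt_id q.1).prodMk (hasDerivAt_const q.1 q.2)
    have h4 : HasFDerivAt g (fderiv ℝ g q) (q.1, q.2) := (hdiff q hq).hasFDerivAt
    have h5 := h4.comp_hasDerivAt q.1 h3
    exact (ht q hq).unique h5
  have hd2 : DifferentiableAt ℝ (fderiv ℝ g) q₀ :=
    ((hcd q₀ hq₀).fderiv_right (m := ∞) (by simp)).differentiableAt (by simp)
  have hsymm : IsSymmSndFDerivAt ℝ g q₀ :=
    (hcd q₀ hq₀).isSymmSndFDerivAt
      (by rw [minSmoothness_of_isRCLikeNormedField]; exact WithTop.coe_le_coe.2 le_top)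
  have hs := hsymm (1, 0) (0, 1)
  -- derivative of `t ↦ fderiv g (t, ρ₀) (0,1)`
  have k1 : HasDerivAt (fun t : ℝ => fderiv ℝ g (t, q₀.2) (0, 1))
      (fderiv ℝ (fderiv ℝ g) q₀ (1, 0) (0, 1)) q₀.1 := by
    have h3 : HasDerivAt (fun t : ℝ => (t, q₀.2)) ((1 : ℝ), (0 : ℝ)) q₀.1 :=
      (hasDerivAt_id q₀.1).prodMk (hasDerivAt_const q₀.1 q₀.2)
    have h4 : HasFDerivAt (fderiv ℝ g) (fderiv ℝ (fderiv ℝ g) q₀) (q₀.1, q₀.2) :=
      hd2.hasFDerivAt
    have h5 := h4.comp_hasDerivAt q₀.1 h3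
    have h6 := h5.clm_apply (hasDerivAt_const q₀.1 ((0 : ℝ), (1 : ℝ)))
    simpa using h6
  have k2 : HasDerivAt (fun ρ : ℝ => fderiv ℝ g (q₀.1, ρ) (1, 0))
      (fderiv ℝ (fderiv ℝ g) q₀ (0, 1) (1, 0)) q₀.2 := by
    have h3 : HasDerivAt (fun ρ : ℝ => (q₀.1, ρ)) ((0 : ℝ), (1 : ℝ)) q₀.2 :=
      (hasDerivAt_const q₀.2 q₀.1).prodMk (hasDerivAt_id q₀.2)
    have h4 : HasFDerivAt (fderiv ℝ g) (fderiv ℝ (fderiv ℝ g) q₀) (q₀.1, q₀.2) :=
      hd2.hasFDerivAt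
    have h5 := h4.comp_hasDerivAt q₀.2 h3
    have h6 := h5.clm_apply (hasDerivAt_const q₀.2 ((1 : ℝ), (0 : ℝ)))
    simpa using h6
  have n1 : ∀ᶠ t in 𝓝 q₀.1, (t, q₀.2) ∈ O := by
    have : ContinuousAt (fun t : ℝ => ((t, q₀.2) : ℝ × ℝ)) q₀.1 := by fun_prop
    exact this.preimage_mem_nhds (hO.mem_nhds hq₀)
  have n2 : ∀ᶠ ρ in 𝓝 q₀.2, (q₀.1, ρ) ∈ O := by
    have : ContinuousAt (fun ρ : ℝ => ((q₀.1, ρ) : ℝ × ℝ)) q₀.2 := by fun_prop
    exact this.preimage_mem_nhds (hO.mem_nhds hq₀)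
  have k3 : HasDerivAt (fun t => G1 t q₀.2) (fderiv ℝ (fderiv ℝ g) q₀ (1, 0) (0, 1)) q₀.1 :=
    k1.congr_of_eventuallyEq (by filter_upwards [n1] with t ht' using e1 _ ht')
  have k4 : HasDerivAt (Gt q₀.1) (fderiv ℝ (fderiv ℝ g) q₀ (0, 1) (1, 0)) q₀.2 :=
    k2.congr_of_eventuallyEq (by filter_upwards [n2] with t ht' using e2 _ ht')
  rw [hc.unique k4, ← hs]
  exact k3

/-- existence of the `ρ`-derivative of a smooth function on an open set -/
lemma exists_deriv_rho {O : Set (ℝ × ℝ)} (hO : IsOpen O) {G : ℝ → ℝ → ℝ}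
    (hG : ContDiffOn ℝ ∞ (fun q : ℝ × ℝ => G q.1 q.2) O) :
    ∀ q ∈ O, HasDerivAt (G q.1) (deriv (G q.1) q.2) q.2 := by
  intro q hq
  have h := (hG.contDiffAt (hO.mem_nhds hq)).differentiableAt (by simp)
  have h2 : DifferentiableAt ℝ (fun ρ : ℝ => (q.1, ρ)) q.2 := by fun_prop
  have h3 : DifferentiableAt ℝ (fun ρ : ℝ => G q.1 ρ) q.2 :=
    DifferentiableAt.comp (f := fun ρ : ℝ => (q.1, ρ)) (g := fun q : ℝ × ℝ => G q.1 q.2) q.2 h h2
  exact h3.hasDerivAt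

end Vale.Agent.P244.ST.M7a
end
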