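import Mathlib
import Vale.Agent.P244.Bd3.B2
import Vale.Agent.P244.Bd3.B3
import Vale.Agent.P244.Bd3.B1
import Vale.Agent.P244.Bd3.B9
import Vale.Agent.P244.Bd3.B8

set_option linter.all false

section

open Set

namespace Vale.Agent.P244.GeoM

/-- two representations of a function on `(-1,1)` have the same derivative -/
theorem deriv_eq_of_eqOn {F G : ℝ → ℝ} {F1 G1 h : ℝ} (hh : h ∈ Ioo (-1 : ℝ) 1)
    (hFG : ∀ x ∈ Ioo (-1 : ℝ) 1, F x = G x) (hF : HasDerivAt F F1 h) (hG : HasDerivAt G G1 h) :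
    F1 = G1 := by
  have h1 : F =ᶠ[nhds h] G := by
    filter_upwards [Ioo_mem_nhds hh.1 hh.2] with x hx using hFG x hx
  exact (h1.hasDerivAt_iff.mp hF).unique hG

/-- The spatial data: the profile `A, B, C` is the pull back by `e0` of the conformal metric. -/
structure Spat (A A1 A2 B B1 C C1 C2 e0 e1 e2 w0 w1 w2 f0 f1 f2 : ℝ → ℝ) : Prop where
  hA : ∀ x ∈ Ioo (-1 : ℝ) 1, HasDerivAt A (A1 x) x
  hA1 : ∀ x ∈ Ioo (-1 : ℝ) 1, HasDerivAt A1 (A2 x) x
  hB : ∀ x ∈ Ioo (-1 : ℝ) 1, HasDerivAt B (B1 x) x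
  hC : ∀ x ∈ Ioo (-1 : ℝ) 1, HasDerivAt C (C1 x) x
  hC1 : ∀ x ∈ Ioo (-1 : ℝ) 1, HasDerivAt C1 (C2 x) x
  he : ∀ x ∈ Ioo (-1 : ℝ) 1, HasDerivAt e0 (e1 x) x
  he1 : ∀ x ∈ Ioo (-1 : ℝ) 1, HasDerivAt e1 (e2 x) x
  hw : ∀ x ∈ Ioo (-1 : ℝ) 1, HasDerivAt w0 (w1 x) x
  hw1 : ∀ x ∈ Ioo (-1 : ℝ) 1, HasDerivAt w1 (w2 x) x
  hf : ∀ x ∈ Ioo (-1 : ℝ) 1, HasDerivAt f0 (f1 x) x
  hf1 : ∀ x ∈ Ioo (-1 : ℝ) 1, HasDerivAt f1 (f2 x) x
  mem : ∀ x ∈ Ioo (-1 : ℝ) 1, e0 x ∈ Ioo (-1 : ℝ) 1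
  e1pos : ∀ x ∈ Ioo (-1 : ℝ) 1, 0 < e1 x
  relA : ∀ x ∈ Ioo (-1 : ℝ) 1, A x * (1 - x ^ 2) = Real.exp (2 * w0 (e0 x)) * (1 - e0 x ^ 2)
  relB : ∀ x ∈ Ioo (-1 : ℝ) 1, (A x + B x * (1 - x ^ 2)) / (1 - x ^ 2) =
    Real.exp (2 * w0 (e0 x)) / (1 - e0 x ^ 2) * e1 x ^ 2
  relC : ∀ x ∈ Ioo (-1 : ℝ) 1, C x = Real.exp (2 * f0 (e0 x))

variable {A A1 A2 B B1 C C1 C2 e0 e1 e2 w0 w1 w2 f0 f1 f2 : ℝ → ℝ}

theorem q_ne {x : ℝ} (hx : x ∈ Ioo (-1 : ℝ) 1) : 1 - x ^ 2 ≠ 0 := by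
  have h1 := hx.1
  have h2 := hx.2
  nlinarith only [h1, h2]

theorem hasDerivAt_q (x : ℝ) : HasDerivAt (fun x : ℝ => 1 - x ^ 2) (-(2 * x)) x := by
  simpa using (hasDerivAt_pow 2 x).const_sub 1

/-- derivatives of the conformal quantities -/
theorem hasDerivAt_Ux {x : ℝ} (hw : HasDerivAt w0 (w1 x) x) :
    HasDerivAt (fun x => Real.exp (2 * w0 x) * (1 - x ^ 2))
      (Real.exp (2 * w0 x) * (2 * w1 x * (1 - x ^ 2) - 2 * x)) x := by
  have h1 := (hw.const_mul 2).exp.mul (hasDerivAt_q x)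
  refine h1.congr_deriv ?_
  ring

theorem hasDerivAt_Ux1 {x : ℝ} (hw : HasDerivAt w0 (w1 x) x) (hw1 : HasDerivAt w1 (w2 x) x) :
    HasDerivAt (fun x => Real.exp (2 * w0 x) * (2 * w1 x * (1 - x ^ 2) - 2 * x))
      (Real.exp (2 * w0 x) * (2 * w1 x * (2 * w1 x * (1 - x ^ 2) - 2 * x) +
        2 * w2 x * (1 - x ^ 2) - 4 * x * w1 x - 2)) x := by
  have h1 := (hw.const_mul 2).exp.mul (((hw1.const_mul 2).mul (hasDerivAt_q x)).sub
    ((hasDerivAt_id x).const_mul 2))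
  refine h1.congr_deriv ?_
  simp only [id, Pi.sub_apply, Pi.mul_apply]
  ring

theorem hasDerivAt_Vx {x : ℝ} (hx : x ∈ Ioo (-1 : ℝ) 1) (hw : HasDerivAt w0 (w1 x) x) :
    HasDerivAt (fun x => Real.exp (2 * w0 x) / (1 - x ^ 2))
      (Real.exp (2 * w0 x) * (2 * w1 x / (1 - x ^ 2) + 2 * x / (1 - x ^ 2) ^ 2)) x := by
  have hq := q_ne hx
  have h1 := (hw.const_mul 2).exp.div (hasDerivAt_q x) hq
  refine h1.congr_deriv ?_
  field_simp
  ring

theorem hasDerivAt_Cx {x : ℝ} (hf : HasDerivAt f0 (f1 x) x) :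
    HasDerivAt (fun x => Real.exp (2 * f0 x)) (2 * f1 x * Real.exp (2 * f0 x)) x := by
  have h1 := (hf.const_mul 2).exp
  refine h1.congr_deriv ?_
  ring

theorem hasDerivAt_Cx1 {x : ℝ} (hf : HasDerivAt f0 (f1 x) x) (hf1 : HasDerivAt f1 (f2 x) x) :
    HasDerivAt (fun x => 2 * f1 x * Real.exp (2 * f0 x))
      ((2 * f2 x + 4 * f1 x ^ 2) * Real.exp (2 * f0 x)) x := by
  have h1 := (hf1.const_mul 2).mul (hf.const_mul 2).exp
  refine h1.congr_deriv ?_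
  ring

namespace Spat

variable (S : Spat A A1 A2 B B1 C C1 C2 e0 e1 e2 w0 w1 w2 f0 f1 f2)
include S

theorem U1 {h : ℝ} (hh : h ∈ Ioo (-1 : ℝ) 1) : A1 h * (1 - h ^ 2) - 2 * h * A h =
    (Real.exp (2 * w0 (e0 h)) * (2 * w1 (e0 h) * (1 - e0 h ^ 2) - 2 * e0 h)) * e1 h := by
  have h1 := (S.hA h hh).mul (hasDerivAt_q h)
  have h2 := (hasDerivAt_Ux (S.hw _ (S.mem h hh))).comp h (S.he h hh)
  have h3 := deriv_eq_of_eqOn hh S.relA h1 h2
  linear_combination h3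

theorem U2 {h : ℝ} (hh : h ∈ Ioo (-1 : ℝ) 1) :
    A2 h * (1 - h ^ 2) - 4 * h * A1 h - 2 * A h =
    (Real.exp (2 * w0 (e0 h)) * (2 * w1 (e0 h) * (2 * w1 (e0 h) * (1 - e0 h ^ 2) - 2 * e0 h) +
        2 * w2 (e0 h) * (1 - e0 h ^ 2) - 4 * e0 h * w1 (e0 h) - 2)) * e1 h ^ 2 +
    (Real.exp (2 * w0 (e0 h)) * (2 * w1 (e0 h) * (1 - e0 h ^ 2) - 2 * e0 h)) * e2 h := by
  have h1 := ((S.hA1 h hh).mul (hasDerivAt_q h)).sub
    (((hasDerivAt_id h).const_mul 2).mul (S.hA h hh))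
  have h2 := ((hasDerivAt_Ux1 (S.hw _ (S.mem h hh)) (S.hw1 _ (S.mem h hh))).comp h
    (S.he h hh)).mul (S.he1 h hh)
  have h3 := deriv_eq_of_eqOn hh (fun x hx => S.U1 hx) h1 h2
  simp only [id, Function.comp] at h3
  linear_combination h3

theorem V1 {h : ℝ} (hh : h ∈ Ioo (-1 : ℝ) 1) :
    (A1 h + B1 h * (1 - h ^ 2) - 2 * h * B h) / (1 - h ^ 2) +
      2 * h * (A h + B h * (1 - h ^ 2)) / (1 - h ^ 2) ^ 2 =
    (Real.exp (2 * w0 (e0 h)) * (2 * w1 (e0 h) / (1 - e0 h ^ 2) +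
      2 * e0 h / (1 - e0 h ^ 2) ^ 2)) * e1 h ^ 3 +
    2 * (Real.exp (2 * w0 (e0 h)) / (1 - e0 h ^ 2)) * e1 h * e2 h := by
  have hq := q_ne hh
  have h1 := ((S.hA h hh).add ((S.hB h hh).mul (hasDerivAt_q h))).div (hasDerivAt_q h) hq
  have h2 := ((hasDerivAt_Vx (S.mem h hh) (S.hw _ (S.mem h hh))).comp h
    (S.he h hh)).mul ((S.he1 h hh).pow 2)
  have h3 := deriv_eq_of_eqOn hh (fun x hx => S.relB x hx) h1 h2
  have h4 : (A1 h + B1 h * (1 - h ^ 2) - 2 * h * B h) / (1 - h ^ 2) +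
      2 * h * (A h + B h * (1 - h ^ 2)) / (1 - h ^ 2) ^ 2 =
      ((A1 h + (B1 h * (1 - h ^ 2) + B h * -(2 * h))) * (1 - h ^ 2) -
        (A h + B h * (1 - h ^ 2)) * -(2 * h)) / (1 - h ^ 2) ^ 2 := by
    field_simp
    ring
  rw [h4]
  refine h3.trans ?_
  simp only [Function.comp, Pi.pow_apply]
  push_cast
  ring

theorem C1' {h : ℝ} (hh : h ∈ Ioo (-1 : ℝ) 1) : C1 h =
    (2 * f1 (e0 h) * Real.exp (2 * f0 (e0 h))) * e1 h := by
  have h2 := (hasDerivAt_Cx (S.hf _ (S.mem h hh))).comp h (S.he h hh)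
  exact deriv_eq_of_eqOn hh S.relC (S.hC h hh) h2

theorem C2' {h : ℝ} (hh : h ∈ Ioo (-1 : ℝ) 1) : C2 h =
    ((2 * f2 (e0 h) + 4 * f1 (e0 h) ^ 2) * Real.exp (2 * f0 (e0 h))) * e1 h ^ 2 +
    (2 * f1 (e0 h) * Real.exp (2 * f0 (e0 h))) * e2 h := by
  have h2 := ((hasDerivAt_Cx1 (S.hf _ (S.mem h hh)) (S.hf1 _ (S.mem h hh))).comp h
    (S.he h hh)).mul (S.he1 h hh)
  have h3 := deriv_eq_of_eqOn hh (fun x hx => S.C1' hx) (S.hC1 h hh) h2
  rw [h3]
  simp only [Function.comp]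
  ring

/-- `RU`, `RC`, `RV` of the profile are those of the conformal metric. -/
theorem RU_eq (m p : ℝ) {h : ℝ} (hh : h ∈ Ioo (-1 : ℝ) 1) :
    RU m p (A h * (1 - h ^ 2)) (A1 h * (1 - h ^ 2) - 2 * h * A h)
      (A2 h * (1 - h ^ 2) - 4 * h * A1 h - 2 * A h) ((A h + B h * (1 - h ^ 2)) / (1 - h ^ 2))
      ((A1 h + B1 h * (1 - h ^ 2) - 2 * h * B h) / (1 - h ^ 2) +
      2 * h * (A h + B h * (1 - h ^ 2)) / (1 - h ^ 2) ^ 2) (C h) (C1 h) =
    RU m p (Real.exp (2 * w0 (e0 h)) * (1 - e0 h ^ 2))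
      (Real.exp (2 * w0 (e0 h)) * (2 * w1 (e0 h) * (1 - e0 h ^ 2) - 2 * e0 h))
      (Real.exp (2 * w0 (e0 h)) * (2 * w1 (e0 h) * (2 * w1 (e0 h) * (1 - e0 h ^ 2) - 2 * e0 h) +
        2 * w2 (e0 h) * (1 - e0 h ^ 2) - 4 * e0 h * w1 (e0 h) - 2))
      (Real.exp (2 * w0 (e0 h)) / (1 - e0 h ^ 2))
      (Real.exp (2 * w0 (e0 h)) * (2 * w1 (e0 h) / (1 - e0 h ^ 2) +
        2 * e0 h / (1 - e0 h ^ 2) ^ 2))
      (Real.exp (2 * f0 (e0 h))) (2 * f1 (e0 h) * Real.exp (2 * f0 (e0 h))) := by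
  rw [S.U1 hh, S.U2 hh, S.V1 hh, S.relA h hh, S.relB h hh, S.relC h hh, S.C1' hh]
  have hq := q_ne (S.mem h hh)
  have hE := (Real.exp_pos (2 * w0 (e0 h))).ne'
  exact RU_cov m p (mul_ne_zero hE hq) (div_ne_zero hE hq) (Real.exp_pos _).ne'
    (S.e1pos h hh).ne'

theorem RC_eq (m p : ℝ) {h : ℝ} (hh : h ∈ Ioo (-1 : ℝ) 1) :
    RC m p (A h * (1 - h ^ 2)) (A1 h * (1 - h ^ 2) - 2 * h * A h)
      ((A h + B h * (1 - h ^ 2)) / (1 - h ^ 2))
      ((A1 h + B1 h * (1 - h ^ 2) - 2 * h * B h) / (1 - h ^ 2) +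
      2 * h * (A h + B h * (1 - h ^ 2)) / (1 - h ^ 2) ^ 2) (C h) (C1 h) (C2 h) =
    RC m p (Real.exp (2 * w0 (e0 h)) * (1 - e0 h ^ 2))
      (Real.exp (2 * w0 (e0 h)) * (2 * w1 (e0 h) * (1 - e0 h ^ 2) - 2 * e0 h))
      (Real.exp (2 * w0 (e0 h)) / (1 - e0 h ^ 2))
      (Real.exp (2 * w0 (e0 h)) * (2 * w1 (e0 h) / (1 - e0 h ^ 2) +
        2 * e0 h / (1 - e0 h ^ 2) ^ 2))
      (Real.exp (2 * f0 (e0 h))) (2 * f1 (e0 h) * Real.exp (2 * f0 (e0 h)))
      ((2 * f2 (e0 h) + 4 * f1 (e0 h) ^ 2) * Real.exp (2 * f0 (e0 h))) := by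
  rw [S.U1 hh, S.V1 hh, S.relA h hh, S.relB h hh, S.relC h hh, S.C1' hh, S.C2' hh]
  have hq := q_ne (S.mem h hh)
  have hE := (Real.exp_pos (2 * w0 (e0 h))).ne'
  exact RC_cov m p (mul_ne_zero hE hq) (div_ne_zero hE hq) (Real.exp_pos _).ne'
    (S.e1pos h hh).ne'

theorem RV_eq (m p : ℝ) {h : ℝ} (hh : h ∈ Ioo (-1 : ℝ) 1) :
    RV m p (A h * (1 - h ^ 2)) (A1 h * (1 - h ^ 2) - 2 * h * A h)
      (A2 h * (1 - h ^ 2) - 4 * h * A1 h - 2 * A h) ((A h + B h * (1 - h ^ 2)) / (1 - h ^ 2))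
      ((A1 h + B1 h * (1 - h ^ 2) - 2 * h * B h) / (1 - h ^ 2) +
      2 * h * (A h + B h * (1 - h ^ 2)) / (1 - h ^ 2) ^ 2) (C h) (C1 h) (C2 h) =
    RV m p (Real.exp (2 * w0 (e0 h)) * (1 - e0 h ^ 2))
      (Real.exp (2 * w0 (e0 h)) * (2 * w1 (e0 h) * (1 - e0 h ^ 2) - 2 * e0 h))
      (Real.exp (2 * w0 (e0 h)) * (2 * w1 (e0 h) * (2 * w1 (e0 h) * (1 - e0 h ^ 2) - 2 * e0 h) +
        2 * w2 (e0 h) * (1 - e0 h ^ 2) - 4 * e0 h * w1 (e0 h) - 2))
      (Real.exp (2 * w0 (e0 h)) / (1 - e0 h ^ 2))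
      (Real.exp (2 * w0 (e0 h)) * (2 * w1 (e0 h) / (1 - e0 h ^ 2) +
        2 * e0 h / (1 - e0 h ^ 2) ^ 2))
      (Real.exp (2 * f0 (e0 h))) (2 * f1 (e0 h) * Real.exp (2 * f0 (e0 h)))
      ((2 * f2 (e0 h) + 4 * f1 (e0 h) ^ 2) * Real.exp (2 * f0 (e0 h))) * e1 h ^ 2 := by
  rw [S.U1 hh, S.U2 hh, S.V1 hh, S.relA h hh, S.relB h hh, S.relC h hh, S.C1' hh, S.C2' hh]
  have hq := q_ne (S.mem h hh)
  have hE := (Real.exp_pos (2 * w0 (e0 h))).ne'
  exact RV_cov m p (mul_ne_zero hE hq) (div_ne_zero hE hq) (Real.exp_pos _).ne'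
    (S.e1pos h hh).ne'

end Spat

end Vale.Agent.P244.GeoM
end

section

/-!
# P244-G3 : the flow of a vector field `(1-x^2) J(t,x)` on the strip
-/

open Set Filter Topology MeasureTheory
open scoped ContDiff NNReal

namespace Vale.Agent.P244.Geo

/-- Scalar linear differential equation. -/
theorem lin_ode {T : ℝ} {u c : ℝ → ℝ} (hc : ContinuousOn c (Ico 0 T))
    (hu : ∀ t ∈ Ico 0 T, HasDerivWithinAt u (c t * u t) (Ico 0 T) t) {t : ℝ} (ht : t ∈ Ico 0 T) :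
    u t = u 0 * Real.exp (∫ s in (0 : ℝ)..t, c s) := by
  have h := const_of_deriv_zero (u := fun t => u t * Real.exp (-∫ s in (0 : ℝ)..t, c s))
    (fun t ht => by
      have h1 := (hu t ht).mul (hasDerivWithinAt_integral_t hc ht).neg.exp
      have e : c t * u t * Real.exp (-∫ s in (0 : ℝ)..t, c s) +
        u t * (Real.exp (-∫ s in (0 : ℝ)..t, c s) * -c t) = 0 := by ring
      have h2 : HasDerivWithinAt (fun t => u t * Real.exp (-∫ s in (0 : ℝ)..t, c s))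
        (c t * u t * Real.exp (-∫ s in (0 : ℝ)..t, c s) +
        u t * (Real.exp (-∫ s in (0 : ℝ)..t, c s) * -c t)) (Ico 0 T) t := h1
      rwa [e] at h2) ht
  simp only [intervalIntegral.integral_same, neg_zero, Real.exp_zero, mul_one] at h
  rw [← h, mul_assoc, ← Real.exp_add]
  simp

/-- Uniform bound on a compact part of the strip. -/
theorem exists_bound_strip {T T' : ℝ} (h1 : T' < T) {F : ℝ → ℝ → ℝ}
    (hF : ContinuousOn (fun z : ℝ × ℝ => F z.1 z.2) (strip T)) :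
    ∃ K : ℝ≥0, ∀ t ∈ Icc 0 T', ∀ x ∈ Icc (-1 : ℝ) 1, |F t x| ≤ K := by
  have hsub : Icc 0 T' ×ˢ Icc (-1 : ℝ) 1 ⊆ strip T :=
    prod_mono (fun s hs => ⟨hs.1, hs.2.trans_lt h1⟩) le_rfl
  obtain ⟨C, hC⟩ := (isCompact_Icc.prod isCompact_Icc).exists_bound_of_continuousOn (hF.mono hsub)
  refine ⟨C.toNNReal, fun t ht x hx => ?_⟩
  exact (hC (t, x) ⟨ht, hx⟩).trans (Real.le_coe_toNNReal C)

/-- Uniform Lipschitz bound on a compact part of the strip. -/
theorem exists_lip_strip {T T' : ℝ} (h1 : T' < T) {Y Yx : ℝ → ℝ → ℝ}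
    (hYx : ContinuousOn (fun z : ℝ × ℝ => Yx z.1 z.2) (strip T))
    (hd : ∀ t ∈ Ico 0 T, ∀ x ∈ Icc (-1 : ℝ) 1, HasDerivWithinAt (Y t) (Yx t x) (Icc (-1) 1) x) :
    ∃ K : ℝ≥0, ∀ t ∈ Icc 0 T', LipschitzOnWith K (Y t) (Icc (-1) 1) := by
  obtain ⟨K, hK⟩ := exists_bound_strip h1 hYx
  refine ⟨K, fun t ht => ?_⟩
  refine (convex_Icc (-1 : ℝ) 1).lipschitzOnWith_of_nnnorm_hasDerivWithin_le
    (fun x hx => hd t ⟨ht.1, ht.2.trans_lt h1⟩ x hx) fun x hx => ?_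
  have := hK t ht x hx
  rw [← Real.norm_eq_abs] at this
  exact_mod_cast this

theorem cl_lip (a b x y : ℝ) : |cl a b x - cl a b y| ≤ |x - y| := by
  unfold cl
  exact (abs_max_sub_max_le_max _ _ _ _).trans (max_le (by simp)
    ((abs_min_sub_min_le_max _ _ _ _).trans (max_le (by simp) le_rfl)))

/-- A solution of the clamped equation does not cross the level `1`. -/
theorem stay_below {T' : ℝ} {α v : ℝ → ℝ} (hα : ∀ t ∈ Icc 0 T', HasDerivWithinAt α (v t)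
    (Icc 0 T') t) (h0 : α 0 ≤ 1) (hv : ∀ t ∈ Icc 0 T', 1 < α t → v t = 0) {t : ℝ}
    (ht : t ∈ Icc 0 T') : α t ≤ 1 := by
  have key : ∀ ε > 0, α t ≤ 1 + ε + ε * t := by
    intro ε hε
    refine image_le_of_deriv_right_lt_deriv_boundary (f := α) (f' := v) (a := 0) (b := T')
      (B := fun t => 1 + ε + ε * t) (B' := fun _ => ε)
      (fun s hs => (hα s hs).continuousWithinAt) (fun s hs => ?_) (by simpa using by linarith only [h0, hε])
      (fun s => ?_) (fun s hs e => ?_) ht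
    · exact ((hα s ⟨hs.1, hs.2.le⟩).mono_of_mem_nhdsWithin
        (Icc_mem_nhdsGE_of_mem hs))
    · simpa using ((hasDerivAt_id s).const_mul ε).const_add (1 + ε)
    · rw [hv s ⟨hs.1, hs.2.le⟩ (by rw [e]; linarith only [mul_nonneg hε.le hs.1, hε])]
      exact hε
  by_contra hcon
  push Not at hcon
  have ht0 := ht.1
  have h2 := key ((α t - 1) / (2 * (1 + t))) (by apply div_pos <;> linarith only [hcon, ht0])
  have h3 : (α t - 1) / (2 * (1 + t)) * (1 + t) = (α t - 1) / 2 := by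
    field_simp
  linarith only [h3, h2, hcon]

/-- Existence on compact time intervals. -/
theorem exists_sol {T T' : ℝ} (h0 : 0 ≤ T') (h1 : T' < T) {Y Yx : ℝ → ℝ → ℝ}
    (hY : ContinuousOn (fun z : ℝ × ℝ => Y z.1 z.2) (strip T))
    (hYx : ContinuousOn (fun z : ℝ × ℝ => Yx z.1 z.2) (strip T))
    (hd : ∀ t ∈ Ico 0 T, ∀ x ∈ Icc (-1 : ℝ) 1, HasDerivWithinAt (Y t) (Yx t x) (Icc (-1) 1) x)
    (hp : ∀ t ∈ Ico 0 T, Y t 1 = 0) (hm : ∀ t ∈ Ico 0 T, Y t (-1) = 0)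
    {h : ℝ} (hh : h ∈ Icc (-1 : ℝ) 1) :
    ∃ α : ℝ → ℝ, α 0 = h ∧ ∀ t ∈ Icc 0 T', α t ∈ Icc (-1 : ℝ) 1 ∧
      HasDerivWithinAt α (Y t (α t)) (Icc 0 T') t := by
  obtain ⟨L, hL⟩ := exists_bound_strip h1 hY
  obtain ⟨K, hK⟩ := exists_lip_strip h1 hYx hd
  have hmem : ∀ x, cl (-1) 1 x ∈ Icc (-1 : ℝ) 1 := fun x => cl_mem (by norm_num) x
  have hP : IsPicardLindelof (fun t x => Y t (cl (-1) 1 x)) (tmin := 0) (tmax := T')
      ⟨0, ⟨le_rfl, h0⟩⟩ h (L * T'.toNNReal) 0 L K := by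
    refine ⟨fun t ht => ?_, fun x _ => ?_, fun t ht x _ => ?_, ?_⟩
    · refine LipschitzOnWith.of_dist_le_mul fun x _ y _ => ?_
      have := (hK t ht).dist_le_mul _ (hmem x) _ (hmem y)
      refine this.trans ?_
      gcongr
      rw [Real.dist_eq, Real.dist_eq]
      exact cl_lip _ _ _ _
    · exact (slice_t hY (hmem x)).mono fun s hs => ⟨hs.1, hs.2.trans_lt h1⟩
    · exact hL t ht _ (hmem x)
    · simp [h0]
  obtain ⟨α, hα0, hα⟩ := hP.exists_eq_forall_mem_Icc_hasDerivWithinAt₀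
  have hsub : ∀ t ∈ Icc 0 T', t ∈ Ico 0 T := fun s hs => ⟨hs.1, hs.2.trans_lt h1⟩
  have up : ∀ t ∈ Icc 0 T', α t ≤ 1 := fun t ht => by
    refine stay_below hα (by rw [hα0]; exact hh.2) (fun s hs hs1 => ?_) ht
    rw [cl, min_eq_left hs1.le, max_eq_right (by norm_num)]
    exact hp s (hsub s hs)
  have dn : ∀ t ∈ Icc 0 T', -α t ≤ 1 := fun t ht => by
    refine stay_below (α := fun t => -α t) (v := fun t => -Y t (cl (-1) 1 (α t)))
      (fun s hs => (hα s hs).neg) (by rw [hα0]; linarith only [hh, hh.1]) (fun s hs hs1 => ?_) ht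
    rw [cl, min_eq_right (by linarith only [hs1]), max_eq_left (by linarith only [hs1]), hm s (hsub s hs), neg_zero]
  refine ⟨α, hα0, fun t ht => ?_⟩
  have hI : α t ∈ Icc (-1 : ℝ) 1 := ⟨by linarith only [dn, ht, dn t ht], up t ht⟩
  refine ⟨hI, ?_⟩
  have := hα t ht
  rwa [cl_of_mem hI] at this

/-- Uniqueness. -/
theorem unique_sol {T T' : ℝ} (h1 : T' < T) {Y Yx : ℝ → ℝ → ℝ}
    (hYx : ContinuousOn (fun z : ℝ × ℝ => Yx z.1 z.2) (strip T))
    (hd : ∀ t ∈ Ico 0 T, ∀ x ∈ Icc (-1 : ℝ) 1, HasDerivWithinAt (Y t) (Yx t x) (Icc (-1) 1) x)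
    {α β : ℝ → ℝ} (h0 : α 0 = β 0)
    (hα : ∀ t ∈ Icc 0 T', α t ∈ Icc (-1 : ℝ) 1 ∧ HasDerivWithinAt α (Y t (α t)) (Icc 0 T') t)
    (hβ : ∀ t ∈ Icc 0 T', β t ∈ Icc (-1 : ℝ) 1 ∧ HasDerivWithinAt β (Y t (β t)) (Icc 0 T') t) :
    ∀ t ∈ Icc 0 T', α t = β t := by
  obtain ⟨K, hK⟩ := exists_lip_strip h1 hYx hd
  exact ODE_solution_unique_of_mem_Icc_right (v := Y) (s := fun _ => Icc (-1) 1) (K := K)
    (fun t ht => hK t ⟨ht.1, ht.2.le⟩)
    (fun t ht => (hα t ht).2.continuousWithinAt)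
    (fun t ht => (hα t ⟨ht.1, ht.2.le⟩).2.mono_of_mem_nhdsWithin (Icc_mem_nhdsGE_of_mem ht))
    (fun t ht => (hα t ⟨ht.1, ht.2.le⟩).1)
    (fun t ht => (hβ t ht).2.continuousWithinAt)
    (fun t ht => (hβ t ⟨ht.1, ht.2.le⟩).2.mono_of_mem_nhdsWithin (Icc_mem_nhdsGE_of_mem ht))
    (fun t ht => (hβ t ⟨ht.1, ht.2.le⟩).1) h0

/-- The flow on `[0,T)`. -/
theorem exists_flow {T : ℝ} {Y Yx : ℝ → ℝ → ℝ}
    (hY : ContinuousOn (fun z : ℝ × ℝ => Y z.1 z.2) (strip T))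
    (hYx : ContinuousOn (fun z : ℝ × ℝ => Yx z.1 z.2) (strip T))
    (hd : ∀ t ∈ Ico 0 T, ∀ x ∈ Icc (-1 : ℝ) 1, HasDerivWithinAt (Y t) (Yx t x) (Icc (-1) 1) x)
    (hp : ∀ t ∈ Ico 0 T, Y t 1 = 0) (hm : ∀ t ∈ Ico 0 T, Y t (-1) = 0) (hT : 0 < T) :
    ∃ η : ℝ → ℝ → ℝ, (∀ h ∈ Icc (-1 : ℝ) 1, η 0 h = h) ∧
      (∀ t ∈ Ico 0 T, ∀ h ∈ Icc (-1 : ℝ) 1, η t h ∈ Icc (-1 : ℝ) 1) ∧
      (∀ t ∈ Ico 0 T, ∀ h ∈ Icc (-1 : ℝ) 1, HasDerivWithinAt (fun s => η s h)
        (Y t (η t h)) (Ico 0 T) t) := by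
  have hex : ∀ T' h : ℝ, 0 ≤ T' ∧ T' < T ∧ h ∈ Icc (-1 : ℝ) 1 →
      ∃ α : ℝ → ℝ, α 0 = h ∧ ∀ t ∈ Icc 0 T', α t ∈ Icc (-1 : ℝ) 1 ∧
        HasDerivWithinAt α (Y t (α t)) (Icc 0 T') t :=
    fun T' h hh => exists_sol hh.1 hh.2.1 hY hYx hd hp hm hh.2.2
  choose! α hα0 hα using hex
  have huni : ∀ T' h, 0 ≤ T' ∧ T' < T ∧ h ∈ Icc (-1 : ℝ) 1 → ∀ T'', 0 ≤ T'' → T'' ≤ T' →
      ∀ t ∈ Icc 0 T'', α T'' h t = α T' h t := by
    intro T' h hh T'' h0 hle t ht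
    have hh2 : 0 ≤ T'' ∧ T'' < T ∧ h ∈ Icc (-1 : ℝ) 1 := ⟨h0, hle.trans_lt hh.2.1, hh.2.2⟩
    refine unique_sol hh2.2.1 hYx hd ((hα0 T'' h hh2).trans (hα0 T' h hh).symm)
      (hα T'' h hh2) (fun s hs => ?_) t ht
    have := hα T' h hh s ⟨hs.1, hs.2.trans hle⟩
    exact ⟨this.1, this.2.mono (Icc_subset_Icc le_rfl hle)⟩
  have key : ∀ T' h, 0 ≤ T' ∧ T' < T ∧ h ∈ Icc (-1 : ℝ) 1 → ∀ t ∈ Icc 0 T',
      α t h t = α T' h t := fun T' h hh t ht => huni T' h hh t ht.1 ht.2 t ⟨ht.1, le_rfl⟩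
  refine ⟨fun t h => α t h t, fun h hh => hα0 0 h ⟨le_rfl, hT, hh⟩, fun t ht h hh =>
    (hα t h ⟨ht.1, ht.2, hh⟩ t ⟨ht.1, le_rfl⟩).1, fun t ht h hh => ?_⟩
  obtain ⟨T', h0, h1, h2⟩ := exists_mid ht
  have hT' : 0 ≤ T' ∧ T' < T ∧ h ∈ Icc (-1 : ℝ) 1 := ⟨h0, h1, hh⟩
  have e : ∀ s ∈ Iio T' ∩ Ico 0 T, α s h s = α T' h s :=
    fun s hs => key T' h hT' s ⟨hs.2.1, le_of_lt hs.1⟩
  have h3 := (hα T' h hT' t ⟨ht.1, h2.le⟩).2
  have h4 : HasDerivWithinAt (α T' h) (Y t (α T' h t)) (Ico 0 T) t := by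
    refine h3.mono_of_mem_nhdsWithin ?_
    exact mem_of_superset (Ico_mem_nhdsWithin (T := T) h2) fun s hs => ⟨hs.2.1, le_of_lt hs.1⟩
  rw [← e t ⟨h2, ht⟩] at h4
  exact h4.congr_of_eventuallyEq
    (mem_of_superset (Ico_mem_nhdsWithin (T := T) h2) fun s hs => e s hs) (e t ⟨h2, ht⟩)

/-! ### Difference quotients -/

/-- Integral form of the difference quotient. -/
noncomputable def quo (Yx : ℝ → ℝ → ℝ) (s x x' : ℝ) : ℝ :=
  ∫ θ in (0 : ℝ)..1, Yx s (x + θ * (x' - x))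

theorem quo_self (Yx : ℝ → ℝ → ℝ) (s x : ℝ) : quo Yx s x x = Yx s x := by
  simp [quo]

theorem seg_mem {x x' θ : ℝ} (hx : x ∈ Icc (-1 : ℝ) 1) (hx' : x' ∈ Icc (-1 : ℝ) 1)
    (hθ : θ ∈ Icc (0 : ℝ) 1) : x + θ * (x' - x) ∈ Icc (-1 : ℝ) 1 := by
  have := (convex_Icc (-1 : ℝ) 1).add_smul_sub_mem hx hx' hθ
  simpa using this

theorem quo_mul {T : ℝ} {Y Yx : ℝ → ℝ → ℝ}
    (hYx : ContinuousOn (fun z : ℝ × ℝ => Yx z.1 z.2) (strip T))
    (hd : ∀ t ∈ Ico 0 T, ∀ x ∈ Icc (-1 : ℝ) 1, HasDerivWithinAt (Y t) (Yx t x) (Icc (-1) 1) x)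
    {t x x' : ℝ} (ht : t ∈ Ico 0 T) (hx : x ∈ Icc (-1 : ℝ) 1) (hx' : x' ∈ Icc (-1 : ℝ) 1) :
    Y t x' - Y t x = quo Yx t x x' * (x' - x) := by
  have hg : ∀ θ ∈ Icc (0 : ℝ) 1, HasDerivWithinAt (fun θ => Y t (x + θ * (x' - x)))
      (Yx t (x + θ * (x' - x)) * (x' - x)) (Icc 0 1) θ := by
    intro θ hθ
    have h1 : HasDerivWithinAt (fun θ : ℝ => x + θ * (x' - x)) (x' - x) (Icc 0 1) θ := by
      simpa using ((hasDerivWithinAt_id θ (Icc (0 : ℝ) 1)).mul_const (x' - x)).const_add x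
    exact (hd t ht _ (seg_mem hx hx' hθ)).comp θ h1 fun s hs => seg_mem hx hx' hs
  have hcont : ContinuousOn (fun θ : ℝ => Yx t (x + θ * (x' - x)) * (x' - x)) (Icc 0 1) := by
    refine ContinuousOn.mul ?_ continuousOn_const
    exact (slice_x hYx ht).comp (f := fun θ : ℝ => x + θ * (x' - x)) (by fun_prop)
      fun s hs => seg_mem hx hx' hs
  have := intervalIntegral.integral_eq_sub_of_hasDerivAt_of_le (a := 0) (b := 1) zero_le_one
    (fun θ hθ => (hg θ hθ).continuousWithinAt)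
    (fun θ hθ => (hg θ ⟨hθ.1.le, hθ.2.le⟩).hasDerivAt (Icc_mem_nhds hθ.1 hθ.2))
    (hcont.intervalIntegrable_of_Icc zero_le_one)
  rw [quo, ← intervalIntegral.integral_mul_const, this]
  simp

theorem quo_cont {T : ℝ} {Yx : ℝ → ℝ → ℝ}
    (hYx : ContinuousOn (fun z : ℝ × ℝ => Yx z.1 z.2) (strip T)) {a b : ℝ × ℝ → ℝ}
    (ha : ContinuousOn a (strip T)) (hb : ContinuousOn b (strip T))
    (ha1 : ∀ z ∈ strip T, a z ∈ Icc (-1 : ℝ) 1) (hb1 : ∀ z ∈ strip T, b z ∈ Icc (-1 : ℝ) 1) :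
    ContinuousOn (fun z : ℝ × ℝ => quo Yx z.1 (a z) (b z)) (strip T) := by
  intro z hz
  obtain ⟨T', h0, h1, h2⟩ := exists_mid hz.1
  have hc := continuous_clamp h0 h1 hYx
  have hc2 : Continuous fun w : ℝ × ℝ × ℝ =>
      ∫ θ in (0 : ℝ)..1, Yx (cl 0 T' w.1) (cl (-1) 1 (w.2.1 + θ * (w.2.2 - w.2.1))) := by
    refine intervalIntegral.continuous_parametric_intervalIntegral_of_continuous'
      (f := fun (w : ℝ × ℝ × ℝ) (θ : ℝ) =>
        Yx (cl 0 T' w.1) (cl (-1) 1 (w.2.1 + θ * (w.2.2 - w.2.1)))) ?_ 0 1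
    exact hc.comp (f := fun p : (ℝ × ℝ × ℝ) × ℝ =>
      ((p.1.1, p.1.2.1 + p.2 * (p.1.2.2 - p.1.2.1)) : ℝ × ℝ)) (by fun_prop)
  have e : ∀ w ∈ strip T, w.1 < T' → quo Yx w.1 (a w) (b w) =
      ∫ θ in (0 : ℝ)..1, Yx (cl 0 T' w.1) (cl (-1) 1 (a w + θ * (b w - a w))) := by
    intro w hw hw1
    rw [cl_of_mem ⟨hw.1.1, hw1.le⟩, quo]
    refine intervalIntegral.integral_congr fun θ hθ => ?_
    rw [uIcc_of_le zero_le_one] at hθ
    simp only [cl_of_mem (seg_mem (ha1 w hw) (hb1 w hw) hθ)]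
  have h3 : ContinuousWithinAt (fun z : ℝ × ℝ =>
      ∫ θ in (0 : ℝ)..1, Yx (cl 0 T' z.1) (cl (-1) 1 (a z + θ * (b z - a z)))) (strip T) z :=
    hc2.continuousAt.comp_continuousWithinAt (f := fun z : ℝ × ℝ => (z.1, a z, b z))
      (continuous_fst.continuousWithinAt.prodMk ((ha z hz).prodMk (hb z hz)))
  refine h3.congr_of_eventuallyEq ?_ (e z hz h2)
  have : ∀ᶠ w in 𝓝[strip T] z, w.1 < T' :=
    nhdsWithin_le_nhds (continuous_fst.continuousAt (Iio_mem_nhds h2))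
  filter_upwards [this, self_mem_nhdsWithin] with w hw1 hw2 using e w hw2 hw1

/-- The hypotheses on the vector field and the flow. -/
structure IsFlow (T : ℝ) (Y Yx η : ℝ → ℝ → ℝ) : Prop where
  hY : ContinuousOn (fun z : ℝ × ℝ => Y z.1 z.2) (strip T)
  hYx : ContinuousOn (fun z : ℝ × ℝ => Yx z.1 z.2) (strip T)
  hd : ∀ t ∈ Ico 0 T, ∀ x ∈ Icc (-1 : ℝ) 1, HasDerivWithinAt (Y t) (Yx t x) (Icc (-1) 1) x
  h0 : ∀ h ∈ Icc (-1 : ℝ) 1, η 0 h = h
  mem : ∀ t ∈ Ico 0 T, ∀ h ∈ Icc (-1 : ℝ) 1, η t h ∈ Icc (-1 : ℝ) 1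
  ode : ∀ t ∈ Ico 0 T, ∀ h ∈ Icc (-1 : ℝ) 1, HasDerivWithinAt (fun s => η s h)
        (Y t (η t h)) (Ico 0 T) t

namespace IsFlow

variable {T : ℝ} {Y Yx η : ℝ → ℝ → ℝ}

theorem cont_t (H : IsFlow T Y Yx η) {h : ℝ} (hh : h ∈ Icc (-1 : ℝ) 1) :
    ContinuousOn (fun t => η t h) (Ico 0 T) :=
  fun t ht => (H.ode t ht h hh).continuousWithinAt

theorem diff (H : IsFlow T Y Yx η) {h h' : ℝ} (hh : h ∈ Icc (-1 : ℝ) 1)
    (hh' : h' ∈ Icc (-1 : ℝ) 1) {t : ℝ} (ht : t ∈ Ico 0 T) :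
    η t h' - η t h = (h' - h) * Real.exp (∫ s in (0 : ℝ)..t, quo Yx s (η s h) (η s h')) := by
  have hc : ContinuousOn (fun s => quo Yx s (η s h) (η s h')) (Ico 0 T) := by
    have h1 : ContinuousOn (fun z : ℝ × ℝ => quo Yx z.1 (η z.1 h) (η z.1 h')) (strip T) :=
      quo_cont H.hYx ((H.cont_t hh).comp continuousOn_fst fun z hz => hz.1)
        ((H.cont_t hh').comp continuousOn_fst fun z hz => hz.1)
        (fun z hz => H.mem _ hz.1 _ hh) (fun z hz => H.mem _ hz.1 _ hh')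
    exact slice_t (F := fun s _ => quo Yx s (η s h) (η s h')) h1 zero_mem_space
  have := lin_ode (u := fun t => η t h' - η t h) hc (fun t ht => by
    have h2 := (H.ode t ht h' hh').sub (H.ode t ht h hh)
    rw [quo_mul H.hYx H.hd ht (H.mem t ht h hh) (H.mem t ht h' hh')] at h2
    exact h2) ht
  rw [this, H.h0 h hh, H.h0 h' hh']

theorem lip (H : IsFlow T Y Yx η) {T' : ℝ} (h1 : T' < T) :
    ∃ C : ℝ, 0 ≤ C ∧ ∀ t ∈ Icc 0 T', ∀ h ∈ Icc (-1 : ℝ) 1, ∀ h' ∈ Icc (-1 : ℝ) 1,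
      |η t h' - η t h| ≤ C * |h' - h| := by
  obtain ⟨K, hK⟩ := exists_bound_strip h1 H.hYx
  refine ⟨Real.exp (K * T'), (Real.exp_pos _).le, fun t ht h hh h' hh' => ?_⟩
  have ht' : t ∈ Ico 0 T := ⟨ht.1, ht.2.trans_lt h1⟩
  rw [H.diff hh hh' ht', abs_mul, Real.abs_exp, mul_comm]
  gcongr
  have hq : ∀ s ∈ uIoc 0 t, ‖quo Yx s (η s h) (η s h')‖ ≤ K := by
    intro s hs
    rw [uIoc_of_le ht.1] at hs
    have hs' : s ∈ Ico 0 T := ⟨hs.1.le, hs.2.trans_lt ht'.2⟩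
    have := intervalIntegral.norm_integral_le_of_norm_le_const (a := 0) (b := 1)
      (f := fun θ => Yx s (η s h + θ * (η s h' - η s h))) (C := K) (fun θ hθ => by
        rw [uIoc_of_le zero_le_one] at hθ
        exact hK s ⟨hs.1.le, hs.2.trans ht.2⟩ _
          (seg_mem (H.mem s hs' h hh) (H.mem s hs' h' hh') ⟨hθ.1.le, hθ.2⟩))
    simpa [quo] using this
  have := intervalIntegral.norm_integral_le_of_norm_le_const hq
  rw [sub_zero, abs_of_nonneg ht.1] at this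
  calc ∫ s in (0 : ℝ)..t, quo Yx s (η s h) (η s h')
      ≤ ‖∫ s in (0 : ℝ)..t, quo Yx s (η s h) (η s h')‖ := le_abs_self _
    _ ≤ K * t := this
    _ ≤ K * T' := by gcongr; exact ht.2

theorem cont (H : IsFlow T Y Yx η) : ContinuousOn (fun z : ℝ × ℝ => η z.1 z.2) (strip T) := by
  intro z hz
  obtain ⟨T', h0, h1, h2⟩ := exists_mid hz.1
  obtain ⟨C, hC0, hC⟩ := H.lip h1
  have e1 : ∀ᶠ w in 𝓝[strip T] z, w.1 < T' :=
    nhdsWithin_le_nhds (continuous_fst.continuousAt (Iio_mem_nhds h2))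
  have hfst : Tendsto (fun w : ℝ × ℝ => w.1) (𝓝[strip T] z) (𝓝[Ico 0 T] z.1) := by
    refine tendsto_nhdsWithin_iff.mpr ⟨?_, ?_⟩
    · exact (continuous_fst.tendsto z).mono_left nhdsWithin_le_nhds
    · filter_upwards [self_mem_nhdsWithin] with w hw using hw.1
  have l1 : Tendsto (fun w : ℝ × ℝ => |η w.1 z.2 - η z.1 z.2|) (𝓝[strip T] z) (𝓝 0) := by
    have := ((H.cont_t hz.2) z.1 hz.1).tendsto.comp hfst
    have h3 := (this.sub_const (η z.1 z.2)).abs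
    simpa using h3
  have l2 : Tendsto (fun w : ℝ × ℝ => C * |w.2 - z.2|) (𝓝[strip T] z) (𝓝 0) := by
    have h3 : Tendsto (fun w : ℝ × ℝ => C * |w.2 - z.2|) (𝓝 z) (𝓝 (C * |z.2 - z.2|)) :=
      (by fun_prop : Continuous fun w : ℝ × ℝ => C * |w.2 - z.2|).tendsto z
    simp only [sub_self, abs_zero, mul_zero] at h3
    exact h3.mono_left nhdsWithin_le_nhds
  have l3 := l1.add l2
  rw [add_zero] at l3
  rw [ContinuousWithinAt, tendsto_iff_dist_tendsto_zero]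
  refine squeeze_zero' (Eventually.of_forall fun w => dist_nonneg) ?_ l3
  filter_upwards [e1, self_mem_nhdsWithin] with w hw1 hw
  rw [Real.dist_eq]
  have h4 := hC w.1 ⟨hw.1.1, hw1.le⟩ z.2 hz.2 w.2 hw.2
  calc |η w.1 w.2 - η z.1 z.2| = |(η w.1 w.2 - η w.1 z.2) + (η w.1 z.2 - η z.1 z.2)| := by ring_nf
    _ ≤ |η w.1 w.2 - η w.1 z.2| + |η w.1 z.2 - η z.1 z.2| := abs_add_le _ _
    _ ≤ _ := by linarith only [h4]

theorem maps (H : IsFlow T Y Yx η) :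
    MapsTo (fun z : ℝ × ℝ => ((z.1, η z.1 z.2) : ℝ × ℝ)) (strip T) (strip T) :=
  fun z hz => ⟨hz.1, H.mem z.1 hz.1 z.2 hz.2⟩

theorem deriv_h (H : IsFlow T Y Yx η) {t h : ℝ} (ht : t ∈ Ico 0 T) (hh : h ∈ Icc (-1 : ℝ) 1) :
    HasDerivWithinAt (η t) (Real.exp (∫ s in (0 : ℝ)..t, Yx s (η s h))) (Icc (-1) 1) h := by
  have hq : ContinuousOn (fun z : ℝ × ℝ => quo Yx z.1 (η z.1 h) (η z.1 z.2)) (strip T) :=
    quo_cont H.hYx ((H.cont_t hh).comp continuousOn_fst fun z hz => hz.1) H.cont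
      (fun z hz => H.mem _ hz.1 _ hh) (fun z hz => H.mem _ hz.1 _ hz.2)
  have hI := slice_x (F := fun t x => ∫ s in (0 : ℝ)..t, quo Yx s (η s h) (η s x))
    (continuousOn_integral_t (F := fun s x => quo Yx s (η s h) (η s x)) hq) ht
  have h1 : ContinuousWithinAt (fun x => Real.exp (∫ s in (0 : ℝ)..t, quo Yx s (η s h) (η s x)))
      (Icc (-1) 1) h := (hI h hh).rexp
  rw [hasDerivWithinAt_iff_tendsto_slope]
  have h2 := h1.tendsto
  simp only [quo_self] at h2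
  refine (h2.mono_left (nhdsWithin_mono _ sdiff_subset)).congr' ?_
  filter_upwards [self_mem_nhdsWithin] with x hx
  have hne : x - h ≠ 0 := sub_ne_zero.mpr hx.2
  rw [slope_def_field, H.diff hh hx.1 ht]
  field_simp

theorem smooth (H : IsFlow T Y Yx η)
    (hY : ContDiffOn ℝ ∞ (fun z : ℝ × ℝ => Y z.1 z.2) (strip T))
    (hYx : ContDiffOn ℝ ∞ (fun z : ℝ × ℝ => Yx z.1 z.2) (strip T)) :
    ContDiffOn ℝ ∞ (fun z : ℝ × ℝ => η z.1 z.2) (strip T) := by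
  rw [contDiffOn_infty]
  intro n
  induction n with
  | zero =>
    simp only [CharP.cast_eq_zero, contDiffOn_zero]
    exact H.cont
  | succ n ih =>
    have hm : ContDiffOn ℝ n (fun z : ℝ × ℝ => ((z.1, η z.1 z.2) : ℝ × ℝ)) (strip T) :=
      contDiffOn_fst.prodMk ih
    have c1 : ContDiffOn ℝ n (fun z : ℝ × ℝ => Y z.1 (η z.1 z.2)) (strip T) :=
      (contDiffOn_infty.mp hY n).comp hm H.maps
    have c2 : ContDiffOn ℝ n (fun z : ℝ × ℝ => Yx z.1 (η z.1 z.2)) (strip T) :=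
      (contDiffOn_infty.mp hYx n).comp hm H.maps
    have c3 := strip_integral_t_nat n (F := fun s h => Yx s (η s h)) c2
    have := contDiffOn_strip_succ (G := η) (Gt := fun t h => Y t (η t h))
      (Gx := fun t h => Real.exp (∫ s in (0 : ℝ)..t, Yx s (η s h))) n
      H.ode (fun t ht x hx => H.deriv_h ht hx) c1 c3.exp
    exact_mod_cast this

end IsFlow

/-- (F) the flow of the vector field `(1-x^2) J(t,x)` on `[-1,1]` -/
theorem strip_flow {T : ℝ} (hT : 0 < T) {J : ℝ → ℝ → ℝ}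
    (hJ : ContDiffOn ℝ ∞ (fun z : ℝ × ℝ => J z.1 z.2) (strip T)) :
    ∃ η : ℝ → ℝ → ℝ, (∀ h ∈ Icc (-1 : ℝ) 1, η 0 h = h) ∧
      (∀ t ∈ Ico 0 T, ∀ h ∈ Icc (-1 : ℝ) 1, η t h ∈ Icc (-1 : ℝ) 1) ∧
      (∀ t ∈ Ico 0 T, ∀ h ∈ Icc (-1 : ℝ) 1, HasDerivWithinAt (fun s => η s h)
        ((1 - η t h ^ 2) * J t (η t h)) (Ico 0 T) t) ∧
      ContDiffOn ℝ ∞ (fun z : ℝ × ℝ => η z.1 z.2) (strip T) ∧
      (∀ t ∈ Ico 0 T, ∀ h ∈ Icc (-1 : ℝ) 1, HasDerivWithinAt (η t)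
        (Real.exp (∫ s in (0 : ℝ)..t, (-2 * η s h * J s (η s h) +
          (1 - η s h ^ 2) * derivWithin (J s) (Icc (-1) 1) (η s h)))) (Icc (-1) 1) h) ∧
      (∀ t ∈ Ico 0 T, ∀ h ∈ Icc (-1 : ℝ) 1, 1 - η t h ^ 2 =
        (1 - h ^ 2) * Real.exp (∫ s in (0 : ℝ)..t, (-2 * η s h * J s (η s h)))) := by
  obtain ⟨hJx, hJd⟩ := strip_dx hJ
  have hY : ContDiffOn ℝ ∞ (fun z : ℝ × ℝ => (1 - z.2 ^ 2) * J z.1 z.2) (strip T) :=
    (contDiffOn_const.sub (contDiffOn_snd.pow 2)).mul hJ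
  have hYx : ContDiffOn ℝ ∞ (fun z : ℝ × ℝ => -2 * z.2 * J z.1 z.2 +
      (1 - z.2 ^ 2) * derivWithin (J z.1) (Icc (-1) 1) z.2) (strip T) :=
    ((contDiffOn_const.mul contDiffOn_snd).mul hJ).add
      ((contDiffOn_const.sub (contDiffOn_snd.pow 2)).mul hJx)
  have hd : ∀ t ∈ Ico 0 T, ∀ x ∈ Icc (-1 : ℝ) 1, HasDerivWithinAt (fun x => (1 - x ^ 2) * J t x)
      (-2 * x * J t x + (1 - x ^ 2) * derivWithin (J t) (Icc (-1) 1) x) (Icc (-1) 1) x := by
    intro t ht x hx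
    have h1 : HasDerivWithinAt (fun x : ℝ => 1 - x ^ 2) (-2 * x) (Icc (-1) 1) x := by
      have := ((hasDerivWithinAt_id x (Icc (-1 : ℝ) 1)).pow 2).const_sub 1
      simpa using this
    exact h1.mul (hJd t ht x hx)
  obtain ⟨η, h0, h1, h2⟩ := exists_flow (Y := fun t x => (1 - x ^ 2) * J t x)
    (Yx := fun t x => -2 * x * J t x + (1 - x ^ 2) * derivWithin (J t) (Icc (-1) 1) x)
    hY.continuousOn hYx.continuousOn hd (fun t _ => by norm_num) (fun t _ => by norm_num) hT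
  have H : IsFlow T (fun t x => (1 - x ^ 2) * J t x)
      (fun t x => -2 * x * J t x + (1 - x ^ 2) * derivWithin (J t) (Icc (-1) 1) x) η :=
    ⟨hY.continuousOn, hYx.continuousOn, hd, h0, h1, h2⟩
  refine ⟨η, h0, h1, h2, H.smooth hY hYx, fun t ht h hh => H.deriv_h ht hh,
    fun t ht h hh => ?_⟩
  have hc : ContinuousOn (fun s => -2 * η s h * J s (η s h)) (Ico 0 T) := by
    have c1 : ContinuousOn (fun z : ℝ × ℝ => -2 * z.2 * J z.1 z.2) (strip T) :=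
      ((contDiffOn_const.mul contDiffOn_snd).mul hJ).continuousOn
    exact c1.comp (f := fun s : ℝ => ((s, η s h) : ℝ × ℝ))
      (continuousOn_id.prodMk (H.cont_t hh)) fun s hs => ⟨hs, h1 s hs h hh⟩
  have := lin_ode (u := fun t => 1 - η t h ^ 2) hc (fun t ht => by
    have h3 := ((h2 t ht h hh).pow 2).const_sub 1
    refine h3.congr_deriv ?_
    simp only [Nat.cast_ofNat, Nat.add_one_sub_one, pow_one]
    ring) ht
  rw [this, h0 h hh]

end Vale.Agent.P244.Geo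
end

section

open Set
open scoped ContDiff

namespace Vale.Agent.P244.GeoM

open Vale.Agent.P244.Geo (strip strip_dx strip_dt strip_integral_x strip_integral_t strip_flow)
open Vale.Agent.P244.ST

/-- smooth functions on the strip -/
def Sm (T : ℝ) (F : ℝ → ℝ → ℝ) : Prop :=
  ContDiffOn ℝ ∞ (fun z : ℝ × ℝ => F z.1 z.2) (strip T)

/-- space derivative -/
noncomputable def Dx (F : ℝ → ℝ → ℝ) (t x : ℝ) : ℝ := derivWithin (F t) (Icc (-1) 1) x

/-- time derivative -/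
noncomputable def Dt (T : ℝ) (F : ℝ → ℝ → ℝ) (t x : ℝ) : ℝ :=
  derivWithin (fun s => F s x) (Ico 0 T) t

variable {T : ℝ} {F G : ℝ → ℝ → ℝ}

theorem Sm.dx (hF : Sm T F) : Sm T (Dx F) := (strip_dx hF).1

theorem Sm.hasDx (hF : Sm T F) {t x : ℝ} (ht : t ∈ Ico 0 T) (hx : x ∈ Icc (-1 : ℝ) 1) :
    HasDerivWithinAt (F t) (Dx F t x) (Icc (-1) 1) x := (strip_dx hF).2 t ht x hx

theorem Sm.dt (hF : Sm T F) : Sm T (Dt T F) := (strip_dt hF).1

theorem Sm.hasDt (hF : Sm T F) {t x : ℝ} (ht : t ∈ Ico 0 T) (hx : x ∈ Icc (-1 : ℝ) 1) :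
    HasDerivWithinAt (fun s => F s x) (Dt T F t x) (Ico 0 T) t := (strip_dt hF).2 t ht x hx

theorem Sm.add (hF : Sm T F) (hG : Sm T G) : Sm T (fun t x => F t x + G t x) := ContDiffOn.add hF hG
theorem Sm.sub (hF : Sm T F) (hG : Sm T G) : Sm T (fun t x => F t x - G t x) := ContDiffOn.sub hF hG
theorem Sm.mul (hF : Sm T F) (hG : Sm T G) : Sm T (fun t x => F t x * G t x) := ContDiffOn.mul hF hG
theorem Sm.exp (hF : Sm T F) : Sm T (fun t x => Real.exp (F t x)) := ContDiffOn.exp hF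
theorem Sm.const (c : ℝ) : Sm T (fun _ _ => c) := contDiffOn_const
theorem Sm.space : Sm T (fun _ x => x) := contDiffOn_snd

theorem Sm.intx (hF : Sm T F) : Sm T (fun t x => ∫ y in (0 : ℝ)..x, F t y) := strip_integral_x hF
theorem Sm.intt (hF : Sm T F) : Sm T (fun t x => ∫ s in (0 : ℝ)..t, F s x) := strip_integral_t hF

theorem Sm.comp (hF : Sm T F) (hG : Sm T G)
    (hm : ∀ t ∈ Ico 0 T, ∀ x ∈ Icc (-1 : ℝ) 1, G t x ∈ Icc (-1 : ℝ) 1) :
    Sm T (fun t x => F t (G t x)) := by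
  have h1 : ContDiffOn ℝ ∞ (fun z : ℝ × ℝ => (z.1, G z.1 z.2)) (strip T) :=
    contDiffOn_fst.prodMk hG
  exact ContDiffOn.comp (g := fun z : ℝ × ℝ => F z.1 z.2) hF h1
    (fun z hz => ⟨hz.1, hm z.1 hz.1 z.2 hz.2⟩)

theorem Sm.contx (hF : Sm T F) {t : ℝ} (ht : t ∈ Ico 0 T) : ContinuousOn (F t) (Icc (-1) 1) :=
  fun _ hx => (hF.hasDx ht hx).continuousWithinAt

theorem Sm.contt (hF : Sm T F) {x : ℝ} (hx : x ∈ Icc (-1 : ℝ) 1) :
    ContinuousOn (fun t => F t x) (Ico 0 T) :=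
  fun _ ht => (hF.hasDt ht hx).continuousWithinAt

/-- chain rule along a curve in the strip -/
theorem Sm.chain (hF : Sm T F) {γ : ℝ → ℝ} {γ' t : ℝ} (ht : t ∈ Ico 0 T)
    (hγ : HasDerivWithinAt γ γ' (Ico 0 T) t) (hm : ∀ s ∈ Ico 0 T, γ s ∈ Icc (-1 : ℝ) 1) :
    HasDerivWithinAt (fun s => F s (γ s)) (Dt T F t (γ t) + Dx F t (γ t) * γ') (Ico 0 T) t := by
  have hx := hm t ht
  have hz : ((t, γ t) : ℝ × ℝ) ∈ strip T := ⟨ht, hx⟩
  have h1 : DifferentiableWithinAt ℝ (fun z : ℝ × ℝ => F z.1 z.2) (strip T) (t, γ t) :=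
    (hF.differentiableOn (by simp)) _ hz
  have h2 := h1.hasFDerivWithinAt
  set L := fderivWithin ℝ (fun z : ℝ × ℝ => F z.1 z.2) (strip T) (t, γ t) with hL
  have hT : (0 : ℝ) < T := lt_of_le_of_lt ht.1 ht.2
  have hLt : L (1, 0) = Dt T F t (γ t) := by
    have h3 : HasDerivWithinAt (fun s : ℝ => ((s, γ t) : ℝ × ℝ)) (1, 0) (Ico 0 T) t :=
      (hasDerivWithinAt_id t _).prodMk (hasDerivWithinAt_const t _ (γ t))
    have h4 := h2.comp_hasDerivWithinAt t h3 (fun s hs => (⟨hs, hx⟩ : ((s, γ t) : ℝ × ℝ) ∈ strip T))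
    exact (uniqueDiffOn_Ico 0 T t ht).eq_deriv _ h4 (hF.hasDt ht hx)
  have hLx : L (0, 1) = Dx F t (γ t) := by
    have h3 : HasDerivWithinAt (fun y : ℝ => ((t, y) : ℝ × ℝ)) (0, 1) (Icc (-1) 1) (γ t) :=
      (hasDerivWithinAt_const _ _ t).prodMk (hasDerivWithinAt_id _ _)
    have h4 := h2.comp_hasDerivWithinAt (γ t) h3
      (fun y hy => (⟨ht, hy⟩ : ((t, y) : ℝ × ℝ) ∈ strip T))
    exact (uniqueDiffOn_Icc (by norm_num) _ hx).eq_deriv _ h4 (hF.hasDx ht hx)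
  have h5 : HasDerivWithinAt (fun s : ℝ => ((s, γ s) : ℝ × ℝ)) (1, γ') (Ico 0 T) t :=
    (hasDerivWithinAt_id t _).prodMk hγ
  have h6 := h2.comp_hasDerivWithinAt t h5 (fun s hs => (⟨hs, hm s hs⟩ : ((s, γ s) : ℝ × ℝ) ∈ strip T))
  refine h6.congr_deriv ?_
  have h7 : ((1, γ') : ℝ × ℝ) = (1, 0) + γ' • (0, 1) := by simp
  rw [← hLt, ← hLx, h7, map_add, map_smul, smul_eq_mul]
  ring


theorem hasDx_int {F : ℝ → ℝ} (hF : ContinuousOn F (Icc (-1) 1)) {x : ℝ}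
    (hx : x ∈ Icc (-1 : ℝ) 1) :
    HasDerivWithinAt (fun u => ∫ y in (0 : ℝ)..u, F y) (F x) (Icc (-1) 1) x := by
  have : Fact (x ∈ Icc (-1 : ℝ) 1) := ⟨hx⟩
  have h0 : (0 : ℝ) ∈ Icc (-1 : ℝ) 1 := by constructor <;> norm_num
  refine intervalIntegral.integral_hasDerivWithinAt_right (t := Icc (-1) 1) ?_ ?_ (hF x hx)
  · exact (hF.mono (uIcc_subset_Icc h0 hx)).intervalIntegrable
  · exact hF.stronglyMeasurableAtFilter_nhdsWithin measurableSet_Icc x

theorem hasDt_int {F : ℝ → ℝ} (hF : ContinuousOn F (Ico 0 T)) {t : ℝ} (ht : t ∈ Ico 0 T) :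
    HasDerivWithinAt (fun u => ∫ s in (0 : ℝ)..u, F s) (F t) (Ico 0 T) t := by
  obtain ⟨T', h1, h2⟩ := exists_between ht.2
  have hsub : Icc 0 T' ⊆ Ico 0 T := fun s hs => ⟨hs.1, lt_of_le_of_lt hs.2 h2⟩
  have ht' : t ∈ Icc 0 T' := ⟨ht.1, h1.le⟩
  have : Fact (t ∈ Icc 0 T') := ⟨ht'⟩
  have h0 : (0 : ℝ) ∈ Icc 0 T' := ⟨le_rfl, ht.1.trans h1.le⟩
  have hF' : ContinuousOn F (Icc 0 T') := hF.mono hsub
  have h3 : HasDerivWithinAt (fun u => ∫ s in (0 : ℝ)..u, F s) (F t) (Icc 0 T') t := by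
    refine intervalIntegral.integral_hasDerivWithinAt_right (t := Icc 0 T') ?_ ?_ (hF' t ht')
    · exact (hF'.mono (uIcc_subset_Icc h0 ht')).intervalIntegrable
    · exact hF'.stronglyMeasurableAtFilter_nhdsWithin measurableSet_Icc t
  refine h3.mono_of_mem_nhdsWithin ?_
  have h4 : Iio T' ∈ nhds t := Iio_mem_nhds h1
  filter_upwards [self_mem_nhdsWithin, mem_nhdsWithin_of_mem_nhds h4] with s hs hs'
  exact ⟨hs.1, le_of_lt hs'⟩

theorem intervalIntegrable_t {F : ℝ → ℝ} (hF : ContinuousOn F (Ico 0 T)) {t : ℝ}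
    (ht : t ∈ Ico 0 T) : IntervalIntegrable F MeasureTheory.volume 0 t := by
  refine (hF.mono ?_).intervalIntegrable
  rw [uIcc_of_le ht.1]
  exact fun s hs => ⟨hs.1, lt_of_le_of_lt hs.2 ht.2⟩

/-- The gauge field: the metrics of `ConfSol` solve the Ricci flow modulo the vector field
`(1 - x^2) Jt ∂_x`. -/
noncomputable def Jt (p : ℕ) (w f : ℝ → ℝ → ℝ) (t x : ℝ) : ℝ :=
  Jf p (w t) (f t) x + Real.exp (-2 * w t x) * gx p (w t) (f t) x

section conf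

variable {p : ℕ} {w f : ℝ → ℝ → ℝ}

theorem sm_Jd (hw : Sm T w) (hf : Sm T f) : Sm T (fun t x => Jd p (w t) (f t) x) := by
  have h1 : Sm T (fun t x => Real.exp (-2 * w t x) *
      (((p : ℝ) - 1) * (Dx w t x * Dx w t x) + (p : ℝ) * (Dx f t x * Dx f t x))) :=
    ((Sm.const (-2)).mul hw).exp.mul (((Sm.const _).mul (hw.dx.mul hw.dx)).add
      ((Sm.const _).mul (hf.dx.mul hf.dx)))
  refine h1.congr (fun z _ => ?_)
  simp only [Jd, dx, Dx]
  ring

theorem sm_gx (hw : Sm T w) (hf : Sm T f) : Sm T (fun t x => gx p (w t) (f t) x) :=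
  ((Sm.const _).mul hw.dx).add ((Sm.const _).mul hf.dx)

theorem sm_Jt (hw : Sm T w) (hf : Sm T f) : Sm T (Jt p w f) :=
  (sm_Jd hw hf).intx.add (((Sm.const (-2)).mul hw).exp.mul (sm_gx hw hf))

theorem Dx_Jt (hw : Sm T w) (hf : Sm T f) {t x : ℝ} (ht : t ∈ Ico 0 T)
    (hx : x ∈ Icc (-1 : ℝ) 1) : Dx (Jt p w f) t x = Real.exp (-2 * w t x) *
      (((p : ℝ) - 1) * (Dx (Dx w) t x - Dx w t x ^ 2) +
        (p : ℝ) * (Dx (Dx f) t x + Dx f t x ^ 2 - 2 * Dx w t x * Dx f t x)) := by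
  have h1 := hasDx_int ((sm_Jd (p := p) hw hf).contx ht) hx
  have h2 := ((hw.hasDx ht hx).const_mul (-2)).exp
  have h3 := ((hw.dx.hasDx ht hx).const_mul ((p : ℝ) - 1)).add
    ((hf.dx.hasDx ht hx).const_mul (p : ℝ))
  have h4 := h1.add (h2.mul h3)
  have h5 : derivWithin (Jt p w f t) (Icc (-1) 1) x = _ :=
    h4.derivWithin (uniqueDiffOn_Icc (by norm_num) x hx)
  rw [Dx, h5]
  simp only [Jd, dx, Pi.add_apply, Dx]
  ring

end conf


/-- The flow `η` of the gauge field. -/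
structure Flo (T : ℝ) (J : ℝ → ℝ → ℝ) (η : ℝ → ℝ → ℝ) : Prop where
  smJ : Sm T J
  init : ∀ h ∈ Icc (-1 : ℝ) 1, η 0 h = h
  mem : ∀ t ∈ Ico 0 T, ∀ h ∈ Icc (-1 : ℝ) 1, η t h ∈ Icc (-1 : ℝ) 1
  ode : ∀ t ∈ Ico 0 T, ∀ h ∈ Icc (-1 : ℝ) 1, HasDerivWithinAt (fun s => η s h)
    ((1 - η t h ^ 2) * J t (η t h)) (Ico 0 T) t
  sm : Sm T η
  dx : ∀ t ∈ Ico 0 T, ∀ h ∈ Icc (-1 : ℝ) 1, HasDerivWithinAt (η t)
    (Real.exp (∫ s in (0 : ℝ)..t, (-2 * η s h * J s (η s h) +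
      (1 - η s h ^ 2) * Dx J s (η s h)))) (Icc (-1) 1) h
  rel : ∀ t ∈ Ico 0 T, ∀ h ∈ Icc (-1 : ℝ) 1, 1 - η t h ^ 2 =
    (1 - h ^ 2) * Real.exp (∫ s in (0 : ℝ)..t, (-2 * η s h * J s (η s h)))

theorem exists_flo (hT : 0 < T) {J : ℝ → ℝ → ℝ} (hJ : Sm T J) : ∃ η, Flo T J η := by
  obtain ⟨η, h1, h2, h3, h4, h5, h6⟩ := strip_flow hT hJ
  exact ⟨η, hJ, h1, h2, h3, h4, h5, h6⟩

/-- `k = (1-η^2)/(1-h^2)` -/
noncomputable def kk (J η : ℝ → ℝ → ℝ) (t h : ℝ) : ℝ :=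
  Real.exp (∫ s in (0 : ℝ)..t, (-2 * η s h * J s (η s h)))

/-- `∫ k J_x` -/
noncomputable def SS (J η : ℝ → ℝ → ℝ) (t h : ℝ) : ℝ :=
  ∫ s in (0 : ℝ)..t, kk J η s h * Dx J s (η s h)

/-- `(exp(2(1-h^2)S)-1)/(1-h^2)` -/
noncomputable def QQ (J η : ℝ → ℝ → ℝ) (t h : ℝ) : ℝ :=
  ∫ s in (0 : ℝ)..t, 2 * (kk J η s h * Dx J s (η s h)) *
    Real.exp (2 * ((1 - h ^ 2) * SS J η s h))

/-- the coefficient of `g_{S^m}` -/
noncomputable def AA (w J η : ℝ → ℝ → ℝ) (t h : ℝ) : ℝ :=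
  Real.exp (2 * w t (η t h)) * kk J η t h

/-- the coefficient of `dh^2` -/
noncomputable def BB (w J η : ℝ → ℝ → ℝ) (t h : ℝ) : ℝ := AA w J η t h * QQ J η t h

/-- the coefficient of `g_{S^p}` -/
noncomputable def CC (f η : ℝ → ℝ → ℝ) (t h : ℝ) : ℝ := Real.exp (2 * f t (η t h))

namespace Flo

variable {J η : ℝ → ℝ → ℝ} (H : Flo T J η)
include H

theorem sm_J : Sm T (fun t h => J t (η t h)) := H.smJ.comp H.sm H.mem

theorem sm_Jx : Sm T (fun t h => Dx J t (η t h)) := H.smJ.dx.comp H.sm H.mem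

theorem sm_kint : Sm T (fun t h => -2 * η t h * J t (η t h)) :=
  ((Sm.const (-2)).mul H.sm).mul H.sm_J

theorem sm_kk : Sm T (kk J η) := H.sm_kint.intt.exp

theorem sm_SS : Sm T (SS J η) := (H.sm_kk.mul H.sm_Jx).intt

omit H in
theorem sm_q : Sm T (fun _ h => 1 - h ^ 2) := by
  have h1 : Sm T (fun _ h => 1 - h * h) := (Sm.const 1).sub (Sm.space.mul Sm.space)
  refine h1.congr (fun z _ => ?_)
  simp only
  ring

theorem sm_QQ : Sm T (QQ J η) :=
  (((Sm.const 2).mul (H.sm_kk.mul H.sm_Jx)).mul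
    ((Sm.const 2).mul (sm_q.mul H.sm_SS)).exp).intt

omit H in
theorem kk_pos (t h : ℝ) : 0 < kk J η t h := Real.exp_pos _

theorem rel_k {t h : ℝ} (ht : t ∈ Ico 0 T) (hh : h ∈ Icc (-1 : ℝ) 1) :
    1 - η t h ^ 2 = (1 - h ^ 2) * kk J η t h := H.rel t ht h hh

theorem rel_Q {t h : ℝ} (ht : t ∈ Ico 0 T) (hh : h ∈ Icc (-1 : ℝ) 1) :
    (1 - h ^ 2) * QQ J η t h = Real.exp (2 * ((1 - h ^ 2) * SS J η t h)) - 1 := by
  have hS : ∀ s ∈ Ico 0 T, HasDerivWithinAt (fun s => SS J η s h)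
      (kk J η s h * Dx J s (η s h)) (Ico 0 T) s := fun s hs =>
    hasDt_int ((H.sm_kk.mul H.sm_Jx).contt hh) hs
  have hQ : ∀ s ∈ Ico 0 T, HasDerivWithinAt (fun s => QQ J η s h)
      (2 * (kk J η s h * Dx J s (η s h)) *
        Real.exp (2 * ((1 - h ^ 2) * SS J η s h))) (Ico 0 T) s := fun s hs =>
    hasDt_int ((((Sm.const 2).mul (H.sm_kk.mul H.sm_Jx)).mul
      ((Sm.const 2).mul (sm_q.mul H.sm_SS)).exp).contt hh) hs
  -- the difference has zero derivative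
  have hD : ∀ s ∈ Ico 0 T, HasDerivWithinAt (fun s => (1 - h ^ 2) * QQ J η s h -
      Real.exp (2 * ((1 - h ^ 2) * SS J η s h))) 0 (Ico 0 T) s := by
    intro s hs
    have h1 := ((hQ s hs).const_mul (1 - h ^ 2)).sub
      (((hS s hs).const_mul (1 - h ^ 2)).const_mul 2).exp
    refine h1.congr_deriv ?_
    ring
  have h2 := (convex_Ico (0 : ℝ) T).is_const_of_fderivWithin_eq_zero (𝕜 := ℝ)
    (f := fun s => (1 - h ^ 2) * QQ J η s h - Real.exp (2 * ((1 - h ^ 2) * SS J η s h)))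
    (fun s hs => (hD s hs).differentiableWithinAt)
    (fun s hs => by
      have := (hD s hs).hasFDerivWithinAt.fderivWithin (uniqueDiffOn_Ico 0 T s hs)
      rw [this]; ext; simp)
    ht (show (0 : ℝ) ∈ Ico 0 T from ⟨le_rfl, lt_of_le_of_lt ht.1 ht.2⟩)
  have h3 : QQ J η 0 h = 0 := intervalIntegral.integral_same
  have h4 : SS J η 0 h = 0 := intervalIntegral.integral_same
  have h5 : (1 - h ^ 2) * QQ J η t h - Real.exp (2 * ((1 - h ^ 2) * SS J η t h)) =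
      (1 - h ^ 2) * QQ J η 0 h - Real.exp (2 * ((1 - h ^ 2) * SS J η 0 h)) := h2
  rw [h3, h4, mul_zero, mul_zero, Real.exp_zero] at h5
  linarith only [h5]

theorem dx_eq {t h : ℝ} (ht : t ∈ Ico 0 T) (hh : h ∈ Icc (-1 : ℝ) 1) :
    Dx η t h = kk J η t h * Real.exp ((1 - h ^ 2) * SS J η t h) := by
  have h1 : Dx η t h = _ := (H.dx t ht h hh).derivWithin (uniqueDiffOn_Icc (by norm_num) h hh)
  rw [h1, kk, ← Real.exp_add]
  congr 1
  rw [SS, ← intervalIntegral.integral_const_mul]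
  rw [← intervalIntegral.integral_add]
  · refine intervalIntegral.integral_congr (fun s hs => ?_)
    have hs' : s ∈ Ico 0 T := by
      rw [uIcc_of_le ht.1] at hs
      exact ⟨hs.1, lt_of_le_of_lt hs.2 ht.2⟩
    rw [H.rel_k hs' hh]
    ring
  · exact intervalIntegrable_t (H.sm_kint.contt hh) ht
  · exact intervalIntegrable_t
      (((Sm.const (1 - h ^ 2)).mul (H.sm_kk.mul H.sm_Jx)).contt hh) ht

theorem mem_Ioo {t h : ℝ} (ht : t ∈ Ico 0 T) (hh : h ∈ Ioo (-1 : ℝ) 1) :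
    η t h ∈ Ioo (-1 : ℝ) 1 := by
  have h1 := H.rel_k ht (Ioo_subset_Icc_self hh)
  have h2 : 0 < 1 - η t h ^ 2 := by
    rw [h1]
    have h3 := hh.1
    have h4 := hh.2
    exact mul_pos (by (by_contra nlg; linarith [mul_pos (sub_pos.2 h3) (sub_pos.2 h4), mul_nonneg (sub_nonneg.2 (not_lt.1 nlg)) (le_of_lt (sub_pos.2 h4)), mul_nonneg (sub_nonneg.2 (not_lt.1 nlg)) (le_of_lt (sub_pos.2 h3))])) (kk_pos t h)
  have h5 := H.mem t ht h (Ioo_subset_Icc_self hh)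
  constructor
  · rcases lt_or_eq_of_le h5.1 with h6 | h6
    · exact h6
    · rw [← h6] at h2; norm_num at h2
  · rcases lt_or_eq_of_le h5.2 with h6 | h6
    · exact h6
    · rw [h6] at h2; norm_num at h2

theorem dx_pos {t h : ℝ} (ht : t ∈ Ico 0 T) (hh : h ∈ Icc (-1 : ℝ) 1) : 0 < Dx η t h := by
  rw [H.dx_eq ht hh]
  exact mul_pos (kk_pos t h) (Real.exp_pos _)

/-- time derivative of `η_h` -/
theorem hasDt_dx {t h : ℝ} (ht : t ∈ Ico 0 T) (hh : h ∈ Icc (-1 : ℝ) 1) :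
    HasDerivWithinAt (fun s => Dx η s h) (Dx η t h * (-2 * η t h * J t (η t h) +
      (1 - η t h ^ 2) * Dx J t (η t h))) (Ico 0 T) t := by
  have h0 : ∀ s ∈ Ico 0 T, Dx η s h = Real.exp (∫ r in (0 : ℝ)..s, (-2 * η r h * J r (η r h) +
      (1 - η r h ^ 2) * Dx J r (η r h))) := fun s hs =>
    (H.dx s hs h hh).derivWithin (uniqueDiffOn_Icc (by norm_num) h hh)
  have h1 : Sm T (fun s h => -2 * η s h * J s (η s h) + (1 - η s h ^ 2) * Dx J s (η s h)) := by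
    have h2 : Sm T (fun s h => -2 * η s h * J s (η s h) +
        (1 - η s h * η s h) * Dx J s (η s h)) :=
      H.sm_kint.add (((Sm.const 1).sub (H.sm.mul H.sm)).mul H.sm_Jx)
    refine h2.congr (fun z _ => ?_)
    simp only
    ring
  have h2 := (hasDt_int (h1.contt hh) ht).exp
  rw [h0 t ht]
  exact h2.congr (fun s hs => h0 s hs) (h0 t ht)

variable {w f : ℝ → ℝ → ℝ}

theorem sm_AA (hw : Sm T w) : Sm T (AA w J η) :=
  (((Sm.const 2).mul (hw.comp H.sm H.mem)).exp).mul H.sm_kk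

theorem sm_BB (hw : Sm T w) : Sm T (BB w J η) := (H.sm_AA hw).mul H.sm_QQ

theorem sm_CC (hf : Sm T f) : Sm T (CC f η) := ((Sm.const 2).mul (hf.comp H.sm H.mem)).exp

omit H in
theorem AA_pos (t h : ℝ) : 0 < AA w J η t h := mul_pos (Real.exp_pos _) (kk_pos t h)

theorem ABq {t h : ℝ} (ht : t ∈ Ico 0 T) (hh : h ∈ Icc (-1 : ℝ) 1) :
    AA w J η t h + BB w J η t h * (1 - h ^ 2) =
      AA w J η t h * Real.exp (2 * ((1 - h ^ 2) * SS J η t h)) := by
  have h1 := H.rel_Q ht hh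
  rw [BB]
  linear_combination (AA w J η t h) * h1

theorem AB_pos {t h : ℝ} (ht : t ∈ Ico 0 T) (hh : h ∈ Icc (-1 : ℝ) 1) :
    0 < AA w J η t h + BB w J η t h * (1 - h ^ 2) := by
  rw [H.ABq ht hh]
  exact mul_pos (AA_pos t h) (Real.exp_pos _)

theorem relA {t h : ℝ} (ht : t ∈ Ico 0 T) (hh : h ∈ Icc (-1 : ℝ) 1) :
    AA w J η t h * (1 - h ^ 2) = Real.exp (2 * w t (η t h)) * (1 - η t h ^ 2) := by
  rw [H.rel_k ht hh, AA]
  ring

theorem relB {t h : ℝ} (ht : t ∈ Ico 0 T) (hh : h ∈ Ioo (-1 : ℝ) 1) :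
    (AA w J η t h + BB w J η t h * (1 - h ^ 2)) / (1 - h ^ 2) =
      Real.exp (2 * w t (η t h)) / (1 - η t h ^ 2) * Dx η t h ^ 2 := by
  have hh' := Ioo_subset_Icc_self hh
  rw [H.ABq ht hh', H.rel_k ht hh', H.dx_eq ht hh', AA]
  have hq := q_ne hh
  have hk := (kk_pos (J := J) (η := η) t h).ne'
  have h1 : Real.exp (2 * ((1 - h ^ 2) * SS J η t h)) =
      Real.exp ((1 - h ^ 2) * SS J η t h) ^ 2 := by
    rw [← Real.exp_nat_mul]
    norm_num
  rw [h1]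
  field_simp

/-- the profile of the pulled back metric -/
noncomputable def prof (w f J η : ℝ → ℝ → ℝ) (t : ℝ) : Geo.Prof where
  A := AA w J η t
  A1 := Dx (AA w J η) t
  A2 := Dx (Dx (AA w J η)) t
  B := BB w J η t
  B1 := Dx (BB w J η) t
  B2 := Dx (Dx (BB w J η)) t
  C := CC f η t
  C1 := Dx (CC f η) t
  C2 := Dx (Dx (CC f η)) t

theorem good (hw : Sm T w) (hf : Sm T f) {t : ℝ} (ht : t ∈ Ico 0 T) :
    (prof w f J η t).Good where
  hA := fun _ hx => (H.sm_AA hw).hasDx ht hx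
  hA1 := fun _ hx => (H.sm_AA hw).dx.hasDx ht hx
  hB := fun _ hx => (H.sm_BB hw).hasDx ht hx
  hB1 := fun _ hx => (H.sm_BB hw).dx.hasDx ht hx
  hC := fun _ hx => (H.sm_CC hf).hasDx ht hx
  hC1 := fun _ hx => (H.sm_CC hf).dx.hasDx ht hx
  posA := fun x _ => AA_pos t x
  posAB := fun _ hx => H.AB_pos ht hx
  posC := fun _ _ => Real.exp_pos _

omit H in
theorem hasDerivAt_of_within {F : ℝ → ℝ} {F' x : ℝ} (hx : x ∈ Ioo (-1 : ℝ) 1)
    (h : HasDerivWithinAt F F' (Icc (-1) 1) x) : HasDerivAt F F' x :=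
  h.hasDerivAt (Icc_mem_nhds hx.1 hx.2)

theorem spat (hw : Sm T w) (hf : Sm T f) {t : ℝ} (ht : t ∈ Ico 0 T) :
    Spat (AA w J η t) (Dx (AA w J η) t) (Dx (Dx (AA w J η)) t) (BB w J η t) (Dx (BB w J η) t)
      (CC f η t) (Dx (CC f η) t) (Dx (Dx (CC f η)) t) (η t) (Dx η t) (Dx (Dx η) t)
      (w t) (Dx w t) (Dx (Dx w) t) (f t) (Dx f t) (Dx (Dx f) t) where
  hA := fun _ hx => hasDerivAt_of_within hx ((H.sm_AA hw).hasDx ht (Ioo_subset_Icc_self hx))
  hA1 := fun _ hx => hasDerivAt_of_within hx ((H.sm_AA hw).dx.hasDx ht (Ioo_subset_Icc_self hx))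
  hB := fun _ hx => hasDerivAt_of_within hx ((H.sm_BB hw).hasDx ht (Ioo_subset_Icc_self hx))
  hC := fun _ hx => hasDerivAt_of_within hx ((H.sm_CC hf).hasDx ht (Ioo_subset_Icc_self hx))
  hC1 := fun _ hx => hasDerivAt_of_within hx ((H.sm_CC hf).dx.hasDx ht (Ioo_subset_Icc_self hx))
  he := fun _ hx => hasDerivAt_of_within hx (H.sm.hasDx ht (Ioo_subset_Icc_self hx))
  he1 := fun _ hx => hasDerivAt_of_within hx (H.sm.dx.hasDx ht (Ioo_subset_Icc_self hx))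
  hw := fun _ hx => hasDerivAt_of_within hx (hw.hasDx ht (Ioo_subset_Icc_self hx))
  hw1 := fun _ hx => hasDerivAt_of_within hx (hw.dx.hasDx ht (Ioo_subset_Icc_self hx))
  hf := fun _ hx => hasDerivAt_of_within hx (hf.hasDx ht (Ioo_subset_Icc_self hx))
  hf1 := fun _ hx => hasDerivAt_of_within hx (hf.dx.hasDx ht (Ioo_subset_Icc_self hx))
  mem := fun _ hx => H.mem_Ioo ht hx
  e1pos := fun _ hx => H.dx_pos ht (Ioo_subset_Icc_self hx)
  relA := fun _ hx => H.relA ht (Ioo_subset_Icc_self hx)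
  relB := fun _ hx => H.relB ht hx
  relC := fun _ _ => rfl

end Flo

end Vale.Agent.P244.GeoM
end

section

open Set

namespace Vale.Agent.P244.GeoM

open Vale.Agent.P244.Geo

variable (P : Prof) (m p : ℕ) {x : ℝ}

theorem F1_eq (hq : 1 - x ^ 2 ≠ 0) (hA : P.A x ≠ 0) (hAB : P.A x + P.B x * (1 - x ^ 2) ≠ 0)
    (hC : P.C x ≠ 0) :
    P.F1 m p x * (1 - x ^ 2) = RU m p (P.A x * (1 - x ^ 2)) (P.A1 x * (1 - x ^ 2) - 2 * x * P.A x)
      (P.A2 x * (1 - x ^ 2) - 4 * x * P.A1 x - 2 * P.A x)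
      ((P.A x + P.B x * (1 - x ^ 2)) / (1 - x ^ 2))
      ((P.A1 x + P.B1 x * (1 - x ^ 2) - 2 * x * P.B x) / (1 - x ^ 2) +
      2 * x * (P.A x + P.B x * (1 - x ^ 2)) / (1 - x ^ 2) ^ 2) (P.C x) (P.C1 x) := by
  unfold RU Prof.F1 Prof.T Prof.ga1 Prof.be Prof.ga Prof.al Prof.ka Prof.D1 Prof.D
  generalize P.A x = A at *
  generalize P.A1 x = A1
  generalize P.A2 x = A2
  generalize P.B x = B at *
  generalize P.B1 x = B1
  generalize P.C x = C at *
  generalize P.C1 x = C1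
  obtain ⟨q, hqx⟩ : ∃ q, q = 1 - x ^ 2 := ⟨_, rfl⟩
  rw [← hqx]
  rw [← hqx] at hq hAB
  obtain ⟨W, hW⟩ : ∃ W, W = A + B * q := ⟨_, rfl⟩
  rw [← hW]
  rw [← hW] at hAB
  have hB : B = (W - A) / q := by rw [hW]; field_simp; ring
  clear hW
  subst hB
  field_simp
  subst hqx
  ring

theorem F3_eq (hq : 1 - x ^ 2 ≠ 0) (hA : P.A x ≠ 0) (hAB : P.A x + P.B x * (1 - x ^ 2) ≠ 0)
    (hC : P.C x ≠ 0) :
    P.F3 m p x = RC m p (P.A x * (1 - x ^ 2)) (P.A1 x * (1 - x ^ 2) - 2 * x * P.A x)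
      ((P.A x + P.B x * (1 - x ^ 2)) / (1 - x ^ 2))
      ((P.A1 x + P.B1 x * (1 - x ^ 2) - 2 * x * P.B x) / (1 - x ^ 2) +
      2 * x * (P.A x + P.B x * (1 - x ^ 2)) / (1 - x ^ 2) ^ 2) (P.C x) (P.C1 x) (P.C2 x) := by
  unfold RC Prof.F3 Prof.T Prof.la1 Prof.la Prof.be Prof.ga Prof.al Prof.ka Prof.D1 Prof.D
  generalize P.A x = A at *
  generalize P.A1 x = A1
  generalize P.B x = B at *
  generalize P.B1 x = B1
  generalize P.C x = C at *
  generalize P.C1 x = C1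
  generalize P.C2 x = C2
  obtain ⟨q, hqx⟩ : ∃ q, q = 1 - x ^ 2 := ⟨_, rfl⟩
  rw [← hqx]
  rw [← hqx] at hq hAB
  obtain ⟨W, hW⟩ : ∃ W, W = A + B * q := ⟨_, rfl⟩
  rw [← hW]
  rw [← hW] at hAB
  have hB : B = (W - A) / q := by rw [hW]; field_simp; ring
  clear hW
  subst hB
  field_simp
  subst hqx
  ring

theorem F2_eq (hq : 1 - x ^ 2 ≠ 0) (hA : P.A x ≠ 0) (hAB : P.A x + P.B x * (1 - x ^ 2) ≠ 0)
    (hC : P.C x ≠ 0) :
    P.F2 m p x + P.F1 m p x / (1 - x ^ 2) = RV m p (P.A x * (1 - x ^ 2)) (P.A1 x * (1 - x ^ 2) - 2 * x * P.A x)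
      (P.A2 x * (1 - x ^ 2) - 4 * x * P.A1 x - 2 * P.A x)
      ((P.A x + P.B x * (1 - x ^ 2)) / (1 - x ^ 2))
      ((P.A1 x + P.B1 x * (1 - x ^ 2) - 2 * x * P.B x) / (1 - x ^ 2) +
      2 * x * (P.A x + P.B x * (1 - x ^ 2)) / (1 - x ^ 2) ^ 2) (P.C x) (P.C1 x) (P.C2 x) := by
  unfold RV Prof.F2 Prof.F1 Prof.T Prof.ga1 Prof.al1 Prof.ka1 Prof.be Prof.ga Prof.al Prof.ka
    Prof.D1 Prof.D
  generalize P.A x = A at *
  generalize P.A1 x = A1
  generalize P.A2 x = A2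
  generalize P.B x = B at *
  generalize P.B1 x = B1
  generalize P.C x = C at *
  generalize P.C1 x = C1
  generalize P.C2 x = C2
  obtain ⟨q, hqx⟩ : ∃ q, q = 1 - x ^ 2 := ⟨_, rfl⟩
  rw [← hqx]
  rw [← hqx] at hq hAB
  obtain ⟨W, hW⟩ : ∃ W, W = A + B * q := ⟨_, rfl⟩
  rw [← hW]
  rw [← hW] at hAB
  have hB : B = (W - A) / q := by rw [hW]; field_simp; ring
  clear hW
  subst hB
  field_simp
  subst hqx
  ring

end Vale.Agent.P244.GeoM
end

section

open Set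
open scoped ContDiff

set_option linter.unusedSectionVars false

namespace Vale.Agent.P244.GeoM

open Vale.Agent.P244.Geo (strip)
open Vale.Agent.P244.ST

variable {T : ℝ} {p : ℕ} {w f η : ℝ → ℝ → ℝ}

theorem exp_neg_two (a : ℝ) : Real.exp (-2 * a) = (Real.exp (2 * a))⁻¹ := by
  rw [← Real.exp_neg]; ring_nf

namespace Flo

variable (H : Flo T (Jt p w f) η) (S : ConfSol p w f T)
include H S

theorem Dt_w {t x : ℝ} (ht : t ∈ Ico 0 T) (hx : x ∈ Icc (-1 : ℝ) 1) :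
    Dt T w t x = (Real.exp (2 * w t x))⁻¹ * ((1 - x ^ 2) * Dx (Dx w) t x -
      ((p : ℝ) + 1) * x * Dx w t x - p) + (x - (1 - x ^ 2) * Dx w t x) * Jf p (w t) (f t) x := by
  have h1 : Dt T w t x = rhsW p (w t) (f t) x :=
    (S.eq_w t ht x hx).derivWithin (uniqueDiffOn_Ico 0 T t ht)
  rw [h1, rhsW, exp_neg_two]
  rfl

theorem Dt_f {t x : ℝ} (ht : t ∈ Ico 0 T) (hx : x ∈ Icc (-1 : ℝ) 1) :
    Dt T f t x = (Real.exp (2 * w t x))⁻¹ * ((1 - x ^ 2) * Dx (Dx f) t x -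
      ((p : ℝ) + 1) * x * Dx f t x) - ((p : ℝ) - 1) * (Real.exp (2 * f t x))⁻¹ -
      (1 - x ^ 2) * Dx f t x * Jf p (w t) (f t) x := by
  have h1 : Dt T f t x = rhsF p (w t) (f t) x :=
    (S.eq_f t ht x hx).derivWithin (uniqueDiffOn_Ico 0 T t ht)
  rw [h1, rhsF, exp_neg_two, exp_neg_two]
  rfl

theorem Jt_eq (t x : ℝ) : Jt p w f t x = Jf p (w t) (f t) x + (Real.exp (2 * w t x))⁻¹ *
    (((p : ℝ) - 1) * Dx w t x + (p : ℝ) * Dx f t x) := by
  rw [Jt, exp_neg_two]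
  rfl

theorem evoA {t h : ℝ} (ht : t ∈ Ico 0 T) (hh : h ∈ Ioo (-1 : ℝ) 1) :
    HasDerivWithinAt (fun s => AA w (Jt p w f) η s h)
      (-2 * (prof w f (Jt p w f) η t).F1 (p + 1) p h) (Ico 0 T) t := by
  have hw : Sm T w := S.smooth_w
  have hf : Sm T f := S.smooth_f
  have hh' := Ioo_subset_Icc_self hh
  have hq := q_ne hh
  have hm := H.mem_Ioo ht hh
  have hqx := q_ne hm
  have hm' := H.mem t ht h hh'
  have hη := H.ode t ht h hh'
  have h1 := (((hw.chain ht hη (fun s hs => H.mem s hs h hh')).const_mul 2).exp.mul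
    ((hη.pow 2).const_sub 1)).div_const (1 - h ^ 2)
  have h2 : ∀ s ∈ Ico 0 T, AA w (Jt p w f) η s h =
      Real.exp (2 * w s (η s h)) * (1 - η s h ^ 2) / (1 - h ^ 2) := by
    intro s hs
    rw [eq_div_iff hq]
    exact H.relA hs hh'
  have h3 := h1.congr (fun s hs => h2 s hs) (h2 t ht)
  refine h3.congr_deriv ?_
  have hP : (prof w f (Jt p w f) η t).Good := H.good hw hf ht
  have e1 := F1_eq (prof w f (Jt p w f) η t) (p + 1) p hq (hP.posA h hh').ne'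
    (hP.posAB h hh').ne' (hP.posC h hh').ne'
  have e2 := (H.spat hw hf ht).RU_eq ((p + 1 : ℕ) : ℝ) p hh
  have e3 := evo_U (p : ℝ) (x := η t h) (q := 1 - η t h ^ 2) (E := Real.exp (2 * w t (η t h)))
    (K := Real.exp (2 * f t (η t h))) (w1 := Dx w t (η t h)) (w2 := Dx (Dx w) t (η t h))
    (f1 := Dx f t (η t h)) (J := Jf p (w t) (f t) (η t h)) rfl hqx (Real.exp_pos _).ne'
    (Real.exp_pos _).ne'
  have e4 := H.Dt_w S ht hm'
  have e5 := H.Jt_eq S t (η t h)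
  have e6 : (prof w f (Jt p w f) η t).F1 (p + 1) p h * (1 - h ^ 2) = RU ((p + 1 : ℕ) : ℝ) p
      (Real.exp (2 * w t (η t h)) * (1 - η t h ^ 2)) _ _ _ _ _ _ := e1.trans e2
  push_cast at e6
  rw [← e6] at e3
  rw [div_eq_iff hq]
  rw [e4, e5]
  simp only [Pi.pow_apply]
  push_cast
  linear_combination e3

theorem evoC {t h : ℝ} (ht : t ∈ Ico 0 T) (hh : h ∈ Ioo (-1 : ℝ) 1) :
    HasDerivWithinAt (fun s => CC f η s h)
      (-2 * (prof w f (Jt p w f) η t).F3 (p + 1) p h) (Ico 0 T) t := by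
  have hw : Sm T w := S.smooth_w
  have hf : Sm T f := S.smooth_f
  have hh' := Ioo_subset_Icc_self hh
  have hq := q_ne hh
  have hm := H.mem_Ioo ht hh
  have hqx := q_ne hm
  have hm' := H.mem t ht h hh'
  have hη := H.ode t ht h hh'
  have h1 := ((hf.chain ht hη (fun s hs => H.mem s hs h hh')).const_mul 2).exp
  refine h1.congr_deriv ?_
  have hP : (prof w f (Jt p w f) η t).Good := H.good hw hf ht
  have e1 := F3_eq (prof w f (Jt p w f) η t) (p + 1) p hq (hP.posA h hh').ne'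
    (hP.posAB h hh').ne' (hP.posC h hh').ne'
  have e2 := (H.spat hw hf ht).RC_eq ((p + 1 : ℕ) : ℝ) p hh
  have e3 := evo_C (p : ℝ) (x := η t h) (q := 1 - η t h ^ 2) (E := Real.exp (2 * w t (η t h)))
    (K := Real.exp (2 * f t (η t h))) (w1 := Dx w t (η t h))
    (f1 := Dx f t (η t h)) (f2 := Dx (Dx f) t (η t h)) (J := Jf p (w t) (f t) (η t h)) rfl hqx
    (Real.exp_pos _).ne' (Real.exp_pos _).ne'
  have e4 := H.Dt_f S ht hm'
  have e5 := H.Jt_eq S t (η t h)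
  have e6 : (prof w f (Jt p w f) η t).F3 (p + 1) p h = RC ((p + 1 : ℕ) : ℝ) p
      (Real.exp (2 * w t (η t h)) * (1 - η t h ^ 2)) _ _ _ _ _ _ := e1.trans e2
  push_cast at e6
  rw [← e6] at e3
  rw [e4, e5]
  linear_combination e3

theorem evoB {t h : ℝ} (ht : t ∈ Ico 0 T) (hh : h ∈ Ioo (-1 : ℝ) 1) :
    HasDerivWithinAt (fun s => BB w (Jt p w f) η s h)
      (-2 * (prof w f (Jt p w f) η t).F2 (p + 1) p h) (Ico 0 T) t := by
  have hw : Sm T w := S.smooth_w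
  have hf : Sm T f := S.smooth_f
  have hh' := Ioo_subset_Icc_self hh
  have hq := q_ne hh
  have hm := H.mem_Ioo ht hh
  have hqx := q_ne hm
  have hm' := H.mem t ht h hh'
  have hη := H.ode t ht h hh'
  have h1 := (((hw.chain ht hη (fun s hs => H.mem s hs h hh')).const_mul 2).exp.div
    ((hη.pow 2).const_sub 1) (by simpa using hqx)).mul ((H.hasDt_dx ht hh').pow 2)
  have h1' := h1.sub ((H.evoA S ht hh).div_const (1 - h ^ 2))
  have h2 : ∀ s ∈ Ico 0 T, BB w (Jt p w f) η s h =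
      Real.exp (2 * w s (η s h)) / (1 - η s h ^ 2) * Dx η s h ^ 2 -
        AA w (Jt p w f) η s h / (1 - h ^ 2) := by
    intro s hs
    rw [← H.relB hs hh]
    field_simp
    ring
  have h3 := h1'.congr (fun s hs => h2 s hs) (h2 t ht)
  refine h3.congr_deriv ?_
  have hP : (prof w f (Jt p w f) η t).Good := H.good hw hf ht
  have e1 := F2_eq (prof w f (Jt p w f) η t) (p + 1) p hq (hP.posA h hh').ne'
    (hP.posAB h hh').ne' (hP.posC h hh').ne'
  have e2 := (H.spat hw hf ht).RV_eq ((p + 1 : ℕ) : ℝ) p hh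
  have e3 := evo_V (p : ℝ) (x := η t h) (q := 1 - η t h ^ 2) (E := Real.exp (2 * w t (η t h)))
    (K := Real.exp (2 * f t (η t h))) (w1 := Dx w t (η t h)) (w2 := Dx (Dx w) t (η t h))
    (f1 := Dx f t (η t h)) (f2 := Dx (Dx f) t (η t h)) (J := Jf p (w t) (f t) (η t h)) rfl hqx
    (Real.exp_pos _).ne' (Real.exp_pos _).ne'
  have e4 := H.Dt_w S ht hm'
  have e5 := H.Jt_eq S t (η t h)
  have e7 := Dx_Jt (p := p) hw hf ht hm'
  rw [exp_neg_two] at e7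
  have e6 : (prof w f (Jt p w f) η t).F2 (p + 1) p h +
      (prof w f (Jt p w f) η t).F1 (p + 1) p h / (1 - h ^ 2) = RV ((p + 1 : ℕ) : ℝ) p
      (Real.exp (2 * w t (η t h)) * (1 - η t h ^ 2)) _ _ _ _ _ _ _ * _ := e1.trans e2
  push_cast at e6
  have e8 := congrArg (fun z => z * Dx η t h ^ 2) e3
  rw [mul_assoc (-2 : ℝ) _ (Dx η t h ^ 2), ← e6] at e8
  have e9 : -2 * (prof w f (Jt p w f) η t).F2 (p + 1) p h =
      -2 * ((prof w f (Jt p w f) η t).F2 (p + 1) p h +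
      (prof w f (Jt p w f) η t).F1 (p + 1) p h / (1 - h ^ 2)) -
      -2 * (prof w f (Jt p w f) η t).F1 (p + 1) p h / (1 - h ^ 2) := by ring
  rw [e9, ← e8, e4, e5, e7]
  simp only [Pi.pow_apply, Pi.sub_apply, Pi.div_apply]
  generalize Real.exp (2 * w t (η t h)) = E
  push_cast
  field_simp
  ring

end Flo

end Vale.Agent.P244.GeoM
end

section

set_option linter.all false

/-! # P244, block G1, part E: the Ricci tensor and the scalar curvature of the doubly warped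
metric. -/

open scoped ContDiff
open Set
open Vale.Agent.P244.Flow (pd christoffel ricci)

namespace Vale.Agent.P244.Geo

variable {m p : ℕ}

section trace

variable {P : Prof} {b : EE m} {c : ℝ}

/-- the traces of the Christoffel symbols -/
noncomputable def tau (P : Prof) (b : EE m) (c : ℝ) (I : Fin (m + p)) (z : EE m × EE p) : ℝ :=
  Fin.addCases (fun i => m * uu i z.1 + P.T m p (hh b c z.1) * hi b c i z.1)
    (fun a => p * uu a z.2) I

lemma tau_l (i : Fin m) (z : EE m × EE p) : tau P b c (Fin.castAdd p i) z =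
    m * uu i z.1 + P.T m p (hh b c z.1) * hi b c i z.1 := by simp [tau]

lemma tau_r (a : Fin p) (z : EE m × EE p) : tau P b c (Fin.natAdd m a) z = p * uu a z.2 := by
  simp [tau]

lemma sum_chF (hb : ‖b‖ ^ 2 + c ^ 2 = 1) (i : Fin m) (y : EE m) :
    ∑ k, chF P b c k i k y = m * uu i y + ((m + 1) * P.al (hh b c y) + P.ga (hh b c y) +
      P.be (hh b c y) * (1 - hh b c y ^ 2)) * hi b c i y := by
  have h1 : ∀ k, chF P b c k i k y = dl i k * (pp P b c k y + rr P b c k y) + dl i k * 0 +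
      0 * (uu k y * uu k y) + 0 * (uu k y * hi b c k y) +
      (om P b c y * hi b c i y) * (hi b c k y * hi b c k y) + (pp P b c i y) * dl k k := by
    intro k
    unfold chF
    ring
  rw [Finset.sum_congr rfl fun k _ => h1 k,
    sum_gen (fun k => uu k y) (fun k => hi b c k y) _ _ i i, sum_hh hb]
  have hr := (rho_pos y).ne'
  unfold pp rr om
  field_simp
  ring

lemma sum_tau (hP : P.Good) (hb : ‖b‖ ^ 2 + c ^ 2 = 1) (I : Fin (m + p)) (z : EE m × EE p) :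
    ∑ K, christoffel (frame m p) (G m p b c P.A P.B P.C) K I K z = tau P b c I z := by
  rw [Fin.sum_univ_add]
  refine Fin.addCases (fun i => ?_) (fun a => ?_) I
  · rw [tau_l, Finset.sum_congr rfl fun k _ => ch_lll hP hb k i k z,
      Finset.sum_congr rfl fun k _ => ch_rlr hP hb k k i z, sum_chF hb, ← Finset.mul_sum,
      sum_dlkk]
    unfold Prof.T
    ring
  · rw [tau_r, Finset.sum_congr rfl fun k _ => ch_lrl hP hb k k a z,
      Finset.sum_congr rfl fun k _ => ch_rrr hP hb k a k z, Finset.sum_const_zero, zero_add]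
    have h1 : ∀ k, chS k a k z.2 = uu a z.2 * dl k k + dl a k * (uu k z.2 - uu k z.2) := by
      intro k
      unfold chS
      ring
    rw [Finset.sum_congr rfl fun k _ => h1 k, Finset.sum_add_distrib, ← Finset.mul_sum, sum_dlkk,
      sum_dl]
    ring

lemma PD_tau_l (hP : P.Good) (hb : ‖b‖ ^ 2 + c ^ 2 = 1) (i : Fin m) (y : EE m × EE p) :
    PD (tau P b c (Fin.castAdd p i)) (fun l => m * du i l y.1 +
      (P.T1 m p (hh b c y.1) * hi b c l y.1 * hi b c i y.1 +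
        P.T m p (hh b c y.1) * dh b c i l y.1)) (fun _ => 0) y := by
  have hx := hh_mem hb y.1
  have h1 : HD (fun y : EE m => (m : ℝ) * uu i y + P.T m p (hh b c y) * hi b c i y)
    (fun l => m * du i l y.1 + (P.T1 m p (hh b c y.1) * hi b c l y.1 * hi b c i y.1 +
        P.T m p (hh b c y.1) * dh b c i l y.1)) y.1 :=
    ((HD_uu i y.1).const_mul (m : ℝ)).add
      ((HD.compW (Prof.Good.der_T m p hP hx) (HD_hh b c y.1) (hh_mem hb)).mul (HD_hi b c i y.1))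
  exact (PD.fst h1).of_eq (tau_l i)

lemma PD_tau_r (a : Fin p) (y : EE m × EE p) :
    PD (tau P b c (Fin.natAdd m a)) (fun _ => 0) (fun l => p * du a l y.2) y :=
  (PD.snd ((HD_uu a y.2).const_mul (p : ℝ))).of_eq (tau_r a)

lemma ricci_tau (hP : P.Good) (hb : ‖b‖ ^ 2 + c ^ 2 = 1) (I J : Fin (m + p)) (y : EE m × EE p) :
    ricci (frame m p) (G m p b c P.A P.B P.C) I J y =
      ∑ K, pd (frame m p) K (christoffel (frame m p) (G m p b c P.A P.B P.C) K I J) y -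
      pd (frame m p) J (tau P b c I) y +
      ∑ L, tau P b c L y * christoffel (frame m p) (G m p b c P.A P.B P.C) L I J y -
      ∑ K, ∑ L, christoffel (frame m p) (G m p b c P.A P.B P.C) K J L y *
        christoffel (frame m p) (G m p b c P.A P.B P.C) L I K y :=
  ricci_split _ _ I J y (fun K I J => chr_diff hP hb K I J y) (fun K I J => chr_symm hP hb K I J y)
    _ (sum_tau hP hb)

end trace

/-! ### the four sums, first block -/

section sums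

/-- divergence of the Christoffel symbols, abstract form -/
lemma sum_div (u h : Fin m → ℝ) (i j : Fin m) (ρ s al al1 ga ga1 be1 w : ℝ) :
    ∑ k, (dl j k * ((u i * u k - ρ / 2 * dl i k) + (al1 * h k * h i +
        al * (u i * h k + u k * h i + s * dl i k)))
      + dl i k * ((u j * u k - ρ / 2 * dl j k) + (al1 * h k * h j +
        al * (u j * h k + u k * h j + s * dl j k)))
      + dl i j * (-(u k * u k - ρ / 2 * dl k k) + (ga1 * h k * h k +
        ga * (u k * h k + u k * h k + s * dl k k)))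
      + ((be1 * h k / ρ ^ 2 - 2 * w * u k) * (h i * h j * h k) +
        w * (((u i * h k + u k * h i + s * dl i k) * h j +
          h i * (u j * h k + u k * h j + s * dl j k)) * h k +
          h i * h j * (u k * h k + u k * h k + s * dl k k)))) =
    (2 * (u i * u j) - ρ * dl i j + 2 * al1 * (h i * h j) +
      2 * al * (u i * h j + u j * h i + s * dl i j)) +
    dl i j * (-∑ k, u k * u k + m * ρ / 2 + ga1 * ∑ k, h k * h k +
      ga * (2 * ∑ k, u k * h k + m * s)) +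
    (be1 / ρ ^ 2 * (h i * h j) * ∑ k, h k * h k - 2 * w * (h i * h j) * ∑ k, u k * h k +
      w * ((u i * h j + u j * h i) * ∑ k, h k * h k + 4 * (h i * h j) * ∑ k, u k * h k +
        (m + 2) * s * (h i * h j))) := by
  have h1 : ∀ k, (dl j k * ((u i * u k - ρ / 2 * dl i k) + (al1 * h k * h i +
        al * (u i * h k + u k * h i + s * dl i k)))
      + dl i k * ((u j * u k - ρ / 2 * dl j k) + (al1 * h k * h j +
        al * (u j * h k + u k * h j + s * dl j k)))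
      + dl i j * (-(u k * u k - ρ / 2 * dl k k) + (ga1 * h k * h k +
        ga * (u k * h k + u k * h k + s * dl k k)))
      + ((be1 * h k / ρ ^ 2 - 2 * w * u k) * (h i * h j * h k) +
        w * (((u i * h k + u k * h i + s * dl i k) * h j +
          h i * (u j * h k + u k * h j + s * dl j k)) * h k +
          h i * h j * (u k * h k + u k * h k + s * dl k k)))) =
      dl j k * (((u i * u k - ρ / 2 * dl i k) + (al1 * h k * h i +
        al * (u i * h k + u k * h i + s * dl i k))) + w * s * h i * h k) +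
      dl i k * (((u j * u k - ρ / 2 * dl j k) + (al1 * h k * h j +
        al * (u j * h k + u k * h j + s * dl j k))) + w * s * h j * h k) +
      (-dl i j) * (u k * u k) +
      (2 * ga * dl i j - 2 * w * h i * h j + 4 * w * h i * h j) * (u k * h k) +
      (ga1 * dl i j + be1 / ρ ^ 2 * h i * h j + w * (u i * h j + u j * h i)) * (h k * h k) +
      (dl i j * (ρ / 2 + ga * s) + w * s * h i * h j) * dl k k := by
    intro k
    ring
  rw [Finset.sum_congr rfl fun k _ => h1 k, sum_gen u h _ _ i j, dl_comm j i]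
  ring

/-- contraction with the trace, abstract form -/
lemma sum_tG (u h : Fin m → ℝ) (i j : Fin m) (al ga w T μ : ℝ) :
    ∑ l, (μ * u l + T * h l) * (dl j l * (u i + al * h i) + dl i l * (u j + al * h j) +
      dl i j * (-u l + ga * h l) + w * (h i * h j * h l)) =
    (μ * u j + T * h j) * (u i + al * h i) + (μ * u i + T * h i) * (u j + al * h j) +
      dl i j * (-μ * ∑ k, u k * u k + (μ * ga - T) * ∑ k, u k * h k +
        T * ga * ∑ k, h k * h k) +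
      w * (h i * h j) * (μ * ∑ k, u k * h k + T * ∑ k, h k * h k) := by
  have h1 : ∀ l, (μ * u l + T * h l) * (dl j l * (u i + al * h i) + dl i l * (u j + al * h j) +
      dl i j * (-u l + ga * h l) + w * (h i * h j * h l)) =
      dl j l * ((μ * u l + T * h l) * (u i + al * h i)) +
      dl i l * ((μ * u l + T * h l) * (u j + al * h j)) +
      (-μ * dl i j) * (u l * u l) +
      (dl i j * (μ * ga - T) + w * h i * h j * μ) * (u l * h l) +
      (dl i j * T * ga + w * h i * h j * T) * (h l * h l) + 0 * dl l l := by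
    intro l
    ring
  rw [Finset.sum_congr rfl fun k _ => h1 k, sum_gen u h _ _ i j]
  ring

lemma sum_pr (u h : Fin m → ℝ) (al ga : ℝ) :
    ∑ k, (u k + al * h k) * (-u k + ga * h k) = -∑ k, u k * u k + (ga - al) * ∑ k, u k * h k +
      al * ga * ∑ k, h k * h k := by
  rw [Finset.mul_sum, Finset.mul_sum, ← Finset.sum_neg_distrib, ← Finset.sum_add_distrib,
    ← Finset.sum_add_distrib]
  exact Finset.sum_congr rfl fun k _ => by ring

lemma sum_ph (u h : Fin m → ℝ) (al : ℝ) :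
    ∑ k, (u k + al * h k) * h k = ∑ k, u k * h k + al * ∑ k, h k * h k := by
  rw [Finset.mul_sum, ← Finset.sum_add_distrib]
  exact Finset.sum_congr rfl fun k _ => by ring

lemma sum_rh (u h : Fin m → ℝ) (ga : ℝ) :
    ∑ k, (-u k + ga * h k) * h k = -∑ k, u k * h k + ga * ∑ k, h k * h k := by
  rw [Finset.mul_sum, ← Finset.sum_neg_distrib, ← Finset.sum_add_distrib]
  exact Finset.sum_congr rfl fun k _ => by ring

end sums

section blocks

variable {P : Prof} {b : EE m} {c : ℝ}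

/-- final algebra of the first block -/
lemma alg_ll (ρ s x al al1 ga ga1 be be1 ka ka1 T T1 M p d ui uj hi' hj : ℝ) (hρ : ρ ≠ 0)
    (hT : T = (M + 1) * al + ga + be * (1 - x ^ 2) + p * ka)
    (hT1 : T1 = (M + 1) * al1 + ga1 + (be1 * (1 - x ^ 2) - 2 * x * be) + p * ka1) :
    ((2 * (ui * uj) - ρ * d + 2 * al1 * (hi' * hj) + 2 * al * (ui * hj + uj * hi' + s * d)) +
      d * (-(ρ - ρ ^ 2) + M * ρ / 2 + ga1 * (ρ ^ 2 * (1 - x ^ 2)) +
        ga * (2 * (-(x * ρ ^ 2) - s) + M * s)) +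
      (be1 / ρ ^ 2 * (hi' * hj) * (ρ ^ 2 * (1 - x ^ 2)) -
        2 * (be / ρ ^ 2) * (hi' * hj) * (-(x * ρ ^ 2) - s) +
        be / ρ ^ 2 * ((ui * hj + uj * hi') * (ρ ^ 2 * (1 - x ^ 2)) +
          4 * (hi' * hj) * (-(x * ρ ^ 2) - s) + (M + 2) * s * (hi' * hj)))) -
    (M * (ui * uj - ρ / 2 * d) + (T1 * hj * hi' + T * (ui * hj + uj * hi' + s * d))) +
    ((M * uj + T * hj) * (ui + al * hi') + (M * ui + T * hi') * (uj + al * hj) +
      d * (-M * (ρ - ρ ^ 2) + (M * ga - T) * (-(x * ρ ^ 2) - s) +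
        T * ga * (ρ ^ 2 * (1 - x ^ 2))) +
      be / ρ ^ 2 * (hi' * hj) * (M * (-(x * ρ ^ 2) - s) + T * (ρ ^ 2 * (1 - x ^ 2)))) -
    (((M + 3) * ((ui + al * hi') * (uj + al * hj)) +
      2 * d * (-(ρ - ρ ^ 2) + (ga - al) * (-(x * ρ ^ 2) - s) + al * ga * (ρ ^ 2 * (1 - x ^ 2))) +
      2 * (be / ρ ^ 2) * (hi' * hj) * ((-(x * ρ ^ 2) - s) + al * (ρ ^ 2 * (1 - x ^ 2))) +
      be / ρ ^ 2 * ((uj + al * hj) * hi' + (ui + al * hi') * hj) * (ρ ^ 2 * (1 - x ^ 2)) +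
      ((uj + al * hj) * (-ui + ga * hi') + (ui + al * hi') * (-uj + ga * hj)) +
      (-ui + ga * hi') * (-uj + ga * hj) +
      2 * (be / ρ ^ 2) * (hi' * hj) * (-(-(x * ρ ^ 2) - s) + ga * (ρ ^ 2 * (1 - x ^ 2))) +
      (be / ρ ^ 2) ^ 2 * (hi' * hj) * (ρ ^ 2 * (1 - x ^ 2)) ^ 2) + p * (ka * hj * (ka * hi'))) =
    ((M - 1) - 2 * al * x + ga1 * (1 - x ^ 2) - M * ga * x + T * x + T * ga * (1 - x ^ 2) -
      2 * al * ga * (1 - x ^ 2)) * (ρ ^ 2 * d) +
    (-(M - 1) * al1 - ga1 - p * ka1 - M * x * be + (2 * al + be * (1 - x ^ 2)) * T -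
      ((M + 3) * al ^ 2 + 2 * al * ga + 4 * al * be * (1 - x ^ 2) + ga ^ 2 +
      2 * ga * be * (1 - x ^ 2) + (be * (1 - x ^ 2)) ^ 2) - p * ka ^ 2) * (hi' * hj) := by
  rw [hT1, hT]
  field_simp
  ring

lemma sum_dchF (hb : ‖b‖ ^ 2 + c ^ 2 = 1) (i j : Fin m) (y : EE m) :
    ∑ k, dchF P b c k i j k y =
      (2 * (uu i y * uu j y) - rho y * dl i j + 2 * P.al1 (hh b c y) * (hi b c i y * hi b c j y) +
        2 * P.al (hh b c y) * (uu i y * hi b c j y + uu j y * hi b c i y + ss b c y * dl i j)) +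
      dl i j * (-(rho y - rho y ^ 2) + m * rho y / 2 +
        P.ga1 (hh b c y) * (rho y ^ 2 * (1 - hh b c y ^ 2)) +
        P.ga (hh b c y) * (2 * (-(hh b c y * rho y ^ 2) - ss b c y) + m * ss b c y)) +
      (P.be1 (hh b c y) / rho y ^ 2 * (hi b c i y * hi b c j y) *
          (rho y ^ 2 * (1 - hh b c y ^ 2)) -
        2 * (P.be (hh b c y) / rho y ^ 2) * (hi b c i y * hi b c j y) *
          (-(hh b c y * rho y ^ 2) - ss b c y) +
        P.be (hh b c y) / rho y ^ 2 * ((uu i y * hi b c j y + uu j y * hi b c i y) *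
          (rho y ^ 2 * (1 - hh b c y ^ 2)) +
          4 * (hi b c i y * hi b c j y) * (-(hh b c y * rho y ^ 2) - ss b c y) +
          (m + 2) * ss b c y * (hi b c i y * hi b c j y))) := by
  rw [← sum_hh hb y, ← sum_uh b c y, ← sum_uu y]
  exact sum_div (fun k => uu k y) (fun k => hi b c k y) i j _ _ _ _ _ _ _ _

lemma sum_tau_chF (hb : ‖b‖ ^ 2 + c ^ 2 = 1) (T : ℝ) (i j : Fin m) (y : EE m) :
    ∑ l, (m * uu l y + T * hi b c l y) * chF P b c l i j y =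
      (m * uu j y + T * hi b c j y) * (uu i y + P.al (hh b c y) * hi b c i y) +
      (m * uu i y + T * hi b c i y) * (uu j y + P.al (hh b c y) * hi b c j y) +
      dl i j * (-m * (rho y - rho y ^ 2) + (m * P.ga (hh b c y) - T) *
        (-(hh b c y * rho y ^ 2) - ss b c y) +
        T * P.ga (hh b c y) * (rho y ^ 2 * (1 - hh b c y ^ 2))) +
      P.be (hh b c y) / rho y ^ 2 * (hi b c i y * hi b c j y) *
        (m * (-(hh b c y * rho y ^ 2) - ss b c y) + T * (rho y ^ 2 * (1 - hh b c y ^ 2))) := by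
  rw [← sum_hh hb y, ← sum_uh b c y, ← sum_uu y]
  exact sum_tG (fun k => uu k y) (fun k => hi b c k y) i j _ _ _ _ _

lemma sum_chF_chF (hb : ‖b‖ ^ 2 + c ^ 2 = 1) (i j : Fin m) (y : EE m) :
    ∑ k, ∑ l, chF P b c k j l y * chF P b c l i k y =
      (m + 3) * ((uu i y + P.al (hh b c y) * hi b c i y) *
        (uu j y + P.al (hh b c y) * hi b c j y)) +
      2 * dl i j * (-(rho y - rho y ^ 2) + (P.ga (hh b c y) - P.al (hh b c y)) *
        (-(hh b c y * rho y ^ 2) - ss b c y) +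
        P.al (hh b c y) * P.ga (hh b c y) * (rho y ^ 2 * (1 - hh b c y ^ 2))) +
      2 * (P.be (hh b c y) / rho y ^ 2) * (hi b c i y * hi b c j y) *
        ((-(hh b c y * rho y ^ 2) - ss b c y) +
          P.al (hh b c y) * (rho y ^ 2 * (1 - hh b c y ^ 2))) +
      P.be (hh b c y) / rho y ^ 2 * ((uu j y + P.al (hh b c y) * hi b c j y) * hi b c i y +
        (uu i y + P.al (hh b c y) * hi b c i y) * hi b c j y) *
          (rho y ^ 2 * (1 - hh b c y ^ 2)) +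
      ((uu j y + P.al (hh b c y) * hi b c j y) * (-uu i y + P.ga (hh b c y) * hi b c i y) +
        (uu i y + P.al (hh b c y) * hi b c i y) * (-uu j y + P.ga (hh b c y) * hi b c j y)) +
      (-uu i y + P.ga (hh b c y) * hi b c i y) * (-uu j y + P.ga (hh b c y) * hi b c j y) +
      2 * (P.be (hh b c y) / rho y ^ 2) * (hi b c i y * hi b c j y) *
        (-(-(hh b c y * rho y ^ 2) - ss b c y) +
          P.ga (hh b c y) * (rho y ^ 2 * (1 - hh b c y ^ 2))) +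
      (P.be (hh b c y) / rho y ^ 2) ^ 2 * (hi b c i y * hi b c j y) *
        (rho y ^ 2 * (1 - hh b c y ^ 2)) ^ 2 := by
  rw [← sum_hh hb y, ← sum_uh b c y, ← sum_uu y]
  rw [← sum_pr (fun k => uu k y) (fun k => hi b c k y),
    ← sum_ph (fun k => uu k y) (fun k => hi b c k y),
    ← sum_rh (fun k => uu k y) (fun k => hi b c k y)]
  exact sum_GG (fun k => uu k y + P.al (hh b c y) * hi b c k y)
    (fun k => -uu k y + P.ga (hh b c y) * hi b c k y) (fun k => hi b c k y) _ i j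

lemma ricci_ll (hP : P.Good) (hb : ‖b‖ ^ 2 + c ^ 2 = 1) (i j : Fin m) (y : EE m × EE p) :
    ricci (frame m p) (G m p b c P.A P.B P.C) (Fin.castAdd p i) (Fin.castAdd p j) y =
      P.F1 m p (hh b c y.1) * (rho y.1 ^ 2 * dl i j) +
          P.F2 m p (hh b c y.1) * (hi b c i y.1 * hi b c j y.1) := by
  rw [ricci_tau hP hb]
  simp only [Fin.sum_univ_add, (PDc_lll hP hb _ _ _ y).2.1, (PDc_rll hP hb _ _ _ y).2.2,
    (PD_tau_l hP hb _ y).2.1, tau_l, tau_r, ch_lll hP hb, ch_rll hP hb, ch_llr hP hb,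
    ch_rlr hP hb, mul_zero, zero_mul, Finset.sum_const_zero, add_zero, zero_add]
  have h1 : ∑ a : Fin p, ∑ a' : Fin p, P.ka (hh b c y.1) * hi b c j y.1 * dl a a' *
      (P.ka (hh b c y.1) * hi b c i y.1 * dl a' a) =
      p * (P.ka (hh b c y.1) * hi b c j y.1 * (P.ka (hh b c y.1) * hi b c i y.1)) := by
    have h2 : ∀ a a' : Fin p, P.ka (hh b c y.1) * hi b c j y.1 * dl a a' *
      (P.ka (hh b c y.1) * hi b c i y.1 * dl a' a) = dl a a' *
        (P.ka (hh b c y.1) * hi b c j y.1 * (P.ka (hh b c y.1) * hi b c i y.1) * dl a' a) :=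
      fun a a' => by ring
    simp only [h2, sum_dl]
    rw [← Finset.mul_sum, sum_dlkk]
    ring
  rw [h1, sum_dchF hb, sum_tau_chF hb, sum_chF_chF hb]
  exact alg_ll _ _ _ _ _ _ _ _ _ _ _ _ _ _ _ _ _ _ _ _ (rho_pos y.1).ne' rfl rfl

lemma sum_chS (a : Fin p) (y : EE p) : ∑ k, chS k a k y = p * uu a y := by
  have h1 : ∀ k, chS k a k y = uu a y * dl k k + dl a k * (uu k y - uu k y) := by
    intro k
    unfold chS
    ring
  rw [Finset.sum_congr rfl fun k _ => h1 k, Finset.sum_add_distrib, ← Finset.mul_sum, sum_dlkk,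
    sum_dl]
  ring

lemma ricci_lr (hP : P.Good) (hb : ‖b‖ ^ 2 + c ^ 2 = 1) (i : Fin m) (a : Fin p)
    (y : EE m × EE p) :
    ricci (frame m p) (G m p b c P.A P.B P.C) (Fin.castAdd p i) (Fin.natAdd m a) y = 0 := by
  rw [ricci_tau hP hb]
  simp only [Fin.sum_univ_add, (PDc_llr hP hb _ _ _ y).2.1, (PDc_rlr hP hb _ _ _ y).2.2,
    (PD_tau_l hP hb _ y).2.2, tau_l, tau_r, ch_llr hP hb, ch_rlr hP hb, ch_lrl hP hb,
    ch_rll hP hb, ch_rrr hP hb, mul_zero, zero_mul, Finset.sum_const_zero, add_zero, zero_add,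
    sub_zero]
  have h1 : ∀ k l : Fin p, chS k a l y.2 * (P.ka (hh b c y.1) * hi b c i y.1 * dl l k) =
      dl l k * (P.ka (hh b c y.1) * hi b c i y.1 * chS k a l y.2) := fun k l => by ring
  have h2 : ∀ l : Fin p, p * uu l y.2 * (P.ka (hh b c y.1) * hi b c i y.1 * dl l a) =
      dl l a * (p * uu l y.2 * (P.ka (hh b c y.1) * hi b c i y.1)) := fun l => by ring
  simp only [h1, h2, sum_dl']
  rw [← Finset.mul_sum, sum_chS]
  ring

lemma ricci_rl (hP : P.Good) (hb : ‖b‖ ^ 2 + c ^ 2 = 1) (i : Fin m) (a : Fin p)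
    (y : EE m × EE p) :
    ricci (frame m p) (G m p b c P.A P.B P.C) (Fin.natAdd m a) (Fin.castAdd p i) y = 0 := by
  rw [ricci_tau hP hb]
  simp only [Fin.sum_univ_add, (PDc_lrl hP hb _ _ _ y).2.1, (PDc_rrl hP hb _ _ _ y).2.2,
    (PD_tau_r _ y).2.1, tau_l, tau_r, ch_llr hP hb, ch_rlr hP hb, ch_lrl hP hb, ch_rrl hP hb,
    ch_rll hP hb, ch_rrr hP hb, mul_zero, zero_mul, Finset.sum_const_zero, add_zero, zero_add,
    sub_zero]
  have h1 : ∀ k l : Fin p, P.ka (hh b c y.1) * hi b c i y.1 * dl k l * chS l a k y.2 =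
      dl k l * (P.ka (hh b c y.1) * hi b c i y.1 * chS l a k y.2) := fun k l => by ring
  have h2 : ∀ l : Fin p, p * uu l y.2 * (P.ka (hh b c y.1) * hi b c i y.1 * dl l a) =
      dl l a * (p * uu l y.2 * (P.ka (hh b c y.1) * hi b c i y.1)) := fun l => by ring
  simp only [h1, h2, sum_dl', sum_dl]
  rw [← Finset.mul_sum, sum_chS]
  ring

lemma sum_dchS (i j : Fin p) (y : EE p) :
    ∑ k, (dl j k * du i k y + dl i k * du j k y - dl i j * du k k y) =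
      2 * (uu i y * uu j y) - rho y * dl i j - dl i j * (rho y - rho y ^ 2 - p * rho y / 2) := by
  have h1 : ∀ k, (dl j k * du i k y + dl i k * du j k y - dl i j * du k k y) =
      dl j k * (du i k y) + dl i k * du j k y + (-dl i j) * (uu k y * uu k y) +
      0 * (uu k y * uu k y) + 0 * (uu k y * uu k y) + (rho y / 2 * dl i j) * dl k k := by
    intro k
    unfold du
    ring
  rw [Finset.sum_congr rfl fun k _ => h1 k, sum_gen (fun k => uu k y) (fun k => uu k y) _ _ i j,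
    sum_uu]
  unfold du
  rw [dl_comm j i]
  ring

lemma sum_tau_chS (i j : Fin p) (y : EE p) :
    ∑ l, p * uu l y * chS l i j y =
      p * (2 * (uu i y * uu j y) - dl i j * (rho y - rho y ^ 2)) := by
  have h1 : ∀ l, p * uu l y * chS l i j y =
      dl j l * (p * uu l y * uu i y) + dl i l * (p * uu l y * uu j y) +
      (-p * dl i j) * (uu l y * uu l y) +
      0 * (uu l y * uu l y) + 0 * (uu l y * uu l y) + 0 * dl l l := by
    intro k
    unfold chS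
    ring
  rw [Finset.sum_congr rfl fun k _ => h1 k, sum_gen (fun k => uu k y) (fun k => uu k y) _ _ i j,
    sum_uu]
  ring

lemma sum_chS_chS (i j : Fin p) (y : EE p) :
    ∑ k, ∑ l, chS k j l y * chS l i k y =
      (p + 2) * (uu i y * uu j y) - 2 * dl i j * (rho y - rho y ^ 2) := by
  have h0 : ∀ k l, chS k j l y * chS l i k y =
      (dl l k * uu j y + dl j k * uu l y + dl j l * (-uu k y) + 0 * (uu j y * uu l y * uu k y)) *
      (dl k l * uu i y + dl i l * uu k y + dl i k * (-uu l y) + 0 * (uu i y * uu k y * uu l y)) := by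
    intro k l
    unfold chS
    ring
  have h1 := sum_GG (fun k => uu k y) (fun k => -uu k y) (fun k => uu k y) 0 i j
  simp only [h0]
  refine h1.trans ?_
  have h2 : ∑ k, uu k y * -uu k y = -∑ k, uu k y * uu k y := by
    rw [← Finset.sum_neg_distrib]
    exact Finset.sum_congr rfl fun k _ => by ring
  simp only [h2, sum_uu]
  ring

lemma ricci_rr (hP : P.Good) (hb : ‖b‖ ^ 2 + c ^ 2 = 1) (i j : Fin p) (y : EE m × EE p) :
    ricci (frame m p) (G m p b c P.A P.B P.C) (Fin.natAdd m i) (Fin.natAdd m j) y =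
      P.F3 m p (hh b c y.1) * (rho y.2 ^ 2 * dl i j) := by
  rw [ricci_tau hP hb]
  simp only [Fin.sum_univ_add, (PDc_lrr hP hb _ _ _ y).2.1, (PDc_rrr hP hb _ _ _ y).2.2,
    (PD_tau_r _ y).2.2, tau_l, tau_r, ch_llr hP hb, ch_rlr hP hb, ch_lrl hP hb, ch_rrl hP hb,
    ch_rll hP hb, ch_rrr hP hb, ch_lrr hP hb, mul_zero, zero_mul, Finset.sum_const_zero, add_zero,
    zero_add, sub_zero, sum_dchS, sum_tau_chS]
  have hr := (rho_pos y.1).ne'
  have e1 : ∑ k, -((P.la1 (hh b c y.1) * hi b c k y.1 / rho y.1 ^ 2 -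
      2 * (P.la (hh b c y.1) / rho y.1 ^ 2) * uu k y.1) * hi b c k y.1 +
      P.la (hh b c y.1) / rho y.1 ^ 2 * dh b c k k y.1) * (rho y.2 ^ 2 * dl i j) =
      -(P.la1 (hh b c y.1) * (1 - hh b c y.1 ^ 2) +
        P.la (hh b c y.1) / rho y.1 ^ 2 * (m * ss b c y.1)) * (rho y.2 ^ 2 * dl i j) := by
    have h1 : ∀ k, -((P.la1 (hh b c y.1) * hi b c k y.1 / rho y.1 ^ 2 -
      2 * (P.la (hh b c y.1) / rho y.1 ^ 2) * uu k y.1) * hi b c k y.1 +
      P.la (hh b c y.1) / rho y.1 ^ 2 * dh b c k k y.1) * (rho y.2 ^ 2 * dl i j) =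
        -(P.la1 (hh b c y.1) / rho y.1 ^ 2) * (rho y.2 ^ 2 * dl i j) *
          (hi b c k y.1 * hi b c k y.1) +
        -(P.la (hh b c y.1) / rho y.1 ^ 2 * ss b c y.1) * (rho y.2 ^ 2 * dl i j) * dl k k := by
      intro k
      unfold dh
      ring
    rw [Finset.sum_congr rfl fun k _ => h1 k, Finset.sum_add_distrib, ← Finset.mul_sum,
      ← Finset.mul_sum, sum_dlkk, sum_hh hb]
    field_simp
    ring
  have e2 : ∑ l, (m * uu l y.1 + P.T m p (hh b c y.1) * hi b c l y.1) *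
      (chM P b c l y.1 * (rho y.2 ^ 2 * dl i j)) =
      -(P.la (hh b c y.1) / rho y.1 ^ 2 * (m * (-(hh b c y.1 * rho y.1 ^ 2) - ss b c y.1) +
        P.T m p (hh b c y.1) * (rho y.1 ^ 2 * (1 - hh b c y.1 ^ 2)))) *
        (rho y.2 ^ 2 * dl i j) := by
    have h1 : ∀ l, (m * uu l y.1 + P.T m p (hh b c y.1) * hi b c l y.1) *
      (chM P b c l y.1 * (rho y.2 ^ 2 * dl i j)) =
        (-(P.la (hh b c y.1) / rho y.1 ^ 2 * m) * (rho y.2 ^ 2 * dl i j)) *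
          (uu l y.1 * hi b c l y.1) +
        (-(P.la (hh b c y.1) / rho y.1 ^ 2 * P.T m p (hh b c y.1)) * (rho y.2 ^ 2 * dl i j)) *
          (hi b c l y.1 * hi b c l y.1) := by
      intro k
      unfold chM
      ring
    rw [Finset.sum_congr rfl fun k _ => h1 k, Finset.sum_add_distrib, ← Finset.mul_sum,
      ← Finset.mul_sum, sum_hh hb, sum_uh]
    ring
  have e3 : ∑ k : Fin m, ∑ a' : Fin p, chM P b c k y.1 * (rho y.2 ^ 2 * dl j a') *
      (P.ka (hh b c y.1) * hi b c k y.1 * dl a' i) =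
      -(P.ka (hh b c y.1) * P.la (hh b c y.1) * (1 - hh b c y.1 ^ 2)) *
        (rho y.2 ^ 2 * dl i j) := by
    have h1 : ∀ (k : Fin m) (a' : Fin p), chM P b c k y.1 * (rho y.2 ^ 2 * dl j a') *
      (P.ka (hh b c y.1) * hi b c k y.1 * dl a' i) = dl j a' * (chM P b c k y.1 * rho y.2 ^ 2 *
      (P.ka (hh b c y.1) * hi b c k y.1 * dl a' i)) := fun k a' => by ring
    simp only [h1, sum_dl]
    have h2 : ∀ k : Fin m, chM P b c k y.1 * rho y.2 ^ 2 *
      (P.ka (hh b c y.1) * hi b c k y.1 * dl j i) =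
      (-(P.la (hh b c y.1) / rho y.1 ^ 2) * P.ka (hh b c y.1) * (rho y.2 ^ 2 * dl j i)) *
        (hi b c k y.1 * hi b c k y.1) := by
      intro k
      unfold chM
      ring
    rw [Finset.sum_congr rfl fun k _ => h2 k, ← Finset.mul_sum, sum_hh hb, dl_comm j i]
    field_simp
  have e4 : ∑ a' : Fin p, ∑ k : Fin m, P.ka (hh b c y.1) * hi b c k y.1 * dl a' j *
      (chM P b c k y.1 * (rho y.2 ^ 2 * dl i a')) =
      -(P.ka (hh b c y.1) * P.la (hh b c y.1) * (1 - hh b c y.1 ^ 2)) *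
        (rho y.2 ^ 2 * dl i j) := by
    rw [Finset.sum_comm, ← e3]
    refine Finset.sum_congr rfl fun k _ => ?_
    refine Finset.sum_congr rfl fun a' _ => ?_
    rw [dl_comm a' j, dl_comm i a']
    ring
  rw [e1, e2, e3, Finset.sum_add_distrib, e4, sum_chS_chS]
  unfold Prof.F3 du
  field_simp
  ring

/-- RESULT 1: the Ricci tensor of the doubly warped metric -/
theorem ricci_G (hP : P.Good) (hb : ‖b‖ ^ 2 + c ^ 2 = 1) (I J : Fin (m + p)) (y : EE m × EE p) :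
    ricci (frame m p) (G m p b c P.A P.B P.C) I J y =
      blk (fun i j => P.F1 m p (hh b c y.1) * (rho y.1 ^ 2 * dl i j) +
          P.F2 m p (hh b c y.1) * (hi b c i y.1 * hi b c j y.1))
        (fun a a' => P.F3 m p (hh b c y.1) * (rho y.2 ^ 2 * dl a a')) I J := by
  refine Fin.addCases (fun i => ?_) (fun i => ?_) I <;>
  refine Fin.addCases (fun j => ?_) (fun j => ?_) J
  · rw [blk_ll, ricci_ll hP hb]
  · rw [blk_lr, ricci_lr hP hb]
  · rw [blk_rl, ricci_rl hP hb]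
  · rw [blk_rr, ricci_rr hP hb]

/-- RESULT 2: the scalar curvature of the doubly warped metric -/
theorem scal_G (hP : P.Good) (hb : ‖b‖ ^ 2 + c ^ 2 = 1) (y : EE m × EE p) :
    ∑ I, ∑ J, (G m p b c P.A P.B P.C y)⁻¹ I J * ricci (frame m p) (G m p b c P.A P.B P.C) I J y =
      (m - 1) * (P.F1 m p (hh b c y.1) / P.A (hh b c y.1)) +
      (P.F1 m p (hh b c y.1) + P.F2 m p (hh b c y.1) * (1 - hh b c y.1 ^ 2)) /
        (P.A (hh b c y.1) + P.B (hh b c y.1) * (1 - hh b c y.1 ^ 2)) +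
      p * (P.F3 m p (hh b c y.1) / P.C (hh b c y.1)) := by
  have hx := hh_mem hb y.1
  have hA := (hP.posA _ hx).ne'
  have hAB := (hP.posAB _ hx).ne'
  have hC := (hP.posC _ hx).ne'
  have hr1 := (rho_pos y.1).ne'
  have hr2 := (rho_pos y.2).ne'
  simp only [ricci_G hP hb, G_inv hP hb, Fin.sum_univ_add, blk_ll, blk_lr, blk_rl, blk_rr,
    mul_zero, Finset.sum_const_zero, add_zero, zero_add]
  have h1 : ∀ i, ∑ j, (P.A (hh b c y.1) * rho y.1 ^ 2)⁻¹ * (dl i j - P.B (hh b c y.1) *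
      P.D (hh b c y.1) / rho y.1 ^ 2 * (hi b c i y.1 * hi b c j y.1)) *
      (P.F1 m p (hh b c y.1) * (rho y.1 ^ 2 * dl i j) + P.F2 m p (hh b c y.1) *
        (hi b c i y.1 * hi b c j y.1)) =
      (P.A (hh b c y.1) * rho y.1 ^ 2)⁻¹ * (P.F1 m p (hh b c y.1) * rho y.1 ^ 2) * dl i i +
      (P.A (hh b c y.1) * rho y.1 ^ 2)⁻¹ * (P.F2 m p (hh b c y.1) - P.B (hh b c y.1) *
        P.D (hh b c y.1) / rho y.1 ^ 2 * (P.F1 m p (hh b c y.1) * rho y.1 ^ 2 +
        P.F2 m p (hh b c y.1) * (rho y.1 ^ 2 * (1 - hh b c y.1 ^ 2)))) *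
          (hi b c i y.1 * hi b c i y.1) := by
    intro i
    rw [contr (fun l => hi b c l y.1) (fun j => P.F1 m p (hh b c y.1) * (rho y.1 ^ 2 * dl i j) +
      P.F2 m p (hh b c y.1) * (hi b c i y.1 * hi b c j y.1))]
    have h2 : ∀ l, hi b c l y.1 * (P.F1 m p (hh b c y.1) * (rho y.1 ^ 2 * dl i l) +
      P.F2 m p (hh b c y.1) * (hi b c i y.1 * hi b c l y.1)) =
      dl i l * (P.F1 m p (hh b c y.1) * rho y.1 ^ 2 * hi b c l y.1) +
      (P.F2 m p (hh b c y.1) * hi b c i y.1) * (hi b c l y.1 * hi b c l y.1) := fun l => by ring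
    simp only [h2]
    rw [Finset.sum_add_distrib, sum_dl, ← Finset.mul_sum, sum_hh hb]
    ring
  have h3 : ∀ i : Fin p, ∑ j, (P.C (hh b c y.1) * rho y.2 ^ 2)⁻¹ * dl i j *
      (P.F3 m p (hh b c y.1) * (rho y.2 ^ 2 * dl i j)) =
      (P.C (hh b c y.1) * rho y.2 ^ 2)⁻¹ * (P.F3 m p (hh b c y.1) * rho y.2 ^ 2) * dl i i := by
    intro i
    have h4 : ∀ j : Fin p, (P.C (hh b c y.1) * rho y.2 ^ 2)⁻¹ * dl i j *
      (P.F3 m p (hh b c y.1) * (rho y.2 ^ 2 * dl i j)) = dl i j *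
      ((P.C (hh b c y.1) * rho y.2 ^ 2)⁻¹ * (P.F3 m p (hh b c y.1) * rho y.2 ^ 2) * dl i j) :=
      fun j => by ring
    simp only [h4, sum_dl]
  simp only [h1, h3]
  rw [Finset.sum_add_distrib, ← Finset.mul_sum, ← Finset.mul_sum, ← Finset.mul_sum, sum_dlkk,
    sum_dlkk, sum_hh hb]
  unfold Prof.D
  generalize P.F1 m p (hh b c y.1) = f1
  generalize P.F2 m p (hh b c y.1) = f2
  generalize P.F3 m p (hh b c y.1) = f3
  field_simp
  ring

end blocks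

end Vale.Agent.P244.Geo
end

section

set_option linter.all false

/-! # P244: smoothness in space-time and the Ricci flow equation for the doubly warped metrics -/

open scoped ContDiff
open Set
open Vale.Agent.P244.Flow (pd christoffel ricci)

namespace Vale.Agent.P244.Geo

variable {m p : ℕ}

lemma contDiff_N : ContDiff ℝ ∞ (fun y : EE m => ‖y‖ ^ 2 + 4) :=
  (contDiff_norm_sq ℝ).add contDiff_const

lemma contDiff_rho : ContDiff ℝ ∞ (rho (m := m)) :=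
  contDiff_const.div contDiff_N fun y => (N_pos y).ne'

lemma contDiff_coord (i : Fin m) : ContDiff ℝ ∞ (fun y : EE m => y i) :=
  (EuclideanSpace.proj i : EE m →L[ℝ] ℝ).contDiff

lemma contDiff_hh (b : EE m) (c : ℝ) : ContDiff ℝ ∞ (hh b c) :=
  ((contDiff_const.mul (innerSL ℝ b).contDiff).add
    (((contDiff_norm_sq ℝ).sub contDiff_const).mul contDiff_const)).div contDiff_N
      fun y => (N_pos y).ne'

lemma contDiff_hi (b : EE m) (c : ℝ) (i : Fin m) : ContDiff ℝ ∞ (hi b c i) :=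
  (contDiff_const.add ((contDiff_const.mul (contDiff_const.sub (contDiff_hh b c))).mul
    (contDiff_coord i))).div contDiff_N fun y => (N_pos y).ne'

/-- composition of a smooth function on the strip with the height function -/
lemma strip_comp {S : Set ℝ} {F : ℝ → ℝ → ℝ} {b : EE m} {c : ℝ} (hb : ‖b‖ ^ 2 + c ^ 2 = 1)
    (hF : ContDiffOn ℝ ∞ (fun z : ℝ × ℝ => F z.1 z.2) (S ×ˢ Icc (-1) 1)) :
    ContDiffOn ℝ ∞ (fun z : ℝ × (EE m × EE p) => F z.1 (hh b c z.2.1)) (S ×ˢ univ) := by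
  have h1 : ContDiff ℝ ∞ (fun z : ℝ × (EE m × EE p) => (z.1, hh b c z.2.1)) :=
    contDiff_fst.prodMk ((contDiff_hh b c).comp (contDiff_fst.comp contDiff_snd))
  exact hF.comp h1.contDiffOn fun z hz => ⟨hz.1, hh_mem hb _⟩

/-- smoothness of the components in space-time -/
theorem G_contDiffOn {S : Set ℝ} {A B C : ℝ → ℝ → ℝ} {b : EE m} {c : ℝ}
    (hb : ‖b‖ ^ 2 + c ^ 2 = 1)
    (hA : ContDiffOn ℝ ∞ (fun z : ℝ × ℝ => A z.1 z.2) (S ×ˢ Icc (-1) 1))
    (hB : ContDiffOn ℝ ∞ (fun z : ℝ × ℝ => B z.1 z.2) (S ×ˢ Icc (-1) 1))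
    (hC : ContDiffOn ℝ ∞ (fun z : ℝ × ℝ => C z.1 z.2) (S ×ˢ Icc (-1) 1)) (I J : Fin (m + p)) :
    ContDiffOn ℝ ∞ (fun z : ℝ × (EE m × EE p) => G m p b c (A z.1) (B z.1) (C z.1) z.2 I J)
      (S ×ˢ univ) := by
  have hA' := strip_comp (p := p) hb hA
  have hB' := strip_comp (p := p) hb hB
  have hC' := strip_comp (p := p) hb hC
  refine Fin.addCases (fun i => ?_) (fun i => ?_) I <;>
  refine Fin.addCases (fun j => ?_) (fun j => ?_) J
  · have h1 : ContDiff ℝ ∞ (fun z : ℝ × (EE m × EE p) => rho z.2.1 ^ 2 * dl i j) :=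
      ((contDiff_rho.comp (contDiff_fst.comp contDiff_snd)).pow 2).mul contDiff_const
    have h2 : ContDiff ℝ ∞ (fun z : ℝ × (EE m × EE p) => hi b c i z.2.1 * hi b c j z.2.1) :=
      ((contDiff_hi b c i).comp (contDiff_fst.comp contDiff_snd)).mul
        ((contDiff_hi b c j).comp (contDiff_fst.comp contDiff_snd))
    refine ((hA'.mul h1.contDiffOn).add (hB'.mul h2.contDiffOn)).congr fun z _ => ?_
    unfold G; rw [blk_ll]
  · refine (contDiffOn_const (c := (0 : ℝ))).congr fun z _ => ?_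
    unfold G; rw [blk_lr]
  · refine (contDiffOn_const (c := (0 : ℝ))).congr fun z _ => ?_
    unfold G; rw [blk_rl]
  · have h1 : ContDiff ℝ ∞ (fun z : ℝ × (EE m × EE p) => rho z.2.2 ^ 2 * dl i j) :=
      ((contDiff_rho.comp (contDiff_snd.comp contDiff_snd)).pow 2).mul contDiff_const
    refine (hC'.mul h1.contDiffOn).congr fun z _ => ?_
    unfold G; rw [blk_rr]

/-- the Ricci flow equation from the three scalar evolution equations -/
theorem G_flow {S : Set ℝ} {A B C : ℝ → ℝ → ℝ} {b : EE m} {c : ℝ} (hb : ‖b‖ ^ 2 + c ^ 2 = 1)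
    {t : ℝ} {P : Prof} (hP : P.Good) (eA : P.A = A t) (eB : P.B = B t) (eC : P.C = C t)
    (hA : ∀ x ∈ Icc (-1 : ℝ) 1, HasDerivWithinAt (fun s => A s x) (-2 * P.F1 m p x) S t)
    (hB : ∀ x ∈ Icc (-1 : ℝ) 1, HasDerivWithinAt (fun s => B s x) (-2 * P.F2 m p x) S t)
    (hC : ∀ x ∈ Icc (-1 : ℝ) 1, HasDerivWithinAt (fun s => C s x) (-2 * P.F3 m p x) S t)
    (I J : Fin (m + p)) (y : EE m × EE p) :
    HasDerivWithinAt (fun s => G m p b c (A s) (B s) (C s) y I J)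
      (-2 * ricci (frame m p) (G m p b c (A t) (B t) (C t)) I J y) S t := by
  have hx := hh_mem hb y.1
  rw [← eA, ← eB, ← eC]
  refine Fin.addCases (fun i => ?_) (fun i => ?_) I <;>
  refine Fin.addCases (fun j => ?_) (fun j => ?_) J
  · have e : (fun s => G m p b c (A s) (B s) (C s) y (Fin.castAdd p i) (Fin.castAdd p j)) =
        fun s => A s (hh b c y.1) * (rho y.1 ^ 2 * dl i j) +
          B s (hh b c y.1) * (hi b c i y.1 * hi b c j y.1) := by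
      funext s; unfold G; rw [blk_ll]
    rw [ricci_ll hP hb, e]
    have h1 := ((hA _ hx).mul_const (rho y.1 ^ 2 * dl i j)).add
      ((hB _ hx).mul_const (hi b c i y.1 * hi b c j y.1))
    exact h1.congr_deriv (by ring)
  · have e : (fun s => G m p b c (A s) (B s) (C s) y (Fin.castAdd p i) (Fin.natAdd m j)) =
        fun s => 0 := by
      funext s; unfold G; rw [blk_lr]
    rw [ricci_lr hP hb, e]
    exact (hasDerivWithinAt_const t S (0 : ℝ)).congr_deriv (by ring)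
  · have e : (fun s => G m p b c (A s) (B s) (C s) y (Fin.natAdd m i) (Fin.castAdd p j)) =
        fun s => 0 := by
      funext s; unfold G; rw [blk_rl]
    rw [ricci_rl hP hb, e]
    exact (hasDerivWithinAt_const t S (0 : ℝ)).congr_deriv (by ring)
  · have e : (fun s => G m p b c (A s) (B s) (C s) y (Fin.natAdd m i) (Fin.natAdd m j)) =
        fun s => C s (hh b c y.1) * (rho y.2 ^ 2 * dl i j) := by
      funext s; unfold G; rw [blk_rr]
    rw [ricci_rr hP hb, e]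
    have h1 := (hC _ hx).mul_const (rho y.2 ^ 2 * dl i j)
    exact h1.congr_deriv (by ring)

end Vale.Agent.P244.Geo
end

section

set_option linter.all false

/-! # P244: the Ricci flow of doubly warped metrics on `S^m × S^p` -/

open scoped Manifold ContDiff RealInnerProductSpace
open Set Metric Module

namespace Vale.Agent.P244.GeoM

open Vale.Agent.P244.Geo

theorem comp_eq_G {m p : ℕ} {e : OpenPartialHomeomorph (Mfd m p) (EE m × EE p)}
    (he : e ∈ atlas (EE m × EE p) (Mfd m p)) : ∃ (b : EE m) (c : ℝ), ‖b‖ ^ 2 + c ^ 2 = 1 ∧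
      e.target = univ ∧ (∀ y, height (e.symm y) = hh b c y.1) ∧
      ∀ (A B C : ℝ → ℝ), Flow.comp (frame m p) (tens m p A B C) e = G m p b c A B C := by
  obtain ⟨b, c, hb, ht, hh1, hcomp⟩ := comp_tens he
  refine ⟨b, c, hb, ht, hh1, fun A B C => ?_⟩
  funext y
  ext I J
  rw [hcomp]
  unfold chartForm G
  have e0 : ∀ {n : ℕ} (i j : Fin n), ⟪EuclideanSpace.single i (1 : ℝ), EuclideanSpace.single j (1 : ℝ)⟫ =
      dl i j := by
    intro n i j
    rw [inner_e]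
    simp [dl, Pi.single_apply]
  refine Fin.addCases (fun i => ?_) (fun i => ?_) I <;>
  refine Fin.addCases (fun j => ?_) (fun j => ?_) J
  · rw [frame_left, frame_left, blk_ll]
    simp only [e0, (HD_hh b c y.1).2, inner_zero_left]
    ring
  · rw [frame_left, frame_right, blk_lr]
    simp only [inner_zero_left, inner_zero_right, map_zero]
    ring
  · rw [frame_left, frame_right, blk_rl]
    simp only [inner_zero_left, inner_zero_right, map_zero]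
    ring
  · rw [frame_right, frame_right, blk_rr]
    simp only [e0, inner_zero_left, map_zero]
    ring

theorem isRicciFlow_tens {m p : ℕ} {T : ℝ} (P : ℝ → Prof) (hP : ∀ t ∈ Ico 0 T, (P t).Good)
    (hA : ContDiffOn ℝ ∞ (fun z : ℝ × ℝ => (P z.1).A z.2) (Ico 0 T ×ˢ Icc (-1) 1))
    (hB : ContDiffOn ℝ ∞ (fun z : ℝ × ℝ => (P z.1).B z.2) (Ico 0 T ×ˢ Icc (-1) 1))
    (hC : ContDiffOn ℝ ∞ (fun z : ℝ × ℝ => (P z.1).C z.2) (Ico 0 T ×ˢ Icc (-1) 1))
    (eA : ∀ t ∈ Ico 0 T, ∀ x ∈ Icc (-1 : ℝ) 1,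
      HasDerivWithinAt (fun s => (P s).A x) (-2 * (P t).F1 m p x) (Ico 0 T) t)
    (eB : ∀ t ∈ Ico 0 T, ∀ x ∈ Icc (-1 : ℝ) 1,
      HasDerivWithinAt (fun s => (P s).B x) (-2 * (P t).F2 m p x) (Ico 0 T) t)
    (eC : ∀ t ∈ Ico 0 T, ∀ x ∈ Icc (-1 : ℝ) 1,
      HasDerivWithinAt (fun s => (P s).C x) (-2 * (P t).F3 m p x) (Ico 0 T) t) :
    Flow.IsRicciFlow (frame m p) (fun t => tens m p (P t).A (P t).B (P t).C) T where
  symm t ht x u w := tens_symm _ _ _ x u w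
  pos t ht x w hw := tens_pos _ _ _ (hP t ht).posA (hP t ht).posAB (hP t ht).posC x w hw
  smooth e he i j := by
    obtain ⟨b, c, hb, ht, -, hcomp⟩ := comp_eq_G he
    simp only [hcomp, ht]
    exact G_contDiffOn (A := fun t => (P t).A) (B := fun t => (P t).B) (C := fun t => (P t).C)
      hb hA hB hC i j
  flow e he y hy i j t ht := by
    obtain ⟨b, c, hb, ht', -, hcomp⟩ := comp_eq_G he
    simp only [hcomp]
    exact G_flow (A := fun t => (P t).A) (B := fun t => (P t).B) (C := fun t => (P t).C)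
      hb (hP t ht) rfl rfl rfl (eA t ht) (eB t ht) (eC t ht) i j y

theorem scalarCurvature_tens {m p : ℕ} {P : Prof} (hP : P.Good) (x : Mfd m p) :
    Flow.scalarCurvature (frame m p) (tens m p P.A P.B P.C) x =
      (m - 1) * (P.F1 m p (height x) / P.A (height x)) +
      (P.F1 m p (height x) + P.F2 m p (height x) * (1 - height x ^ 2)) /
        (P.A (height x) + P.B (height x) * (1 - height x ^ 2)) +
      p * (P.F3 m p (height x) / P.C (height x)) := by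
  obtain ⟨b, c, hb, ht, hh1, hcomp⟩ := comp_eq_G (chart_mem_atlas (EE m × EE p) x)
  unfold Flow.scalarCurvature
  rw [hcomp]
  have h1 : hh b c ((chartAt (EE m × EE p) x) x).1 = height x := by
    rw [← hh1, (chartAt (EE m × EE p) x).left_inv (mem_chart_source (EE m × EE p) x)]
  rw [scal_G hP hb, h1]

end Vale.Agent.P244.GeoM
end

section

open Set
open scoped ContDiff

set_option linter.unusedSectionVars false

namespace Vale.Agent.P244.GeoM

open Vale.Agent.P244.Geo (strip Prof frame)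
open Vale.Agent.P244.ST

theorem closure_eqOn {f g : ℝ → ℝ} (hf : ContinuousOn f (Icc (-1) 1))
    (hg : ContinuousOn g (Icc (-1) 1)) (h : ∀ x ∈ Ioo (-1 : ℝ) 1, f x = g x) :
    ∀ x ∈ Icc (-1 : ℝ) 1, f x = g x := by
  have h1 : EqOn f g (Ioo (-1 : ℝ) 1) := h
  exact h1.of_subset_closure hf hg Ioo_subset_Icc_self (by rw [closure_Ioo (by norm_num)])

theorem closure_bound {f : ℝ → ℝ} {C : ℝ} (hf : ContinuousOn f (Icc (-1) 1))
    (h : ∀ x ∈ Ioo (-1 : ℝ) 1, |f x| ≤ C) : ∀ x ∈ Icc (-1 : ℝ) 1, |f x| ≤ C := by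
  have h1 : MapsTo f (Ioo (-1 : ℝ) 1) (Icc (-C) C) := fun x hx => abs_le.mp (h x hx)
  have h2 := h1.closure_of_continuousOn (by rw [closure_Ioo (by norm_num)]; exact hf)
  rw [closure_Ioo (by norm_num), isClosed_Icc.closure_eq] at h2
  exact fun x hx => abs_le.mpr (h2 hx)

section contF

variable {P : Prof} (hP : P.Good) (hA2 : ContinuousOn P.A2 (Icc (-1) 1))
  (hC2 : ContinuousOn P.C2 (Icc (-1) 1)) (m p : ℕ)
include hP hA2 hC2

theorem cont_all : ContinuousOn (P.F1 m p) (Icc (-1) 1) ∧ ContinuousOn (P.F2 m p) (Icc (-1) 1) ∧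
    ContinuousOn (P.F3 m p) (Icc (-1) 1) := by
  have cA : ContinuousOn P.A (Icc (-1) 1) := fun x hx => (hP.hA x hx).continuousWithinAt
  have cA1 : ContinuousOn P.A1 (Icc (-1) 1) := fun x hx => (hP.hA1 x hx).continuousWithinAt
  have cB : ContinuousOn P.B (Icc (-1) 1) := fun x hx => (hP.hB x hx).continuousWithinAt
  have cB1 : ContinuousOn P.B1 (Icc (-1) 1) := fun x hx => (hP.hB1 x hx).continuousWithinAt
  have cC : ContinuousOn P.C (Icc (-1) 1) := fun x hx => (hP.hC x hx).continuousWithinAt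
  have cC1 : ContinuousOn P.C1 (Icc (-1) 1) := fun x hx => (hP.hC1 x hx).continuousWithinAt
  have cD : ContinuousOn P.D (Icc (-1) 1) :=
    ContinuousOn.inv₀ (by fun_prop) (fun x hx => (hP.posAB x hx).ne')
  have cD1 : ContinuousOn P.D1 (Icc (-1) 1) := by
    unfold Prof.D1; fun_prop
  have n2A : ∀ x ∈ Icc (-1 : ℝ) 1, 2 * P.A x ≠ 0 := fun x hx =>
    (mul_pos two_pos (hP.posA x hx)).ne'
  have n2A' : ∀ x ∈ Icc (-1 : ℝ) 1, 2 * P.A x ^ 2 ≠ 0 := fun x hx =>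
    (mul_pos two_pos (pow_pos (hP.posA x hx) 2)).ne'
  have n2C : ∀ x ∈ Icc (-1 : ℝ) 1, 2 * P.C x ≠ 0 := fun x hx =>
    (mul_pos two_pos (hP.posC x hx)).ne'
  have n2C' : ∀ x ∈ Icc (-1 : ℝ) 1, 2 * P.C x ^ 2 ≠ 0 := fun x hx =>
    (mul_pos two_pos (pow_pos (hP.posC x hx) 2)).ne'
  have cal : ContinuousOn P.al (Icc (-1) 1) := cA1.div (by fun_prop) n2A
  have cal1 : ContinuousOn P.al1 (Icc (-1) 1) :=
    (hA2.div (by fun_prop) n2A).sub ((cA1.pow 2).div (by fun_prop) n2A')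
  have cga : ContinuousOn P.ga (Icc (-1) 1) := by
    unfold Prof.ga; fun_prop
  have cga1 : ContinuousOn P.ga1 (Icc (-1) 1) := by
    unfold Prof.ga1; fun_prop
  have cbe : ContinuousOn P.be (Icc (-1) 1) := by
    unfold Prof.be; fun_prop
  have cka : ContinuousOn P.ka (Icc (-1) 1) := cC1.div (by fun_prop) n2C
  have cka1 : ContinuousOn P.ka1 (Icc (-1) 1) :=
    (hC2.div (by fun_prop) n2C).sub ((cC1.pow 2).div (by fun_prop) n2C')
  have cla : ContinuousOn P.la (Icc (-1) 1) := by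
    unfold Prof.la; fun_prop
  have cla1 : ContinuousOn P.la1 (Icc (-1) 1) := by
    unfold Prof.la1; fun_prop
  have cT : ContinuousOn (P.T m p) (Icc (-1) 1) := by
    unfold Prof.T; fun_prop
  refine ⟨?_, ?_, ?_⟩
  · unfold Prof.F1; fun_prop
  · unfold Prof.F2; fun_prop
  · unfold Prof.F3; fun_prop

end contF

variable {T : ℝ} {p : ℕ} {w f η : ℝ → ℝ → ℝ}

/-- the scalar curvature of the profile -/
noncomputable def scalP (P : Prof) (m p : ℕ) (x : ℝ) : ℝ :=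
  (m - 1) * (P.F1 m p x / P.A x) +
      (P.F1 m p x + P.F2 m p x * (1 - x ^ 2)) / (P.A x + P.B x * (1 - x ^ 2)) +
      p * (P.F3 m p x / P.C x)

namespace Flo

variable (H : Flo T (Jt p w f) η) (S : ConfSol p w f T)
include H S

theorem cont_F {t : ℝ} (ht : t ∈ Ico 0 T) :
    ContinuousOn ((prof w f (Jt p w f) η t).F1 (p + 1) p) (Icc (-1) 1) ∧
    ContinuousOn ((prof w f (Jt p w f) η t).F2 (p + 1) p) (Icc (-1) 1) ∧
    ContinuousOn ((prof w f (Jt p w f) η t).F3 (p + 1) p) (Icc (-1) 1) :=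
  cont_all (H.good S.smooth_w S.smooth_f ht) ((H.sm_AA S.smooth_w).dx.dx.contx ht)
    ((H.sm_CC S.smooth_f).dx.dx.contx ht) _ _

theorem evoA' {t h : ℝ} (ht : t ∈ Ico 0 T) (hh : h ∈ Icc (-1 : ℝ) 1) :
    HasDerivWithinAt (fun s => AA w (Jt p w f) η s h)
      (-2 * (prof w f (Jt p w f) η t).F1 (p + 1) p h) (Ico 0 T) t := by
  have hs := H.sm_AA (w := w) S.smooth_w
  have h1 := closure_eqOn (hs.dt.contx ht)
    ((continuousOn_const (c := (-2 : ℝ))).mul (H.cont_F S ht).1) (fun x hx =>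
      (H.evoA S ht hx).derivWithin (uniqueDiffOn_Ico 0 T t ht)) h hh
  have h2 := hs.hasDt ht hh
  rw [h1] at h2
  exact h2

theorem evoB' {t h : ℝ} (ht : t ∈ Ico 0 T) (hh : h ∈ Icc (-1 : ℝ) 1) :
    HasDerivWithinAt (fun s => BB w (Jt p w f) η s h)
      (-2 * (prof w f (Jt p w f) η t).F2 (p + 1) p h) (Ico 0 T) t := by
  have hs := H.sm_BB (w := w) S.smooth_w
  have h1 := closure_eqOn (hs.dt.contx ht)
    ((continuousOn_const (c := (-2 : ℝ))).mul (H.cont_F S ht).2.1) (fun x hx =>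
      (H.evoB S ht hx).derivWithin (uniqueDiffOn_Ico 0 T t ht)) h hh
  have h2 := hs.hasDt ht hh
  rw [h1] at h2
  exact h2

theorem evoC' {t h : ℝ} (ht : t ∈ Ico 0 T) (hh : h ∈ Icc (-1 : ℝ) 1) :
    HasDerivWithinAt (fun s => CC f η s h)
      (-2 * (prof w f (Jt p w f) η t).F3 (p + 1) p h) (Ico 0 T) t := by
  have hs := H.sm_CC (f := f) S.smooth_f
  have h1 := closure_eqOn (hs.dt.contx ht)
    ((continuousOn_const (c := (-2 : ℝ))).mul (H.cont_F S ht).2.2) (fun x hx =>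
      (H.evoC S ht hx).derivWithin (uniqueDiffOn_Ico 0 T t ht)) h hh
  have h2 := hs.hasDt ht hh
  rw [h1] at h2
  exact h2

/-- the literal metrics -/
theorem isRicciFlow : Flow.IsRicciFlow (frame (p + 1) p)
    (fun t => tens (p + 1) p (AA w (Jt p w f) η t) (BB w (Jt p w f) η t) (CC f η t)) T :=
  isRicciFlow_tens (prof w f (Jt p w f) η) (fun _ ht => H.good S.smooth_w S.smooth_f ht)
    (H.sm_AA S.smooth_w) (H.sm_BB S.smooth_w) (H.sm_CC S.smooth_f)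
    (fun _ ht _ hx => H.evoA' S ht hx) (fun _ ht _ hx => H.evoB' S ht hx)
    (fun _ ht _ hx => H.evoC' S ht hx)

theorem scal_eq {t h : ℝ} (ht : t ∈ Ico 0 T) (hh : h ∈ Ioo (-1 : ℝ) 1) :
    scalP (prof w f (Jt p w f) η t) (p + 1) p h = scal p (w t) (f t) (η t h) := by
  have hw : Sm T w := S.smooth_w
  have hf : Sm T f := S.smooth_f
  have hh' := Ioo_subset_Icc_self hh
  have hq := q_ne hh
  have hm := H.mem_Ioo ht hh
  have hqx := q_ne hm
  have hP : (prof w f (Jt p w f) η t).Good := H.good hw hf ht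
  have hA := (hP.posA h hh').ne'
  have hAB := (hP.posAB h hh').ne'
  have hC := (hP.posC h hh').ne'
  have hE := (Real.exp_pos (2 * w t (η t h))).ne'
  have hK := (Real.exp_pos (2 * f t (η t h))).ne'
  have he1 := (H.dx_pos ht hh').ne'
  have a1 := F1_eq (prof w f (Jt p w f) η t) (p + 1) p hq hA hAB hC
  have a2 := F2_eq (prof w f (Jt p w f) η t) (p + 1) p hq hA hAB hC
  have a3 := F3_eq (prof w f (Jt p w f) η t) (p + 1) p hq hA hAB hC
  have b1 := a1.trans ((H.spat hw hf ht).RU_eq ((p + 1 : ℕ) : ℝ) p hh)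
  have b2 := a2.trans ((H.spat hw hf ht).RV_eq ((p + 1 : ℕ) : ℝ) p hh)
  have b3 := a3.trans ((H.spat hw hf ht).RC_eq ((p + 1 : ℕ) : ℝ) p hh)
  push_cast at b1 b2 b3
  rw [RU_conf (p : ℝ) rfl hqx hE hK] at b1
  rw [RV_conf (p : ℝ) rfl hqx hE hK] at b2
  rw [RC_conf (p : ℝ) rfl hqx hE hK] at b3
  have rA : AA w (Jt p w f) η t h * (1 - h ^ 2) =
    Real.exp (2 * w t (η t h)) * (1 - η t h ^ 2) := H.relA ht hh'
  have rB : (AA w (Jt p w f) η t h + BB w (Jt p w f) η t h * (1 - h ^ 2)) / (1 - h ^ 2) =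
      Real.exp (2 * w t (η t h)) / (1 - η t h ^ 2) * Dx η t h ^ 2 := H.relB ht hh
  have hA' : AA w (Jt p w f) η t h ≠ 0 := hA
  have hC' : CC f η t h ≠ 0 := hC
  have c1 : (prof w f (Jt p w f) η t).F1 (p + 1) p h / AA w (Jt p w f) η t h =
      ric2 p (w t) (f t) (η t h) := by
    rw [div_eq_iff hA']
    refine mul_right_cancel₀ hq ?_
    rw [b1, mul_assoc (ric2 p (w t) (f t) (η t h)), rA, ric2, exp_neg_two]
    rfl
  have c2 : ((prof w f (Jt p w f) η t).F1 (p + 1) p h +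
      (prof w f (Jt p w f) η t).F2 (p + 1) p h * (1 - h ^ 2)) /
      (AA w (Jt p w f) η t h + BB w (Jt p w f) η t h * (1 - h ^ 2)) =
      ric0 p (w t) (f t) (η t h) := by
    have d1 : ((prof w f (Jt p w f) η t).F1 (p + 1) p h +
      (prof w f (Jt p w f) η t).F2 (p + 1) p h * (1 - h ^ 2)) /
      (AA w (Jt p w f) η t h + BB w (Jt p w f) η t h * (1 - h ^ 2)) =
      ((prof w f (Jt p w f) η t).F2 (p + 1) p h +
        (prof w f (Jt p w f) η t).F1 (p + 1) p h / (1 - h ^ 2)) /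
      ((AA w (Jt p w f) η t h + BB w (Jt p w f) η t h * (1 - h ^ 2)) / (1 - h ^ 2)) := by
      have hAB' : AA w (Jt p w f) η t h + BB w (Jt p w f) η t h * (1 - h ^ 2) ≠ 0 := hAB
      field_simp
      ring
    rw [d1, b2, rB, ric0, ric2, exp_neg_two]
    rw [mul_assoc, mul_div_assoc, div_self (mul_ne_zero (div_ne_zero hE hqx) (pow_ne_zero 2 he1)),
      mul_one]
    rfl
  have c3 : (prof w f (Jt p w f) η t).F3 (p + 1) p h / CC f η t h =
      ric1 p (w t) (f t) (η t h) := by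
    rw [div_eq_iff hC', b3, ric1, exp_neg_two, exp_neg_two]
    rfl
  have c4 : scalP (prof w f (Jt p w f) η t) (p + 1) p h =
      (((p + 1 : ℕ) : ℝ) - 1) * ((prof w f (Jt p w f) η t).F1 (p + 1) p h /
        AA w (Jt p w f) η t h) +
      ((prof w f (Jt p w f) η t).F1 (p + 1) p h +
      (prof w f (Jt p w f) η t).F2 (p + 1) p h * (1 - h ^ 2)) /
      (AA w (Jt p w f) η t h + BB w (Jt p w f) η t h * (1 - h ^ 2)) +
      p * ((prof w f (Jt p w f) η t).F3 (p + 1) p h / CC f η t h) := rfl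
  rw [c4, c1, c2, c3, scal]
  push_cast
  ring

theorem cont_scalP {t : ℝ} (ht : t ∈ Ico 0 T) :
    ContinuousOn (scalP (prof w f (Jt p w f) η t) (p + 1) p) (Icc (-1) 1) := by
  have hP : (prof w f (Jt p w f) η t).Good := H.good S.smooth_w S.smooth_f ht
  obtain ⟨c1, c2, c3⟩ := H.cont_F S ht
  have cA : ContinuousOn (prof w f (Jt p w f) η t).A (Icc (-1) 1) :=
    fun x hx => (hP.hA x hx).continuousWithinAt
  have cB : ContinuousOn (prof w f (Jt p w f) η t).B (Icc (-1) 1) :=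
    fun x hx => (hP.hB x hx).continuousWithinAt
  have cC : ContinuousOn (prof w f (Jt p w f) η t).C (Icc (-1) 1) :=
    fun x hx => (hP.hC x hx).continuousWithinAt
  have cq : ContinuousOn (fun x : ℝ => 1 - x ^ 2) (Icc (-1) 1) := by fun_prop
  exact (((continuousOn_const.mul (c1.div cA (fun x hx => (hP.posA x hx).ne'))).add
    ((c1.add (c2.mul cq)).div (cA.add (cB.mul cq)) (fun x hx => (hP.posAB x hx).ne'))).add
    (continuousOn_const.mul (c3.div cC (fun x hx => (hP.posC x hx).ne'))))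

theorem scalarCurvature_eq {t : ℝ} (ht : t ∈ Ico 0 T) (x : Mfd (p + 1) p) :
    Flow.scalarCurvature (frame (p + 1) p) (tens (p + 1) p (AA w (Jt p w f) η t)
      (BB w (Jt p w f) η t) (CC f η t)) x =
    scalP (prof w f (Jt p w f) η t) (p + 1) p (height x) :=
  scalarCurvature_tens (P := prof w f (Jt p w f) η t) (m := p + 1) (p := p)
    (H.good S.smooth_w S.smooth_f ht) x

theorem height_mem {m p : ℕ} (x : Mfd m p) : height x ∈ Icc (-1 : ℝ) 1 := by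
  obtain ⟨b, c, hbc, ht, hh1, -⟩ := comp_tens (chart_mem_atlas (Geo.EE m × Geo.EE p) x)
  have h1 := (chartAt (Geo.EE m × Geo.EE p) x).left_inv (mem_chart_source _ x)
  rw [← h1, hh1]
  exact Geo.hh_mem hbc _

theorem eta_one {t : ℝ} (ht : t ∈ Ico 0 T) : η t 1 = 1 := by
  have h1 : (1 : ℝ) ∈ Icc (-1 : ℝ) 1 := by constructor <;> norm_num
  have hD : ∀ s ∈ Ico 0 T, HasDerivWithinAt (fun s => η s 1) 0 (Ico 0 T) s := by
    intro s hs
    have h2 := H.ode s hs 1 h1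
    have h3 := H.rel_k hs h1
    rw [h3] at h2
    refine h2.congr_deriv ?_
    ring
  have h2 := (convex_Ico (0 : ℝ) T).is_const_of_fderivWithin_eq_zero (𝕜 := ℝ)
    (f := fun s => η s 1) (fun s hs => (hD s hs).differentiableWithinAt)
    (fun s hs => by
      have := (hD s hs).hasFDerivWithinAt.fderivWithin (uniqueDiffOn_Ico 0 T s hs)
      rw [this]; ext; simp)
    ht (show (0 : ℝ) ∈ Ico 0 T from ⟨le_rfl, lt_of_le_of_lt ht.1 ht.2⟩)
  exact h2.trans (H.init 1 h1)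

end Flo

end Vale.Agent.P244.GeoM
end

section

open scoped Manifold ContDiff RealInnerProductSpace Topology
open Set Metric Module

namespace Vale.Agent.P244.GeoP

open Vale.Agent.P244.Geo (EE rho hh frame)
open Vale.Agent.P244.GeoM
open Vale.Agent.P244.ST

attribute [local instance] factFin

/-- a component of the metric has infimum `0` -/
def Degen {V : Type} [NormedAddCommGroup V] [NormedSpace ℝ V] {n : ℕ} (v : Fin n → V)
    {M : Type} [TopologicalSpace M] [ChartedSpace V M] (g : ℝ → Flow.Tensor V M) (T : ℝ) : Prop :=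
  ∃ e ∈ atlas V M, ∃ y ∈ e.target, ∃ i : Fin n, ∀ δ > 0, ∃ t ∈ Ico 0 T,
      Flow.comp v (g t) e y i i < δ

/-- a bad flow in dimension `n` -/
def Bad (n : ℕ) : Prop :=
  ∃ (V : Type) (_ : NormedAddCommGroup V) (_ : NormedSpace ℝ V) (v : Basis (Fin n) ℝ V)
    (M : Type) (_ : TopologicalSpace M) (_ : ChartedSpace V M) (_ : IsManifold 𝓘(ℝ, V) ∞ M)
    (_ : T2Space M) (_ : CompactSpace M) (_ : ConnectedSpace M) (g : ℝ → Flow.Tensor V M) (T : ℝ),
    0 < T ∧ Flow.IsRicciFlow v g T ∧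
    (∃ C : ℝ, ∀ t ∈ Ico 0 T, ∀ x, |Flow.scalarCurvature v (g t) x| ≤ C) ∧ Degen v g T

theorem connected_sph (m : ℕ) (hm : 0 < m) : ConnectedSpace (Sph m) := by
  rw [← isConnected_iff_connectedSpace]
  refine isConnected_sphere ?_ 0 zero_le_one
  rw [← Module.finrank_eq_rank, finrank_euclideanSpace_fin]
  exact_mod_cast (by omega : 1 < m + 1)

theorem bad_succ {n : ℕ} (h : Bad n) : Bad (n + 1) := by
  obtain ⟨V, i1, i2, v, M, i3, i4, i5, i6, i7, i8, g, T, hT, hg, ⟨C, hC⟩, hd⟩ := h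
  have hc : ConnectedSpace (Sph 1) := connected_sph 1 one_pos
  refine ⟨V × EE 1, inferInstance, inferInstance, pbasis v, M × Sph 1, inferInstance,
    pcharted V M, pmanifold, inferInstance, inferInstance, inferInstance, fun t => ptens (g t), T,
    hT, ?_, ⟨C, fun t ht x => ?_⟩, ?_⟩
  · rw [pbasis_eq]; exact pflow v hg
  · rw [pbasis_eq, pscal v hg ht x]
    exact hC t ht x.1
  · obtain ⟨e1, he1, y, hy, i, hd⟩ := hd
    rw [pbasis_eq]
    have s : Sph 1 := ⟨EuclideanSpace.single 0 1, by simp⟩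
    refine ⟨e1.prod (stereographic' 1 s), ⟨e1, he1, stereographic' 1 s, ⟨s, rfl⟩, rfl⟩,
      (y, 0), ⟨hy, by simp⟩, Fin.castAdd 1 i, fun δ hδ => ?_⟩
    obtain ⟨t, ht, hlt⟩ := hd δ hδ
    refine ⟨t, ht, ?_⟩
    rw [comp_ptens (v : Fin n → V) he1 (y := (y, 0)) hy s (fun z => rfl) (g t), Geo.blk_ll]
    exact hlt

theorem bad_add {n : ℕ} (h : Bad n) (k : ℕ) : Bad (n + k) := by
  induction k with
  | zero => exact h
  | succ k ih => exact bad_succ ih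

theorem degen_tens {m p : ℕ} (hp : 0 < p) {T : ℝ} (A B C : ℝ → ℝ → ℝ)
    (hC : ∀ δ > 0, ∃ t ∈ Ico 0 T, C t 1 < δ) :
    Degen (frame m p) (fun t => tens m p (A t) (B t) (C t)) T := by
  let x0 : Mfd m p := (⟨EuclideanSpace.single (Fin.last m) (1 : ℝ), by simp⟩,
    ⟨EuclideanSpace.single (Fin.last p) (1 : ℝ), by simp⟩)
  set e := chartAt (EE m × EE p) x0 with he
  have hatl : e ∈ atlas (EE m × EE p) (Mfd m p) := chart_mem_atlas _ x0
  obtain ⟨b, c, hbc, ht, hh1, hcomp⟩ := comp_tens hatl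
  set y0 := e x0 with hy0
  have hx0 : e.symm y0 = x0 := e.left_inv (mem_chart_source (EE m × EE p) x0)
  have hheight : hh b c y0.1 = 1 := by
    rw [← hh1, hx0]
    simp [height, pos1, x0]
  set i0 : Fin (m + p) := Fin.natAdd m ⟨0, hp⟩ with hi0
  have hfr : frame m p i0 = (0, EuclideanSpace.single ⟨0, hp⟩ 1) := by
    rw [frame, hi0, Fin.addCases_right]
  have hval : ∀ t, Flow.comp (frame m p) (tens m p (A t) (B t) (C t)) e y0 i0 i0 =
      C t 1 * (Vale.Agent.P244.Geo.rho y0.2 ^ 2 * 1) := by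
    intro t
    rw [hcomp, hfr]
    unfold chartForm
    rw [hheight]
    simp
  have hr : 0 < Vale.Agent.P244.Geo.rho y0.2 ^ 2 := by
    have := normSq_pos y0.2
    unfold Vale.Agent.P244.Geo.rho; positivity
  refine ⟨e, hatl, y0, by rw [ht]; trivial, i0, fun δ hδ => ?_⟩
  obtain ⟨t, ht', hlt⟩ := hC (δ / Vale.Agent.P244.Geo.rho y0.2 ^ 2) (div_pos hδ hr)
  refine ⟨t, ht', ?_⟩
  rw [hval]
  rw [lt_div_iff₀ hr] at hlt
  linarith only [hlt]

/-- the standard basis of `ℝ^m × ℝ^p` -/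
noncomputable def fbasis (m p : ℕ) : Basis (Fin (m + p)) ℝ (EE m × EE p) :=
  ((EuclideanSpace.basisFun (Fin m) ℝ).toBasis.prod
    (EuclideanSpace.basisFun (Fin p) ℝ).toBasis).reindex finSumFinEquiv

theorem fbasis_eq (m p : ℕ) : (fbasis m p : Fin (m + p) → EE m × EE p) = frame m p := by
  funext I
  refine Fin.addCases (fun i => ?_) (fun i => ?_) I
  · simp [fbasis, frame]
  · simp [fbasis, frame]

theorem bad_of_confSol {T : ℝ} (hT : 0 < T) {p : ℕ} (hp : 0 < p) {w f : ℝ → ℝ → ℝ}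
    (S : ConfSol p w f T) {C : ℝ}
    (hscal : ∀ t ∈ Ico 0 T, ∀ x ∈ Icc (-1 : ℝ) 1, |scal p (w t) (f t) x| ≤ C)
    (htip : ∀ A : ℝ, ∃ t ∈ Ico 0 T, f t 1 < A) : Bad (p + 1 + p) := by
  obtain ⟨η, H⟩ := exists_flo hT (sm_Jt (p := p) (S.smooth_w : Vale.Agent.P244.GeoM.Sm T w) (S.smooth_f : Vale.Agent.P244.GeoM.Sm T f))
  have hc1 : ConnectedSpace (Sph (p + 1)) := connected_sph _ (by omega)
  have hc2 : ConnectedSpace (Sph p) := connected_sph _ hp
  refine ⟨EE (p + 1) × EE p, inferInstance, inferInstance, fbasis (p + 1) p, Mfd (p + 1) p,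
    inferInstance, instCharted (p + 1) p, instIsManifold (p + 1) p, inferInstance, inferInstance,
    inferInstance,
    fun t => tens (p + 1) p (AA w (Jt p w f) η t) (BB w (Jt p w f) η t) (CC f η t), T, hT,
    ?_, ⟨C, ?_⟩, ?_⟩
  · rw [fbasis_eq]; exact H.isRicciFlow S
  · intro t ht x
    rw [fbasis_eq]
    simp only
    rw [H.scalarCurvature_eq S ht x]
    refine closure_bound (H.cont_scalP S ht) (fun h hh => ?_) _ (Flo.height_mem H S x)
    rw [H.scal_eq S ht hh]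
    exact hscal t ht _ (H.mem t ht h (Ioo_subset_Icc_self hh))
  · rw [fbasis_eq]
    refine degen_tens hp (fun t => AA w (Jt p w f) η t) (fun t => BB w (Jt p w f) η t)
      (fun t => CC f η t) ?_
    intro δ hδ
    obtain ⟨t, ht, hlt⟩ := htip (Real.log δ / 2)
    refine ⟨t, ht, ?_⟩
    rw [CC, H.eta_one S ht, ← Real.lt_log_iff_exp_lt hδ]
    linarith only [hlt]

end Vale.Agent.P244.GeoP
end

section

/-!
# P244-ST block L : the elliptic equation with drift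
-/

open Set Filter Topology
open scoped ContDiff

namespace Vale.Agent.P244.ST.L

/-- Primitive of a jet (vanishing at `0`). -/
noncomputable def prim (q : ℕ → ℝ → ℝ) : ℕ → ℝ → ℝ
  | 0 => fun x => ∫ y in (0 : ℝ)..x, q 0 (max (-1) (min 1 y))
  | j + 1 => q j

theorem clamp_mem (y : ℝ) : max (-1) (min 1 y) ∈ II :=
  ⟨le_max_left _ _, max_le (by norm_num) (min_le_left _ _)⟩

theorem clamp_eq {y : ℝ} (hy : y ∈ II) : max (-1) (min 1 y) = y := by
  rw [min_eq_right hy.2, max_eq_right hy.1]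

theorem jet_prim {q : ℕ → ℝ → ℝ} (hq : Jet q) : Jet (prim q) := by
  intro j x hx
  cases j with
  | succ j => exact hq j x hx
  | zero =>
    have hc : Continuous fun y : ℝ => q 0 (max (-1) (min 1 y)) :=
      (hq.continuousOn 0).comp_continuous (by fun_prop) clamp_mem
    have h1 : HasDerivAt (fun x => ∫ y in (0 : ℝ)..x, q 0 (max (-1) (min 1 y)))
        (q 0 (max (-1) (min 1 x))) x :=
      intervalIntegral.integral_hasDerivAt_right (hc.intervalIntegrable _ _)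
        (hc.stronglyMeasurableAtFilter _ _) hc.continuousAt
    rw [clamp_eq hx] at h1
    exact h1.hasDerivWithinAt

/-- Uniqueness through the maximum principle: sup bound with drift. -/
theorem drift_bound {d h : ℝ} (hd : 0 ≤ d) (hh : 0 ≤ h) {a b u g : ℕ → ℝ → ℝ}
    (hpos : ∀ x ∈ II, 0 ≤ a 0 x) (hu : Jet u)
    (he : ∀ x ∈ II, u 0 x - h * (a 0 x * lapJ d u 0 x + (1 - x ^ 2) * b 0 x * u 1 x) = g 0 x)
    {K : ℝ} (hK : ∀ x ∈ II, |g 0 x| ≤ K) : ∀ x ∈ II, |u 0 x| ≤ K := by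
  refine abs_le_of_max (fun x hx => hu 0 x hx) (fun x hx => hu 1 x hx) ?_ ?_
  · intro x0 hx0 _ h1 h2
    have e1 := he x0 hx0
    have e2 := h2 d hd
    have e3 := (abs_le.1 (hK x0 hx0)).2
    have e4 : lapJ d u 0 x0 = (1 - x0 ^ 2) * u 2 x0 - d * x0 * u 1 x0 := by
      unfold lapJ; simp
    have e5 : a 0 x0 * lapJ d u 0 x0 ≤ 0 := by
      rw [e4]; exact mul_nonpos_of_nonneg_of_nonpos (hpos x0 hx0) e2
    have e6 : (1 - x0 ^ 2) * b 0 x0 * u 1 x0 = 0 := by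
      rw [mul_right_comm, h1, zero_mul]
    rw [e6, add_zero] at e1
    have e7 : h * (a 0 x0 * lapJ d u 0 x0) ≤ 0 := mul_nonpos_of_nonneg_of_nonpos hh e5
    linarith only [e1, e3, e7]
  · intro x0 hx0 _ h1 h2
    have e1 := he x0 hx0
    have e2 := h2 d hd
    have e3 := (abs_le.1 (hK x0 hx0)).1
    have e4 : lapJ d u 0 x0 = (1 - x0 ^ 2) * u 2 x0 - d * x0 * u 1 x0 := by
      unfold lapJ; simp
    have e5 : 0 ≤ a 0 x0 * lapJ d u 0 x0 := by
      rw [e4]; exact mul_nonneg (hpos x0 hx0) e2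
    have e6 : (1 - x0 ^ 2) * b 0 x0 * u 1 x0 = 0 := by
      rw [mul_right_comm, h1, zero_mul]
    rw [e6, add_zero] at e1
    have e7 : 0 ≤ h * (a 0 x0 * lapJ d u 0 x0) := mul_nonneg hh e5
    linarith only [e1, e3, e7]

/-- The elliptic equation with drift. -/
theorem ell_drift {d K : ℝ} (hd : 0 ≤ d) (hK : 1 ≤ K) : ∃ h0 > 0, ∀ a b g : ℕ → ℝ → ℝ,
    Jet a → Jet b → Jet g →
    (∀ x ∈ II, K⁻¹ ≤ a 0 x ∧ a 0 x ≤ K ∧ |a 1 x| ≤ K ∧ |b 0 x| ≤ K ∧ |b 1 x| ≤ K) →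
    ∀ h, 0 ≤ h → h ≤ h0 → ∃ u, Jet u ∧ ∀ x ∈ II,
      u 0 x - h * (a 0 x * lapJ d u 0 x + (1 - x ^ 2) * b 0 x * u 1 x) = g 0 x := by
  set C : ℝ := K * ((K ^ 2 + K ^ 4) / 2 + K ^ 4 / 4 + d * K ^ 2 / 2) + K ^ 3 / 2 with hC
  have hC0 : 0 ≤ C := by positivity
  refine ⟨1 / (2 * (C + 1)), by positivity, ?_⟩
  intro a b g ha hb hg hab h hh hh0
  have hapos : ∀ x ∈ II, 0 < a 0 x := fun x hx =>
    lt_of_lt_of_le (by positivity) (hab x hx).1
  -- q = - b / (2a)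
  obtain ⟨q, hq, hq0⟩ := exists_jet_of_contDiffOn (f := fun x => -(b 0 x) / (2 * a 0 x))
    (hb.contDiffOn.neg.div (contDiffOn_const.mul ha.contDiffOn)
      (fun x hx => by have := hapos x hx; positivity))
  have hq1 : ∀ x ∈ II, q 1 x = -(b 1 x) / (2 * a 0 x) + b 0 x * a 1 x / (2 * a 0 x ^ 2) := by
    intro x hx
    have hax := hapos x hx
    have h1 : HasDerivWithinAt (fun x => -(b 0 x) / (2 * a 0 x)) (q 1 x) II x :=
      (hq 0 x hx).congr (fun y hy => (hq0 y hy).symm) (hq0 x hx).symm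
    have h2 := ((hb 0 x hx).neg).div ((ha 0 x hx).const_mul 2) (by positivity)
    have h3 := (uniqueDiffOn_II x hx).eq_deriv _ h1 h2
    rw [h3, Pi.neg_apply]
    field_simp
    ring
  -- sigma = exp (prim q)
  obtain ⟨sg, hsg, hsg0⟩ := exists_jet_of_contDiffOn (f := fun x => Real.exp (prim q 0 x))
    ((jet_prim hq).contDiffOn.exp)
  have hsgpos : ∀ x ∈ II, 0 < sg 0 x := fun x hx => by rw [hsg0 x hx]; exact Real.exp_pos _
  have hsg1 : ∀ x ∈ II, sg 1 x = sg 0 x * q 0 x := by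
    intro x hx
    have h1 : HasDerivWithinAt (fun x => Real.exp (prim q 0 x)) (sg 1 x) II x :=
      (hsg 0 x hx).congr (fun y hy => (hsg0 y hy).symm) (hsg0 x hx).symm
    have h2 := ((jet_prim hq) 0 x hx).exp
    have h3 := (uniqueDiffOn_II x hx).eq_deriv _ h1 h2
    rw [h3, hsg0 x hx]
    rfl
  have hsg2 : ∀ x ∈ II, sg 2 x = sg 0 x * (q 1 x + q 0 x ^ 2) := by
    intro x hx
    have h1 : HasDerivWithinAt (fun x => sg 0 x * q 0 x) (sg 2 x) II x :=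
      (hsg 1 x hx).congr (fun y hy => (hsg1 y hy).symm) (hsg1 x hx).symm
    have h2 := (hsg 0 x hx).mul (hq 0 x hx)
    have h3 := (uniqueDiffOn_II x hx).eq_deriv _ h1 h2
    rw [h3, hsg1 x hx]
    ring
  -- kappa
  set ka : ℝ → ℝ := fun x => a 0 x * ((1 - x ^ 2) * (q 1 x + q 0 x ^ 2) - d * x * q 0 x)
    + (1 - x ^ 2) * b 0 x * q 0 x with hka
  have hq1s : ContDiffOn ℝ ∞ (q 1) II := (hq.shift 1).contDiffOn
  have hkas : ContDiffOn ℝ ∞ ka II := by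
    have hx1 : ContDiffOn ℝ ∞ (fun x : ℝ => x) II := contDiffOn_id
    exact (ha.contDiffOn.mul (((contDiffOn_const.sub (hx1.pow 2)).mul
      (hq1s.add (hq.contDiffOn.pow 2))).sub ((contDiffOn_const.mul hx1).mul hq.contDiffOn))).add
      (((contDiffOn_const.sub (hx1.pow 2)).mul hb.contDiffOn).mul hq.contDiffOn)
  have hkab : ∀ x ∈ II, |ka x| ≤ C := by
    intro x hx
    obtain ⟨c1, c2, c3, c4, c5⟩ := hab x hx
    have hax := hapos x hx
    have hKp : 0 < K := by linarith only [hK]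
    have hinv : (a 0 x)⁻¹ ≤ K := by
      rw [inv_le_comm₀ hax hKp]; exact c1
    have hinv0 : 0 < (a 0 x)⁻¹ := inv_pos.2 hax
    have hx2 : |1 - x ^ 2| ≤ 1 := by
      rw [abs_le]
      constructor <;> nlinarith only [hx, hx.1, hx.2, sq_nonneg x]
    have hxa : |x| ≤ 1 := abs_le.2 ⟨hx.1, hx.2⟩
    have hqb : |q 0 x| ≤ K ^ 2 / 2 := by
      rw [hq0 x hx, show -(b 0 x) / (2 * a 0 x) = -(b 0 x) * (a 0 x)⁻¹ / 2 by field_simp,
        abs_div, abs_mul, abs_neg, abs_of_pos hinv0, abs_two]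
      have := mul_le_mul c4 hinv hinv0.le hKp.le
      linarith only [this]
    have hq1b : |q 1 x| ≤ (K ^ 2 + K ^ 4) / 2 := by
      rw [hq1 x hx]
      have t1 : |-(b 1 x) / (2 * a 0 x)| ≤ K ^ 2 / 2 := by
        rw [show -(b 1 x) / (2 * a 0 x) = -(b 1 x) * (a 0 x)⁻¹ / 2 by field_simp,
          abs_div, abs_mul, abs_neg, abs_of_pos hinv0, abs_two]
        have := mul_le_mul c5 hinv hinv0.le hKp.le
        linarith only [this]
      have t2 : |b 0 x * a 1 x / (2 * a 0 x ^ 2)| ≤ K ^ 4 / 2 := by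
        rw [show b 0 x * a 1 x / (2 * a 0 x ^ 2) = (b 0 x * a 1 x) * ((a 0 x)⁻¹ * (a 0 x)⁻¹) / 2 by
          field_simp, abs_div, abs_mul, abs_mul, abs_mul, abs_of_pos hinv0, abs_two]
        have s1 := mul_le_mul c4 c3 (abs_nonneg _) hKp.le
        have s2 := mul_le_mul hinv hinv hinv0.le hKp.le
        have s3 := mul_le_mul s1 s2 (by positivity) (by positivity)
        linarith only [s3]
      refine (abs_add_le _ _).trans ?_
      linarith only [t1, t2]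
    have hqq : |q 0 x ^ 2| ≤ K ^ 4 / 4 := by
      rw [abs_pow]
      have := mul_le_mul hqb hqb (abs_nonneg _) (by positivity)
      linarith only [this]
    have s1 : |(1 - x ^ 2) * (q 1 x + q 0 x ^ 2)| ≤ (K ^ 2 + K ^ 4) / 2 + K ^ 4 / 4 := by
      rw [abs_mul]
      have t := (abs_add_le (q 1 x) (q 0 x ^ 2)).trans (add_le_add hq1b hqq)
      have := mul_le_mul hx2 t (abs_nonneg _) zero_le_one
      linarith only [this]
    have s2 : |d * x * q 0 x| ≤ d * K ^ 2 / 2 := by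
      rw [abs_mul, abs_mul, abs_of_nonneg hd]
      have t := mul_le_mul hxa hqb (abs_nonneg _) zero_le_one
      have := mul_le_mul_of_nonneg_left t hd
      linarith only [this]
    have s3 : |(1 - x ^ 2) * b 0 x * q 0 x| ≤ K ^ 3 / 2 := by
      rw [abs_mul, abs_mul]
      have t1 := mul_le_mul hx2 c4 (abs_nonneg _) zero_le_one
      have t2 := mul_le_mul t1 hqb (abs_nonneg _) (by positivity)
      linarith only [t2]
    have s4 : |(1 - x ^ 2) * (q 1 x + q 0 x ^ 2) - d * x * q 0 x|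
        ≤ (K ^ 2 + K ^ 4) / 2 + K ^ 4 / 4 + d * K ^ 2 / 2 :=
      (abs_sub _ _).trans (add_le_add s1 s2)
    refine (abs_add_le _ _).trans (add_le_add ?_ s3)
    rw [abs_mul, abs_of_pos hax]
    exact mul_le_mul c2 s4 (abs_nonneg _) hKp.le
  have hfac : ∀ x ∈ II, 1 / 2 ≤ 1 - h * ka x := by
    intro x hx
    have e1 : h * ka x ≤ h * C := mul_le_mul_of_nonneg_left ((le_abs_self _).trans (hkab x hx)) hh
    have e2 : h * C ≤ 1 / (2 * (C + 1)) * C := mul_le_mul_of_nonneg_right hh0 hC0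
    have e3 : 1 / (2 * (C + 1)) * C ≤ 1 / 2 := by
      rw [div_mul_eq_mul_div, one_mul, div_le_iff₀ (by (clear * - hK hd; positivity))]
      linarith only []
    linarith only [e1, e2, e3]
  have hfacs : ContDiffOn ℝ ∞ (fun x => 1 - h * ka x) II :=
    contDiffOn_const.sub (contDiffOn_const.mul hkas)
  obtain ⟨A, hA, hA0⟩ := exists_jet_of_contDiffOn (f := fun x => a 0 x / (1 - h * ka x))
    (ha.contDiffOn.div hfacs (fun x hx => by have := hfac x hx; linarith only [this]))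
  obtain ⟨G, hG, hG0⟩ := exists_jet_of_contDiffOn
    (f := fun x => g 0 x / (sg 0 x * (1 - h * ka x)))
    (hg.contDiffOn.div (hsg.contDiffOn.mul hfacs) (fun x hx => by
      have h1 := hfac x hx
      have h2 := hsgpos x hx
      have : 0 < sg 0 x * (1 - h * ka x) := mul_pos h2 (by linarith only [h1])
      exact this.ne'))
  obtain ⟨Y, hY, hYe⟩ := ell (h := h) hd hh hA (fun x hx => by
    rw [hA0 x hx]
    exact div_pos (hapos x hx) (by have := hfac x hx; linarith only [this])) hG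
  refine ⟨jmul sg Y, hsg.mul hY, fun x hx => ?_⟩
  have e0 := hYe x hx
  have hf := hfac x hx
  have hfpos : 0 < 1 - h * ka x := by linarith only [hf]
  have hs := hsgpos x hx
  have hax := hapos x hx
  rw [hA0 x hx, hG0 x hx] at e0
  have m1 : jmul sg Y 1 x = sg 1 x * Y 0 x + sg 0 x * Y 1 x := by
    simp [jmul, Finset.sum_range_succ]; ring
  have m2 : jmul sg Y 2 x = sg 2 x * Y 0 x + 2 * (sg 1 x * Y 1 x) + sg 0 x * Y 2 x := by
    simp [jmul, Finset.sum_range_succ]; ring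
  have l1 : lapJ d (jmul sg Y) 0 x
      = (1 - x ^ 2) * jmul sg Y 2 x - d * x * jmul sg Y 1 x := by
    unfold lapJ; simp
  have l2 : lapJ d Y 0 x = (1 - x ^ 2) * Y 2 x - d * x * Y 1 x := by
    unfold lapJ; simp
  rw [l1, m1, m2, jmul_zero, hsg1 x hx, hsg2 x hx]
  rw [l2] at e0
  have e1 : (Y 0 x - h * (a 0 x / (1 - h * ka x)) * ((1 - x ^ 2) * Y 2 x - d * x * Y 1 x))
      * (sg 0 x * (1 - h * ka x)) = g 0 x := by
    rw [e0]
    field_simp
  have e2 : (Y 0 x - h * (a 0 x / (1 - h * ka x)) * ((1 - x ^ 2) * Y 2 x - d * x * Y 1 x))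
      * (sg 0 x * (1 - h * ka x)) = sg 0 x * ((1 - h * ka x) * Y 0 x
        - h * a 0 x * ((1 - x ^ 2) * Y 2 x - d * x * Y 1 x)) := by
    field_simp
  rw [e2] at e1
  have hqr : 2 * a 0 x * q 0 x + b 0 x = 0 := by
    rw [hq0 x hx]; field_simp; ring
  rw [← e1]
  simp only [hka]
  have : b 0 x = -(2 * a 0 x * q 0 x) := by linarith only [hqr]
  rw [this]
  ring

/-! ### Evenness -/

/-- Reflection of a jet. -/
def refl (u : ℕ → ℝ → ℝ) (j : ℕ) (x : ℝ) : ℝ := (-1) ^ j * u j (-x)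

theorem neg_mem_II {x : ℝ} (hx : x ∈ II) : -x ∈ II := ⟨by linarith only [hx, hx.2], by linarith only [hx, hx.1]⟩

theorem Jet.refl {u : ℕ → ℝ → ℝ} (hu : Jet u) : Jet (refl u) := by
  intro j x hx
  have h1 := hu j (-x) (neg_mem_II hx)
  have h2 : HasDerivWithinAt (fun y : ℝ => -y) (-1) II x := (hasDerivWithinAt_id _ _).neg
  have h3 : HasDerivWithinAt (fun y => u j (-y)) (u (j + 1) (-x) * (-1)) II x :=
    HasDerivWithinAt.comp (h := fun y : ℝ => -y) x h1 h2 (fun y hy => neg_mem_II hy)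
  have h4 := h3.const_mul ((-1) ^ j)
  unfold L.refl
  refine h4.congr_deriv ?_
  rw [pow_succ]
  ring

theorem drift_unique {d h : ℝ} (hd : 0 ≤ d) (hh : 0 ≤ h) {a b u v g : ℕ → ℝ → ℝ}
    (hpos : ∀ x ∈ II, 0 ≤ a 0 x) (hu : Jet u) (hv : Jet v)
    (he : ∀ x ∈ II, u 0 x - h * (a 0 x * lapJ d u 0 x + (1 - x ^ 2) * b 0 x * u 1 x) = g 0 x)
    (he' : ∀ x ∈ II, v 0 x - h * (a 0 x * lapJ d v 0 x + (1 - x ^ 2) * b 0 x * v 1 x) = g 0 x) :
    ∀ x ∈ II, u 0 x = v 0 x := by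
  intro x hx
  have := drift_bound (u := fun j x => u j x - v j x) (g := cst 0) (K := 0) (b := b) hd hh hpos
    (hu.sub hv) (fun y hy => by
      have e1 := he y hy
      have e2 := he' y hy
      rw [lapJ_sub]
      show u 0 y - v 0 y - h * (a 0 y * (lapJ d u 0 y - lapJ d v 0 y)
        + (1 - y ^ 2) * b 0 y * (u 1 y - v 1 y)) = 0
      linarith only [e1, e2]) (fun y _ => by simp [cst]) x hx
  have h2 := abs_nonpos_iff.1 this
  linarith only [h2]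

theorem drift_even {d h : ℝ} (hd : 0 ≤ d) (hh : 0 ≤ h) {a b u g : ℕ → ℝ → ℝ}
    (hpos : ∀ x ∈ II, 0 ≤ a 0 x) (hu : Jet u)
    (he : ∀ x ∈ II, u 0 x - h * (a 0 x * lapJ d u 0 x + (1 - x ^ 2) * b 0 x * u 1 x) = g 0 x)
    (ha : ∀ x ∈ II, a 0 (-x) = a 0 x) (hb : ∀ x ∈ II, b 0 (-x) = - b 0 x)
    (hg : ∀ x ∈ II, g 0 (-x) = g 0 x) : ∀ x ∈ II, u 0 (-x) = u 0 x := by
  have h1 := drift_unique (u := refl u) (v := u) (b := b) hd hh hpos hu.refl hu (g := g) (fun x hx => by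
    have e := he (-x) (neg_mem_II hx)
    rw [ha x hx, hb x hx, hg x hx] at e
    rw [← e]
    unfold lapJ L.refl
    simp only [Nat.cast_zero, pow_zero, pow_one, zero_add]
    ring) he
  intro x hx
  have := h1 x hx
  simpa [L.refl] using this

end Vale.Agent.P244.ST.L
end

section

/-!
# P244-L block C1 : solvability of the implicit step
-/

open Set Filter Topology
open scoped ContDiff

namespace Vale.Agent.P244.LW
open Vale.Agent.P244.ST

theorem neg_mem_I {x : ℝ} (hx : x ∈ Icc (-1 : ℝ) 1) : -x ∈ Icc (-1 : ℝ) 1 :=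
  ⟨by linarith only [hx, hx.2], by linarith only [hx, hx.1]⟩

theorem hd_refl {u : ℝ → ℝ} (hu : Sm u) {x : ℝ} (hx : x ∈ Icc (-1 : ℝ) 1) :
    HasDerivWithinAt (fun y => u (-y)) (-dx u (-x)) (Icc (-1) 1) x := by
  have h1 := hu.hd (neg_mem_I hx)
  have h2 : HasDerivWithinAt (fun y : ℝ => -y) (-1) (Icc (-1) 1) x :=
    (hasDerivWithinAt_id _ _).neg
  have h3 : HasDerivWithinAt (fun y => u (-y)) (dx u (-x) * (-1)) (Icc (-1) 1) x :=
    HasDerivWithinAt.comp (h := fun y : ℝ => -y) x h1 h2 (fun y hy => neg_mem_I hy)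
  exact h3.congr_deriv (by ring)

theorem dx_refl {u : ℝ → ℝ} (hu : Sm u) {x : ℝ} (hx : x ∈ Icc (-1 : ℝ) 1) :
    dx (fun y => u (-y)) x = -dx u (-x) := dx_of_hd hx (hd_refl hu hx)

theorem dx_odd_of_even {u : ℝ → ℝ} (hu : Sm u) (he : ∀ x ∈ Icc (-1 : ℝ) 1, u (-x) = u x)
    {x : ℝ} (hx : x ∈ Icc (-1 : ℝ) 1) : dx u (-x) = -dx u x := by
  have h1 := dx_refl hu hx
  rw [dx_congr he hx] at h1
  linarith only [h1]

theorem Jd_even (p : ℕ) {w f : ℝ → ℝ} (h : ConfData w f) {x : ℝ} (hx : x ∈ Icc (-1 : ℝ) 1) :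
    Jd p w f (-x) = Jd p w f x := by
  unfold Jd
  rw [h.even_w x hx, dx_odd_of_even h.smooth_w h.even_w hx, dx_odd_of_even h.smooth_f h.even_f hx]
  ring

theorem Jf_odd (p : ℕ) {w f : ℝ → ℝ} (h : ConfData w f) {x : ℝ} (hx : x ∈ Icc (-1 : ℝ) 1) :
    Jf p w f (-x) = -Jf p w f x := by
  unfold Jf
  have h1 : ∫ y in (0 : ℝ)..x, Jd p w f (-y) = ∫ y in (-x)..(-0 : ℝ), Jd p w f y :=
    intervalIntegral.integral_comp_neg _
  have h2 : ∫ y in (0 : ℝ)..x, Jd p w f (-y) = ∫ y in (0 : ℝ)..x, Jd p w f y := by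
    apply intervalIntegral.integral_congr
    intro y hy
    have : y ∈ Icc (-1 : ℝ) 1 := by
      rcases le_total 0 x with h | h
      · rw [uIcc_of_le h] at hy; exact ⟨by linarith only [hy, hy.1], hy.2.trans hx.2⟩
      · rw [uIcc_of_ge h] at hy; exact ⟨hx.1.trans hy.1, by linarith only [hy, hy.2]⟩
    exact Jd_even p h this
  rw [← h2, h1, neg_zero, intervalIntegral.integral_symm]

theorem jet_of_sm {u : ℝ → ℝ} (hu : Sm u) : ST.L.Jet (fun j => dn j u) := by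
  intro j x hx
  have := (hu.dn j).hd hx
  rwa [← dn_succ'] at this

theorem jet_sm {u : ℕ → ℝ → ℝ} (hu : ST.L.Jet u) :
    Sm (u 0) ∧ ∀ j, ∀ x ∈ Icc (-1 : ℝ) 1, dn j (u 0) x = u j x :=
  sm_of_chain hu

/-- bounds for `e^{-2w}` and `J` -/
theorem coef_bd (p : ℕ) (hp : 2 ≤ p) {K : ℝ} {w f : ℝ → ℝ} (hw : Sm w) (hf : Sm f)
    (bw : Bd 1 K w) (bf : Bd 1 K f) {x : ℝ} (hx : x ∈ Icc (-1 : ℝ) 1) :
    Real.exp (-(2 * K)) ≤ Real.exp (-2 * w x) ∧ Real.exp (-2 * w x) ≤ Real.exp (2 * K) ∧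
    |dx (fun y => Real.exp (-2 * w y)) x| ≤ 2 * K * Real.exp (2 * K) ∧
    |Jd p w f x| ≤ Real.exp (2 * K) * (2 * p * K ^ 2) ∧
    |Jf p w f x| ≤ Real.exp (2 * K) * (2 * p * K ^ 2) := by
  have hK : 0 ≤ K := bw.nonneg
  have hp' : (2 : ℝ) ≤ p := by exact_mod_cast hp
  have e0 : ∀ y ∈ Icc (-1 : ℝ) 1, Real.exp (-2 * w y) ≤ Real.exp (2 * K) := fun y hy => by
    apply Real.exp_le_exp.2
    have := abs_le.1 (bw 0 (by norm_num) y hy)
    rw [dn_zero] at this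
    linarith only [this, this.1]
  have e1 : Real.exp (-(2 * K)) ≤ Real.exp (-2 * w x) := by
    apply Real.exp_le_exp.2
    have := abs_le.1 (bw 0 (by norm_num) x hx)
    rw [dn_zero] at this
    linarith only [this, this.2]
  have bw1 : ∀ y ∈ Icc (-1 : ℝ) 1, |dx w y| ≤ K := fun y hy => bw 1 le_rfl y hy
  have bf1 : ∀ y ∈ Icc (-1 : ℝ) 1, |dx f y| ≤ K := fun y hy => bf 1 le_rfl y hy
  have e3 : ∀ y ∈ Icc (-1 : ℝ) 1, |Jd p w f y| ≤ Real.exp (2 * K) * (2 * p * K ^ 2) := by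
    intro y hy
    unfold Jd
    rw [abs_mul, abs_of_pos (Real.exp_pos _)]
    apply mul_le_mul (e0 y hy) _ (abs_nonneg _) (Real.exp_pos _).le
    have h1 : (dx w y) ^ 2 ≤ K ^ 2 := sq_le_sq' (by linarith only [bw1, hy, (abs_le.1 (bw1 y hy)).1])
      (abs_le.1 (bw1 y hy)).2
    have h2 : (dx f y) ^ 2 ≤ K ^ 2 := sq_le_sq' (by linarith only [bf1, hy, (abs_le.1 (bf1 y hy)).1])
      (abs_le.1 (bf1 y hy)).2
    rw [abs_of_nonneg (by nlinarith only [hp', sq_nonneg (dx w y), sq_nonneg (dx f y)])]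
    nlinarith only [h1, h2, sq_nonneg (dx w y), sq_nonneg (dx f y), sq_nonneg K]
  refine ⟨e1, e0 x hx, ?_, e3 x hx, ?_⟩
  · rw [dx_exp (hw.cmul (-2)) hx, dx_cmul (-2) hw hx, abs_mul, abs_of_pos (Real.exp_pos _),
      abs_mul, show |(-2 : ℝ)| = 2 by norm_num]
    have := mul_le_mul (e0 x hx) (mul_le_mul_of_nonneg_left (bw1 x hx) (by norm_num : (0:ℝ) ≤ 2))
      (by positivity) (Real.exp_pos _).le
    linarith only [this]
  · have h1 : ∀ z ∈ Icc (-1 : ℝ) 1, |dx (Jf p w f) z| ≤ Real.exp (2 * K) * (2 * p * K ^ 2) :=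
      fun z hz => by rw [dx_Jf p hw hf hz]; exact e3 z hz
    have h2 := lip_of_bd (hw.Jf p hf) h1 zero_mem_I hx
    have h3 : Jf p w f 0 = 0 := by unfold Jf; simp
    rw [h3, sub_zero, sub_zero] at h2
    refine h2.trans ?_
    have h4 : |x| ≤ 1 := abs_le.2 ⟨hx.1, hx.2⟩
    have h5 : 0 ≤ Real.exp (2 * K) * (2 * p * K ^ 2) := by (clear * - hp; positivity)
    linarith only [mul_nonneg (sub_nonneg.2 h4) (sub_nonneg.2 h5)]

theorem C1 : C1Stmt := by
  intro p hp K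
  by_cases hK : K < 0
  · exact ⟨1, one_pos, fun w f _ hw _ => absurd hw.nonneg (not_le.2 hK)⟩
  push Not at hK
  set K' : ℝ := 1 + Real.exp (2 * K) + 2 * K * Real.exp (2 * K) +
    Real.exp (2 * K) * (2 * p * K ^ 2) with hK'
  have hE : 0 < Real.exp (2 * K) := Real.exp_pos _
  have q1 : 0 ≤ 2 * K * Real.exp (2 * K) := by positivity
  have q2 : 0 ≤ Real.exp (2 * K) * (2 * p * K ^ 2) := by positivity
  have hK1 : 1 ≤ K' := by linarith only [hE, q1, q2]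
  have hd : (0 : ℝ) ≤ (p : ℝ) + 1 := by positivity
  obtain ⟨h0, h0pos, hell⟩ := ST.L.ell_drift (d := (p : ℝ) + 1) (K := K') hd hK1
  refine ⟨h0, h0pos, fun w f hD bw bf h hh => ?_⟩
  have hw : Sm w := hD.smooth_w
  have hf : Sm f := hD.smooth_f
  set a : ℝ → ℝ := fun y => Real.exp (-2 * w y) with ha
  have sa : Sm a := (hw.cmul (-2)).exp
  set b : ℝ → ℝ := fun y => -Jf p w f y with hb
  have sb : Sm b := (hw.Jf p hf).neg
  set g1 : ℝ → ℝ := fun x => w x + h * (-(p : ℝ) * Real.exp (-2 * w x) + x * Jf p w f x) with hg1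
  set g2 : ℝ → ℝ := fun x => f x - h * (((p : ℝ) - 1) * Real.exp (-2 * f x)) with hg2
  have sg1 : Sm g1 := hw.add (((sa.cmul (-(p : ℝ))).add (Sm.id.mul (hw.Jf p hf))).cmul h)
  have sg2 : Sm g2 := hf.sub ((((hf.cmul (-2)).exp).cmul ((p : ℝ) - 1)).cmul h)
  have hcb := fun x (hx : x ∈ Icc (-1 : ℝ) 1) =>
    coef_bd p hp hw hf (bw.le_idx (by norm_num)) (bf.le_idx (by norm_num)) hx
  have hlow : ∀ x ∈ Icc (-1 : ℝ) 1, K'⁻¹ ≤ a x := fun x hx => by
    have h1 := (hcb x hx).1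
    rw [Real.exp_neg] at h1
    refine le_trans ?_ h1
    exact inv_anti₀ hE (by linarith only [q1, q2])
  have bds : ∀ x ∈ Icc (-1 : ℝ) 1, K'⁻¹ ≤ dn 0 a x ∧ dn 0 a x ≤ K' ∧ |dn 1 a x| ≤ K' ∧
      |dn 0 b x| ≤ K' ∧ |dn 1 b x| ≤ K' := fun x hx => by
    obtain ⟨c1, c2, c3, c4, c5⟩ := hcb x hx
    refine ⟨hlow x hx, ?_, ?_, ?_, ?_⟩
    · rw [dn_zero]; linarith only [q1, q2, c2]
    · rw [dn_one]; linarith only [hE, q2, c3]
    · rw [dn_zero, hb, abs_neg]; linarith only [hE, q1, c5]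
    · rw [dn_one, hb, dx_neg (hw.Jf p hf) hx, abs_neg, dx_Jf p hw hf hx]; linarith only [hE, q1, c4]
  have ea : ∀ x ∈ Icc (-1 : ℝ) 1, a (-x) = a x := fun x hx => by
    simp only [ha]; rw [hD.even_w x hx]
  have eb : ∀ x ∈ Icc (-1 : ℝ) 1, b (-x) = -b x := fun x hx => by
    simp only [hb]; rw [Jf_odd p hD hx]
  have eg1 : ∀ x ∈ Icc (-1 : ℝ) 1, g1 (-x) = g1 x := fun x hx => by
    simp only [hg1]; rw [hD.even_w x hx, Jf_odd p hD hx]; ring
  have eg2 : ∀ x ∈ Icc (-1 : ℝ) 1, g2 (-x) = g2 x := fun x hx => by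
    simp only [hg2]; rw [hD.even_f x hx]
  have main : ∀ g : ℝ → ℝ, Sm g → (∀ x ∈ Icc (-1 : ℝ) 1, g (-x) = g x) →
      ∃ u : ℝ → ℝ, Sm u ∧ (∀ x ∈ Icc (-1 : ℝ) 1, u (-x) = u x) ∧
        ∀ x ∈ Icc (-1 : ℝ) 1, u x - h * (Real.exp (-2 * w x) * Ld ((p : ℝ) + 1) u x
          - (1 - x ^ 2) * Jf p w f x * dx u x) = g x := by
    intro g sg eg
    obtain ⟨u, hu, hue⟩ := hell (fun j => dn j a) (fun j => dn j b) (fun j => dn j g)
      (jet_of_sm sa) (jet_of_sm sb) (jet_of_sm sg) bds h hh.1.le hh.2.le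
    obtain ⟨su, hdn⟩ := jet_sm hu
    have hev := ST.L.drift_even (d := (p : ℝ) + 1) hd hh.1.le (a := fun j => dn j a)
      (b := fun j => dn j b) (g := fun j => dn j g)
      (fun x hx => (Real.exp_pos _).le) hu hue ea eb eg
    refine ⟨u 0, su, hev, fun x hx => ?_⟩
    have h1 := hue x hx
    have h2 : dx (u 0) x = u 1 x := hdn 1 x hx
    have h3 : dx (dx (u 0)) x = u 2 x := hdn 2 x hx
    have h4 : Ld ((p : ℝ) + 1) (u 0) x = ST.L.lapJ ((p : ℝ) + 1) u 0 x := by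
      unfold Ld ST.L.lapJ
      rw [h2, h3]; push_cast; ring
    rw [h4, h2]
    have h5 : dn 0 b x = -Jf p w f x := rfl
    have h6 : dn 0 a x = Real.exp (-2 * w x) := rfl
    have h7 : dn 0 g x = g x := rfl
    rw [h5, h6, h7] at h1
    rw [← h1]; ring
  obtain ⟨W, sW, evW, eqW⟩ := main g1 sg1 eg1
  obtain ⟨F, sF, evF, eqF⟩ := main g2 sg2 eg2
  exact ⟨W, F, ⟨sW, sF, eqW, eqF⟩, ⟨sW, sF, evW, evF⟩⟩

end Vale.Agent.P244.LW
end

section

/-!
# P244-ST block L-C : linear estimate for the implicit step, at every order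
-/

open Set Filter Topology

namespace Vale.Agent.P244.ST.L

/-- `|D^i u| ≤ A` on `[-1,1]` for all `i ≤ m`. -/
def Ub (m : ℕ) (A : ℝ) (u : ℕ → ℝ → ℝ) : Prop := ∀ i ≤ m, ∀ x ∈ II, |u i x| ≤ A

theorem Ub.mono {m m' : ℕ} {A A' : ℝ} {u : ℕ → ℝ → ℝ} (h : Ub m A u) (hm : m' ≤ m) (hA : A ≤ A') :
    Ub m' A' u := fun i hi x hx => (h i (hi.trans hm) x hx).trans hA

/-- `D^m ((1-x²) W')`. -/
def drJ (W : ℕ → ℝ → ℝ) (m : ℕ) (x : ℝ) : ℝ :=
  (1 - x ^ 2) * W (m + 1) x - 2 * m * x * W m x - (m : ℝ) * ((m : ℝ) - 1) * W (m - 1) x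

theorem jet_drJ {W : ℕ → ℝ → ℝ} (hW : Jet W) : Jet (drJ W) := by
  intro j x hx
  have hid : HasDerivWithinAt (fun y : ℝ => y) 1 II x := hasDerivWithinAt_id _ _
  have hq : HasDerivWithinAt (fun y : ℝ => 1 - y ^ 2) (-(2 * x)) II x := by
    have := (hid.pow 2).const_sub 1
    simpa using this
  have hl : HasDerivWithinAt (fun y : ℝ => 2 * (j : ℝ) * y) (2 * j) II x := by
    simpa using hid.const_mul (2 * (j : ℝ))
  have h1 := hW (j + 1) x hx
  have h2 := hW j x hx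
  rcases Nat.eq_zero_or_pos j with h0 | h0
  · subst h0
    have := (hq.mul h1).sub (hl.mul h2)
    unfold drJ
    have h3 : HasDerivWithinAt (fun x : ℝ => (((0 : ℕ) : ℝ)) * (((0 : ℕ) : ℝ) - 1) * W (0 - 1) x) 0 II x := by
      simpa using hasDerivWithinAt_const x II (0 : ℝ)
    refine ((this.sub h3).congr_deriv ?_)
    push_cast
    ring
  · obtain ⟨k, rfl⟩ : ∃ k, j = k + 1 := ⟨j - 1, by omega⟩
    have h3 := (hW k x hx).const_mul (((k + 1 : ℕ) : ℝ) * (((k + 1 : ℕ) : ℝ) - 1))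
    have := ((hq.mul h1).sub (hl.mul h2)).sub h3
    refine (this.congr_deriv ?_)
    unfold drJ
    simp only [Nat.add_sub_cancel]
    push_cast
    ring

/-- constants of the linear estimate -/
noncomputable def cL (d : ℝ) (j : ℕ) : ℝ :=
  2 ^ j * ((1 + (d + 2 * j) + (j * d + (j : ℝ) ^ 2)) + (1 + 2 * j + (j : ℝ) ^ 2))

theorem cL_nonneg {d : ℝ} (hd : 0 ≤ d) (j : ℕ) : 0 ≤ cL d j := by
  unfold cL; positivity

theorem sum_choose_le {j : ℕ} {t : ℕ → ℝ} {c : ℝ} (ht : ∀ i ≤ j, t i ≤ c) :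
    ∑ i ∈ Finset.range (j + 1), (j.choose i : ℝ) * t i ≤ 2 ^ j * c := by
  calc ∑ i ∈ Finset.range (j + 1), (j.choose i : ℝ) * t i
      ≤ ∑ i ∈ Finset.range (j + 1), (j.choose i : ℝ) * c :=
        Finset.sum_le_sum fun i hi => mul_le_mul_of_nonneg_left
          (ht i (by have := Finset.mem_range.1 hi; omega)) (Nat.cast_nonneg _)
    _ = 2 ^ j * c := by
        rw [← Finset.sum_mul]
        congr 1
        exact_mod_cast Nat.sum_range_choose j

theorem mm1 {m j : ℕ} (h : m ≤ j) :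
    0 ≤ (m : ℝ) * ((m : ℝ) - 1) ∧ (m : ℝ) * ((m : ℝ) - 1) ≤ (j : ℝ) ^ 2 := by
  have hmj : (m : ℝ) ≤ j := by exact_mod_cast h
  have hm0 : (0 : ℝ) ≤ m := Nat.cast_nonneg _
  refine ⟨?_, by nlinarith only [hmj]⟩
  rcases Nat.eq_zero_or_pos m with h0 | h0
  · subst h0; simp
  · have : (1 : ℝ) ≤ m := by exact_mod_cast h0
    exact mul_nonneg hm0 (by linarith only [this])

private theorem lin_upper {d h M G : ℝ} (hd : 0 ≤ d) (hh : 0 ≤ h) (j : ℕ) {a b g W : ℕ → ℝ → ℝ}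
    (ha : Jet a) (hb : Jet b) (hg : Jet g) (hW : Jet W) (hpos : ∀ x ∈ II, 0 ≤ a 0 x)
    (he : ∀ x ∈ II, W 0 x - h * (a 0 x * lapJ d W 0 x + (1 - x ^ 2) * b 0 x * W 1 x) = g 0 x)
    (hG : ∀ x ∈ II, |g j x| ≤ G) (hM0 : 0 ≤ M)
    (hA : ∀ k, 1 ≤ k → k ≤ j → ∀ l ≤ j, l + k ≤ j + 2 → ∀ x ∈ II, |a k x| * |W l x| ≤ M)
    (hB : ∀ k ≤ j, ∀ l ≤ j, l + k ≤ j + 1 → ∀ x ∈ II, |b k x| * |W l x| ≤ M) :
    ∀ x ∈ II, W j x ≤ G + h * (cL d j * M) := by
  have hE : Jet (fun j x => W j x - h * (jmul a (lapJ d W) j x + jmul b (drJ W) j x)) :=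
    hW.sub (((ha.mul (hW.lap d)).add (hb.mul (jet_drJ hW))).smul h)
  have hEj := hE.unique hg (fun x hx => by
    rw [← he x hx]
    simp only [jmul_zero, drJ]
    push_cast
    ring) j
  have hG0 : 0 ≤ G := (abs_nonneg _).trans (hG 0 zero_mem_II)
  have hc0 := cL_nonneg hd j
  refine le_of_max (fun x hx => hW j x hx) (fun x hx => hW (j + 1) x hx) ?_
  intro x0 hx0 _ e1 e2
  rcases le_or_gt (W j x0) 0 with hneg | hWpos
  · exact hneg.trans (by (clear * - hG0 hh hc0 hM0; positivity))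
  have hx1 : |x0| ≤ 1 := abs_le.2 hx0
  have hq0 : 0 ≤ 1 - x0 ^ 2 := by linarith only [mul_nonneg (sub_nonneg.2 hx0.1) (sub_nonneg.2 hx0.2)]
  have hq1 : |1 - x0 ^ 2| ≤ 1 := by rw [abs_of_nonneg hq0]; linarith only [sq_nonneg x0]
  have hSa : jmul a (lapJ d W) j x0 ≤ 2 ^ j * ((1 + (d + 2 * j) + (j * d + (j : ℝ) ^ 2)) * M) := by
    have : jmul a (lapJ d W) j x0
        = ∑ i ∈ Finset.range (j + 1), (j.choose i : ℝ) * (a i x0 * lapJ d W (j - i) x0) := by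
      unfold jmul; exact Finset.sum_congr rfl fun i _ => by ring
    rw [this]
    refine sum_choose_le fun i hi => ?_
    rcases Nat.eq_zero_or_pos i with h0 | h0
    · subst h0
      have hl : lapJ d W (j - 0) x0 ≤ 0 := by
        rw [Nat.sub_zero]
        unfold lapJ
        have := e2 (d + 2 * j) (by (clear * - hd; positivity))
        have h3 : 0 ≤ ((j : ℝ) * d + (j : ℝ) * ((j : ℝ) - 1)) * W j x0 := by
          refine mul_nonneg ?_ hWpos.le
          have h1 : 0 ≤ (j : ℝ) * d := by (clear * - hd; positivity)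
          have h2 := (mm1 (le_refl j)).1
          linarith only [h1, h2]
        linarith only [this, h3]
      exact (mul_nonpos_of_nonneg_of_nonpos (hpos x0 hx0) hl).trans (by (clear * - hd hM0; positivity))
    · refine (le_abs_self _).trans ?_
      rw [abs_mul]
      have hji : ((j - i : ℕ) : ℝ) ≤ j := by exact_mod_cast Nat.sub_le _ _
      have hji0 : (0 : ℝ) ≤ ((j - i : ℕ) : ℝ) := Nat.cast_nonneg _
      have t1 : |a i x0| * |(1 - x0 ^ 2) * W (j - i + 2) x0| ≤ M := by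
        rcases Nat.lt_or_ge 1 i with h1 | h1
        · rw [abs_mul]
          have := hA i h0 hi (j - i + 2) (by omega) (by omega) x0 hx0
          calc |a i x0| * (|1 - x0 ^ 2| * |W (j - i + 2) x0|)
              = |1 - x0 ^ 2| * (|a i x0| * |W (j - i + 2) x0|) := by ring
            _ ≤ 1 * M := mul_le_mul hq1 this (by (clear * -; positivity)) zero_le_one
            _ = M := one_mul _
        · obtain rfl : i = 1 := by omega
          rw [show j - 1 + 2 = j + 1 by omega, e1, abs_zero, mul_zero]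
          exact hM0
      have t2 : |a i x0| * |W (j - i + 1) x0| ≤ M :=
        hA i h0 hi (j - i + 1) (by omega) (by omega) x0 hx0
      have t3 : |a i x0| * |W (j - i) x0| ≤ M :=
        hA i h0 hi (j - i) (by omega) (by omega) x0 hx0
      have hlap : |lapJ d W (j - i) x0| ≤ |(1 - x0 ^ 2) * W (j - i + 2) x0|
          + (d + 2 * j) * |W (j - i + 1) x0| + (j * d + (j : ℝ) ^ 2) * |W (j - i) x0| := by
        unfold lapJ
        refine (abs_sub _ _).trans (add_le_add ((abs_sub _ _).trans (add_le_add le_rfl ?_)) ?_)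
        · rw [abs_mul, abs_mul, abs_of_nonneg (show 0 ≤ d + 2 * ((j - i : ℕ) : ℝ) by (clear * - hd; positivity))]
          refine mul_le_mul_of_nonneg_right ?_ (abs_nonneg _)
          calc (d + 2 * ((j - i : ℕ) : ℝ)) * |x0| ≤ (d + 2 * ((j - i : ℕ) : ℝ)) * 1 :=
                mul_le_mul_of_nonneg_left hx1 (by (clear * - hd; positivity))
            _ ≤ d + 2 * j := by linarith only [hji]
        · rw [abs_mul]
          refine mul_le_mul_of_nonneg_right ?_ (abs_nonneg _)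
          have hm1 := mm1 (Nat.sub_le j i)
          have hm2 := mul_le_mul_of_nonneg_right hji hd
          have hm3 := mul_nonneg hji0 hd
          rw [abs_of_nonneg (by linarith only [hm1, hm3, hm1.1])]
          linarith only [hm1, hm2, hm1.2]
      calc |a i x0| * |lapJ d W (j - i) x0|
          ≤ |a i x0| * (|(1 - x0 ^ 2) * W (j - i + 2) x0|
          + (d + 2 * j) * |W (j - i + 1) x0| + (j * d + (j : ℝ) ^ 2) * |W (j - i) x0|) :=
            mul_le_mul_of_nonneg_left hlap (abs_nonneg _)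
        _ = |a i x0| * |(1 - x0 ^ 2) * W (j - i + 2) x0|
            + (d + 2 * j) * (|a i x0| * |W (j - i + 1) x0|)
            + (j * d + (j : ℝ) ^ 2) * (|a i x0| * |W (j - i) x0|) := by ring
        _ ≤ M + (d + 2 * j) * M + (j * d + (j : ℝ) ^ 2) * M := by gcongr
        _ = (1 + (d + 2 * j) + (j * d + (j : ℝ) ^ 2)) * M := by ring
  have hSb : jmul b (drJ W) j x0 ≤ 2 ^ j * ((1 + 2 * j + (j : ℝ) ^ 2) * M) := by
    have : jmul b (drJ W) j x0
        = ∑ i ∈ Finset.range (j + 1), (j.choose i : ℝ) * (b i x0 * drJ W (j - i) x0) := by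
      unfold jmul; exact Finset.sum_congr rfl fun i _ => by ring
    rw [this]
    refine sum_choose_le fun i hi => ?_
    refine (le_abs_self _).trans ?_
    rw [abs_mul]
    have hji : ((j - i : ℕ) : ℝ) ≤ j := by exact_mod_cast Nat.sub_le _ _
    have hji0 : (0 : ℝ) ≤ ((j - i : ℕ) : ℝ) := Nat.cast_nonneg _
    have t1 : |b i x0| * |(1 - x0 ^ 2) * W (j - i + 1) x0| ≤ M := by
      rcases Nat.eq_zero_or_pos i with h1 | h1
      · subst h1
        rw [show j - 0 + 1 = j + 1 by omega, e1, abs_zero, mul_zero]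
        exact hM0
      · rw [abs_mul]
        have := hB i hi (j - i + 1) (by omega) (by omega) x0 hx0
        calc |b i x0| * (|1 - x0 ^ 2| * |W (j - i + 1) x0|)
            = |1 - x0 ^ 2| * (|b i x0| * |W (j - i + 1) x0|) := by ring
          _ ≤ 1 * M := mul_le_mul hq1 this (by (clear * -; positivity)) zero_le_one
          _ = M := one_mul _
    have t2 : |b i x0| * |W (j - i) x0| ≤ M := hB i hi (j - i) (by omega) (by omega) x0 hx0
    have t3 : |b i x0| * |W (j - i - 1) x0| ≤ M :=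
      hB i hi (j - i - 1) (by omega) (by omega) x0 hx0
    have hdr : |drJ W (j - i) x0| ≤ |(1 - x0 ^ 2) * W (j - i + 1) x0|
        + 2 * j * |W (j - i) x0| + (j : ℝ) ^ 2 * |W (j - i - 1) x0| := by
      unfold drJ
      refine (abs_sub _ _).trans (add_le_add ((abs_sub _ _).trans (add_le_add le_rfl ?_)) ?_)
      · rw [abs_mul, abs_mul, abs_of_nonneg (show 0 ≤ 2 * ((j - i : ℕ) : ℝ) by (clear * -; positivity))]
        refine mul_le_mul_of_nonneg_right ?_ (abs_nonneg _)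
        calc (2 * ((j - i : ℕ) : ℝ)) * |x0| ≤ (2 * ((j - i : ℕ) : ℝ)) * 1 :=
              mul_le_mul_of_nonneg_left hx1 (by positivity)
          _ ≤ 2 * j := by linarith only [hji]
      · rw [abs_mul]
        refine mul_le_mul_of_nonneg_right ?_ (abs_nonneg _)
        have hm1 := mm1 (Nat.sub_le j i)
        rw [abs_of_nonneg hm1.1]
        exact hm1.2
    calc |b i x0| * |drJ W (j - i) x0|
        ≤ |b i x0| * (|(1 - x0 ^ 2) * W (j - i + 1) x0|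
        + 2 * j * |W (j - i) x0| + (j : ℝ) ^ 2 * |W (j - i - 1) x0|) :=
          mul_le_mul_of_nonneg_left hdr (abs_nonneg _)
      _ = |b i x0| * |(1 - x0 ^ 2) * W (j - i + 1) x0|
          + 2 * j * (|b i x0| * |W (j - i) x0|)
          + (j : ℝ) ^ 2 * (|b i x0| * |W (j - i - 1) x0|) := by ring
      _ ≤ M + 2 * j * M + (j : ℝ) ^ 2 * M := by gcongr
      _ = (1 + 2 * j + (j : ℝ) ^ 2) * M := by ring
  have h1 := hEj x0 hx0
  have h2 := (abs_le.1 (hG x0 hx0)).2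
  have h3 : h * (jmul a (lapJ d W) j x0 + jmul b (drJ W) j x0) ≤ h * (cL d j * M) := by
    refine mul_le_mul_of_nonneg_left ?_ hh
    unfold cL
    linarith only [hSb, hSa]
  linarith only [h1, h2, h3]

/-- The linear estimate for the implicit step at order `j`. -/
theorem lin_bound {d h M G : ℝ} (hd : 0 ≤ d) (hh : 0 ≤ h) (j : ℕ) {a b g W : ℕ → ℝ → ℝ}
    (ha : Jet a) (hb : Jet b) (hg : Jet g) (hW : Jet W) (hpos : ∀ x ∈ II, 0 ≤ a 0 x)
    (he : ∀ x ∈ II, W 0 x - h * (a 0 x * lapJ d W 0 x + (1 - x ^ 2) * b 0 x * W 1 x) = g 0 x)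
    (hG : ∀ x ∈ II, |g j x| ≤ G) (hM0 : 0 ≤ M)
    (hA : ∀ k, 1 ≤ k → k ≤ j → ∀ l ≤ j, l + k ≤ j + 2 → ∀ x ∈ II, |a k x| * |W l x| ≤ M)
    (hB : ∀ k ≤ j, ∀ l ≤ j, l + k ≤ j + 1 → ∀ x ∈ II, |b k x| * |W l x| ≤ M) :
    ∀ x ∈ II, |W j x| ≤ G + h * (cL d j * M) := by
  have h1 := lin_upper hd hh j ha hb hg hW hpos he hG hM0 hA hB
  have h2 := lin_upper (M := M) (G := G) hd hh j ha hb hg.neg hW.neg hpos (by
    intro x hx
    have := he x hx
    simp only [lapJ] at this ⊢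
    linarith only [this]) (fun x hx => by rw [abs_neg]; exact hG x hx) hM0
    (fun k k1 k2 l l1 l2 x hx => by rw [abs_neg]; exact hA k k1 k2 l l1 l2 x hx)
    (fun k k2 l l1 l2 x hx => by rw [abs_neg]; exact hB k k2 l l1 l2 x hx)
  intro x hx
  rw [abs_le]
  exact ⟨by have := h2 x hx; linarith only [this], h1 x hx⟩

end Vale.Agent.P244.ST.L
end

section

/-!
# P244-ST block L-C : estimates of the coefficients at order `j`
-/

open Set Filter Topology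
open scoped ContDiff

namespace Vale.Agent.P244.ST.L

/-- all orders `< j` bounded by `A`, order `j` bounded by `A (1 + th)`. -/
def Lev (j : ℕ) (th A : ℝ) (u : ℕ → ℝ → ℝ) : Prop :=
  (∀ i < j, ∀ x ∈ II, |u i x| ≤ A) ∧ ∀ x ∈ II, |u j x| ≤ A * (1 + th)

theorem Lev.le {j : ℕ} {th A : ℝ} {u : ℕ → ℝ → ℝ} (h : Lev j th A u) (hA : 0 ≤ A) (hth : 0 ≤ th)
    {i : ℕ} (hi : i ≤ j) {x : ℝ} (hx : x ∈ II) : |u i x| ≤ A * (1 + th) := by
  rcases Nat.lt_or_ge i j with h1 | h1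
  · exact (h.1 i h1 x hx).trans (by linarith only [mul_nonneg (sub_nonneg.2 hA) (sub_nonneg.2 hth)])
  · obtain rfl : i = j := le_antisymm hi h1
    exact h.2 x hx

theorem Lev.mono {j : ℕ} {th A B : ℝ} {u : ℕ → ℝ → ℝ} (h : Lev j th A u) (hth : 0 ≤ th)
    (hAB : A ≤ B) : Lev j th B u :=
  ⟨fun i hi x hx => (h.1 i hi x hx).trans hAB, fun x hx => (h.2 x hx).trans
    (mul_le_mul_of_nonneg_right hAB (by linarith only [hth]))⟩

theorem lev_zero_iff {j : ℕ} {A : ℝ} {u : ℕ → ℝ → ℝ} : Lev j 0 A u ↔ Ub j A u := by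
  constructor
  · intro h i hi x hx
    rcases Nat.lt_or_ge i j with h1 | h1
    · exact h.1 i h1 x hx
    · obtain rfl : i = j := le_antisymm hi h1
      simpa using h.2 x hx
  · intro h
    exact ⟨fun i hi x hx => h i hi.le x hx, fun x hx => by simpa using h j le_rfl x hx⟩

theorem Lev.add {j : ℕ} {th A B : ℝ} {u v : ℕ → ℝ → ℝ} (hu : Lev j th A u) (hv : Lev j th B v) :
    Lev j th (A + B) (fun i x => u i x + v i x) :=
  ⟨fun i hi x hx => (abs_add_le _ _).trans (add_le_add (hu.1 i hi x hx) (hv.1 i hi x hx)),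
    fun x hx => (abs_add_le _ _).trans (by rw [add_mul]; exact add_le_add (hu.2 x hx) (hv.2 x hx))⟩

theorem Lev.smul {j : ℕ} {th A : ℝ} {u : ℕ → ℝ → ℝ} (c : ℝ) (hu : Lev j th A u) :
    Lev j th (|c| * A) (fun i x => c * u i x) :=
  ⟨fun i hi x hx => by
      rw [abs_mul]; exact mul_le_mul_of_nonneg_left (hu.1 i hi x hx) (abs_nonneg _),
    fun x hx => by
      rw [abs_mul, mul_assoc]; exact mul_le_mul_of_nonneg_left (hu.2 x hx) (abs_nonneg _)⟩

theorem Lev.neg {j : ℕ} {th A : ℝ} {u : ℕ → ℝ → ℝ} (hu : Lev j th A u) :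
    Lev j th A (fun i x => - u i x) :=
  ⟨fun i hi x hx => by rw [abs_neg]; exact hu.1 i hi x hx,
    fun x hx => by rw [abs_neg]; exact hu.2 x hx⟩

theorem Lev.mul {j : ℕ} (hj : 1 ≤ j) {th A B : ℝ} (hA : 0 ≤ A) (hB : 0 ≤ B) (hth : 0 ≤ th)
    {u v : ℕ → ℝ → ℝ} (hu : Lev j th A u) (hv : Lev j th B v) :
    Lev j th (2 ^ j * (A * B)) (jmul u v) := by
  refine ⟨fun i hi x hx => ?_, fun x hx => ?_⟩
  · refine (abs_jmul_le i hA (fun k hk => hu.1 k (lt_of_le_of_lt hk hi) x hx)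
      (fun k hk => hv.1 k (lt_of_le_of_lt hk hi) x hx)).trans ?_
    exact mul_le_mul_of_nonneg_right (pow_le_pow_right₀ (by norm_num) hi.le) (by positivity)
  · have e : jmul u v j x = ∑ i ∈ Finset.range (j + 1), (j.choose i : ℝ) * (u i x * v (j - i) x) := by
      unfold jmul; exact Finset.sum_congr rfl fun i _ => by ring
    rw [e, mul_assoc]
    refine (Finset.abs_sum_le_sum_abs _ _).trans ?_
    have : ∀ i ∈ Finset.range (j + 1), |(j.choose i : ℝ) * (u i x * v (j - i) x)|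
        = (j.choose i : ℝ) * |u i x * v (j - i) x| := fun i _ => by rw [abs_mul, Nat.abs_cast]
    rw [Finset.sum_congr rfl this]
    refine sum_choose_le fun i hi => ?_
    rw [abs_mul]
    rcases Nat.lt_or_ge i j with h1 | h1
    · calc |u i x| * |v (j - i) x| ≤ A * (B * (1 + th)) :=
            mul_le_mul (hu.1 i h1 x hx) (hv.le hB hth (Nat.sub_le _ _) hx) (abs_nonneg _) hA
        _ = A * B * (1 + th) := by ring
    · obtain rfl : i = j := le_antisymm hi h1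
      rw [Nat.sub_self]
      calc |u i x| * |v 0 x| ≤ (A * (1 + th)) * B :=
            mul_le_mul (hu.2 x hx) (hv.1 0 (by omega) x hx) (abs_nonneg _) (by positivity)
        _ = A * B * (1 + th) := by ring

theorem Lev.shift {j : ℕ} {th A : ℝ} {u : ℕ → ℝ → ℝ} (hu : Lev (j + 1) th A u) :
    Lev j th A (fun i => u (i + 1)) :=
  ⟨fun i hi x hx => hu.1 (i + 1) (by omega) x hx, fun x hx => hu.2 x hx⟩

theorem Lev.of_prim {j : ℕ} {th A : ℝ} {u v : ℕ → ℝ → ℝ} (hu : Lev j th A u)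
    (h0 : ∀ x ∈ II, |v 0 x| ≤ A) (h1 : ∀ i, ∀ x ∈ II, v (i + 1) x = u i x) :
    Lev (j + 1) th A v := by
  refine ⟨fun i hi x hx => ?_, fun x hx => by rw [h1 j x hx]; exact hu.2 x hx⟩
  rcases Nat.eq_zero_or_pos i with h | h
  · subst h; exact h0 x hx
  · obtain ⟨k, rfl⟩ : ∃ k, i = k + 1 := ⟨i - 1, by omega⟩
    rw [h1 k x hx]; exact hu.1 k (by omega) x hx

/-- Recursion for the jet of `exp (c w)`. -/
theorem exp_jet_succ {c : ℝ} {w E : ℕ → ℝ → ℝ} (hw : Jet w) (hE : Jet E)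
    (hE0 : ∀ x ∈ II, E 0 x = Real.exp (c * w 0 x)) (j : ℕ) :
    ∀ x ∈ II, E (j + 1) x = jmul (fun i x => c * w (i + 1) x) E j x := by
  have h1 : Jet (fun i => E (i + 1)) := hE.shift 1
  have h2 : Jet (jmul (fun i x => c * w (i + 1) x) E) := ((hw.shift 1).smul c).mul hE
  refine h1.unique h2 (fun x hx => ?_) j
  rw [jmul_zero]
  have h3 : HasDerivWithinAt (fun y => Real.exp (c * w 0 y)) (E 1 x) II x :=
    (hE 0 x hx).congr (fun y hy => (hE0 y hy).symm) (hE0 x hx).symm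
  have h4 := ((hw 0 x hx).const_mul c).exp
  have := (uniqueDiffOn_II x hx).eq_deriv _ h3 h4
  rw [hE0 x hx]
  show E 1 x = _
  rw [this]; ring

theorem exp_ub (c A : ℝ) (hA : 0 ≤ A) (m : ℕ) : ∃ B : ℝ, 0 ≤ B ∧ ∀ w E : ℕ → ℝ → ℝ, Jet w → Jet E →
    (∀ x ∈ II, E 0 x = Real.exp (c * w 0 x)) → Ub m A w → Ub m B E := by
  induction m with
  | zero =>
    refine ⟨Real.exp (|c| * A), (Real.exp_pos _).le, ?_⟩
    intro w E hw hE hE0 hub i hi x hx
    obtain rfl : i = 0 := by omega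
    rw [hE0 x hx, abs_of_pos (Real.exp_pos _)]
    refine Real.exp_le_exp.2 ((le_abs_self _).trans ?_)
    rw [abs_mul]
    exact mul_le_mul_of_nonneg_left (hub 0 le_rfl x hx) (abs_nonneg _)
  | succ m ih =>
    obtain ⟨B, hB0, hB⟩ := ih
    refine ⟨max B (2 ^ m * (|c| * A * B)), le_max_of_le_left hB0, ?_⟩
    intro w E hw hE hE0 hub i hi x hx
    have hm := hB w E hw hE hE0 (hub.mono (Nat.le_succ m) le_rfl)
    rcases Nat.lt_or_ge i (m + 1) with h | h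
    · exact (hm i (by omega) x hx).trans (le_max_left _ _)
    · obtain rfl : i = m + 1 := by omega
      refine le_trans ?_ (le_max_right _ _)
      rw [exp_jet_succ hw hE hE0 m x hx]
      refine abs_jmul_le m (by positivity) (fun k hk => ?_) (fun k hk => hm k hk x hx)
      rw [abs_mul]
      exact mul_le_mul_of_nonneg_left (hub (k + 1) (by omega) x hx) (abs_nonneg _)

theorem exp_lev (c A : ℝ) (hA : 0 ≤ A) {j : ℕ} (hj : 1 ≤ j) : ∃ B : ℝ, 0 ≤ B ∧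
    ∀ w E : ℕ → ℝ → ℝ, Jet w → Jet E → (∀ x ∈ II, E 0 x = Real.exp (c * w 0 x)) →
    ∀ th, 0 ≤ th → Lev j th A w → Lev j th B E := by
  obtain ⟨m, rfl⟩ : ∃ m, j = m + 1 := ⟨j - 1, by omega⟩
  obtain ⟨B, hB0, hB⟩ := exp_ub c A hA m
  refine ⟨max B (2 ^ m * (|c| * A * B)), le_max_of_le_left hB0, ?_⟩
  intro w E hw hE hE0 th hth hlev
  have hm : Ub m B E := hB w E hw hE hE0 (fun i hi x hx => hlev.1 i (by omega) x hx)
  refine ⟨fun i hi x hx => (hm i (by omega) x hx).trans (le_max_left _ _), fun x hx => ?_⟩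
  refine le_trans ?_ (mul_le_mul_of_nonneg_right (le_max_right _ _) (by linarith only [hth]))
  rw [exp_jet_succ hw hE hE0 m x hx]
  have := abs_jmul_le (u := fun i x => c * w (i + 1) x) (v := E) (x := x)
    (A := |c| * A * (1 + th)) (B := B) m (by positivity) (fun k hk => by
      rw [abs_mul, mul_assoc]
      exact mul_le_mul_of_nonneg_left (hlev.le hA hth (i := k + 1) (by omega) hx) (abs_nonneg _))
    (fun k hk => hm k hk x hx)
  refine this.trans (le_of_eq ?_)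
  ring

/-- The nonlocal term, in terms of jets. -/
noncomputable def Jint (p : ℕ) (w f : ℕ → ℝ → ℝ) (x : ℝ) : ℝ :=
  ∫ y in (0 : ℝ)..x, Real.exp (-2 * w 0 y) * (((p : ℝ) - 1) * (w 1 y) ^ 2 + (p : ℝ) * (f 1 y) ^ 2)

/-- jet of the density of `Jint`, with `a` a jet of `exp (-2w)` -/
noncomputable def Jdj (p : ℕ) (a w f : ℕ → ℝ → ℝ) : ℕ → ℝ → ℝ :=
  jmul a (fun j x => ((p : ℝ) - 1) * jmul (fun i => w (i + 1)) (fun i => w (i + 1)) j x
    + (p : ℝ) * jmul (fun i => f (i + 1)) (fun i => f (i + 1)) j x)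

theorem jet_Jdj {p : ℕ} {a w f : ℕ → ℝ → ℝ} (ha : Jet a) (hw : Jet w) (hf : Jet f) :
    Jet (Jdj p a w f) :=
  ha.mul ((((hw.shift 1).mul (hw.shift 1)).smul _).add (((hf.shift 1).mul (hf.shift 1)).smul _))

theorem prim_Jdj_zero {p : ℕ} {a w f : ℕ → ℝ → ℝ} (ha0 : ∀ x ∈ II, a 0 x = Real.exp (-2 * w 0 x))
    {x : ℝ} (hx : x ∈ II) : prim (Jdj p a w f) 0 x = Jint p w f x := by
  unfold prim Jint
  refine intervalIntegral.integral_congr fun y hy => ?_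
  have hyI : y ∈ II := by
    have h1 : uIcc (0 : ℝ) x ⊆ II := convex_II.ordConnected.uIcc_subset zero_mem_II hx
    exact h1 hy
  show Jdj p a w f 0 (max (-1) (min 1 y)) = _
  rw [clamp_eq hyI]
  unfold Jdj
  simp only [jmul_zero]
  rw [ha0 y hyI]
  ring

theorem abs_Jint_le {p : ℕ} {a w f : ℕ → ℝ → ℝ}
    {A : ℝ} (hA0 : 0 ≤ A) (hA : ∀ x ∈ II, |Jdj p a w f 0 x| ≤ A) {x : ℝ} (hx : x ∈ II) :
    |prim (Jdj p a w f) 0 x| ≤ A := by
  have h1 : ∀ y ∈ uIoc (0 : ℝ) x, ‖Jdj p a w f 0 (max (-1) (min 1 y))‖ ≤ A := fun y _ =>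
    hA _ (clamp_mem y)
  have h2 := intervalIntegral.norm_integral_le_of_norm_le_const h1
  rw [Real.norm_eq_abs, sub_zero] at h2
  refine h2.trans ?_
  have : |x| ≤ 1 := abs_le.2 hx
  linarith only [mul_nonneg (sub_nonneg.2 hA0) (sub_nonneg.2 this)]

/-- Coefficient estimate. -/
theorem coef_lev (p : ℕ) {j : ℕ} (hj : 2 ≤ j) {A : ℝ} (hA : 1 ≤ A) : ∃ B : ℝ, 1 ≤ B ∧
    ∀ w f a e : ℕ → ℝ → ℝ, Jet w → Jet f → Jet a → Jet e →
    (∀ x ∈ II, a 0 x = Real.exp (-2 * w 0 x)) → (∀ x ∈ II, e 0 x = Real.exp (-2 * f 0 x)) →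
    ∀ th, 0 ≤ th → Lev j th A w → Lev j th A f →
    Lev j th B a ∧ Lev j th B e ∧ Lev j th B (prim (Jdj p a w f)) ∧
      ∀ x ∈ II, B⁻¹ ≤ a 0 x := by
  obtain ⟨B1, hB10, hB1⟩ := exp_lev (-2) A (by linarith only [hA]) (show 1 ≤ j by omega)
  obtain ⟨m, rfl⟩ : ∃ m, j = m + 1 := ⟨j - 1, by omega⟩
  have hm : 1 ≤ m := by omega
  set B2 : ℝ := |(p : ℝ) - 1| * (2 ^ m * (A * A)) + |(p : ℝ)| * (2 ^ m * (A * A)) with hB2
  have hB20 : 0 ≤ B2 := by positivity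
  set B3 : ℝ := 2 ^ m * (B1 * B2) with hB3
  have hB30 : 0 ≤ B3 := by (clear * - hB10 hA; positivity)
  refine ⟨max (max B1 B3) (Real.exp (2 * A)), le_max_of_le_right (Real.one_le_exp (by linarith only [hA])), ?_⟩
  intro w f a e hw hf ha he ha0 he0 th hth hlw hlf
  have h1 := hB1 w a hw ha ha0 th hth hlw
  have h2 := hB1 f e hf he he0 th hth hlf
  have ha' : Lev m th B1 a := ⟨fun i hi x hx => h1.1 i (by omega) x hx, fun x hx =>
    (h1.1 m (by omega) x hx).trans (by linarith only [mul_nonneg (sub_nonneg.2 hB10) (sub_nonneg.2 hth)])⟩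
  have h3 : Lev m th B3 (Jdj p a w f) := by
    refine Lev.mul hm hB10 hB20 hth ha' ?_
    exact ((Lev.mul hm (by linarith only [hA]) (by linarith only [hA]) hth hlw.shift hlw.shift).smul _).add
      ((Lev.mul hm (by linarith only [hA]) (by linarith only [hA]) hth hlf.shift hlf.shift).smul _)
  have h4 : Lev (m + 1) th B3 (prim (Jdj p a w f)) := by
    refine Lev.of_prim h3 (fun x hx => ?_) (fun i x _ => rfl)
    exact abs_Jint_le hB30 (fun y hy => h3.1 0 (by omega) y hy) hx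
  refine ⟨h1.mono hth ((le_max_left _ _).trans (le_max_left _ _)),
    h2.mono hth ((le_max_left _ _).trans (le_max_left _ _)),
    h4.mono hth ((le_max_right _ _).trans (le_max_left _ _)), fun x hx => ?_⟩
  rw [ha0 x hx]
  have h5 : (max (max B1 B3) (Real.exp (2 * A)))⁻¹ ≤ (Real.exp (2 * A))⁻¹ :=
    inv_anti₀ (Real.exp_pos _) (le_max_right _ _)
  refine h5.trans ?_
  rw [← Real.exp_neg]
  refine Real.exp_le_exp.2 ?_
  have := (abs_le.1 (hlw.1 0 (by omega) x hx)).2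
  linarith only [this]

end Vale.Agent.P244.ST.L
end

section

/-!
# P244-ST block L (E) : joint smoothness on `[0,T) × [-1,1]`
-/

open Set Filter Topology MeasureTheory
open scoped ContDiff

namespace Vale.Agent.P244.ST.L

/-- Uniformity over a compact set of the continuity in the first variable. -/
theorem tube {A K : Set ℝ} (hK : IsCompact K) {g : ℝ → ℝ → ℝ}
    (hg : ContinuousOn (fun z : ℝ × ℝ => g z.1 z.2) (A ×ˢ K)) {t0 : ℝ} (ht0 : t0 ∈ A) {ε : ℝ}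
    (hε : 0 < ε) : ∀ᶠ t in 𝓝[A] t0, ∀ y ∈ K, |g t y - g t0 y| ≤ ε := by
  rw [eventually_nhdsWithin_iff]
  have h1 : ∀ᶠ t in 𝓝 t0, ∀ y ∈ K, t ∈ A → y ∈ K → |g t y - g t0 y| ≤ ε := by
    refine hK.eventually_forall_of_forall_eventually (P := fun t y => t ∈ A → y ∈ K →
      |g t y - g t0 y| ≤ ε) fun y0 hy0 => ?_
    have hc := hg (t0, y0) ⟨ht0, hy0⟩
    have hc1 : ∀ᶠ z in 𝓝[A ×ˢ K] (t0, y0), |g z.1 z.2 - g t0 y0| < ε / 2 := by
      have := (Metric.continuousWithinAt_iff'.1 hc) (ε / 2) (half_pos hε)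
      simpa [Real.dist_eq] using this
    rw [eventually_nhdsWithin_iff] at hc1
    have hc2 : ∀ᶠ z : ℝ × ℝ in 𝓝 (t0, y0), ((t0, z.2) : ℝ × ℝ) ∈ A ×ˢ K →
        |g t0 z.2 - g t0 y0| < ε / 2 := by
      have ht : Tendsto (fun z : ℝ × ℝ => ((t0, z.2) : ℝ × ℝ)) (𝓝 (t0, y0)) (𝓝 (t0, y0)) := by
        have : Continuous (fun z : ℝ × ℝ => ((t0, z.2) : ℝ × ℝ)) := by fun_prop
        exact this.tendsto (t0, y0)
      exact ht.eventually hc1
    filter_upwards [hc1, hc2] with z h1 h2 hz1 hz2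
    have e1 := h1 ⟨hz1, hz2⟩
    have e2 := h2 ⟨ht0, hz2⟩
    calc |g z.1 z.2 - g t0 z.2| = |(g z.1 z.2 - g t0 y0) - (g t0 z.2 - g t0 y0)| := by
          congr 1; ring
      _ ≤ |g z.1 z.2 - g t0 y0| + |g t0 z.2 - g t0 y0| := abs_sub _ _
      _ ≤ ε := by linarith only [e2, e1]
  filter_upwards [h1] with t ht hA y hy using ht y hy hA hy

/-- Mean value estimate on a convex set. -/
theorem mvt_within {A : Set ℝ} (hA : Convex ℝ A) {f f' : ℝ → ℝ} {c ε s0 s : ℝ}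
    (hf : ∀ x ∈ A, HasDerivWithinAt f (f' x) A x) (hb : ∀ x ∈ A, |f' x - c| ≤ ε)
    (hs0 : s0 ∈ A) (hs : s ∈ A) : |f s - f s0 - (s - s0) * c| ≤ ε * |s - s0| := by
  have hd : ∀ x ∈ A, HasDerivWithinAt (fun x => f x - x * c) (f' x - c) A x := by
    intro x hx
    have h1 : HasDerivWithinAt (fun y : ℝ => y * c) (1 * c) A x :=
      (hasDerivWithinAt_id x A).mul_const c
    rw [one_mul] at h1
    exact (hf x hx).sub h1
  have := hA.norm_image_sub_le_of_norm_hasDerivWithin_le hd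
    (fun x hx => by rw [Real.norm_eq_abs]; exact hb x hx) hs0 hs
  rw [Real.norm_eq_abs, Real.norm_eq_abs] at this
  convert this using 2
  ring

/-- Differentiability from continuous partial derivatives on a product of convex sets. -/
theorem hasFDerivWithinAt_prod {A B : Set ℝ} (hA : Convex ℝ A) (hB : Convex ℝ B)
    {G Gt Gx : ℝ → ℝ → ℝ}
    (ht : ∀ t ∈ A, ∀ x ∈ B, HasDerivWithinAt (fun s => G s x) (Gt t x) A t)
    (hx : ∀ t ∈ A, ∀ x ∈ B, HasDerivWithinAt (G t) (Gx t x) B x)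
    (hGt : ContinuousOn (fun z : ℝ × ℝ => Gt z.1 z.2) (A ×ˢ B))
    (hGx : ContinuousOn (fun z : ℝ × ℝ => Gx z.1 z.2) (A ×ˢ B)) :
    ∀ z ∈ A ×ˢ B, HasFDerivWithinAt (fun z : ℝ × ℝ => G z.1 z.2)
      (Gt z.1 z.2 • ContinuousLinearMap.fst ℝ ℝ ℝ + Gx z.1 z.2 • ContinuousLinearMap.snd ℝ ℝ ℝ)
      (A ×ˢ B) z := by
  rintro ⟨t0, x0⟩ ⟨ht0, hx0⟩
  rw [hasFDerivWithinAt_iff_isLittleO, Asymptotics.isLittleO_iff]
  intro c hc
  have h1 := (Metric.continuousWithinAt_iff.1 (hGt (t0, x0) ⟨ht0, hx0⟩)) (c / 2) (half_pos hc)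
  have h2 := (Metric.continuousWithinAt_iff.1 (hGx (t0, x0) ⟨ht0, hx0⟩)) (c / 2) (half_pos hc)
  obtain ⟨d1, hd1, h1⟩ := h1
  obtain ⟨d2, hd2, h2⟩ := h2
  set d := min d1 d2 with hd
  have hdpos : 0 < d := lt_min hd1 hd2
  have hev : ∀ᶠ z in 𝓝[A ×ˢ B] ((t0, x0) : ℝ × ℝ), z ∈ Metric.ball ((t0, x0) : ℝ × ℝ) d :=
    mem_nhdsWithin_of_mem_nhds (Metric.ball_mem_nhds _ hdpos)
  filter_upwards [hev, self_mem_nhdsWithin] with z hz hzS
  obtain ⟨t, x⟩ := z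
  obtain ⟨htA, hxB⟩ := hzS
  rw [Metric.mem_ball, Prod.dist_eq, max_lt_iff] at hz
  obtain ⟨hzt, hzx⟩ := hz
  simp only at htA hxB hzt hzx
  have hcA : Convex ℝ (A ∩ Metric.ball t0 d) := hA.inter (convex_ball _ _)
  have hcB : Convex ℝ (B ∩ Metric.ball x0 d) := hB.inter (convex_ball _ _)
  have e1 : |G t x - G t0 x - (t - t0) * Gt t0 x0| ≤ (c / 2) * |t - t0| := by
    refine mvt_within (f := fun s => G s x) (f' := fun s => Gt s x) hcA
      (fun s hs => (ht s hs.1 x hxB).mono inter_subset_left) (fun s hs => ?_)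
      ⟨ht0, Metric.mem_ball_self hdpos⟩ ⟨htA, hzt⟩
    have := @h1 (s, x) ⟨hs.1, hxB⟩ (by
      rw [Prod.dist_eq, max_lt_iff]
      exact ⟨lt_of_lt_of_le hs.2 (min_le_left _ _), lt_of_lt_of_le hzx (min_le_left _ _)⟩)
    rw [Real.dist_eq] at this
    exact this.le
  have e2 : |G t0 x - G t0 x0 - (x - x0) * Gx t0 x0| ≤ (c / 2) * |x - x0| := by
    refine mvt_within (f := fun y => G t0 y) (f' := fun y => Gx t0 y) hcB
      (fun s hs => (hx t0 ht0 s hs.1).mono inter_subset_left) (fun s hs => ?_)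
      ⟨hx0, Metric.mem_ball_self hdpos⟩ ⟨hxB, hzx⟩
    have := @h2 (t0, s) ⟨ht0, hs.1⟩ (by
      rw [Prod.dist_eq, max_lt_iff]
      exact ⟨by simpa using hd2, lt_of_lt_of_le hs.2 (min_le_right _ _)⟩)
    rw [Real.dist_eq] at this
    exact this.le
  have n1 : |t - t0| ≤ ‖((t, x) : ℝ × ℝ) - (t0, x0)‖ := by
    simp
  have n2 : |x - x0| ≤ ‖((t, x) : ℝ × ℝ) - (t0, x0)‖ := by
    simp
  have heq : G t x - G t0 x0 - ((Gt t0 x0 • ContinuousLinearMap.fst ℝ ℝ ℝ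
      + Gx t0 x0 • ContinuousLinearMap.snd ℝ ℝ ℝ) (((t, x) : ℝ × ℝ) - (t0, x0)))
      = (G t x - G t0 x - (t - t0) * Gt t0 x0) + (G t0 x - G t0 x0 - (x - x0) * Gx t0 x0) := by
    simp
    ring
  rw [heq, Real.norm_eq_abs]
  refine (abs_add_le _ _).trans ?_
  have c0 : 0 ≤ c / 2 := by positivity
  have m1 := mul_le_mul_of_nonneg_left n1 c0
  have m2 := mul_le_mul_of_nonneg_left n2 c0
  linarith only [m2, m1, e2, e1]

/-- The strip. -/
abbrev SS (T : ℝ) : Set (ℝ × ℝ) := Ico 0 T ×ˢ II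

/-- (D) partial derivatives of class `C^n` give class `C^(n+1)`. -/
theorem contDiffOn_succ_of_partials {T : ℝ} {G Gt Gx : ℝ → ℝ → ℝ} (n : ℕ)
    (ht : ∀ t ∈ Ico 0 T, ∀ x ∈ II, HasDerivWithinAt (fun s => G s x) (Gt t x) (Ico 0 T) t)
    (hx : ∀ t ∈ Ico 0 T, ∀ x ∈ II, HasDerivWithinAt (G t) (Gx t x) II x)
    (hGt : ContDiffOn ℝ n (fun z : ℝ × ℝ => Gt z.1 z.2) (SS T))
    (hGx : ContDiffOn ℝ n (fun z : ℝ × ℝ => Gx z.1 z.2) (SS T)) :
    ContDiffOn ℝ (n + 1 : ℕ) (fun z : ℝ × ℝ => G z.1 z.2) (SS T) := by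
  have h1 := hasFDerivWithinAt_prod (convex_Ico 0 T) convex_II ht hx hGt.continuousOn
    hGx.continuousOn
  have h2 : ContDiffOn ℝ ((n : ℕ∞ω) + 1) (fun z : ℝ × ℝ => G z.1 z.2) (SS T) := by
    rw [contDiffOn_succ_iff_hasFDerivWithinAt (by simp)]
    intro z hz
    refine ⟨SS T, ?_, by simp, _, h1, ?_⟩
    · rw [insert_eq_of_mem hz]; exact self_mem_nhdsWithin
    · exact (hGt.smul contDiffOn_const).add (hGx.smul contDiffOn_const)
  exact_mod_cast h2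

/-- Differentiation under the integral sign, within a convex set of parameters. -/
theorem hasDerivWithinAt_integral {A : Set ℝ} (hA : Convex ℝ A) {a b : ℝ}
    {φ φ' : ℝ → ℝ → ℝ} (hc : ∀ s ∈ A, ContinuousOn (φ s) (uIcc a b))
    (hφ : ∀ s ∈ A, ∀ y ∈ uIcc a b, HasDerivWithinAt (fun s => φ s y) (φ' s y) A s)
    (hφ' : ContinuousOn (fun z : ℝ × ℝ => φ' z.1 z.2) (A ×ˢ uIcc a b)) {s0 : ℝ} (hs0 : s0 ∈ A) :
    HasDerivWithinAt (fun s => ∫ y in a..b, φ s y) (∫ y in a..b, φ' s0 y) A s0 := by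
  rw [hasDerivWithinAt_iff_isLittleO, Asymptotics.isLittleO_iff]
  intro c hc0
  set ε := c / (|b - a| + 1) with hε
  have hεpos : 0 < ε := by positivity
  have h1 := tube isCompact_uIcc hφ' hs0 hεpos
  rw [eventually_nhdsWithin_iff, Metric.eventually_nhds_iff_ball] at h1
  obtain ⟨d, hd, h1⟩ := h1
  have hev : ∀ᶠ s in 𝓝[A] s0, s ∈ Metric.ball s0 d :=
    mem_nhdsWithin_of_mem_nhds (Metric.ball_mem_nhds _ hd)
  filter_upwards [hev, self_mem_nhdsWithin] with s hs hsA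
  have hcA : Convex ℝ (A ∩ Metric.ball s0 d) := hA.inter (convex_ball _ _)
  have hpt : ∀ y ∈ uIcc a b, |φ s y - φ s0 y - (s - s0) * φ' s0 y| ≤ ε * |s - s0| := by
    intro y hy
    exact mvt_within (f := fun s => φ s y) (f' := fun s => φ' s y) hcA
      (fun r hr => (hφ r hr.1 y hy).mono inter_subset_left)
      (fun r hr => h1 r hr.2 hr.1 y hy)
      ⟨hs0, Metric.mem_ball_self hd⟩ ⟨hsA, hs⟩
  have hc' : ContinuousOn (φ' s0) (uIcc a b) :=
    hφ'.comp (f := fun y : ℝ => ((s0, y) : ℝ × ℝ)) (by fun_prop) (fun y hy => ⟨hs0, hy⟩)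
  have i1 : IntervalIntegrable (φ s) volume a b := (hc s hsA).intervalIntegrable
  have i2 : IntervalIntegrable (φ s0) volume a b := (hc s0 hs0).intervalIntegrable
  have i3 : IntervalIntegrable (φ' s0) volume a b := hc'.intervalIntegrable
  have heq : (∫ y in a..b, φ s y) - (∫ y in a..b, φ s0 y) - (s - s0) • (∫ y in a..b, φ' s0 y)
      = ∫ y in a..b, (φ s y - φ s0 y - (s - s0) * φ' s0 y) := by
    rw [intervalIntegral.integral_sub (i1.sub i2) (i3.const_mul _),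
      intervalIntegral.integral_sub i1 i2, intervalIntegral.integral_const_mul, smul_eq_mul]
  rw [heq]
  have h3 : ‖∫ y in a..b, (φ s y - φ s0 y - (s - s0) * φ' s0 y)‖ ≤ (ε * |s - s0|) * |b - a| := by
    refine intervalIntegral.norm_integral_le_of_norm_le_const fun y hy => ?_
    rw [Real.norm_eq_abs]
    exact hpt y (uIoc_subset_uIcc hy)
  refine h3.trans ?_
  rw [Real.norm_eq_abs]
  have h4 : ε * |b - a| ≤ c := by
    rw [hε, div_mul_eq_mul_div, div_le_iff₀ (by (clear * -; positivity))]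
    linarith only [hc0]
  calc (ε * |s - s0|) * |b - a| = (ε * |b - a|) * |s - s0| := by ring
    _ ≤ c * |s - s0| := mul_le_mul_of_nonneg_right h4 (abs_nonneg _)

theorem slice_cont {T : ℝ} {g : ℝ → ℝ → ℝ}
    (hg : ContinuousOn (fun z : ℝ × ℝ => g z.1 z.2) (SS T)) {t : ℝ} (ht : t ∈ Ico 0 T) :
    ContinuousOn (g t) II :=
  hg.comp (f := fun y : ℝ => ((t, y) : ℝ × ℝ)) (by fun_prop) (fun _ hy => ⟨ht, hy⟩)

theorem uIcc_zero_subset {x : ℝ} (hx : x ∈ II) : uIcc 0 x ⊆ II := by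
  intro y hy
  rw [mem_uIcc] at hy
  rcases hy with h | h
  · exact ⟨by linarith only [h], h.2.trans hx.2⟩
  · exact ⟨hx.1.trans h.1, by linarith only [h]⟩

/-- Continuity of the primitive in `x`. -/
theorem continuousOn_primx {T : ℝ} {g : ℝ → ℝ → ℝ}
    (hg : ContinuousOn (fun z : ℝ × ℝ => g z.1 z.2) (SS T)) :
    ContinuousOn (fun z : ℝ × ℝ => ∫ y in (0 : ℝ)..z.2, g z.1 y) (SS T) := by
  rintro ⟨t0, x0⟩ ⟨ht0, hx0⟩
  simp only at ht0 hx0
  rw [Metric.continuousWithinAt_iff']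
  intro ε hε
  have h1 := tube isCompact_II hg ht0 (half_pos hε)
  have hg0 := slice_cont hg ht0
  have h2 : ∀ᶠ z in 𝓝[SS T] ((t0, x0) : ℝ × ℝ), ∀ y ∈ II, |g z.1 y - g t0 y| ≤ ε / 2 := by
    have ht : Tendsto (fun z : ℝ × ℝ => z.1) (𝓝[SS T] (t0, x0)) (𝓝[Ico 0 T] t0) := by
      refine tendsto_nhdsWithin_iff.2 ⟨?_, ?_⟩
      · exact (continuous_fst.tendsto (t0, x0)).mono_left nhdsWithin_le_nhds
      · filter_upwards [self_mem_nhdsWithin] with z hz using hz.1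
    exact ht.eventually h1
  obtain ⟨K, hK⟩ := isCompact_II.exists_bound_of_continuousOn hg0
  have hKpos : 0 ≤ K := (norm_nonneg _).trans (hK 0 zero_mem_II)
  have h3 : ∀ᶠ z in 𝓝[SS T] ((t0, x0) : ℝ × ℝ), |z.2 - x0| < ε / (2 * (K + 1)) := by
    have : Metric.ball ((t0, x0) : ℝ × ℝ) (ε / (2 * (K + 1))) ∈ 𝓝[SS T] ((t0, x0) : ℝ × ℝ) :=
      mem_nhdsWithin_of_mem_nhds (Metric.ball_mem_nhds _ (by positivity))
    filter_upwards [this] with z hz
    rw [Metric.mem_ball, Prod.dist_eq, max_lt_iff, Real.dist_eq, Real.dist_eq] at hz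
    exact hz.2
  filter_upwards [h2, h3, self_mem_nhdsWithin] with z hz2 hz3 hzS
  obtain ⟨t, x⟩ := z
  obtain ⟨ht, hx⟩ := hzS
  simp only at ht hx hz2 hz3 ⊢
  have i1 : IntervalIntegrable (g t) volume 0 x :=
    ((slice_cont hg ht).mono (uIcc_zero_subset hx)).intervalIntegrable
  have i2 : IntervalIntegrable (g t0) volume 0 x :=
    (hg0.mono (uIcc_zero_subset hx)).intervalIntegrable
  have i3 : IntervalIntegrable (g t0) volume 0 x0 :=
    (hg0.mono (uIcc_zero_subset hx0)).intervalIntegrable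
  have heq : (∫ y in (0 : ℝ)..x, g t y) - (∫ y in (0 : ℝ)..x0, g t0 y)
      = (∫ y in (0 : ℝ)..x, (g t y - g t0 y)) + ∫ y in x0..x, g t0 y := by
    rw [intervalIntegral.integral_sub i1 i2, ← intervalIntegral.integral_interval_sub_left i2 i3]
    ring
  rw [Real.dist_eq, heq]
  have b1 : |∫ y in (0 : ℝ)..x, (g t y - g t0 y)| ≤ (ε / 2) * |x - 0| := by
    have := intervalIntegral.norm_integral_le_of_norm_le_const (a := 0) (b := x)
      (f := fun y => g t y - g t0 y) (C := ε / 2) (fun y hy => by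
        rw [Real.norm_eq_abs]
        exact hz2 y (uIcc_zero_subset hx (uIoc_subset_uIcc hy)))
    rwa [Real.norm_eq_abs] at this
  have hsub : uIcc x0 x ⊆ II := by
    intro y hy
    rw [mem_uIcc] at hy
    rcases hy with h | h
    · exact ⟨hx0.1.trans h.1, h.2.trans hx.2⟩
    · exact ⟨hx.1.trans h.1, h.2.trans hx0.2⟩
  have b2 : |∫ y in x0..x, g t0 y| ≤ K * |x - x0| := by
    have := intervalIntegral.norm_integral_le_of_norm_le_const (a := x0) (b := x)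
      (f := fun y => g t0 y) (C := K) (fun y hy => hK y (hsub (uIoc_subset_uIcc hy)))
    rwa [Real.norm_eq_abs] at this
  have hx1 : |x - 0| ≤ 1 := by rw [sub_zero]; exact abs_le.2 ⟨hx.1, hx.2⟩
  have b3 : K * |x - x0| < ε / 2 := by
    rw [lt_div_iff₀ (by positivity)] at hz3
    linarith only [abs_nonneg (x - x0), hz3]
  calc |(∫ y in (0 : ℝ)..x, (g t y - g t0 y)) + ∫ y in x0..x, g t0 y|
      ≤ |∫ y in (0 : ℝ)..x, (g t y - g t0 y)| + |∫ y in x0..x, g t0 y| := abs_add_le _ _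
    _ < ε := by linarith only [mul_nonneg (le_of_lt (sub_pos.2 hε)) (sub_nonneg.2 hx1), b3, b2, b1]

theorem primx_deriv {g : ℝ → ℝ} (hg : ContinuousOn g II) {x : ℝ} (hx : x ∈ II) :
    HasDerivWithinAt (fun x => ∫ y in (0 : ℝ)..x, g y) (g x) II x := by
  have hc : Continuous fun y : ℝ => g (max (-1) (min 1 y)) :=
    hg.comp_continuous (by fun_prop) clamp_mem
  have h1 : HasDerivAt (fun x => ∫ y in (0 : ℝ)..x, g (max (-1) (min 1 y)))
      (g (max (-1) (min 1 x))) x :=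
    intervalIntegral.integral_hasDerivAt_right (hc.intervalIntegrable _ _)
      (hc.stronglyMeasurableAtFilter _ _) hc.continuousAt
  rw [clamp_eq hx] at h1
  have heq : ∀ x ∈ II, (∫ y in (0 : ℝ)..x, g y) = ∫ y in (0 : ℝ)..x, g (max (-1) (min 1 y)) := by
    intro x hx
    refine intervalIntegral.integral_congr fun y hy => ?_
    rw [clamp_eq (uIcc_zero_subset hx hy)]
  exact h1.hasDerivWithinAt.congr heq (heq x hx)

/-- Partial derivative in time of a `C^(n+1)` function on the strip. -/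
theorem exists_partial_t {T : ℝ} (n : ℕ) {g : ℝ → ℝ → ℝ}
    (hg : ContDiffOn ℝ (n + 1 : ℕ) (fun z : ℝ × ℝ => g z.1 z.2) (SS T)) :
    ∃ gt : ℝ → ℝ → ℝ, ContDiffOn ℝ n (fun z : ℝ × ℝ => gt z.1 z.2) (SS T) ∧
      ∀ t ∈ Ico 0 T, ∀ x ∈ II, HasDerivWithinAt (fun s => g s x) (gt t x) (Ico 0 T) t := by
  have hu : UniqueDiffOn ℝ (SS T) := (uniqueDiffOn_Ico 0 T).prod uniqueDiffOn_II
  have h1 : ContDiffOn ℝ n (fderivWithin ℝ (fun z : ℝ × ℝ => g z.1 z.2) (SS T)) (SS T) :=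
    hg.fderivWithin hu (by exact_mod_cast le_rfl)
  refine ⟨fun t x => fderivWithin ℝ (fun z : ℝ × ℝ => g z.1 z.2) (SS T) (t, x) (1, 0), ?_, ?_⟩
  · exact h1.clm_apply (contDiffOn_const (c := ((1, 0) : ℝ × ℝ)))
  · intro t ht x hx
    have hd := (hg.differentiableOn (by simp)) (t, x) ⟨ht, hx⟩
    have h2 : HasDerivWithinAt (fun s : ℝ => ((s, x) : ℝ × ℝ)) ((1, 0) : ℝ × ℝ) (Ico 0 T) t :=
      (hasDerivWithinAt_id t _).prodMk (hasDerivWithinAt_const t _ x)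
    exact hd.hasFDerivWithinAt.comp_hasDerivWithinAt t h2
      (fun s hs => (⟨hs, hx⟩ : ((s, x) : ℝ × ℝ) ∈ SS T))

/-- The primitive in `x` of a `C^n` function is `C^n`. -/
theorem contDiffOn_primx {T : ℝ} (n : ℕ) : ∀ {g : ℝ → ℝ → ℝ},
    ContDiffOn ℝ n (fun z : ℝ × ℝ => g z.1 z.2) (SS T) →
    ContDiffOn ℝ n (fun z : ℝ × ℝ => ∫ y in (0 : ℝ)..z.2, g z.1 y) (SS T) := by
  induction n with
  | zero =>
    intro g hg
    rw [Nat.cast_zero, contDiffOn_zero] at hg ⊢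
    exact continuousOn_primx hg
  | succ n ih =>
    intro g hg
    obtain ⟨gt, hgt, hgt2⟩ := exists_partial_t n hg
    have hgn : ContDiffOn ℝ n (fun z : ℝ × ℝ => g z.1 z.2) (SS T) :=
      hg.of_le (by exact_mod_cast Nat.le_succ n)
    refine contDiffOn_succ_of_partials (G := fun t x => ∫ y in (0 : ℝ)..x, g t y)
      (Gt := fun t x => ∫ y in (0 : ℝ)..x, gt t y) (Gx := g) n ?_ ?_ (ih hgt) hgn
    · intro t ht x hx
      refine hasDerivWithinAt_integral (convex_Ico 0 T) (fun s hs =>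
        (slice_cont hg.continuousOn hs).mono (uIcc_zero_subset hx))
        (fun s hs y hy => hgt2 s hs y (uIcc_zero_subset hx hy))
        (hgt.continuousOn.mono (prod_mono_right (uIcc_zero_subset hx))) ht
    · intro t ht x hx
      exact primx_deriv (slice_cont hg.continuousOn ht) hx

end Vale.Agent.P244.ST.L
end
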