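import Mathlib
import Vale.Agent.P244.Bd3.B2
import Vale.Agent.P244.Bd3.B1
import Vale.Agent.P244.Bd3.B3

set_option linter.all false

section

/-!
# P244-ST, block M, module MB : boundary value of `tanh u` at `y = ρ₀`
-/

open Set Filter
open scoped ContDiff Topology

namespace Vale.Agent.P244.ST.M

open Vale.Agent.P244.ST Vale.Agent.P244.ST.BD.BA

theorem mb_DD : 18 < DD / 2 := by
  unfold DD
  linarith only [kap_lt]

/-- `|l₃(z) - 1| ≤ z` on `[0,1]` -/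
theorem mb_ll3 {z : ℝ} (hz0 : 0 ≤ z) (hz1 : z ≤ 1) : |ll 3 z - 1| ≤ z := by
  have hD := mb_DD
  have h0 : (0 : ℝ) < DD / 2 := by linarith only [hD]
  have h1 : (0 : ℝ) < DD / 2 + 1 := by linarith only [hD]
  have h2 : (0 : ℝ) < DD / 2 + 2 := by linarith only [hD]
  set d := DD / 2 with hd
  have e : ll 3 z - 1 = -(3 / d * z) + 3 / (d * (d + 1)) * z ^ 2
      - 1 / (d * (d + 1) * (d + 2)) * z ^ 3 := by
    unfold ll
    rw [← hd]
    simp only [Finset.sum_range_succ, Finset.prod_range_succ, Finset.sum_range_zero,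
      Finset.prod_range_zero]
    norm_num [Nat.choose]
    field_simp
    ring
  have a1 : 0 ≤ 3 / d * z ∧ 3 / d * z ≤ 1 / 6 * z := by
    refine ⟨by positivity, mul_le_mul_of_nonneg_right ?_ hz0⟩
    rw [div_le_div_iff₀ h0 (by norm_num)]; linarith only [hD]
  have z2 : z ^ 2 ≤ z := by linarith only [mul_nonneg (sub_nonneg.2 hz0) (sub_nonneg.2 hz1)]
  have z3 : z ^ 3 ≤ z := by nlinarith only [hz1, z2, sq_nonneg z]
  have a2 : 0 ≤ 3 / (d * (d + 1)) * z ^ 2 ∧ 3 / (d * (d + 1)) * z ^ 2 ≤ 1 / 6 * z := by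
    refine ⟨by (clear * - hD; positivity), ?_⟩
    have : 3 / (d * (d + 1)) ≤ 1 / 6 := by
      rw [div_le_div_iff₀ (by positivity) (by norm_num)]; nlinarith only [hD]
    calc 3 / (d * (d + 1)) * z ^ 2 ≤ 1 / 6 * z ^ 2 :=
          mul_le_mul_of_nonneg_right this (by positivity)
      _ ≤ 1 / 6 * z := by linarith only [z2]
  have a3 : 0 ≤ 1 / (d * (d + 1) * (d + 2)) * z ^ 3 ∧
      1 / (d * (d + 1) * (d + 2)) * z ^ 3 ≤ 1 / 6 * z := by
    refine ⟨by (clear * - hD hz0; positivity), ?_⟩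
    have : 1 / (d * (d + 1) * (d + 2)) ≤ 1 / 6 := by
      rw [div_le_div_iff₀ (by positivity) (by norm_num)]
      have : 1 ≤ d * (d + 1) := by nlinarith only [hD]
      nlinarith only [hD, this]
    calc 1 / (d * (d + 1) * (d + 2)) * z ^ 3 ≤ 1 / 6 * z ^ 3 :=
          mul_le_mul_of_nonneg_right this (by positivity)
      _ ≤ 1 / 6 * z := by linarith only [z3]
  rw [e, abs_le]
  constructor <;> linarith only [hz0, a1, a2, a3, a1.1, a1.2, a2.1, a2.2, a3.1, a3.2]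

theorem mb_lam3_pos : 0 < lam 3 := by
  unfold lam
  push_cast
  linarith only [kap_lt]

theorem mbStatement : MBStatement := by
  refine ⟨0, fun B _ => ⟨1 / 5, by norm_num, fun rho0 hrho => ⟨0, fun BV _ => ⟨0, fun MU _ =>
    ⟨0, fun MP _ => ⟨0, fun MV _ => ⟨0, fun CU _ => ⟨0, fun CP _ => ⟨0, fun CV _ =>
    ⟨0, fun GR _ => ⟨1 / 2500, by norm_num, fun sg hsg => ⟨1, one_pos, fun d0 _ =>
    ⟨1, one_pos, fun rb _ => ⟨0, fun N _ => ?_⟩⟩⟩⟩⟩⟩⟩⟩⟩⟩⟩⟩⟩⟩
  obtain ⟨hr0, hr1⟩ := hrho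
  obtain ⟨hs0, hs1⟩ := hsg
  have hk := kap_pos
  have hrk : 0 < rho0 ^ kap := Real.rpow_pos_of_pos hr0 _
  refine ⟨rho0 ^ kap / 10, by positivity, fun eps heps => ?_⟩
  obtain ⟨he0, he1⟩ := heps
  intro w f t ht hcl x hx hy
  have hyx : yv w f t x = rho0 := hy
  have h := hcl x ⟨hx.1.le, hx.2⟩ (by rw [hyx]; show rho0 / 16 ≤ rho0; linarith only [hr0])
    (by rw [hyx]; linarith only [hr1, hs0, hs1])
  rw [hyx] at h
  set q : Par := ⟨B, rho0, BV, MU, MP, MV, CU, CP, CV, GR, sg, d0, rb, N, eps⟩ with hq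
  set u := uu w f t x with hu
  have htau : 0 < tau t := by unfold tau; linarith only [ht, ht.2]
  have htau1 : tau t ≤ 1 := by unfold tau; linarith only [ht, ht.1]
  have hlam : 0 < lam 3 := mb_lam3_pos
  have hA : 0 < q.A t := mul_pos he0 (Real.rpow_pos_of_pos htau _)
  have hAe : q.A t ≤ eps := by
    have : (tau t) ^ (lam 3) ≤ 1 := Real.rpow_le_one htau.le htau1 hlam.le
    calc q.A t = eps * (tau t) ^ (lam 3) := rfl
      _ ≤ eps * 1 := mul_le_mul_of_nonneg_left this he0.le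
      _ = eps := mul_one _
  have hinv : rho0 ^ kap * rho0 ^ (-kap) = 1 := by
    rw [← Real.rpow_add hr0]; simp
  have hrn : 0 < rho0 ^ (-kap) := Real.rpow_pos_of_pos hr0 _
  have hT0 : q.T0 t = q.A t * rho0 ^ (-kap) := rfl
  have hT0pos : 0 < q.T0 t := by rw [hT0]; positivity
  have hT0le : q.T0 t ≤ 1 / 10 := by
    rw [hT0]
    calc q.A t * rho0 ^ (-kap) ≤ (rho0 ^ kap / 10) * rho0 ^ (-kap) :=
          mul_le_mul_of_nonneg_right (hAe.trans he1) hrn.le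
      _ = (rho0 ^ kap * rho0 ^ (-kap)) / 10 := by ring
      _ = 1 / 10 := by rw [hinv]
  have hsq : Real.sqrt sg ≤ 1 / 50 := by
    rw [show (1 : ℝ) / 50 = Real.sqrt (1 / 2500) by
      rw [show (1 : ℝ) / 2500 = (1 / 50) ^ 2 by norm_num, Real.sqrt_sq (by norm_num)]]
    exact Real.sqrt_le_sqrt hs1
  have hAT : q.A t ≤ q.T0 t := by
    rw [hT0]
    have : 1 ≤ rho0 ^ (-kap) :=
      Real.one_le_rpow_of_pos_of_le_one_of_nonpos hr0 (by linarith only [hs1, hs0, hr1]) (by linarith only [hk])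
    nlinarith only [hs0, hs1, hA, this]
  have hz : rho0 ^ 2 / 4 ≤ 1 / 100 := by nlinarith only [hr0, hr1]
  have hll := mb_ll3 (z := rho0 ^ 2 / 4) (by positivity) (by linarith only [hz, hs1, hs0])
  have hd : |u - q.T0 t| ≤ 3 / 100 * q.T0 t := by
    have e1 : u - q.T0 t = (u - q.A t * ph 3 rho0) + q.T0 t * (ll 3 (rho0 ^ 2 / 4) - 1) := by
      rw [hT0]; unfold ph; ring
    have b1 : |u - q.A t * ph 3 rho0| ≤ 1 / 50 * q.T0 t := by
      refine h.trans ?_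
      exact mul_le_mul hsq hAT hA.le (by norm_num)
    have b2 : |q.T0 t * (ll 3 (rho0 ^ 2 / 4) - 1)| ≤ 1 / 100 * q.T0 t := by
      rw [abs_mul, abs_of_pos hT0pos, mul_comm]
      exact mul_le_mul_of_nonneg_right (hll.trans hz) hT0pos.le
    rw [e1]
    refine (abs_add_le _ _).trans ?_
    linarith only [b1, b2]
  rw [abs_le] at hd
  have hu0 : 0 ≤ u := by linarith only [hd.1, hT0pos]
  have hu1 : u ≤ 103 / 1000 := by linarith only [hd.2, hT0le]
  have ht1 := ba_tanh_le hu0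
  have ht2 := ba_tanh_ge hu0
  have hu3 : u ^ 3 ≤ 103 / 1000 * (103 / 1000) * u := by
    have : u ^ 2 ≤ 103 / 1000 * (103 / 1000) := by nlinarith only [hs0, hs1, hT0pos, hT0le, hd]
    calc u ^ 3 = u ^ 2 * u := by ring
      _ ≤ _ := mul_le_mul_of_nonneg_right this hu0
  constructor
  · linarith only [hd.1, hu3, ht2, hT0pos]
  · linarith only [hd.2, ht1, hT0pos]

end Vale.Agent.P244.ST.M
end

section

/-!
# P244-ST, block M2 : (D7), (D8) : the region `y ≥ ρ₀` at fixed time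
-/

open Set Filter Topology
open scoped ContDiff

namespace Vale.Agent.P244.ST.M2

noncomputable section

/-- `M(r,t) = (τ + r²)³ r^{-κ}` -/
def Mf (t r : ℝ) : ℝ := (tau t + r ^ 2) ^ 3 * r ^ (-kap)

variable {w f : Fn} {t : ℝ}

theorem cosh_sub_one_le {u : ℝ} (hu : |u| ≤ 1 / 100) : Real.cosh u - 1 ≤ 51 / 100 * u ^ 2 := by
  have h1 := Real.cosh_le_exp_half_sq u
  have h3 : u ^ 2 ≤ 1 / 10000 := by
    have := sq_le_sq' (by linarith only [abs_nonneg u] : -(1 / 100 : ℝ) ≤ |u|) hu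
    rw [sq_abs] at this
    linarith only [this]
  have h2 : Real.exp (u ^ 2 / 2) ≤ 1 + u ^ 2 / 2 + (u ^ 2 / 2) ^ 2 := by
    have h0 : |u ^ 2 / 2| ≤ 1 := by
      rw [abs_of_nonneg (by positivity)]; linarith only [h3]
    have := Real.abs_exp_sub_one_sub_id_le h0
    have h4 := (abs_le.1 this).2
    linarith only [h4]
  nlinarith only [h1, h3, h2, sq_nonneg u]

theorem tanh_le_self {u : ℝ} (hu : 0 < u) : Real.tanh u ≤ u := by
  rw [Real.tanh_eq_sinh_div_cosh, div_le_iff₀ (Real.cosh_pos u)]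
  have h : ∀ x ∈ Icc (0 : ℝ) u, Real.sinh x ≤ x * Real.cosh x := by
    intro x hx
    have hm : MonotoneOn (fun x => x * Real.cosh x - Real.sinh x) (Icc 0 u) := by
      refine monotoneOn_of_deriv_nonneg (convex_Icc 0 u) (by fun_prop) (by fun_prop) ?_
      intro y hy
      rw [interior_Icc] at hy
      have hd : HasDerivAt (fun x => x * Real.cosh x - Real.sinh x)
          (1 * Real.cosh y + y * Real.sinh y - Real.cosh y) y :=
        ((hasDerivAt_id y).mul (Real.hasDerivAt_cosh y)).sub (Real.hasDerivAt_sinh y)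
      rw [hd.deriv]
      have := Real.sinh_pos_iff.2 hy.1
      linarith only [mul_pos hy.1 this]
    have := hm (left_mem_Icc.2 hu.le) hx hx.1
    simp only [Real.sinh_zero, zero_mul, sub_zero] at this
    linarith only [this]
  exact h u (right_mem_Icc.2 hu.le)

theorem g_sq_le {g : ℝ → ℝ} (hg : IsBub g) {u : ℝ} (hu : 0 < u) : g u ^ 2 ≤ 4.472 * u ^ 2 := by
  have h1 := hg.upper u hu
  have h2 := tanh_le_self hu
  have h3 := g_pos hg hu
  have h4 := tanh_pos hu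
  have h5 : g u ≤ 2.1147 * u := by nlinarith only [hu, h1, h2, kap_lt, kap_gt]
  nlinarith only [hu, h3, h5]

theorem Zs_sub_one_le {g : ℝ → ℝ} (hg : IsBub g) {u : ℝ} (hu : 0 < u) (hu' : |u| ≤ 1 / 100) :
    Zs g u - 1 ≤ 6 / 10 * u ^ 2 := by
  have h1 := q_lo hg hu
  have h2 := Zs_q hg hu
  have h3 := cosh_sub_one_le hu'
  have h4 := g_sq_le hg hu
  have h5 : qb g u = 39 - g u ^ 2 / 4 := rfl
  have h6 : (Zs g u - 1) * qb g u = 39 * (Real.cosh u - 1) + g u ^ 2 / 4 := by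
    rw [sub_mul, h2, h5]; ring
  have h7 : (Zs g u - 1) * qb g u ≤ (6 / 10 * u ^ 2) * 38 := by
    rw [h6]; linarith only [sq_nonneg u, h4, h3]
  have h8 : (6 / 10 * u ^ 2) * 38 ≤ (6 / 10 * u ^ 2) * qb g u :=
    mul_le_mul_of_nonneg_left h1.le (by positivity)
  exact le_of_mul_le_mul_right (h7.trans h8) (by linarith only [h1])

theorem one_le_Zs {g : ℝ → ℝ} (hg : IsBub g) {u : ℝ} (hu : 0 < u) : 1 ≤ Zs g u :=
  (Real.one_le_cosh u).trans (cosh_le_Zs hg hu)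

/-- hypotheses for (D7), (D8) at a fixed time -/
structure Out (g : ℝ → ℝ) (w f : Fn) (t K ε Rs x1 : ℝ) : Prop where
  bub : IsBub g
  slice : Slice w f t
  t_lt : t < 1
  K_nonneg : 0 ≤ K
  ε_nonneg : 0 ≤ ε
  hx1 : x1 ∈ Ioo (0 : ℝ) 1
  rs_pos : ∀ x ∈ Ioc (0 : ℝ) x1, 0 < rs w f t x
  R_nonneg : ∀ x ∈ Icc (0 : ℝ) x1, 0 ≤ RR w f t x
  R_le : ∀ x ∈ Icc (0 : ℝ) x1, RR w f t x ≤ Rs
  hu : ∀ x ∈ Icc (0 : ℝ) x1, |uu w f t x| ≤ K * (ε * Mf t (rr w f t x))
  hP : ∀ x ∈ Icc (0 : ℝ) x1, |rr w f t x * PP w f t x| ≤ K * (ε * Mf t (rr w f t x))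
  small : ∀ x ∈ Icc (0 : ℝ) x1, K * (ε * Mf t (rr w f t x)) ≤ 1 / 100
  u_pos : 0 < uu w f t x1
  th_nonpos : th g w f t x1 ≤ 0
  th_ge : -(th g w f t x1) ≤ g (uu w f t x1) ^ 2 / 148 +
    (rr w f t x1) ^ 2 * Rs / (1640 * Zs g (uu w f t x1))

variable {g : ℝ → ℝ} {K ε Rs x1 : ℝ}

theorem Out.mem (H : Out g w f t K ε Rs x1) {x : ℝ} (hx : x ∈ Icc (0 : ℝ) x1) :
    x ∈ Ioo (-1 : ℝ) 1 := ⟨by linarith only [hx, hx.1], hx.2.trans_lt H.hx1.2⟩

/-- the weight `e^{39ρ}` -/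
def wt (w f : Fn) (t x : ℝ) : ℝ := Real.exp (39 * rho w f t x)

theorem hasDerivAt_wt (h : Slice w f t) {x : ℝ} (hx : x ∈ Ioo (-1 : ℝ) 1) :
    HasDerivAt (wt w f t) (r1 w f t x * (39 * wt w f t x)) x := by
  have h1 := ((hasDerivAt_rho h hx).const_mul 39).exp
  refine h1.congr_deriv ?_
  unfold wt
  ring

end

end Vale.Agent.P244.ST.M2
end

section

/-!
# P244-ST, block M2 : the region `y ≥ ρ₀` under the bootstrap

`KK q = MU + 25 MP + 625 MV + CU + CP + 3 CV`; `|u|, |rP|, |r²V| ≤ KK ε M` for `y ≥ ρ₀`;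
the size of `ε M`; the point `x₁` with `y(x₁) = ρ₀`.
-/

open Set Filter Topology
open scoped ContDiff

namespace Vale.Agent.P244.ST.M2

noncomputable section

/-- the constant of the outer region -/
def KK (q : Par) : ℝ := q.MU + 25 * q.MP + 625 * q.MV + q.CU + q.CP + 3 * q.CV

variable {w f : Fn} {t : ℝ} {q : Par}

theorem tau_pos (ht : t < 1) : 0 < tau t := by unfold tau; linarith only [ht]

/-- positivity of the parameters -/
structure Pos (q : Par) : Prop where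
  rho0 : 0 < q.rho0
  rho0_le : q.rho0 ≤ 1
  MU : 0 ≤ q.MU
  MP : 0 ≤ q.MP
  MV : 0 ≤ q.MV
  CU : 0 ≤ q.CU
  CP : 0 ≤ q.CP
  CV : 0 ≤ q.CV
  N : 1 ≤ q.N
  eps : 0 < q.eps

theorem yv_mul (ht : t < 1) (x : ℝ) : yv w f t x * Real.sqrt (tau t) = rr w f t x := by
  unfold yv
  exact div_mul_cancel₀ _ (Real.sqrt_pos.2 (tau_pos ht)).ne'

theorem yv_pos (ht : t < 1) (x : ℝ) : 0 < yv w f t x :=
  div_pos (rr_pos x) (Real.sqrt_pos.2 (tau_pos ht))

/-- smallness of the parameters needed for (D7), (D8): true for `ε` small -/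
def Small (q : Par) (δ : ℝ) : Prop :=
  KK q * (q.eps * (8 * q.rho0 ^ (-kap) + 8 * (2 * q.N) ^ bb)) ≤ δ

end

end Vale.Agent.P244.ST.M2
end

section

/-!
# P244-ST, block M2 : (D7), (D8) under the bootstrap (final form)
-/

open Set Filter Topology
open scoped ContDiff

namespace Vale.Agent.P244.ST.M2

noncomputable section

variable {w f : Fn} {t : ℝ} {q : Par}

/-- `r → 0` at the tip -/
theorem tendsto_rho (h : Slice w f t) : Tendsto (rho w f t) (𝓝[<] 1) atBot := by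
  have hc : ContinuousOn (fun x => f t x + w t x) (Icc (-1) 1) :=
    h.hf.continuousOn.add h.hw.continuousOn
  obtain ⟨C, hC⟩ := (isCompact_Icc.image_of_continuousOn hc).bddAbove
  have h1 : Tendsto (fun x : ℝ => 1 - x ^ 2) (𝓝[<] 1) (𝓝[>] 0) := by
    refine tendsto_nhdsWithin_of_tendsto_nhds_of_eventually_within _ ?_ ?_
    · have : ContinuousAt (fun x : ℝ => 1 - x ^ 2) 1 := by fun_prop
      have h2 := this.tendsto
      norm_num at h2
      exact h2.mono_left nhdsWithin_le_nhds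
    · have : Ioo (0 : ℝ) 1 ∈ 𝓝[<] (1 : ℝ) := Ioo_mem_nhdsLT (by norm_num)
      filter_upwards [this] with x hx
      have := hx.1; have := hx.2
      show 0 < 1 - x ^ 2
      nlinarith
  have h2 : Tendsto (fun x : ℝ => Real.log (1 - x ^ 2)) (𝓝[<] 1) atBot :=
    Real.tendsto_log_nhdsGT_zero.comp h1
  have h3 : Tendsto (fun x : ℝ => (C + Real.log (1 - x ^ 2) / 2 - Real.log zeta0) / 2)
      (𝓝[<] 1) atBot := by
    refine Tendsto.atBot_div_const (by norm_num) ?_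
    refine tendsto_atBot_add_const_right _ _ ?_
    refine tendsto_atBot_add_const_left _ _ ?_
    exact h2.atBot_div_const (by norm_num)
  refine tendsto_atBot_mono' _ ?_ h3
  have : Ioo (0 : ℝ) 1 ∈ 𝓝[<] (1 : ℝ) := Ioo_mem_nhdsLT (by norm_num)
  filter_upwards [this] with x hx
  have hx' : x ∈ Icc (-1 : ℝ) 1 := ⟨by linarith only [hx, hx.1], hx.2.le⟩
  have h4 : f t x + w t x ≤ C := hC ⟨x, hx', rfl⟩
  unfold rho
  linarith only [h4]

theorem tendsto_rr (h : Slice w f t) : Tendsto (rr w f t) (𝓝[<] 1) (𝓝 0) :=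
  Real.tendsto_exp_atBot.comp (tendsto_rho h)

theorem continuousOn_rr (h : Slice w f t) : ContinuousOn (rr w f t) (Ioo (-1) 1) :=
  (smooth_rr h).continuousOn

/-- `r` decreases from the equator to the tip -/
theorem rr_anti (h : Slice w f t) (hrs : ∀ x ∈ Ioo (0 : ℝ) 1, 0 < rs w f t x) :
    StrictAntiOn (rr w f t) (Ico 0 1) := by
  refine strictAntiOn_of_deriv_neg (convex_Ico 0 1) ?_ ?_
  · exact (continuousOn_rr h).mono fun x hx => ⟨by linarith only [hx, hx.1], hx.2⟩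
  · intro x hx
    rw [interior_Ico] at hx
    have hx' : x ∈ Ioo (-1 : ℝ) 1 := ⟨by linarith only [hx, hx.1], hx.2⟩
    rw [(hasDerivAt_rr h hx').deriv]
    exact mul_neg_of_neg_of_pos (r1_neg hx' (hrs x hx)) (rr_pos x)

theorem yv_anti (h : Slice w f t) (ht : t < 1) (hrs : ∀ x ∈ Ioo (0 : ℝ) 1, 0 < rs w f t x) :
    StrictAntiOn (yv w f t) (Ico 0 1) := by
  intro a ha b hb hab
  exact div_lt_div_of_pos_right (rr_anti h hrs ha hb hab) (Real.sqrt_pos.2 (tau_pos ht))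

/-- the point where `y = ρ₀` -/
theorem exists_x1 (h : Slice w f t) (ht0 : 0 ≤ t) (ht : t < 1) {c : ℝ} (hc : 0 < c)
    (h0 : c < rr w f t 0) : ∃ x1 ∈ Ioo (0 : ℝ) 1, yv w f t x1 = c := by
  have hτ := tau_pos ht
  have hs := Real.sqrt_pos.2 hτ
  have hs1 : Real.sqrt (tau t) ≤ 1 := by
    rw [Real.sqrt_le_left (by norm_num)]
    unfold tau; linarith only [ht0]
  have hev : ∀ᶠ x in 𝓝[<] (1 : ℝ), rr w f t x < c * Real.sqrt (tau t) :=
    (tendsto_rr h).eventually (gt_mem_nhds (by positivity))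
  have hI : Ioo (0 : ℝ) 1 ∈ 𝓝[<] (1 : ℝ) := Ioo_mem_nhdsLT (by norm_num)
  obtain ⟨x2, hx2, hx2'⟩ := (hev.and hI).exists
  have hcont : ContinuousOn (yv w f t) (Icc 0 x2) :=
    ((continuousOn_rr h).mono fun x hx => ⟨by linarith only [hx2', hx, hx.1], hx.2.trans_lt hx2'.2⟩).div_const _
  have hy2 : yv w f t x2 < c := by
    unfold yv
    rw [div_lt_iff₀ hs]
    exact hx2
  have hy0 : c < yv w f t 0 := by
    unfold yv
    rw [lt_div_iff₀ hs]
    linarith only [mul_nonneg (le_of_lt (sub_pos.2 hc)) (sub_nonneg.2 hs1), h0]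
  obtain ⟨x1, hx1, hx1'⟩ := intermediate_value_Icc' hx2'.1.le hcont ⟨hy2.le, hy0.le⟩
  refine ⟨x1, ⟨lt_of_le_of_ne hx1.1 ?_, hx1.2.trans_lt hx2'.2⟩, hx1'⟩
  rintro rfl
  exact absurd hx1' hy0.ne'

/-- the input of (D7), (D8): everything at the fixed time `t` -/
structure Fix (q : Par) (g : ℝ → ℝ) (w f : Fn) (t Rs : ℝ) : Prop where
  bub : IsBub g
  pos : Pos q
  N4 : 4 < q.N
  small : Small q (1 / 100)
  slice : Slice w f t
  t0 : 0 ≤ t
  t1 : t < 1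
  rs_pos : ∀ x ∈ Ioo (0 : ℝ) 1, 0 < rs w f t x
  R_nonneg : ∀ x ∈ Ico (0 : ℝ) 1, 0 ≤ RR w f t x
  R_le : ∀ x ∈ Ico (0 : ℝ) 1, RR w f t x ≤ Rs
  boot : ∀ x ∈ Ico (0 : ℝ) 1, BootAt q g w f t x
  N_lo : q.N / 4 ≤ rr w f t 0
  N_hi : rr w f t 0 ≤ 2 * q.N
  th_nonpos : ∀ x ∈ Ioo (0 : ℝ) 1, yv w f t x ≤ q.rho0 → th g w f t x ≤ 0
  th_ge : ∀ x ∈ Ioo (0 : ℝ) 1, yv w f t x ≤ q.rho0 →
    -(th g w f t x) ≤ g (uu w f t x) ^ 2 / 148 +
      (rr w f t x) ^ 2 * Rs / (1640 * Zs g (uu w f t x))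

variable {g : ℝ → ℝ} {Rs : ℝ}

end

end Vale.Agent.P244.ST.M2
end

section

/-!
# P244-ST, block M2 : (D7), (D8) with a general size function `m` on `[x₀,x₁]`
-/

open Set Filter Topology
open scoped ContDiff

namespace Vale.Agent.P244.ST.M2

noncomputable section

variable {w f : Fn} {t : ℝ}

/-- hypotheses for (D7), (D8) at a fixed time on `[x₀,x₁]`, size function `m`,
`Dr m = m md`. -/
structure Out2 (g : ℝ → ℝ) (w f : Fn) (t : ℝ) (m md : ℝ → ℝ) (Rs x0 x1 : ℝ) : Prop where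
  bub : IsBub g
  slice : Slice w f t
  hx0 : 0 ≤ x0
  hx01 : x0 ≤ x1
  hx1 : x1 < 1
  rs_pos : ∀ x ∈ Ioo x0 x1, 0 < rs w f t x
  R_nonneg : ∀ x ∈ Icc x0 x1, 0 ≤ RR w f t x
  R_le : ∀ x ∈ Icc x0 x1, RR w f t x ≤ Rs
  m_nonneg : ∀ x ∈ Icc x0 x1, 0 ≤ m x
  m_der : ∀ x ∈ Icc x0 x1, HasDerivAt m (r1 w f t x * (m x * md x)) x
  md_ge : ∀ x ∈ Icc x0 x1, -2.2 ≤ md x
  hu : ∀ x ∈ Icc x0 x1, |uu w f t x| ≤ m x
  hP : ∀ x ∈ Icc x0 x1, |rr w f t x * PP w f t x| ≤ m x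
  small : ∀ x ∈ Icc x0 x1, m x ≤ 1 / 100
  u_pos : 0 < uu w f t x1
  th_nonpos : th g w f t x1 ≤ 0
  th_ge : -(th g w f t x1) ≤ g (uu w f t x1) ^ 2 / 148 +
    (rr w f t x1) ^ 2 * Rs / (1640 * Zs g (uu w f t x1))

variable {g : ℝ → ℝ} {m md : ℝ → ℝ} {Rs x0 x1 : ℝ}

theorem Out2.mem (H : Out2 g w f t m md Rs x0 x1) {x : ℝ} (hx : x ∈ Icc x0 x1) :
    x ∈ Ioo (-1 : ℝ) 1 := ⟨by linarith only [H, hx, hx.1, H.hx0], hx.2.trans_lt H.hx1⟩

theorem Out2.mem1 (H : Out2 g w f t m md Rs x0 x1) : x1 ∈ Icc x0 x1 := ⟨H.hx01, le_refl x1⟩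

theorem Out2.Rs_nonneg (H : Out2 g w f t m md Rs x0 x1) : 0 ≤ Rs :=
  (H.R_nonneg x1 H.mem1).trans (H.R_le x1 H.mem1)

theorem Out2.u_sq (H : Out2 g w f t m md Rs x0 x1) {x : ℝ} (hx : x ∈ Icc x0 x1) :
    (uu w f t x) ^ 2 ≤ (m x) ^ 2 := by
  rw [← sq_abs]
  exact pow_le_pow_left₀ (abs_nonneg _) (H.hu x hx) 2

theorem Out2.P_sq (H : Out2 g w f t m md Rs x0 x1) {x : ℝ} (hx : x ∈ Icc x0 x1) :
    (rr w f t x) ^ 2 * (PP w f t x) ^ 2 ≤ (m x) ^ 2 := by
  rw [← mul_pow, ← sq_abs]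
  exact pow_le_pow_left₀ (abs_nonneg _) (H.hP x hx) 2

theorem Out2.cosh_le (H : Out2 g w f t m md Rs x0 x1) {x : ℝ} (hx : x ∈ Icc x0 x1) :
    Real.cosh (uu w f t x) - 1 ≤ 51 / 100 * (m x) ^ 2 := by
  have h1 := cosh_sub_one_le ((H.hu x hx).trans (H.small x hx))
  linarith only [H.u_sq hx, h1]

/-- upper bound in (D7) -/
theorem Out2.Z_le (H : Out2 g w f t m md Rs x0 x1) {x : ℝ} (hx : x ∈ Icc x0 x1) :
    ZZ w f t x - 1 ≤ (m x) ^ 2 := by
  set X : ℝ → ℝ := fun x => wt w f t x * (ZZ w f t x - 1 - (m x) ^ 2) with hX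
  have hd : ∀ y ∈ Icc x0 x1, HasDerivAt X (r1 w f t y * (wt w f t y *
      (39 * (Real.cosh (uu w f t y) - 1) - (rr w f t y) ^ 2 * (PP w f t y) ^ 2 / 4
        - (rr w f t y) ^ 2 * RR w f t y / 40
        - (39 + 2 * md y) * (m y) ^ 2))) y := by
    intro y hy
    have h1 := hasDerivAt_ZZ H.slice (H.mem hy)
    have h2 := H.m_der y hy
    have h3 := (hasDerivAt_wt H.slice (H.mem hy)).mul ((h1.sub_const 1).sub (h2.pow 2))
    refine h3.congr_deriv ?_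
    simp only [Pi.pow_apply, Pi.sub_apply]
    ring
  have hm : MonotoneOn X (Icc x0 x1) := by
    refine monotoneOn_of_deriv_nonneg (convex_Icc x0 x1)
      (fun y hy => (hd y hy).continuousAt.continuousWithinAt)
      (fun y hy => (hd y (interior_subset hy)).differentiableAt.differentiableWithinAt) ?_
    intro y hy
    rw [interior_Icc] at hy
    have hy' : y ∈ Icc x0 x1 := Ioo_subset_Icc_self hy
    rw [(hd y hy').deriv]
    have h1 := r1_neg (H.mem hy') (H.rs_pos y hy)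
    refine mul_nonneg_of_nonpos_of_nonpos h1.le ?_
    refine mul_nonpos_of_nonneg_of_nonpos (Real.exp_pos _).le ?_
    have h2 := H.cosh_le hy'
    have h3 : 0 ≤ (rr w f t y) ^ 2 * (PP w f t y) ^ 2 := by positivity
    have h4 : 0 ≤ (rr w f t y) ^ 2 * RR w f t y := mul_nonneg (sq_nonneg _) (H.R_nonneg y hy')
    have h5 := H.md_ge y hy'
    have h6 : 34 * (m y) ^ 2 ≤ (39 + 2 * md y) * (m y) ^ 2 :=
      mul_le_mul_of_nonneg_right (by linarith only [h5]) (sq_nonneg _)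
    linarith only [sq_nonneg (m y), h6, h4, h3, h2]
  have h1 := hm hx H.mem1 hx.2
  have h2 : X x1 ≤ 0 := by
    refine mul_nonpos_of_nonneg_of_nonpos (Real.exp_pos _).le ?_
    have h3 := Zs_sub_one_le H.bub H.u_pos ((H.hu x1 H.mem1).trans (H.small x1 H.mem1))
    have h4 := Zs_pos H.bub H.u_pos
    have h5 : ZZ w f t x1 = Zs g (uu w f t x1) * (th g w f t x1 + 1) := by
      unfold th; field_simp; ring
    have h6 : Zs g (uu w f t x1) * th g w f t x1 ≤ 0 :=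
      mul_nonpos_of_nonneg_of_nonpos h4.le H.th_nonpos
    have h7 := H.u_sq H.mem1
    nlinarith only [h3, h5, h6, h7]
  have h3 : X x ≤ 0 := h1.trans h2
  have h4 : 0 < wt w f t x := Real.exp_pos _
  have h5 : ZZ w f t x - 1 - (m x) ^ 2 ≤ 0 := by
    by_contra hc
    push Not at hc
    exact absurd (mul_pos h4 hc) (not_lt.2 h3)
  linarith only [h5]

/-- lower bound in (D7) -/
theorem Out2.Z_ge (H : Out2 g w f t m md Rs x0 x1) {x : ℝ} (hx : x ∈ Icc x0 x1) :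
    -((m x) ^ 2 + (rr w f t x) ^ 2 * Rs / 1640) ≤ ZZ w f t x - 1 := by
  set X : ℝ → ℝ := fun x => wt w f t x * (ZZ w f t x - 1 + (m x) ^ 2 +
    (rr w f t x) ^ 2 * Rs / 1640) with hX
  have hd : ∀ y ∈ Icc x0 x1, HasDerivAt X (r1 w f t y * (wt w f t y *
      (39 * (Real.cosh (uu w f t y) - 1) - (rr w f t y) ^ 2 * (PP w f t y) ^ 2 / 4
        + (rr w f t y) ^ 2 * (Rs - RR w f t y) / 40
        + (39 + 2 * md y) * (m y) ^ 2))) y := by
    intro y hy
    have h1 := hasDerivAt_ZZ H.slice (H.mem hy)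
    have h2 := H.m_der y hy
    have h2' := hasDerivAt_rr H.slice (H.mem hy)
    have h3 := (hasDerivAt_wt H.slice (H.mem hy)).mul (((h1.sub_const 1).add (h2.pow 2)).add
      (((h2'.pow 2).mul_const Rs).div_const 1640))
    refine h3.congr_deriv ?_
    simp only [Pi.pow_apply, Pi.add_apply]
    ring
  have hm : AntitoneOn X (Icc x0 x1) := by
    refine antitoneOn_of_deriv_nonpos (convex_Icc x0 x1)
      (fun y hy => (hd y hy).continuousAt.continuousWithinAt)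
      (fun y hy => (hd y (interior_subset hy)).differentiableAt.differentiableWithinAt) ?_
    intro y hy
    rw [interior_Icc] at hy
    have hy' : y ∈ Icc x0 x1 := Ioo_subset_Icc_self hy
    rw [(hd y hy').deriv]
    have h1 := r1_neg (H.mem hy') (H.rs_pos y hy)
    refine mul_nonpos_of_nonpos_of_nonneg h1.le ?_
    refine mul_nonneg (Real.exp_pos _).le ?_
    have h2 := Real.one_le_cosh (uu w f t y)
    have h3 := H.P_sq hy'
    have h4 : 0 ≤ (rr w f t y) ^ 2 * (Rs - RR w f t y) :=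
      mul_nonneg (sq_nonneg _) (sub_nonneg.2 (H.R_le y hy'))
    have h5 := H.md_ge y hy'
    have h6 : 34 * (m y) ^ 2 ≤ (39 + 2 * md y) * (m y) ^ 2 :=
      mul_le_mul_of_nonneg_right (by linarith only [h5]) (sq_nonneg _)
    linarith only [sq_nonneg (m y), h6, h4, h3, h2]
  have h1 := hm hx H.mem1 hx.2
  have h2 : 0 ≤ X x1 := by
    refine mul_nonneg (Real.exp_pos _).le ?_
    have h3 := one_le_Zs H.bub H.u_pos
    have hsm := (H.hu x1 H.mem1).trans (H.small x1 H.mem1)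
    have h3' := Zs_sub_one_le H.bub H.u_pos hsm
    have h4 := Zs_pos H.bub H.u_pos
    have h5 : ZZ w f t x1 = Zs g (uu w f t x1) * (th g w f t x1 + 1) := by
      unfold th; field_simp; ring
    have h6 : Zs g (uu w f t x1) * (-(th g w f t x1)) ≤
        Zs g (uu w f t x1) * (g (uu w f t x1) ^ 2 / 148) + (rr w f t x1) ^ 2 * Rs / 1640 := by
      have := mul_le_mul_of_nonneg_left H.th_ge h4.le
      refine this.trans (le_of_eq ?_)
      field_simp
    have h7 := H.u_sq H.mem1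
    have h8 := g_sq_le H.bub H.u_pos
    have h9 : (uu w f t x1) ^ 2 ≤ 1 / 10000 := by
      have := pow_le_pow_left₀ (abs_nonneg _) hsm 2
      rw [sq_abs] at this
      linarith only [this]
    have h10 : Zs g (uu w f t x1) ≤ 2 := by linarith only [h3', h9]
    have h11 : Zs g (uu w f t x1) * (g (uu w f t x1) ^ 2 / 148) ≤
        2 * (g (uu w f t x1) ^ 2 / 148) := mul_le_mul_of_nonneg_right h10 (by positivity)
    nlinarith only [h3, h5, h6, h7, h8, h11]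
  have h3 : 0 ≤ X x := h2.trans h1
  have h4 : 0 < wt w f t x := Real.exp_pos _
  have h5 : 0 ≤ ZZ w f t x - 1 + (m x) ^ 2 + (rr w f t x) ^ 2 * Rs / 1640 := by
    by_contra hc
    push Not at hc
    exact absurd (mul_neg_of_pos_of_neg h4 hc) (not_lt.2 h3)
  linarith only [h5]

/-- (D8) -/
theorem Out2.E0_le (H : Out2 g w f t m md Rs x0 x1) {x : ℝ} (hx : x ∈ Icc x0 x1) :
    |E0 w f t x| ≤ Rs / 2 + 1200 * (m x) ^ 2 / (rr w f t x) ^ 2 := by
  have h1 := H.Z_le hx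
  have h2 := H.Z_ge hx
  have h3 := E3' (w := w) (f := f) (t := t) x
  have h4 := H.cosh_le hx
  have h5 := H.P_sq hx
  have h5' : 0 ≤ (rr w f t x) ^ 2 * (PP w f t x) ^ 2 := by positivity
  have h6 := Real.one_le_cosh (uu w f t x)
  have hr := rr_pos (w := w) (f := f) (t := t) x
  have h7 := mul_nonneg (sq_nonneg (rr w f t x)) (H.R_nonneg x hx)
  have h8 := mul_nonneg (sq_nonneg (rr w f t x)) (sub_nonneg.2 (H.R_le x hx))
  have h9 := mul_nonneg (sq_nonneg (rr w f t x)) H.Rs_nonneg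
  have h10 := sq_nonneg (m x)
  have key : |(rr w f t x) ^ 2 * E0 w f t x| ≤
      (rr w f t x) ^ 2 * (Rs / 2) + 1200 * (m x) ^ 2 := by
    rw [abs_le]
    constructor <;> nlinarith only [h1, h2, h3, h4, h5, h7, h8, h5', h6]
  rw [abs_mul, abs_of_pos (by positivity : 0 < (rr w f t x) ^ 2)] at key
  have h11 : |E0 w f t x| * (rr w f t x) ^ 2 ≤
      (Rs / 2 + 1200 * (m x) ^ 2 / (rr w f t x) ^ 2) * (rr w f t x) ^ 2 := by
    rw [add_mul, div_mul_cancel₀ _ (by positivity)]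
    linarith only [key]
  exact le_of_mul_le_mul_right h11 (by positivity)

end

end Vale.Agent.P244.ST.M2
end

section

/-!
# P244-ST : conditions on the parameters that hold for `ε` small (or `N` large, then `ε` small)
-/

open Set Filter
open scoped ContDiff Topology

namespace Vale.Agent.P244.ST.M

open Vale.Agent.P244.ST

/-- all parameters except `ε` are large/small in absolute terms -/
structure PosNE (K : ℝ) (q : Par) : Prop where
  B : K ≤ q.B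
  rho0 : 0 < q.rho0
  rho0' : q.rho0 ≤ 1 / K
  BV : K ≤ q.BV
  MU : K ≤ q.MU
  MP : K ≤ q.MP
  MV : K ≤ q.MV
  CU : K ≤ q.CU
  CP : K ≤ q.CP
  CV : K ≤ q.CV
  GR : K ≤ q.GR
  sg : 0 < q.sg
  sg' : q.sg ≤ 1 / K
  d0 : 0 < q.d0
  d0' : q.d0 ≤ 1 / K
  rb : 0 < q.rb
  rb' : q.rb ≤ 1 / K
  N : K ≤ q.N

/-- replace `ε` -/
def setE (q : Par) (eps : ℝ) : Par :=
  ⟨q.B, q.rho0, q.BV, q.MU, q.MP, q.MV, q.CU, q.CP, q.CV, q.GR, q.sg, q.d0, q.rb, q.N, eps⟩

/-- replace `N` and `ε` -/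
def setN (q : Par) (N eps : ℝ) : Par :=
  ⟨q.B, q.rho0, q.BV, q.MU, q.MP, q.MV, q.CU, q.CP, q.CV, q.GR, q.sg, q.d0, q.rb, N, eps⟩

/-- Conditions that hold for `ε` small. -/
theorem ev_of_eps {C : Par → Prop} {K : ℝ} (hK : 0 < K)
    (h : ∀ q : Par, PosNE K q → ∃ e > (0 : ℝ), ∀ eps ∈ Ioc 0 e, C (setE q eps)) : Ev C := by
  have h' : 0 < 1 / K := by positivity
  refine ⟨K, fun B hB => ?_⟩
  refine ⟨1 / K, h', fun rho0 h1 => ?_⟩
  refine ⟨K, fun BV h2 => ?_⟩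
  refine ⟨K, fun MU h3 => ?_⟩
  refine ⟨K, fun MP h4 => ?_⟩
  refine ⟨K, fun MV h5 => ?_⟩
  refine ⟨K, fun CU h6 => ?_⟩
  refine ⟨K, fun CP h7 => ?_⟩
  refine ⟨K, fun CV h8 => ?_⟩
  refine ⟨K, fun GR h9 => ?_⟩
  refine ⟨1 / K, h', fun sg h10 => ?_⟩
  refine ⟨1 / K, h', fun d0 h11 => ?_⟩
  refine ⟨1 / K, h', fun rb h12 => ?_⟩
  refine ⟨K, fun N h13 => ?_⟩
  exact h ⟨B, rho0, BV, MU, MP, MV, CU, CP, CV, GR, sg, d0, rb, N, 1⟩
    ⟨hB, h1.1, h1.2, h2, h3, h4, h5, h6, h7, h8, h9, h10.1, h10.2, h11.1, h11.2, h12.1, h12.2, h13⟩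

/-- Conditions that hold for `N` large and then `ε` small. -/
theorem ev_of_N {C : Par → Prop} {K : ℝ} (hK : 0 < K)
    (h : ∀ q : Par, PosNE K q → ∃ N₀ : ℝ, ∀ N ≥ N₀, ∃ e > (0 : ℝ), ∀ eps ∈ Ioc 0 e,
      C (setN q N eps)) : Ev C := by
  have h' : 0 < 1 / K := by positivity
  refine ⟨K, fun B hB => ?_⟩
  refine ⟨1 / K, h', fun rho0 h1 => ?_⟩
  refine ⟨K, fun BV h2 => ?_⟩
  refine ⟨K, fun MU h3 => ?_⟩
  refine ⟨K, fun MP h4 => ?_⟩
  refine ⟨K, fun MV h5 => ?_⟩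
  refine ⟨K, fun CU h6 => ?_⟩
  refine ⟨K, fun CP h7 => ?_⟩
  refine ⟨K, fun CV h8 => ?_⟩
  refine ⟨K, fun GR h9 => ?_⟩
  refine ⟨1 / K, h', fun sg h10 => ?_⟩
  refine ⟨1 / K, h', fun d0 h11 => ?_⟩
  refine ⟨1 / K, h', fun rb h12 => ?_⟩
  exact h ⟨B, rho0, BV, MU, MP, MV, CU, CP, CV, GR, sg, d0, rb, K, 1⟩
    ⟨hB, h1.1, h1.2, h2, h3, h4, h5, h6, h7, h8, h9, h10.1, h10.2, h11.1, h11.2, h12.1, h12.2,
      le_refl K⟩

/-- `F ε ≤ c` for `ε` small. -/
theorem exists_mul_le {F c : ℝ} (hF : 0 ≤ F) (hc : 0 < c) :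
    ∃ e > (0 : ℝ), ∀ eps ∈ Ioc 0 e, F * eps ≤ c := by
  refine ⟨c / (F + 1), by positivity, fun eps he => ?_⟩
  have h1 : F * eps ≤ (F + 1) * (c / (F + 1)) :=
    mul_le_mul (by linarith only []) he.2 he.1.le (by linarith only [hF])
  rwa [mul_div_cancel₀ _ (by linarith only [hF] : F + 1 ≠ 0)] at h1

end Vale.Agent.P244.ST.M
end

section

/-!
# P244-ST, block M2 : the outer region, form of `Skel.FO`
-/

open Set Filter
open scoped ContDiff Topology

namespace Vale.Agent.P244.ST.M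

open Vale.Agent.P244.ST

noncomputable section

/-- the constant in the estimate of `RB - η(1+t)` -/
def F2 (q : Par) : ℝ := q.GR * K1 q ^ 2 * (100 ^ gam * q.N ^ (2 + 2 * bb - 2 * gam))

/-- smallness of the parameters for the outer region -/
structure FOsmall (q : Par) : Prop where
  rho0 : 0 < q.rho0
  rho0_le : q.rho0 ≤ 1
  MU : 0 ≤ q.MU
  MP : 0 ≤ q.MP
  MV : 0 ≤ q.MV
  CU : 0 ≤ q.CU
  CP : 0 ≤ q.CP
  CV : 0 ≤ q.CV
  GR : 0 ≤ q.GR
  N : 5 ≤ q.N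
  eps : 0 < q.eps
  eps_le : q.eps ≤ 1
  xi : K1 q * q.N ^ bb * q.eps ≤ 1 / 10 ^ 6
  rb : F2 q * q.eps ≤ q.eta

theorem K1_nonneg_of {q : Par} (h1 : 0 < q.rho0) (h2 : 0 ≤ q.MU) (h3 : 0 ≤ q.MP) (h4 : 0 ≤ q.MV)
    (h5 : 0 ≤ q.CU) (h6 : 0 ≤ q.CP) (h7 : 0 ≤ q.CV) : 0 ≤ K1 q := by
  unfold K1; positivity

theorem ev_FOsmall : Ev FOsmall := by
  refine ev_of_eps (K := 5) (by norm_num) fun q hq => ?_
  have h5 : (0 : ℝ) ≤ 5 := by norm_num
  have hMU := h5.trans hq.MU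
  have hMP := h5.trans hq.MP
  have hMV := h5.trans hq.MV
  have hCU := h5.trans hq.CU
  have hCP := h5.trans hq.CP
  have hCV := h5.trans hq.CV
  have hGR := h5.trans hq.GR
  have hK1 : 0 ≤ K1 q := K1_nonneg_of hq.rho0 hMU hMP hMV hCU hCP hCV
  have hN : 0 < q.N := by linarith only [hq, hq.N]
  have hη : 0 < q.eta := by unfold Par.eta; positivity
  obtain ⟨e1, he1, h1⟩ := exists_mul_le (F := K1 q * q.N ^ bb) (c := 1 / 10 ^ 6)
    (by positivity) (by norm_num)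
  obtain ⟨e2, he2, h2⟩ := exists_mul_le (F := F2 q) (c := q.eta) (by unfold F2; positivity) hη
  refine ⟨min 1 (min e1 e2), lt_min one_pos (lt_min he1 he2), fun eps he => ?_⟩
  have a1 : eps ≤ 1 := he.2.trans (min_le_left _ _)
  have a2 : eps ≤ e1 := he.2.trans ((min_le_right _ _).trans (min_le_left _ _))
  have a3 : eps ≤ e2 := he.2.trans ((min_le_right _ _).trans (min_le_right _ _))
  exact
    { rho0 := hq.rho0
      rho0_le := hq.rho0'.trans (by norm_num)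
      MU := hMU
      MP := hMP
      MV := hMV
      CU := hCU
      CP := hCP
      CV := hCV
      GR := hGR
      N := hq.N
      eps := he.1
      eps_le := a1
      xi := h1 eps ⟨he.1, a2⟩
      rb := h2 eps ⟨he.1, a3⟩ }

theorem bb_pos : 3 < bb := by unfold bb; linarith only [M2.kap_lt]

theorem bb_lt : bb < 4 := by unfold bb; linarith only [M2.kap_gt]

theorem lam3 : lam 3 = bb / 2 := by unfold lam bb; norm_num; ring

theorem gam_eq : gam = 2 + bb / 20 := by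
  unfold gam
  rw [lam3]
  unfold aa
  ring

variable {q : Par} {w f : Fn} {t : ℝ}

theorem K1_nonneg (hq : FOsmall q) : 0 ≤ K1 q :=
  K1_nonneg_of hq.rho0 hq.MU hq.MP hq.MV hq.CU hq.CP hq.CV

theorem KK_le (hq : FOsmall q) : M2.KK q ≤ K1 q * q.rho0 ^ 4 := by
  have h := hq.rho0
  have h4 : 0 < q.rho0 ^ 4 := by positivity
  unfold K1 M2.KK
  rw [div_mul_cancel₀ _ h4.ne']

/-- `A = ε r^b y^{-b}` -/
theorem A_le (hq : FOsmall q) (ht : t < 1) {x : ℝ} (hy : q.rho0 ≤ yv w f t x) :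
    q.rho0 ^ 4 * q.A t ≤ q.eps * (rr w f t x) ^ bb := by
  have hτ := M2.tau_pos ht
  have hs := Real.sqrt_pos.2 hτ
  have hy0 := M2.yv_pos (w := w) (f := f) ht x
  have h1 : (rr w f t x) ^ bb = (yv w f t x) ^ bb * (tau t) ^ (lam 3) := by
    rw [← M2.yv_mul ht x, Real.mul_rpow hy0.le hs.le, lam3, Real.sqrt_eq_rpow,
      ← Real.rpow_mul hτ.le]
    congr 2
    ring
  have h2 : q.rho0 ^ 4 ≤ (yv w f t x) ^ bb := by
    calc q.rho0 ^ 4 = q.rho0 ^ ((4 : ℕ) : ℝ) := (Real.rpow_natCast _ _).symm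
      _ ≤ q.rho0 ^ bb := Real.rpow_le_rpow_of_exponent_ge hq.rho0 hq.rho0_le
          (by push_cast; exact bb_lt.le)
      _ ≤ (yv w f t x) ^ bb := Real.rpow_le_rpow hq.rho0.le hy (by linarith only [bb_pos])
  rw [h1]
  unfold Par.A
  have h3 : 0 ≤ (tau t) ^ (lam 3) := Real.rpow_nonneg hτ.le _
  have h4 := mul_le_mul_of_nonneg_right h2 (mul_nonneg hq.eps.le h3)
  calc q.rho0 ^ 4 * (q.eps * tau t ^ lam 3) ≤ yv w f t x ^ bb * (q.eps * tau t ^ lam 3) := h4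
    _ = q.eps * (yv w f t x ^ bb * tau t ^ lam 3) := by ring

theorem A_nonneg (hq : FOsmall q) (ht : t < 1) : 0 ≤ q.A t :=
  mul_nonneg hq.eps.le (Real.rpow_nonneg (M2.tau_pos ht).le _)

theorem xi_nonneg (hq : FOsmall q) (x : ℝ) : 0 ≤ xi q (rr w f t x) :=
  mul_nonneg (mul_nonneg (K1_nonneg hq) hq.eps.le) (Real.rpow_nonneg (M2.rr_pos x).le _)

/-- `c A ≤ ξ` if `c ≤ KK` -/
theorem cA_le (hq : FOsmall q) (ht : t < 1) {x : ℝ} (hy : q.rho0 ≤ yv w f t x) {c : ℝ}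
    (hc0 : 0 ≤ c) (hc : c ≤ M2.KK q) : c * q.A t ≤ xi q (rr w f t x) := by
  have h1 := A_le (w := w) (f := f) hq ht hy
  have hA := A_nonneg hq ht
  have hK := K1_nonneg hq
  calc c * q.A t ≤ (K1 q * q.rho0 ^ 4) * q.A t :=
        mul_le_mul_of_nonneg_right (hc.trans (KK_le hq)) hA
    _ = K1 q * (q.rho0 ^ 4 * q.A t) := by ring
    _ ≤ K1 q * (q.eps * (rr w f t x) ^ bb) := mul_le_mul_of_nonneg_left h1 hK
    _ = xi q (rr w f t x) := by unfold xi; ring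

/-- `c ε r^b ≤ ξ` if `c ≤ KK` -/
theorem cr_le (hq : FOsmall q) {x : ℝ} {c : ℝ} (hc : c ≤ M2.KK q) :
    c * (q.eps * (rr w f t x) ^ bb) ≤ xi q (rr w f t x) := by
  have hr : 0 ≤ q.eps * (rr w f t x) ^ bb :=
    mul_nonneg hq.eps.le (Real.rpow_nonneg (M2.rr_pos x).le _)
  have hK := K1_nonneg hq
  have h4 : q.rho0 ^ 4 ≤ 1 := pow_le_one₀ hq.rho0.le hq.rho0_le
  have h5 : K1 q * q.rho0 ^ 4 ≤ K1 q := by linarith only [mul_nonneg (sub_nonneg.2 hK) (sub_nonneg.2 h4)]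
  calc c * (q.eps * (rr w f t x) ^ bb) ≤ K1 q * (q.eps * (rr w f t x) ^ bb) :=
        mul_le_mul_of_nonneg_right ((hc.trans (KK_le hq)).trans h5) hr
    _ = xi q (rr w f t x) := by unfold xi; ring

/-- the bounds of the outer region from (b4), (b5) -/
theorem outer_xi {g : ℝ → ℝ} (hq : FOsmall q) (ht : t < 1) {x : ℝ}
    (hb : BootAt q g w f t x) (hy : q.rho0 ≤ yv w f t x) :
    |uu w f t x| ≤ xi q (rr w f t x) ∧
    rr w f t x * |PP w f t x| ≤ xi q (rr w f t x) ∧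
    (rr w f t x) ^ 2 * |VV w f t x| ≤ xi q (rr w f t x) := by
  have hτ := M2.tau_pos ht
  have hr := M2.rr_pos (w := w) (f := f) (t := t) x
  have hA0 := A_nonneg hq ht
  have h1 := hq.MU; have h2 := hq.MP; have h3 := hq.MV
  have h4 := hq.CU; have h5 := hq.CP; have h6 := hq.CV
  rcases le_total (yv w f t x) 25 with hy2 | hy2
  · obtain ⟨e1, e2, e3⟩ := hb.b4 hy hy2
    refine ⟨?_, ?_, ?_⟩
    · exact e1.trans (cA_le hq ht hy h1 (by unfold M2.KK; linarith only [h2, h3, h4, h5, h6]))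
    · have e4 : rr w f t x * |PP w f t x| ≤ rr w f t x * (q.MP * q.A t / Real.sqrt (tau t)) :=
        mul_le_mul_of_nonneg_left e2 hr.le
      have e5 : rr w f t x * (q.MP * q.A t / Real.sqrt (tau t)) =
          yv w f t x * (q.MP * q.A t) := by
        unfold yv; ring
      rw [e5] at e4
      have e6 : yv w f t x * (q.MP * q.A t) ≤ 25 * (q.MP * q.A t) :=
        mul_le_mul_of_nonneg_right hy2 (mul_nonneg h2 hA0)
      refine e4.trans (e6.trans ?_)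
      rw [← mul_assoc]
      exact cA_le hq ht hy (by positivity) (by unfold M2.KK; linarith only [h1, h3, h4, h5, h6])
    · have e4 : (rr w f t x) ^ 2 * |VV w f t x| ≤ (rr w f t x) ^ 2 * (q.MV * q.A t / tau t) :=
        mul_le_mul_of_nonneg_left e3 (by positivity)
      have e5 : (rr w f t x) ^ 2 * (q.MV * q.A t / tau t) =
          (yv w f t x) ^ 2 * (q.MV * q.A t) := by
        unfold yv
        rw [div_pow, Real.sq_sqrt hτ.le]; ring
      rw [e5] at e4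
      have hy3 : (yv w f t x) ^ 2 ≤ 625 := by
        have := M2.yv_pos (w := w) (f := f) ht x
        nlinarith only [hy2, this]
      have e6 : (yv w f t x) ^ 2 * (q.MV * q.A t) ≤ 625 * (q.MV * q.A t) :=
        mul_le_mul_of_nonneg_right hy3 (mul_nonneg h3 hA0)
      refine e4.trans (e6.trans ?_)
      rw [← mul_assoc]
      exact cA_le hq ht hy (by positivity) (by unfold M2.KK; linarith only [h1, h2, h4, h5, h6])
  · obtain ⟨e1, e2, e3⟩ := hb.b5 hy2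
    have hrb0 : 0 ≤ q.eps * (rr w f t x) ^ bb :=
      mul_nonneg hq.eps.le (Real.rpow_nonneg hr.le _)
    refine ⟨?_, ?_, ?_⟩
    · have e4 : q.UB t (rr w f t x) ≤ q.CU * (q.eps * (rr w f t x) ^ bb) := by
        unfold Par.UB
        have : 0 ≤ 300 * tau t * (rr w f t x) ^ (bb - 2) := by positivity
        have h7 := mul_nonneg (mul_nonneg h4 hq.eps.le) this
        nlinarith only [h7]
      exact e1.trans (e4.trans (cr_le hq (by unfold M2.KK; linarith only [h1, h2, h3, h5, h6])))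
    · have e4 : rr w f t x * q.PB t (rr w f t x) ≤ q.CP * (q.eps * (rr w f t x) ^ bb) := by
        unfold Par.PB
        have h8 : rr w f t x * (rr w f t x) ^ (bb - 1) = (rr w f t x) ^ bb := by
          rw [Real.rpow_sub hr, Real.rpow_one]; field_simp
        have : 0 ≤ rr w f t x * (300 * tau t * (rr w f t x) ^ (bb - 3)) := by positivity
        have h7 := mul_nonneg (mul_nonneg h5 hq.eps.le) this
        calc rr w f t x * (q.CP * q.eps * ((rr w f t x) ^ (bb - 1) -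
              300 * tau t * (rr w f t x) ^ (bb - 3)))
            = q.CP * q.eps * (rr w f t x * (rr w f t x) ^ (bb - 1)) -
              q.CP * q.eps * (rr w f t x * (300 * tau t * (rr w f t x) ^ (bb - 3))) := by ring
          _ ≤ q.CP * (q.eps * (rr w f t x) ^ bb) := by rw [h8]; linarith only [h7]
      exact (mul_le_mul_of_nonneg_left e2 hr.le).trans
        (e4.trans (cr_le hq (by unfold M2.KK; linarith only [h1, h2, h3, h4, h6])))
    · have hexp : Real.exp t ≤ 3 := by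
        have := Real.exp_le_exp.2 ht.le
        linarith only [this, Real.exp_one_lt_d9]
      have e4 : (rr w f t x) ^ 2 * q.VB t (rr w f t x) ≤
          3 * q.CV * (q.eps * (rr w f t x) ^ bb) := by
        unfold Par.VB
        have h8 : (rr w f t x) ^ 2 * (rr w f t x) ^ (bb - 2) = (rr w f t x) ^ bb := by
          rw [Real.rpow_sub hr, show (2 : ℝ) = ((2 : ℕ) : ℝ) by norm_num, Real.rpow_natCast]
          field_simp
        have h9 : 0 ≤ (rr w f t x) ^ 2 * (300 * tau t * (rr w f t x) ^ (bb - 4)) := by positivity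
        have h7 := mul_nonneg (mul_nonneg (mul_nonneg h6 hq.eps.le) (Real.exp_pos t).le) h9
        have h10 := mul_nonneg (mul_nonneg h6 hrb0) (sub_nonneg.2 hexp)
        calc (rr w f t x) ^ 2 * (q.CV * q.eps * Real.exp t * ((rr w f t x) ^ (bb - 2) -
              300 * tau t * (rr w f t x) ^ (bb - 4)))
            = q.CV * q.eps * Real.exp t * ((rr w f t x) ^ 2 * (rr w f t x) ^ (bb - 2)) -
              q.CV * q.eps * Real.exp t *
                ((rr w f t x) ^ 2 * (300 * tau t * (rr w f t x) ^ (bb - 4))) := by ring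
          _ ≤ 3 * q.CV * (q.eps * (rr w f t x) ^ bb) := by rw [h8]; linarith only [h10, h7]
      exact (mul_le_mul_of_nonneg_left e3 (by positivity)).trans
        (e4.trans (cr_le hq (by unfold M2.KK; linarith only [h1, h2, h3, h4, h5])))

theorem xi_le (hq : FOsmall q) {x : ℝ} (hN : rr w f t x ≤ q.N) :
    xi q (rr w f t x) ≤ 1 / 10 ^ 6 := by
  have hK := K1_nonneg hq
  have h1 : (rr w f t x) ^ bb ≤ q.N ^ bb :=
    Real.rpow_le_rpow (M2.rr_pos x).le hN (by linarith only [bb_pos])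
  refine le_trans ?_ hq.xi
  unfold xi
  have h2 := mul_le_mul_of_nonneg_left h1 (mul_nonneg hK hq.eps.le)
  linarith only [h2]

/-- `RB ≤ 3 η` in the outer region -/
theorem RB_outer (hq : FOsmall q) (ht0 : 0 ≤ t) (ht : t < 1) {x : ℝ}
    (hu : |uu w f t x| ≤ xi q (rr w f t x)) (hN : rr w f t x ≤ q.N) :
    q.RB t (rr w f t x) (uu w f t x) ≤ 3 * q.eta := by
  have hr := M2.rr_pos (w := w) (f := f) (t := t) x
  have hxi := xi_le (w := w) (f := f) (t := t) hq hN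
  have hxi0 := xi_nonneg (w := w) (f := f) (t := t) hq x
  have hNp : 0 < q.N := by linarith only [hN, hr, hq.N]
  have hη : 0 < q.eta := by unfold Par.eta; positivity
  have hτ := M2.tau_pos ht
  have hgam : 0 < gam := by rw [gam_eq]; linarith only [bb_pos]
  have h1 : Real.cosh (uu w f t x) - 1 ≤ (xi q (rr w f t x)) ^ 2 := by
    have h2 := M2.cosh_sub_one_le (u := uu w f t x) (by linarith only [hu, hxi])
    have h3 : (uu w f t x) ^ 2 ≤ (xi q (rr w f t x)) ^ 2 := by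
      rw [← sq_abs]
      exact pow_le_pow_left₀ (abs_nonneg _) hu 2
    linarith only [sq_nonneg (uu w f t x), h3, h2]
  have h2 : (tau t + (rr w f t x) ^ 2 / 100) ^ (-gam) ≤ ((rr w f t x) ^ 2 / 100) ^ (-gam) :=
    Real.rpow_le_rpow_of_nonpos (by positivity) (by linarith only [hτ]) (by linarith only [hgam])
  have h3 : ((rr w f t x) ^ 2 / 100) ^ (-gam) = 100 ^ gam * (rr w f t x) ^ (-(2 * gam)) := by
    rw [Real.div_rpow (by positivity) (by norm_num), Real.rpow_neg (by norm_num : (0:ℝ) ≤ 100),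
      div_inv_eq_mul, mul_comm, ← Real.rpow_natCast (rr w f t x) 2, ← Real.rpow_mul hr.le]
    congr 2
    push_cast
    ring
  have h4 : q.eps ^ (-(2 * aa)) * q.eps ^ 2 ≤ q.eps := by
    rw [← Real.rpow_natCast q.eps 2, ← Real.rpow_add hq.eps]
    calc q.eps ^ (-(2 * aa) + ((2 : ℕ) : ℝ)) ≤ q.eps ^ (1 : ℝ) :=
          Real.rpow_le_rpow_of_exponent_ge hq.eps hq.eps_le (by unfold aa; push_cast; norm_num)
      _ = q.eps := Real.rpow_one _
  have h5 : (rr w f t x) ^ 2 * ((rr w f t x) ^ bb) ^ 2 * (rr w f t x) ^ (-(2 * gam)) ≤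
      q.N ^ (2 + 2 * bb - 2 * gam) := by
    have e1 : (rr w f t x) ^ 2 * ((rr w f t x) ^ bb) ^ 2 * (rr w f t x) ^ (-(2 * gam)) =
        (rr w f t x) ^ (2 + 2 * bb - 2 * gam) := by
      rw [← Real.rpow_natCast ((rr w f t x) ^ bb) 2, ← Real.rpow_mul hr.le,
        ← Real.rpow_natCast (rr w f t x) 2, ← Real.rpow_add hr, ← Real.rpow_add hr]
      congr 1
      push_cast
      ring
    rw [e1]
    refine Real.rpow_le_rpow hr.le hN ?_
    rw [gam_eq]
    linarith only [bb_pos]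
  have hmain : q.GR * (rr w f t x) ^ 2 * (Real.cosh (uu w f t x) - 1) * q.eps ^ (-(2 * aa))
      * (tau t + (rr w f t x) ^ 2 / 100) ^ (-gam) ≤ F2 q * q.eps := by
    have hG := hq.GR
    have hE : 0 ≤ q.eps ^ (-(2 * aa)) := Real.rpow_nonneg hq.eps.le _
    have hR : 0 ≤ 100 ^ gam * (rr w f t x) ^ (-(2 * gam)) := by positivity
    have hc : 0 ≤ Real.cosh (uu w f t x) - 1 := by linarith only [Real.one_le_cosh (uu w f t x)]
    calc q.GR * (rr w f t x) ^ 2 * (Real.cosh (uu w f t x) - 1) * q.eps ^ (-(2 * aa))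
          * (tau t + (rr w f t x) ^ 2 / 100) ^ (-gam)
        ≤ q.GR * (rr w f t x) ^ 2 * (xi q (rr w f t x)) ^ 2 * q.eps ^ (-(2 * aa))
          * (100 ^ gam * (rr w f t x) ^ (-(2 * gam))) := by
          refine mul_le_mul ?_ (h2.trans_eq h3) (Real.rpow_nonneg (by positivity) _) (by (clear * - hG hr hE; positivity))
          refine mul_le_mul_of_nonneg_right ?_ hE
          exact mul_le_mul_of_nonneg_left h1 (by positivity)
      _ = (q.GR * K1 q ^ 2 * 100 ^ gam) * (q.eps ^ (-(2 * aa)) * q.eps ^ 2) *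
          ((rr w f t x) ^ 2 * ((rr w f t x) ^ bb) ^ 2 * (rr w f t x) ^ (-(2 * gam))) := by
          unfold xi; ring
      _ ≤ (q.GR * K1 q ^ 2 * 100 ^ gam) * q.eps * q.N ^ (2 + 2 * bb - 2 * gam) := by
          refine mul_le_mul ?_ h5 (by positivity) (mul_nonneg (by positivity) hq.eps.le)
          exact mul_le_mul_of_nonneg_left h4 (by positivity)
      _ = F2 q * q.eps := by unfold F2; ring
  have := hq.rb
  unfold Par.RB
  (by_contra nlg; linarith only [nlg, mul_pos (sub_pos.2 ht) (sub_pos.2 hη), mul_nonneg (mul_self_nonneg (1 : ℝ)) (sub_nonneg.2 this), mul_nonneg (mul_self_nonneg (1 : ℝ)) (sub_nonneg.2 hmain), mul_nonneg (mul_self_nonneg (1 : ℝ)) (le_of_lt (sub_pos.2 (not_le.1 nlg)))])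

/-- `FO` from the facts at `y = ρ₀`. -/
theorem regO {g : ℝ → ℝ} (hg : IsBub g) (hq : FOsmall q) {T : ℝ} (h : FT q g w f T t)
    (hth : ∀ x ∈ Ioo (0 : ℝ) 1, yv w f t x = q.rho0 → th g w f t x ≤ 0 ∧
      -th g w f t x ≤ g (uu w f t x) ^ 2 / 148 +
        (rr w f t x) ^ 2 * (3 * q.eta) / (1640 * Zs g (uu w f t x)))
    {x : ℝ} (hx : x ∈ Ico (0 : ℝ) 1) (hy : q.rho0 ≤ yv w f t x) (hN : rr w f t x ≤ q.N) :
    FO q w f t x := by
  have ht0 : 0 ≤ t := h.mem.1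
  have ht1 : t < 1 := h.mem.2.trans_le h.T_le
  have hsl := M2.slice_of_confSol h.sol h.mem
  have hrs := h.qual.rs_pos t h.mem
  have h0 : q.rho0 < rr w f t 0 := by
    have := h.eq_ge; have := hq.N; have := hq.rho0_le
    linarith
  obtain ⟨x1, hx1, hy1⟩ := M2.exists_x1 hsl ht0 ht1 hq.rho0 h0
  have hxx1 : x ≤ x1 := by
    by_contra hc
    push Not at hc
    have := M2.yv_anti hsl ht1 hrs ⟨hx1.1.le, hx1.2⟩ hx hc
    linarith only [hy, hy1, this]
  have hmem : ∀ z ∈ Icc x x1, z ∈ Ico (0 : ℝ) 1 := fun z hz =>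
    ⟨hx.1.trans hz.1, hz.2.trans_lt hx1.2⟩
  have hyz : ∀ z ∈ Icc x x1, q.rho0 ≤ yv w f t z := fun z hz => by
    rw [← hy1]
    exact (M2.yv_anti hsl ht1 hrs).antitoneOn (hmem z hz) (hmem x1 ⟨hxx1, le_refl _⟩) hz.2
  have hNz : ∀ z ∈ Icc x x1, rr w f t z ≤ q.N := fun z hz =>
    ((M2.rr_anti hsl hrs).antitoneOn hx (hmem z hz) hz.1).trans hN
  have hB : ∀ z ∈ Icc x x1, _ := fun z hz => outer_xi hq ht1 (h.boot z (hmem z hz)) (hyz z hz)
  have hRB : ∀ z ∈ Icc x x1, q.RB t (rr w f t z) (uu w f t z) ≤ 3 * q.eta := fun z hz =>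
    RB_outer hq ht0 ht1 (hB z hz).1 (hNz z hz)
  obtain ⟨th1, th2⟩ := hth x1 hx1 hy1
  have HO : M2.Out2 g w f t (fun z => xi q (rr w f t z)) (fun _ => bb) (3 * q.eta) x x1 :=
    { bub := hg
      slice := hsl
      hx0 := hx.1
      hx01 := hxx1
      hx1 := hx1.2
      rs_pos := fun z hz => hrs z ⟨hx.1.trans_lt hz.1, hz.2.trans hx1.2⟩
      R_nonneg := fun z hz => h.qual.R_nonneg t h.mem z (hmem z hz)
      R_le := fun z hz => ((h.boot z (hmem z hz)).b3).trans (hRB z hz)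
      m_nonneg := fun z _ => xi_nonneg hq z
      m_der := fun z hz => by
        have hz' : z ∈ Ioo (-1 : ℝ) 1 := ⟨by linarith only [hmem, hz, (hmem z hz).1], (hmem z hz).2⟩
        have e1 := M2.hasDerivAt_rr hsl hz'
        have e2 := (e1.rpow_const (p := bb) (Or.inl (M2.rr_pos z).ne')).const_mul (K1 q * q.eps)
        refine e2.congr_deriv ?_
        rw [Real.rpow_sub (M2.rr_pos z), Real.rpow_one]
        have := (M2.rr_pos (w := w) (f := f) (t := t) z).ne'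
        unfold xi
        field_simp
      md_ge := fun _ _ => by linarith only [bb_pos]
      hu := fun z hz => (hB z hz).1
      hP := fun z hz => by
        rw [abs_mul, abs_of_pos (M2.rr_pos z)]
        exact (hB z hz).2.1
      small := fun z hz => (xi_le hq (hNz z hz)).trans (by norm_num)
      u_pos := ((h.boot x1 ⟨hx1.1.le, hx1.2⟩).b1 hx1.1 hy1.le).1
      th_nonpos := th1
      th_ge := th2 }
  have hxm : x ∈ Icc x x1 := ⟨le_refl x, hxx1⟩
  have hsq := sq_nonneg (xi q (rr w f t x))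
  refine
    { xi_le := xi_le hq hN
      u_le := (hB x hxm).1
      P_le := (hB x hxm).2.1
      V_le := (hB x hxm).2.2
      Z_le := (HO.Z_le hxm).trans (by linarith only [hsq])
      Z_ge := le_trans (by linarith only [hsq]) (HO.Z_ge hxm)
      RB_le := hRB x hxm
      R_nonneg := h.qual.R_nonneg t h.mem x hx
      R_le := ((h.boot x hx).b3).trans (hRB x hxm)
      E0_le := (HO.E0_le hxm).trans ?_ }
  have hr2 : 0 < (rr w f t x) ^ 2 := by
    have := M2.rr_pos (w := w) (f := f) (t := t) x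
    positivity
  have h6 : 1200 * xi q (rr w f t x) ^ 2 / (rr w f t x) ^ 2 ≤
      3000 * xi q (rr w f t x) ^ 2 / (rr w f t x) ^ 2 :=
    div_le_div_of_nonneg_right (by linarith only [hsq]) hr2.le
  linarith only [h6]

end

end Vale.Agent.P244.ST.M
end

section

/-!
# P244-ST, block M2 : (D5) and (D6), bounds for `θ` and `E0` in region I at a fixed time
-/

open Set Filter Topology
open scoped ContDiff

namespace Vale.Agent.P244.ST.M2

noncomputable section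

/-- Comparison principle from the tip `x = 1`: a function which is bounded below and satisfies
`Φ' ≤ -k ρ' Φ` where it is negative is nonnegative, if `ρ → -∞`. -/
theorem tip_nonneg {Φ Φ' ρ ρ' : ℝ → ℝ} {x0 k C : ℝ} (hk : 0 < k)
    (hρ : ∀ x ∈ Ico x0 1, HasDerivAt ρ (ρ' x) x)
    (hρl : Tendsto ρ (𝓝[<] 1) atBot)
    (hΦ : ∀ x ∈ Ico x0 1, HasDerivAt Φ (Φ' x) x)
    (hneg : ∀ x ∈ Ico x0 1, Φ x < 0 → Φ' x ≤ -k * ρ' x * Φ x)
    (hb : ∀ x ∈ Ico x0 1, -C ≤ Φ x) : ∀ x ∈ Ico x0 1, 0 ≤ Φ x := by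
  intro x1 hx1
  by_contra hc
  push Not at hc
  set E : ℝ → ℝ := fun x => Φ x * Real.exp (k * ρ x) with hE
  have hEd : ∀ x ∈ Ico x0 1, HasDerivAt E ((Φ' x + k * ρ' x * Φ x) * Real.exp (k * ρ x)) x := by
    intro x hx
    have h1 := (hΦ x hx).mul (((hρ x hx).const_mul k).exp)
    refine h1.congr_deriv ?_
    ring
  have hE1 : E x1 < 0 := mul_neg_of_neg_of_pos hc (Real.exp_pos _)
  -- `E ≤ E x1` on `[x1,1)`
  have hmono : ∀ x2 ∈ Ico x1 1, E x2 ≤ E x1 := by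
    intro x2 hx2
    have hsub : Icc x1 x2 ⊆ Ico x0 1 := fun y hy => ⟨hx1.1.trans hy.1, hy.2.trans_lt hx2.2⟩
    have hcont : ContinuousOn E (Icc x1 x2) := fun y hy =>
      (hEd y (hsub hy)).continuousAt.continuousWithinAt
    have hcl : IsClosed ({x | E x ≤ E x1} ∩ Icc x1 x2) := by
      have := hcont.preimage_isClosed_of_isClosed isClosed_Icc (isClosed_Iic (a := E x1))
      rw [inter_comm]
      exact this
    have hall : Icc x1 x2 ⊆ {x | E x ≤ E x1} := by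
      refine hcl.Icc_subset_of_forall_exists_gt (le_refl (E x1)) ?_
      rintro y ⟨hy1, hy2⟩ z hz
      have hyE : E y < 0 := lt_of_le_of_lt hy1 hE1
      have hyI : y ∈ Ico x0 1 := hsub ⟨hy2.1, hy2.2.le⟩
      have hnhds : ∀ᶠ v in 𝓝 y, E v < 0 := (hEd y hyI).continuousAt.eventually_lt_const hyE
      obtain ⟨δ, hδ, hball⟩ := Metric.eventually_nhds_iff.1 hnhds
      set v := min (y + δ / 2) (min z x2) with hv
      have hyv : y < v := by
        rw [hv, lt_min_iff, lt_min_iff]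
        exact ⟨by linarith only [hδ], hz, hy2.2⟩
      have hvz : v ≤ z := (min_le_right _ _).trans (min_le_left _ _)
      have hvx : v ≤ x2 := (min_le_right _ _).trans (min_le_right _ _)
      have hvδ : v ≤ y + δ / 2 := min_le_left _ _
      refine ⟨v, ?_, hyv, hvz⟩
      have hsub2 : Icc y v ⊆ Ico x0 1 := fun s hs =>
        hsub ⟨hy2.1.trans hs.1, hs.2.trans hvx⟩
      have hanti : AntitoneOn E (Icc y v) := by
        refine antitoneOn_of_hasDerivWithinAt_nonpos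
          (f' := fun x => (Φ' x + k * ρ' x * Φ x) * Real.exp (k * ρ x)) (convex_Icc _ _)
          (fun s hs => (hEd s (hsub2 hs)).continuousAt.continuousWithinAt) ?_ ?_
        · intro s hs
          rw [interior_Icc] at hs
          exact (hEd s (hsub2 (Ioo_subset_Icc_self hs))).hasDerivWithinAt
        · intro s hs
          rw [interior_Icc] at hs
          have hs' := hsub2 (Ioo_subset_Icc_self hs)
          have hEs : E s < 0 := by
            apply hball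
            rw [Real.dist_eq, abs_lt]
            constructor <;> linarith only [hyv, hvδ, hs, hs.1, hs.2]
          have hΦs : Φ s < 0 := by
            by_contra hcs
            push Not at hcs
            exact absurd hEs (not_lt.2 (mul_nonneg hcs (Real.exp_pos _).le))
          have := hneg s hs' hΦs
          exact mul_nonpos_of_nonpos_of_nonneg (by linarith only [this]) (Real.exp_pos _).le
      exact (hanti (left_mem_Icc.2 hyv.le) (right_mem_Icc.2 hyv.le) hyv.le).trans hy1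
    exact hall (right_mem_Icc.2 hx2.1)
  -- contradiction near the tip
  have h1 : ∀ᶠ x in 𝓝[<] (1 : ℝ), ρ x < -(Real.log ((|C| + 1) / -E x1)) / k :=
    hρl.eventually_lt_atBot _
  have h2 : ∀ᶠ x in 𝓝[<] (1 : ℝ), x ∈ Ico x1 1 := Ico_mem_nhdsLT hx1.2
  obtain ⟨x, hx, hxI⟩ := (h1.and h2).exists
  have h3 := hmono x hxI
  have h4 := hb x ⟨hx1.1.trans hxI.1, hxI.2⟩
  have hA : 0 < (|C| + 1) / -E x1 := div_pos (by positivity) (by linarith only [hE1])
  have h5 : k * ρ x < -(Real.log ((|C| + 1) / -E x1)) := by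
    rw [lt_div_iff₀ hk] at hx
    linarith only [hx]
  have h6 : Real.exp (k * ρ x) < -E x1 / (|C| + 1) := by
    have := Real.exp_lt_exp.2 h5
    rw [Real.exp_neg, Real.exp_log hA, inv_div] at this
    exact this
  have h7 : -(|C|) ≤ Φ x := (neg_le_neg (le_abs_self C)).trans h4
  have h8 : E x = Φ x * Real.exp (k * ρ x) := rfl
  have h9 : -|C| * Real.exp (k * ρ x) ≤ E x1 := by
    refine le_trans ?_ h3
    rw [h8]
    exact mul_le_mul_of_nonneg_right h7 (Real.exp_pos _).le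
  rw [lt_div_iff₀ (by (clear * -; positivity))] at h6
  have h10 := Real.exp_pos (k * ρ x)
  linarith only [h10, h9, h6]

section

variable {w f : Fn} {t : ℝ}

/-- `ρ → -∞` at the tip -/
theorem rho_tendsto (h : Slice w f t) : Tendsto (rho w f t) (𝓝[<] 1) atBot := by
  have hc : ∀ {H : ℝ → ℝ}, ContDiffOn ℝ ∞ H (Icc (-1) 1) →
      Tendsto H (𝓝[<] 1) (𝓝 (H 1)) := by
    intro H hH
    have h1 : ContinuousWithinAt H (Icc (-1) 1) 1 := hH.continuousOn 1 (by simp)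
    exact h1.mono_left (nhdsWithin_le_of_mem (mem_nhdsWithin_of_mem_nhds
      (Ioi_mem_nhds (by norm_num : (-1 : ℝ) < 1)) |> fun hm => by
        filter_upwards [hm, self_mem_nhdsWithin] with y hy1 hy2
        exact ⟨le_of_lt hy1, le_of_lt hy2⟩))
  have hl : Tendsto (fun x : ℝ => Real.log (1 - x ^ 2)) (𝓝[<] 1) atBot := by
    refine Real.tendsto_log_nhdsGT_zero.comp ?_
    refine tendsto_nhdsWithin_iff.2 ⟨?_, ?_⟩
    · have : Continuous fun x : ℝ => 1 - x ^ 2 := by fun_prop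
      have h1 := this.tendsto 1
      norm_num at h1
      exact h1.mono_left nhdsWithin_le_nhds
    · filter_upwards [Ioo_mem_nhdsLT (by norm_num : (-1 : ℝ) < 1)] with y hy
      exact one_sub_sq_pos hy
  have h1 : Tendsto (fun x => f t x + w t x + Real.log (1 - x ^ 2) / 2 - Real.log zeta0)
      (𝓝[<] 1) atBot := by
    refine tendsto_atBot_add_const_right _ _ ?_
    exact ((hc h.hf).add (hc h.hw)).add_atBot (hl.atBot_div_const (by norm_num))
  exact h1.atBot_div_const (by norm_num)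

/-- `(1-x²) ρ_x` is bounded, and `Z ≤ (2/ζ₀) ((1-x²) ρ_x)² cosh u` -/
theorem ZZ_le_cosh (x : ℝ) (hx : x ∈ Ioo (-1 : ℝ) 1) :
    ZZ w f t x ≤ 2 / zeta0 * ((1 - x ^ 2) * r1 w f t x) ^ 2 * Real.cosh (uu w f t x) := by
  have h1 : 0 < 1 - x ^ 2 := one_sub_sq_pos hx
  have hs : 0 < sx x := sx_pos hx
  have hs2 : sx x ^ 2 = 1 - x ^ 2 := Real.sq_sqrt h1.le
  have hz : (0 : ℝ) < zeta0 := by unfold zeta0; norm_num
  have hlog : Real.exp (Real.log (1 - x ^ 2) / 2) = sx x := by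
    rw [show Real.log (1 - x ^ 2) / 2 = Real.log (sx x) by
      unfold sx; rw [Real.log_sqrt h1.le]]
    exact Real.exp_log hs
  have hr2 : rr w f t x ^ 2 = Real.exp (f t x) * Real.exp (w t x) * sx x / zeta0 := by
    have e1 : rr w f t x ^ 2 = Real.exp (f t x + w t x + Real.log (1 - x ^ 2) / 2
        - Real.log zeta0) := by
      unfold rr rho
      rw [← Real.exp_nat_mul]
      congr 1
      push_cast
      ring
    rw [e1, Real.exp_sub, Real.exp_add, Real.exp_add, hlog, Real.exp_log hz]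
  have hu : Real.exp (uu w f t x) = Real.exp (f t x) / Real.exp (w t x) / sx x := by
    unfold uu
    rw [Real.exp_sub, Real.exp_sub, hlog]
  have hch : Real.exp (uu w f t x) / 2 ≤ Real.cosh (uu w f t x) := by
    rw [Real.cosh_eq]
    have := Real.exp_pos (-uu w f t x)
    linarith only [this]
  have hrs : rs w f t x = -(sx x * Real.exp (-w t x)) * r1 w f t x := rfl
  have hZ : ZZ w f t x = 2 / zeta0 * ((1 - x ^ 2) * r1 w f t x) ^ 2 *
      (Real.exp (uu w f t x) / 2) := by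
    unfold ZZ
    rw [hr2, hrs, hu, Real.exp_neg, ← hs2]
    have := (Real.exp_pos (w t x)).ne'
    field_simp
  rw [hZ]
  exact mul_le_mul_of_nonneg_left hch (by (clear * - hz; positivity))

/-- `θ` is bounded above near the tip -/
theorem th_le {g : ℝ → ℝ} (hg : IsBub g) (h : Slice w f t) {x0 : ℝ} (hx0 : x0 ∈ Ioo (0 : ℝ) 1)
    (hu : ∀ x ∈ Ico x0 1, 0 < uu w f t x) : ∃ C : ℝ, ∀ x ∈ Ico x0 1, th g w f t x ≤ C := by
  have hbd : ∀ {H : ℝ → ℝ}, ContDiffOn ℝ ∞ H (Icc (-1) 1) →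
      ∃ B : ℝ, ∀ x ∈ Ico x0 1, |deriv H x| ≤ B := by
    intro H hH
    have h1 : ContinuousOn (derivWithin H (Icc (-1) 1)) (Icc (-1) 1) :=
      hH.continuousOn_derivWithin (uniqueDiffOn_Icc (by norm_num)) (by simp)
    obtain ⟨B, hB⟩ := isCompact_Icc.exists_bound_of_continuousOn h1
    refine ⟨B, fun x hx => ?_⟩
    have hx' : x ∈ Ioo (-1 : ℝ) 1 := ⟨by linarith only [hx0, hx, hx.1, hx0.1], hx.2⟩
    have h2 : derivWithin H (Icc (-1) 1) x = deriv H x :=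
      derivWithin_of_mem_nhds (Icc_mem_nhds hx'.1 hx'.2)
    rw [← h2]
    exact hB x (Ioo_subset_Icc_self hx')
  obtain ⟨Bf, hBf⟩ := hbd h.hf
  obtain ⟨Bw, hBw⟩ := hbd h.hw
  have hz : (0 : ℝ) < zeta0 := by unfold zeta0; norm_num
  refine ⟨2 / zeta0 * (Bf + Bw + 1) ^ 2, fun x hx => ?_⟩
  have hx' : x ∈ Ioo (-1 : ℝ) 1 := ⟨by linarith only [hx0, hx, hx.1, hx0.1], hx.2⟩
  have hxp : 0 < x := lt_of_lt_of_le hx0.1 hx.1
  have h1 : 0 < 1 - x ^ 2 := one_sub_sq_pos hx'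
  have hr1 : (1 - x ^ 2) * r1 w f t x =
      ((1 - x ^ 2) * (deriv (f t) x + deriv (w t) x) - x) / 2 := by
    have hdf := hasDerivAt_of_smooth h.f' hx'
    have hdw := hasDerivAt_of_smooth h.w' hx'
    have hdl : HasDerivAt (fun x : ℝ => Real.log (1 - x ^ 2)) (-(2 * x) / (1 - x ^ 2)) x := by
      have := ((hasDerivAt_pow 2 x).const_sub 1).log h1.ne'
      refine this.congr_deriv ?_
      norm_num
    have hd : HasDerivAt (rho w f t)
        ((deriv (f t) x + deriv (w t) x + -(2 * x) / (1 - x ^ 2) / 2) / 2) x :=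
      (((hdf.add hdw).add (hdl.div_const 2)).sub_const _).div_const 2
    unfold r1
    rw [hd.deriv]
    field_simp
    ring
  have hb1 : |(1 - x ^ 2) * r1 w f t x| ≤ Bf + Bw + 1 := by
    rw [hr1]
    have e1 := hBf x hx
    have e2 := hBw x hx
    rw [abs_le] at e1 e2 ⊢
    have hB0 : 0 ≤ Bf := by linarith only [e1]
    have hB1 : 0 ≤ Bw := by linarith only [e2]
    have h3 : 1 - x ^ 2 ≤ 1 := by nlinarith only []
    constructor <;> nlinarith only [hx, hxp, h1, e1, e2, hx.2]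
  have hZ := ZZ_le_cosh (w := w) (f := f) (t := t) x hx'
  have hZs := Zs_pos hg (hu x hx)
  have hcZ := cosh_le_Zs hg (hu x hx)
  have h2 : ((1 - x ^ 2) * r1 w f t x) ^ 2 ≤ (Bf + Bw + 1) ^ 2 := by
    rw [← sq_abs]
    exact pow_le_pow_left₀ (abs_nonneg _) hb1 2
  have h3 : ZZ w f t x ≤ 2 / zeta0 * (Bf + Bw + 1) ^ 2 * Zs g (uu w f t x) := by
    refine hZ.trans ?_
    have h4 : 0 ≤ 2 / zeta0 := by positivity
    have h5 := mul_le_mul_of_nonneg_left h2 h4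
    have h6 := (Real.cosh_pos (uu w f t x)).le
    calc _ ≤ 2 / zeta0 * (Bf + Bw + 1) ^ 2 * Real.cosh (uu w f t x) :=
          mul_le_mul_of_nonneg_right h5 h6
      _ ≤ _ := mul_le_mul_of_nonneg_left hcZ (by (clear * - hz; positivity))
  have h4 : ZZ w f t x / Zs g (uu w f t x) ≤ 2 / zeta0 * (Bf + Bw + 1) ^ 2 := by
    rw [div_le_iff₀ hZs]; exact h3
  unfold th
  linarith only [h4]

theorem th_ge {g : ℝ → ℝ} (hg : IsBub g) {x : ℝ} (hu : 0 < uu w f t x) :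
    -1 ≤ th g w f t x := by
  have hZs := Zs_pos hg hu
  have : 0 ≤ ZZ w f t x / Zs g (uu w f t x) := div_nonneg (ZZ_nonneg x) hZs.le
  unfold th
  linarith only [this]

/-- (Q3): `θ ≤ 0` -/
theorem th_nonpos {g : ℝ → ℝ} (hg : IsBub g) (h : Slice w f t) {x0 : ℝ}
    (hx0 : x0 ∈ Ioo (0 : ℝ) 1)
    (hrs : ∀ x ∈ Ico x0 1, 0 < rs w f t x) (hu : ∀ x ∈ Ico x0 1, 0 < uu w f t x)
    (hR0 : ∀ x ∈ Ico x0 1, 0 ≤ RR w f t x) : ∀ x ∈ Ico x0 1, th g w f t x ≤ 0 := by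
  obtain ⟨C, hC⟩ := th_le hg h hx0 hu
  have hI : ∀ {x}, x ∈ Ico x0 1 → x ∈ Ioo (-1 : ℝ) 1 := fun {x} hx =>
    ⟨by linarith only [hx0, hx, hx.1, hx0.1], hx.2⟩
  have key := tip_nonneg (Φ := fun x => -th g w f t x)
    (Φ' := fun x => -(r1 w f t x * (-(th g w f t x) * (qb g (uu w f t x) +
      (GG w f t x - g (uu w f t x)) ^ 2 / 4) - (GG w f t x - g (uu w f t x)) ^ 2 / 4
      - (rr w f t x) ^ 2 * RR w f t x / (40 * Zs g (uu w f t x)))))
    (ρ := rho w f t) (ρ' := r1 w f t) (x0 := x0) (k := 38) (C := C) (by norm_num)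
    (fun x hx => hasDerivAt_rho h (hI hx)) (rho_tendsto h)
    (fun x hx => (hasDerivAt_th hg h (hI hx) (hrs x hx).ne' (hu x hx)).neg) ?_
    (fun x hx => neg_le_neg (hC x hx))
  · intro x hx
    have := key x hx
    linarith only [this]
  · intro x hx hneg
    have hth : 0 < th g w f t x := by linarith
    have hr := r1_neg (hI hx) (hrs x hx)
    have hZs := Zs_pos hg (hu x hx)
    have hq := q_lo hg (hu x hx)
    have hF : 0 ≤ (rr w f t x) ^ 2 * RR w f t x / (40 * Zs g (uu w f t x)) := by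
      have := hR0 x hx
      positivity
    have hsq := sq_nonneg (GG w f t x - g (uu w f t x))
    have h1 : 0 ≤ th g w f t x * (qb g (uu w f t x) - 38 +
        (GG w f t x - g (uu w f t x)) ^ 2 / 4) := by
      apply mul_nonneg hth.le
      linarith only [hq, hsq]
    have h2 : r1 w f t x * (th g w f t x * (qb g (uu w f t x) - 38 +
        (GG w f t x - g (uu w f t x)) ^ 2 / 4) + (GG w f t x - g (uu w f t x)) ^ 2 / 4 +
        (rr w f t x) ^ 2 * RR w f t x / (40 * Zs g (uu w f t x))) ≤ 0 :=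
      mul_nonpos_of_nonpos_of_nonneg hr.le (by (clear * - hth hq hF; positivity))
    linarith only [h2]

/-- `e_b = r² f_b` -/
def Eb (q : Par) (w f : Fn) (t x : ℝ) : ℝ := rr w f t x ^ 2 * q.fb t (uu w f t x)

theorem fb_exp {q : Par} (hT0 : 0 < q.T0 t) {u : ℝ} (hu : 0 < u) :
    q.fb t u = q.B / tau t * (1 / q.T0 t) ^ aa *
      Real.exp (aa * Real.log (Real.tanh u) - (1 - aa) * Real.log (Real.cosh u)) := by
  have hT := tanh_pos hu
  have hc := Real.cosh_pos u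
  unfold Par.fb
  rw [div_eq_mul_one_div (Real.tanh u), Real.mul_rpow hT.le (by positivity),
    Real.rpow_def_of_pos hT, Real.rpow_def_of_pos hc, Real.exp_sub]
  have e : Real.exp (Real.log (Real.cosh u) * -(1 - aa)) =
      (Real.exp ((1 - aa) * Real.log (Real.cosh u)))⁻¹ := by
    rw [← Real.exp_neg]; congr 1; ring
  rw [e, mul_comm (Real.log (Real.tanh u)) aa]
  ring

theorem hasDerivAt_fb {q : Par} (hT0 : 0 < q.T0 t) {u : ℝ} (hu : 0 < u) :
    HasDerivAt (q.fb t) (q.fb t u *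
      (aa * (1 - Real.tanh u ^ 2) / Real.tanh u - (1 - aa) * Real.tanh u)) u := by
  have hT := tanh_pos hu
  have hc := Real.cosh_pos u
  have h1 : HasDerivAt (fun y => q.B / tau t * (1 / q.T0 t) ^ aa *
      Real.exp (aa * Real.log (Real.tanh y) - (1 - aa) * Real.log (Real.cosh y)))
      (q.B / tau t * (1 / q.T0 t) ^ aa *
        (Real.exp (aa * Real.log (Real.tanh u) - (1 - aa) * Real.log (Real.cosh u)) *
        (aa * ((1 - Real.tanh u ^ 2) / Real.tanh u) - (1 - aa) * (Real.sinh u / Real.cosh u))))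
      u := by
    have ha := (M4.hasDerivAt_tanh u).log hT.ne'
    have hb := (Real.hasDerivAt_cosh u).log hc.ne'
    exact (((ha.const_mul aa).sub (hb.const_mul (1 - aa))).exp).const_mul _
  have h2 : q.fb t =ᶠ[𝓝 u] fun y => q.B / tau t * (1 / q.T0 t) ^ aa *
      Real.exp (aa * Real.log (Real.tanh y) - (1 - aa) * Real.log (Real.cosh y)) := by
    filter_upwards [lt_mem_nhds hu] with y hy
    exact fb_exp hT0 hy
  refine (h1.congr_of_eventuallyEq h2).congr_deriv ?_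
  rw [fb_exp hT0 hu, ← Real.tanh_eq_sinh_div_cosh]
  ring

/-- `Dr e_b = e_b (2 - a G (1-T²)/T + (1-a) G T)` -/
theorem hasDerivAt_Eb {q : Par} (hT0 : 0 < q.T0 t) (h : Slice w f t) {x : ℝ}
    (hx : x ∈ Ioo (-1 : ℝ) 1) (hr : rs w f t x ≠ 0) (hu : 0 < uu w f t x) :
    HasDerivAt (Eb q w f t) (r1 w f t x * (Eb q w f t x * (2 - GG w f t x *
      (aa * (1 - Real.tanh (uu w f t x) ^ 2) / Real.tanh (uu w f t x)
        - (1 - aa) * Real.tanh (uu w f t x))))) x := by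
  have h1 := (hasDerivAt_rr h hx).pow 2
  have h2 := (hasDerivAt_fb (t := t) (q := q) hT0 hu).comp x (hasDerivAt_uu h hx hr)
  refine (h1.mul h2).congr_deriv ?_
  simp only [Eb, Function.comp_apply, Pi.pow_apply]
  ring

/-- the first part of the supersolution of (D5) -/
def S1 (g : ℝ → ℝ) (q : Par) (w f : Fn) (t x : ℝ) : ℝ :=
  g (uu w f t x) ^ 2 * Eb q w f t x ^ 2 / 148

/-- the second part -/
def S2 (g : ℝ → ℝ) (Rs : ℝ) (w f : Fn) (t x : ℝ) : ℝ :=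
  rr w f t x ^ 2 * Rs / (1640 * Zs g (uu w f t x))

theorem hasDerivAt_S1 {g : ℝ → ℝ} (hg : IsBub g) {q : Par} (hT0 : 0 < q.T0 t)
    (h : Slice w f t) {x : ℝ} (hx : x ∈ Ioo (-1 : ℝ) 1) (hr : rs w f t x ≠ 0)
    (hu : 0 < uu w f t x) :
    HasDerivAt (S1 g q w f t) (r1 w f t x * (2 * S1 g q w f t x *
      (-(GG w f t x) * deriv g (uu w f t x) / g (uu w f t x) + (2 - GG w f t x *
      (aa * (1 - Real.tanh (uu w f t x) ^ 2) / Real.tanh (uu w f t x)
        - (1 - aa) * Real.tanh (uu w f t x)))))) x := by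
  have hgp := g_pos hg hu
  have hgd : HasDerivAt g (deriv g (uu w f t x)) (uu w f t x) :=
    (hg.ode _ hu).differentiableAt.hasDerivAt
  have h1 := (hgd.comp x (hasDerivAt_uu h hx hr)).pow 2
  have h2 := (hasDerivAt_Eb (q := q) hT0 h hx hr hu).pow 2
  refine ((h1.mul h2).div_const 148).congr_deriv ?_
  simp only [S1, Function.comp_apply, Pi.pow_apply]
  field_simp
  ring

theorem hasDerivAt_S2 {g : ℝ → ℝ} (hg : IsBub g) (Rs : ℝ)
    (h : Slice w f t) {x : ℝ} (hx : x ∈ Ioo (-1 : ℝ) 1) (hr : rs w f t x ≠ 0)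
    (hu : 0 < uu w f t x) :
    HasDerivAt (S2 g Rs w f t) (r1 w f t x * (S2 g Rs w f t x *
      (2 + g (uu w f t x) * GG w f t x / 2))) x := by
  have hZs := (Zs_pos hg hu).ne'
  have h1 := ((hasDerivAt_rr h hx).pow 2).mul_const Rs
  have h2 := ((hasDerivAt_Zs hg hu).comp x (hasDerivAt_uu h hx hr)).const_mul 1640
  refine (h1.div h2 (by simpa using hZs)).congr_deriv ?_
  simp only [S2, Function.comp_apply, Pi.pow_apply]
  field_simp
  ring

/-- the pointwise inequality behind (D5) -/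
theorem d5_alg {s1 s2 k γ γ' T G e E F R r Z Rs θ : ℝ} (hs1 : s1 = γ ^ 2 * E ^ 2 / 148)
    (hs2 : s2 = r ^ 2 * Rs / (1640 * Z)) (hk : k = 39 - γ ^ 2 / 4 + (G - γ) ^ 2 / 4)
    (hF : F = (G - γ) ^ 2 / 4 + r ^ 2 * R / (40 * Z)) (hT : 0 < T) (hT1 : T < 1)
    (hγ0 : 0 < γ) (hγ2 : γ < 2) (hγ : γ ≤ 2.1147 * T) (hγ' : 0 < γ')
    (hγT : γ' * T ≤ γ * (1 - T ^ 2)) (hG : G = γ * (1 - e)) (he : |e| ≤ E) (hE : E ≤ 1 / 1000)
    (hR : 0 ≤ R) (hRs : R ≤ Rs) (hZ : 0 < Z) :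
    -(k * (s1 + s2 + θ)) ≤ 2 * s1 * (-G * γ' / γ + (2 - G *
      (aa * (1 - T ^ 2) / T - (1 - aa) * T))) + s2 * (2 + γ * G / 2) + (-θ * k - F) := by
  have hE0 : 0 ≤ E := (abs_nonneg e).trans he
  have he1 : -E ≤ e := (abs_le.1 he).1
  have he2 : e ≤ E := (abs_le.1 he).2
  have hG0 : 0 < G := by rw [hG]; apply mul_pos hγ0; linarith only [hT, hT1, hE, he2]
  have hs10 : 0 ≤ s1 := by rw [hs1]; positivity
  have hRs0 : 0 ≤ Rs := hR.trans hRs
  have hs20 : 0 ≤ s2 := by rw [hs2]; positivity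
  have hT2 : 0 < 1 - T ^ 2 := by nlinarith only [hT, hT1]
  -- `G γ'/γ ≤ 1.001 * 2.1147 (1-T²)`
  have h1 : γ' ≤ 2.1147 * (1 - T ^ 2) := by
    have : γ' * T ≤ 2.1147 * (1 - T ^ 2) * T := by nlinarith only [hT, hT1, hγ, hγT, hT2]
    exact le_of_mul_le_mul_right this hT
  have h2 : G * γ' / γ ≤ 1.001 * (2.1147 * (1 - T ^ 2)) := by
    have e1 : G * γ' / γ = (1 - e) * γ' := by rw [hG]; field_simp
    rw [e1]
    exact mul_le_mul (by linarith only [he1, hE]) h1 hγ'.le (by norm_num)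
  have h3 : G * ((1 - T ^ 2) / T) ≤ 1.001 * (2.1147 * (1 - T ^ 2)) := by
    have e1 : G ≤ 1.001 * (2.1147 * T) := by
      rw [hG, mul_comm]
      exact mul_le_mul (by linarith only [hE, he1]) hγ hγ0.le (by norm_num)
    have e2 : G * ((1 - T ^ 2) / T) ≤ 1.001 * (2.1147 * T) * ((1 - T ^ 2) / T) :=
      mul_le_mul_of_nonneg_right e1 (by positivity)
    refine e2.trans (le_of_eq ?_)
    field_simp
  have h4 : 0 ≤ G * T := by positivity
  have h5 : -1 ≤ 2 * (-G * γ' / γ + (2 - G *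
      (aa * (1 - T ^ 2) / T - (1 - aa) * T))) := by
    have e1 : -G * γ' / γ = -(G * γ' / γ) := by ring
    have e2 : G * (aa * (1 - T ^ 2) / T - (1 - aa) * T) =
        1 / 20 * (G * ((1 - T ^ 2) / T)) - 19 / 20 * (G * T) := by
      unfold aa; ring
    rw [e1, e2]
    linarith only [sq_nonneg T, h4, h3, h2, hT1, hT]
  have hk1 : 38 ≤ k := by
    rw [hk]
    nlinarith only [hT, hT1, hγ0, hγ2, sq_nonneg (G - γ)]
  have hA : (G - γ) ^ 2 / 4 ≤ s1 * (k + 2 * (-G * γ' / γ + (2 - G *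
      (aa * (1 - T ^ 2) / T - (1 - aa) * T)))) := by
    have e1 : (G - γ) ^ 2 = γ ^ 2 * e ^ 2 := by rw [hG]; ring
    have e2 : e ^ 2 ≤ E ^ 2 := by
      rw [← sq_abs]; exact pow_le_pow_left₀ (abs_nonneg _) he 2
    have e3 : (G - γ) ^ 2 / 4 ≤ s1 * 37 := by
      rw [e1, hs1]
      have := mul_le_mul_of_nonneg_left e2 (sq_nonneg γ)
      linarith only [this]
    exact e3.trans (mul_le_mul_of_nonneg_left (by linarith only [h5, hk1]) hs10)
  have hB : r ^ 2 * R / (40 * Z) ≤ s2 * (k + (2 + γ * G / 2)) := by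
    have e1 : 41 ≤ k + (2 + γ * G / 2) := by
      have e4 : γ * G = γ ^ 2 * (1 - e) := by rw [hG]; ring
      rw [hk, e4]
      nlinarith only [hE, he2, sq_nonneg (G - γ), sq_nonneg γ]
    have e2 : r ^ 2 * R / (40 * Z) ≤ r ^ 2 * Rs / (40 * Z) := by
      apply div_le_div_of_nonneg_right _ (by positivity)
      exact mul_le_mul_of_nonneg_left hRs (sq_nonneg r)
    have e3 : r ^ 2 * Rs / (40 * Z) = s2 * 41 := by
      rw [hs2]; field_simp; ring
    rw [e3] at e2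
    exact e2.trans (mul_le_mul_of_nonneg_left e1 hs20)
  rw [hF]
  generalize -G * γ' / γ + (2 - G * (aa * (1 - T ^ 2) / T - (1 - aa) * T)) = X at hA ⊢
  generalize 2 + γ * G / 2 = Y at hB ⊢
  have e1 : s1 * (k + 2 * X) = k * s1 + 2 * s1 * X := by ring
  have e2 : s2 * (k + Y) = k * s2 + s2 * Y := by ring
  have e3 : k * (s1 + s2 + θ) = k * s1 + k * s2 + θ * k := by ring
  rw [e1] at hA
  rw [e2] at hB
  rw [e3]
  linarith only [hA, hB]

/-- **(D5)** -/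
theorem D5 {g : ℝ → ℝ} (hg : IsBub g) (h : Slice w f t) {q : Par} {x0 Rs : ℝ}
    (hx0 : x0 ∈ Ioo (0 : ℝ) 1) (hT0 : 0 < q.T0 t)
    (hrs : ∀ x ∈ Ico x0 1, 0 < rs w f t x) (hu : ∀ x ∈ Ico x0 1, 0 < uu w f t x)
    (he : ∀ x ∈ Ico x0 1, |ee g w f t x| ≤ Eb q w f t x)
    (hE : ∀ x ∈ Ico x0 1, Eb q w f t x ≤ 1 / 1000)
    (hR0 : ∀ x ∈ Ico x0 1, 0 ≤ RR w f t x) (hR : ∀ x ∈ Ico x0 1, RR w f t x ≤ Rs) :
    ∀ x ∈ Ico x0 1, th g w f t x ≤ 0 ∧
      -th g w f t x ≤ g (uu w f t x) ^ 2 * Eb q w f t x ^ 2 / 148 +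
        rr w f t x ^ 2 * Rs / (1640 * Zs g (uu w f t x)) := by
  have hI : ∀ {x}, x ∈ Ico x0 1 → x ∈ Ioo (-1 : ℝ) 1 := fun {x} hx =>
    ⟨by linarith only [hx0, hx, hx.1, hx0.1], hx.2⟩
  have hth0 := th_nonpos hg h hx0 hrs hu hR0
  have key := tip_nonneg (Φ := fun x => S1 g q w f t x + S2 g Rs w f t x + th g w f t x)
    (Φ' := fun x => r1 w f t x * (2 * S1 g q w f t x *
      (-(GG w f t x) * deriv g (uu w f t x) / g (uu w f t x) + (2 - GG w f t x *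
      (aa * (1 - Real.tanh (uu w f t x) ^ 2) / Real.tanh (uu w f t x)
        - (1 - aa) * Real.tanh (uu w f t x))))) +
      r1 w f t x * (S2 g Rs w f t x * (2 + g (uu w f t x) * GG w f t x / 2)) +
      r1 w f t x * (-(th g w f t x) * (qb g (uu w f t x) +
      (GG w f t x - g (uu w f t x)) ^ 2 / 4) - (GG w f t x - g (uu w f t x)) ^ 2 / 4
      - (rr w f t x) ^ 2 * RR w f t x / (40 * Zs g (uu w f t x))))
    (ρ := rho w f t) (ρ' := r1 w f t) (x0 := x0) (k := 38) (C := 1) (by norm_num)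
    (fun x hx => hasDerivAt_rho h (hI hx)) (rho_tendsto h)
    (fun x hx => ((hasDerivAt_S1 hg hT0 h (hI hx) (hrs x hx).ne' (hu x hx)).add
      (hasDerivAt_S2 hg Rs h (hI hx) (hrs x hx).ne' (hu x hx))).add
      (hasDerivAt_th hg h (hI hx) (hrs x hx).ne' (hu x hx))) ?_ ?_
  · intro x hx
    refine ⟨hth0 x hx, ?_⟩
    have := key x hx
    unfold S1 S2 at this
    linarith only [this]
  · intro x hx hneg
    have hux := hu x hx
    have hr := r1_neg (hI hx) (hrs x hx)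
    have hZs := Zs_pos hg hux
    have hgp := g_pos hg hux
    have hTp := tanh_pos hux
    have hG : GG w f t x = g (uu w f t x) * (1 - ee g w f t x) := by
      unfold ee; field_simp; ring
    have halg := d5_alg (s1 := S1 g q w f t x) (s2 := S2 g Rs w f t x)
      (k := qb g (uu w f t x) + (GG w f t x - g (uu w f t x)) ^ 2 / 4)
      (γ := g (uu w f t x)) (γ' := deriv g (uu w f t x)) (T := Real.tanh (uu w f t x))
      (G := GG w f t x) (e := ee g w f t x) (E := Eb q w f t x)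
      (F := (GG w f t x - g (uu w f t x)) ^ 2 / 4 +
        (rr w f t x) ^ 2 * RR w f t x / (40 * Zs g (uu w f t x)))
      (R := RR w f t x) (r := rr w f t x) (Z := Zs g (uu w f t x)) (Rs := Rs)
      (θ := th g w f t x) rfl rfl rfl rfl hTp (Real.tanh_lt_one _) hgp (hg.lt_two _ hux)
      ((hg.upper _ hux).le.trans (mul_le_mul_of_nonneg_right kap_lt.le hTp.le))
      (hg.deriv_pos _ hux) (hg.ratio _ hux) hG (he x hx) (hE x hx) (hR0 x hx) (hR x hx) hZs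
    have hq := q_lo hg hux
    have hk : 38 ≤ qb g (uu w f t x) + (GG w f t x - g (uu w f t x)) ^ 2 / 4 := by
      have := sq_nonneg (GG w f t x - g (uu w f t x))
      linarith only [hq, this]
    set k := qb g (uu w f t x) + (GG w f t x - g (uu w f t x)) ^ 2 / 4 with hkd
    set Φ := S1 g q w f t x + S2 g Rs w f t x + th g w f t x with hΦ
    have h1 : 38 * -Φ ≤ k * -Φ := mul_le_mul_of_nonneg_right hk (by linarith only [hneg])
    have h2 : 38 * -Φ ≤ 2 * S1 g q w f t x * (-(GG w f t x) * deriv g (uu w f t x) /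
      g (uu w f t x) + (2 - GG w f t x *
      (aa * (1 - Real.tanh (uu w f t x) ^ 2) / Real.tanh (uu w f t x)
        - (1 - aa) * Real.tanh (uu w f t x)))) +
      S2 g Rs w f t x * (2 + g (uu w f t x) * GG w f t x / 2) +
      (-(th g w f t x) * k - (GG w f t x - g (uu w f t x)) ^ 2 / 4
      - (rr w f t x) ^ 2 * RR w f t x / (40 * Zs g (uu w f t x))) := by
      linarith only [halg, h1]
    have h3 := mul_le_mul_of_nonpos_left h2 hr.le
    linarith only [h3]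
  · intro x hx
    have h1 := th_ge hg (hu x hx)
    have h2 : 0 ≤ S1 g q w f t x := by unfold S1; positivity
    have h3 : 0 ≤ S2 g Rs w f t x := by
      have := Zs_pos hg (hu x hx)
      have := (hR0 x hx).trans (hR x hx)
      unfold S2; positivity
    linarith only [h1, h2, h3]

/-- **(D6)** -/
theorem D6 {g : ℝ → ℝ} (hg : IsBub g) {q : Par} {x Rs : ℝ}
    (hrs : 0 < rs w f t x) (hu : 0 < uu w f t x)
    (he : |ee g w f t x| ≤ Eb q w f t x) (hE : Eb q w f t x ≤ 1 / 1000)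
    (hR0 : 0 ≤ RR w f t x) (hR : RR w f t x ≤ Rs) (hth0 : th g w f t x ≤ 0)
    (hth : -th g w f t x ≤ g (uu w f t x) ^ 2 * Eb q w f t x ^ 2 / 148 +
        rr w f t x ^ 2 * Rs / (1640 * Zs g (uu w f t x))) :
    |E0 w f t x| ≤ Rs + 11 * (Zs g (uu w f t x) * g (uu w f t x) ^ 2) *
      q.fb t (uu w f t x) := by
  have hZs := Zs_pos hg hu
  have hgp := g_pos hg hu
  have hg2 := hg.lt_two _ hu
  have hrr := rr_pos (w := w) (f := f) (t := t) x
  have hE4 := E4 hg hrs.ne' hu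
  have hG : GG w f t x = g (uu w f t x) * (1 - ee g w f t x) := by
    unfold ee; field_simp; ring
  have hEb : Eb q w f t x = rr w f t x ^ 2 * q.fb t (uu w f t x) := rfl
  rw [hG] at hE4
  generalize Zs g (uu w f t x) = Z at *
  generalize g (uu w f t x) = γ at *
  generalize ee g w f t x = e at *
  generalize th g w f t x = θ at *
  generalize RR w f t x = R at *
  generalize E0 w f t x = E₀ at *
  generalize rr w f t x = r at *
  generalize q.fb t (uu w f t x) = F at *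
  generalize Eb q w f t x = E at *
  have hE0 : 0 ≤ E := (abs_nonneg e).trans he
  have he1 : -E ≤ e := (abs_le.1 he).1
  have he2 : e ≤ E := (abs_le.1 he).2
  have hr2 : 0 < r ^ 2 := by positivity
  have hF : 0 ≤ F := by
    by_contra hc
    push Not at hc
    linarith only [mul_pos (sub_pos.2 hr2) (sub_pos.2 hc), hE0, hEb]
  have hRs0 : 0 ≤ Rs := hR0.trans hR
  -- `|r² (2 E0 - R)| ≤ ...`
  have hsq : |(γ * (1 - e)) ^ 2 - γ ^ 2| ≤ 2.001 * (γ ^ 2 * E) := by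
    have e1 : (γ * (1 - e)) ^ 2 - γ ^ 2 = γ ^ 2 * (e ^ 2 - 2 * e) := by ring
    have e2 : |e ^ 2 - 2 * e| ≤ 2.001 * E := by
      rw [abs_le]; constructor <;> nlinarith only [hE0, he2, hE, he1]
    rw [e1, abs_mul, abs_of_nonneg (sq_nonneg γ)]
    have := mul_le_mul_of_nonneg_left e2 (sq_nonneg γ)
    linarith only [this]
  have hG2 : (γ * (1 - e)) ^ 2 ≤ 5 := by
    have : (γ * (1 - e)) ^ 2 ≤ γ ^ 2 + 2.001 * (γ ^ 2 * E) := by
      have := (abs_le.1 hsq).2; linarith only [this]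
    nlinarith only [hgp, hg2, hE, this]
  have h1 : |r ^ 2 * (2 * E₀ - R)| ≤ Z * (-θ * 1560 + 20.01 * (γ ^ 2 * E)) := by
    rw [hE4, abs_mul, abs_of_pos hZs]
    apply mul_le_mul_of_nonneg_left _ hZs.le
    have e1 := (abs_le.1 hsq).1
    have e2 := (abs_le.1 hsq).2
    have e3 := sq_nonneg (γ * (1 - e))
    rw [abs_le]; constructor <;> nlinarith only [hth0, e2, hG2, e1]
  have h2 : Z * (-θ * 1560 + 20.01 * (γ ^ 2 * E)) ≤
      r ^ 2 * (2 * (11 * (Z * γ ^ 2) * F) + Rs) := by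
    have e1 : Z * (-θ) ≤ Z * (γ ^ 2 * E ^ 2 / 148) + r ^ 2 * Rs / 1640 := by
      have := mul_le_mul_of_nonneg_left hth hZs.le
      refine this.trans (le_of_eq ?_)
      field_simp
    have e2 : γ ^ 2 * E ^ 2 ≤ γ ^ 2 * (E / 1000) := by
      apply mul_le_mul_of_nonneg_left _ (sq_nonneg γ)
      linarith only [mul_nonneg (sub_nonneg.2 hE) (sub_nonneg.2 hE0)]
    have e3 : Z * (γ ^ 2 * E ^ 2 / 148) ≤ Z * (γ ^ 2 * (E / 1000) / 148) := by
      apply mul_le_mul_of_nonneg_left _ hZs.le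
      linarith only [e2]
    have e4 : r ^ 2 * (2 * (11 * (Z * γ ^ 2) * F)) = 22 * (Z * (γ ^ 2 * E)) := by
      rw [hEb]; ring
    have e5 : 0 ≤ Z * (γ ^ 2 * E) := by (clear * - hZs hgp hE0; positivity)
    have e6 : 0 ≤ r ^ 2 * Rs := by positivity
    have e7 : Z * (γ ^ 2 * (E / 1000) / 148) = Z * (γ ^ 2 * E) / 148000 := by ring
    rw [mul_add (r ^ 2), e4]
    rw [e7] at e3
    have e8 : Z * (-θ * 1560 + 20.01 * (γ ^ 2 * E)) =
        1560 * (Z * -θ) + 20.01 * (Z * (γ ^ 2 * E)) := by ring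
    rw [e8]
    linarith only [e1, e3, e5, e6]
  have h3 : |2 * E₀ - R| ≤ 2 * (11 * (Z * γ ^ 2) * F) + Rs := by
    rw [abs_mul, abs_of_pos hr2] at h1
    exact le_of_mul_le_mul_left (h1.trans h2) hr2
  rw [abs_le] at h3 ⊢
  constructor <;> linarith only [hR0, hR, h3, h3.1, h3.2]

end

end

end Vale.Agent.P244.ST.M2
end

section

/-!
# P244-ST, block M2 : the fields `th_le`, `th_ge`, `E0_le` of `FI` (region I)
-/

open Set Filter Topology
open scoped ContDiff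

namespace Vale.Agent.P244.ST.M2

open Vale.Agent.P244.ST.M (FT eb)

noncomputable section

variable {w f : Fn}

/-- `r` decreases towards the tip -/
theorem rr_lt_of_lt {t : ℝ} (h : Slice w f t) (hrs : ∀ x ∈ Ioo (0 : ℝ) 1, 0 < rs w f t x)
    {x x' : ℝ} (hx : 0 < x) (hxx : x ≤ x') (hx' : x' < 1) : rr w f t x' ≤ rr w f t x := by
  have hI : ∀ y ∈ Icc x x', y ∈ Ioo (-1 : ℝ) 1 := fun y hy =>
    ⟨by linarith only [hx, hxx, hx', hy, hy.1], lt_of_le_of_lt hy.2 hx'⟩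
  have hanti : AntitoneOn (rr w f t) (Icc x x') := by
    refine antitoneOn_of_hasDerivWithinAt_nonpos (f' := fun y => r1 w f t y * rr w f t y)
      (convex_Icc _ _)
      (fun y hy => (hasDerivAt_rr h (hI y hy)).continuousAt.continuousWithinAt) ?_ ?_
    · intro y hy
      rw [interior_Icc] at hy
      exact (hasDerivAt_rr h (hI y (Ioo_subset_Icc_self hy))).hasDerivWithinAt
    · intro y hy
      rw [interior_Icc] at hy
      have h1 := r1_neg (hI y (Ioo_subset_Icc_self hy))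
        (hrs y ⟨by linarith only [hx, hy, hy.1], by linarith [hy.2]⟩)
      exact mul_nonpos_of_nonpos_of_nonneg h1.le (rr_pos y).le
  exact hanti (left_mem_Icc.2 hxx) (right_mem_Icc.2 hxx) hxx

theorem T0_pos {q : Par} {t : ℝ} (heps : 0 < q.eps) (hrho : 0 < q.rho0) (ht : t < 1) :
    0 < q.T0 t := by
  have h1 : 0 < tau t := by unfold tau; linarith only [ht]
  unfold Par.T0 Par.A
  exact mul_pos (mul_pos heps (Real.rpow_pos_of_pos h1 _)) (Real.rpow_pos_of_pos hrho _)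

/-- Region I: from `|e| ≤ eb`, `eb cosh u ≤ 10⁻⁴` and `R ≤ 3η` to the bounds for `θ` and `E0`. -/
theorem regI3 {g : ℝ → ℝ} (hg : IsBub g) {q : Par} {T t : ℝ} (hFT : FT q g w f T t)
    (heps : 0 < q.eps) (hrho : 0 < q.rho0)
    (hI : ∀ x ∈ Ioo (0 : ℝ) 1, yv w f t x ≤ q.rho0 → 0 < uu w f t x ∧
      |ee g w f t x| ≤ eb q w f t x ∧
      eb q w f t x * Real.cosh (uu w f t x) ≤ 1 / 10 ^ 4 ∧ RR w f t x ≤ 3 * q.eta) :
    ∀ x ∈ Ioo (0 : ℝ) 1, yv w f t x ≤ q.rho0 →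
      th g w f t x ≤ 0 ∧
      -th g w f t x ≤ g (uu w f t x) ^ 2 * eb q w f t x ^ 2 / 148 +
        (rr w f t x) ^ 2 * (3 * q.eta) / (1640 * Zs g (uu w f t x)) ∧
      |E0 w f t x| ≤ 11 / 10 * (3 * q.eta) +
        11 * Zs g (uu w f t x) * g (uu w f t x) ^ 2 * q.fb t (uu w f t x) := by
  intro x hx hy
  have hsl := slice_of_confSol hFT.sol hFT.mem
  have ht1 : t < 1 := lt_of_lt_of_le hFT.mem.2 hFT.T_le
  have hrs := hFT.qual.rs_pos t hFT.mem
  have hT0 := T0_pos heps hrho ht1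
  have hR0 := hFT.qual.R_nonneg t hFT.mem
  have hreg : ∀ x' ∈ Ico x 1, x' ∈ Ioo (0 : ℝ) 1 ∧ yv w f t x' ≤ q.rho0 := by
    intro x' hx'
    refine ⟨⟨lt_of_lt_of_le hx.1 hx'.1, hx'.2⟩, le_trans ?_ hy⟩
    exact div_le_div_of_nonneg_right (rr_lt_of_lt hsl hrs hx.1 hx'.1 hx'.2) (Real.sqrt_nonneg _)
  have hall : ∀ x' ∈ Ico x 1, 0 < uu w f t x' ∧ |ee g w f t x'| ≤ Eb q w f t x' ∧
      Eb q w f t x' ≤ 1 / 1000 ∧ RR w f t x' ≤ 3 * q.eta := by
    intro x' hx'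
    obtain ⟨h1, h2⟩ := hreg x' hx'
    obtain ⟨a1, a2, a3, a4⟩ := hI x' h1 h2
    refine ⟨a1, a2, ?_, a4⟩
    have hc := Real.one_le_cosh (uu w f t x')
    have he : 0 ≤ eb q w f t x' := (abs_nonneg _).trans a2
    have : Eb q w f t x' = eb q w f t x' := rfl
    rw [this]
    nlinarith only [a3, hc, he]
  have h5 := D5 hg hsl (q := q) (Rs := 3 * q.eta) hx hT0
    (fun x' hx' => hrs x' (hreg x' hx').1) (fun x' hx' => (hall x' hx').1)
    (fun x' hx' => (hall x' hx').2.1) (fun x' hx' => (hall x' hx').2.2.1)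
    (fun x' hx' => hR0 x' ⟨(hreg x' hx').1.1.le, (hreg x' hx').1.2⟩)
    (fun x' hx' => (hall x' hx').2.2.2) x ⟨le_refl x, hx.2⟩
  obtain ⟨a1, a2, a3, a4⟩ := hall x ⟨le_refl x, hx.2⟩
  refine ⟨h5.1, h5.2, ?_⟩
  have h6 := D6 hg (q := q) (Rs := 3 * q.eta) (hrs x hx) a1 a2 a3 (hR0 x ⟨hx.1.le, hx.2⟩) a4
    h5.1 h5.2
  have hRs : 0 ≤ 3 * q.eta := (hR0 x ⟨hx.1.le, hx.2⟩).trans a4
  refine h6.trans ?_
  have e : 11 * (Zs g (uu w f t x) * g (uu w f t x) ^ 2) * q.fb t (uu w f t x) =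
      11 * Zs g (uu w f t x) * g (uu w f t x) ^ 2 * q.fb t (uu w f t x) := by ring
  rw [e]
  linarith only [hRs]

end

end Vale.Agent.P244.ST.M2
end

section

/-!
# P244-ST, block M2 : assembly of `M2Statement`
-/

open Set Filter
open scoped ContDiff Topology

namespace Vale.Agent.P244.ST.M

open Vale.Agent.P244.ST

noncomputable section

/-- (D1)-(D4) in region I -/
structure FI1 (q : Par) (g : ℝ → ℝ) (w f : Fn) (t x : ℝ) : Prop where
  T_ge : 9 / 10 * q.T0 t ≤ Real.tanh (uu w f t x)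
  sinh_le : Real.sinh (uu w f t x) ≤ 6 / 5 * q.T0 t * (q.rho0 / yv w f t x) ^ kapp
  e_le : |ee g w f t x| ≤ eb q w f t x
  eb_le : eb q w f t x * Real.cosh (uu w f t x) ≤ 1 / 10 ^ 4
  r2cosh : (rr w f t x) ^ 2 * Real.cosh (uu w f t x) ≤ 11 / 10 * q.rho0 ^ 2 * tau t

/-- (D1)-(D4) -/
def RegI1 : Prop := ∀ g : ℝ → ℝ, IsBub g → Ev fun q => ∀ w f : Fn, ∀ T t : ℝ,
  FT q g w f T t → ∀ x ∈ Ioo (0 : ℝ) 1, yv w f t x ≤ q.rho0 → FI1 q g w f t x

/-- `RB ≤ 3 η` in region I -/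
def RegI2 : Prop := ∀ g : ℝ → ℝ, IsBub g → Ev fun q => ∀ w f : Fn, ∀ T t : ℝ,
  FT q g w f T t → ∀ x ∈ Ioo (0 : ℝ) 1, yv w f t x ≤ q.rho0 →
    q.RB t (rr w f t x) (uu w f t x) ≤ 3 * q.eta

theorem m2Statement_of (h1 : RegI1) (h2 : RegI2) : M2Statement := by
  intro g hg
  refine (((h1 g hg).and (h2 g hg)).and ev_FOsmall).mono ?_
  rintro q ⟨⟨a1, a2⟩, hq⟩ w f T t hFT
  have b1 := a1 w f T t hFT
  have b2 := a2 w f T t hFT
  have hR : ∀ x ∈ Ioo (0 : ℝ) 1, yv w f t x ≤ q.rho0 → RR w f t x ≤ 3 * q.eta :=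
    fun x hx hy => ((hFT.boot x ⟨hx.1.le, hx.2⟩).b3).trans (b2 x hx hy)
  have hu : ∀ x ∈ Ioo (0 : ℝ) 1, yv w f t x ≤ q.rho0 → 0 < uu w f t x :=
    fun x hx hy => ((hFT.boot x ⟨hx.1.le, hx.2⟩).b1 hx.1 hy).1
  have b3 := M2.regI3 hg hFT hq.eps hq.rho0 fun x hx hy =>
    ⟨hu x hx hy, (b1 x hx hy).e_le, (b1 x hx hy).eb_le, hR x hx hy⟩
  refine ⟨fun x hx hy => ?_, fun x hx hy hN => ?_⟩
  · exact
      { u_pos := hu x hx hy
        rs_pos := hFT.qual.rs_pos t hFT.mem x hx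
        T_ge := (b1 x hx hy).T_ge
        sinh_le := (b1 x hx hy).sinh_le
        e_le := (b1 x hx hy).e_le
        eb_le := (b1 x hx hy).eb_le
        r2cosh := (b1 x hx hy).r2cosh
        RB_le := b2 x hx hy
        R_nonneg := hFT.qual.R_nonneg t hFT.mem x ⟨hx.1.le, hx.2⟩
        R_le := hR x hx hy
        th_le := (b3 x hx hy).1
        th_ge := (b3 x hx hy).2.1
        E0_le := (b3 x hx hy).2.2 }
  · refine regO hg hq hFT (fun z hz hyz => ?_) hx hy hN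
    obtain ⟨c1, c2, -⟩ := b3 z hz hyz.le
    refine ⟨c1, c2.trans ?_⟩
    have h3 := (b1 z hz hyz.le).eb_le
    have h4 := Real.one_le_cosh (uu w f t z)
    have h5 : 0 ≤ eb q w f t z := (abs_nonneg _).trans (b1 z hz hyz.le).e_le
    have h6 : eb q w f t z ^ 2 ≤ 1 := by nlinarith only [h3, h4, h5]
    have h7 : g (uu w f t z) ^ 2 * eb q w f t z ^ 2 ≤ g (uu w f t z) ^ 2 * 1 :=
      mul_le_mul_of_nonneg_left h6 (sq_nonneg _)
    linarith only [h7]

end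

end Vale.Agent.P244.ST.M
end

section

/-!
# P244 / ST / S : pure inequalities for `PtStatement`
-/

open Set Filter
open scoped ContDiff Topology

namespace Vale.Agent.P244.ST.SS.Pt

theorem exp3 {x : ℝ} (hx : |x| ≤ 1) :
    |Real.exp x - (1 + x + x ^ 2 / 2)| ≤ |x| ^ 3 * (2 / 9) := by
  have h := Real.exp_bound hx (n := 3) (by norm_num)
  simp only [Finset.sum_range_succ, Finset.sum_range_zero, Nat.factorial] at h
  norm_num at h
  have e : |Real.exp x - (1 + x + x ^ 2 / 2)| = |Real.exp x - (1 + x + x ^ 2 / 2)| := rfl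
  calc _ ≤ |x| ^ 3 * (2 / 9) := by simpa using h
    _ = _ := rfl

theorem sinh_sub {u : ℝ} (hu : |u| ≤ 1) : |Real.sinh u - u| ≤ 2 / 9 * |u| ^ 3 := by
  have h1 := exp3 hu
  have h2 := exp3 (x := -u) (by rwa [abs_neg])
  rw [abs_neg] at h2
  rw [Real.sinh_eq]
  rw [abs_le] at h1 h2 ⊢
  constructor
  · linarith only [h2.2, h1.1]
  · linarith only [h2.1, h1.2]

theorem cosh_sub {u : ℝ} (hu : |u| ≤ 1) : Real.cosh u - 1 ≤ u ^ 2 := by
  have h1 := exp3 hu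
  have h2 := exp3 (x := -u) (by rwa [abs_neg])
  rw [abs_neg] at h2
  rw [Real.cosh_eq]
  rw [abs_le] at h1 h2
  have h3 : |u| ^ 3 ≤ u ^ 2 := by
    rw [← sq_abs u]
    linarith only [mul_nonneg (sq_nonneg |u|) (sub_nonneg.2 hu)]
  linarith only [sq_nonneg u, h2.2, h1.2, h3]

theorem cosh_le_two {u : ℝ} (hu : |u| ≤ 1) : Real.cosh u ≤ 2 := by
  have := cosh_sub hu
  have h2 : u ^ 2 ≤ 1 := by rw [← sq_abs]; linarith only [mul_nonneg (sub_nonneg.2 hu) (sub_nonneg.2 (abs_nonneg u)), mul_nonneg (sub_nonneg.2 hu) (sub_nonneg.2 hu)]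
  linarith only [this, h2]

theorem sinh_abs {u : ℝ} (hu : |u| ≤ 1) : |Real.sinh u| ≤ 5 / 4 * |u| := by
  have h1 := sinh_sub hu
  have h2 : |u| ^ 3 ≤ |u| := by
    linarith only [mul_nonneg (sq_nonneg |u|) (sub_nonneg.2 hu), mul_nonneg (abs_nonneg u) (sub_nonneg.2 hu)]
  have h3 : |Real.sinh u| ≤ |Real.sinh u - u| + |u| := by
    have := abs_add_le (Real.sinh u - u) u
    simpa using this
  linarith only [abs_nonneg u, h3, h2, h1]

/-- the pure estimate -/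
theorem core {u U1 U2 Z h V2 m c E : ℝ} (hm : 0 ≤ m) (hm1 : m ≤ 1) (hu : |u| ≤ m)
    (hU1 : |U1| ≤ 11 / 5 * m) (hV : |V2| ≤ c * m) (hc : 0 ≤ c) (hh : 0 ≤ h)
    (hZ : |Z - 1| ≤ 4 * (m ^ 2 + h)) (hZ1 : 1 / 2 ≤ Z) (hZ2 : Z ≤ 6) (hE : |E| ≤ 300)
    (heq : V2 = Z * U2 + (E / 2 + 39 * Z) * U1 + 78 * Real.sinh u) :
    |U2| ≤ (2 * c + 2000) * m ∧ |nl u U1 U2 Z| ≤ (8 * c + 8200) * (m * (m ^ 2 + h)) := by
  have hu1 : |u| ≤ 1 := hu.trans hm1
  have hsinh := sinh_abs hu1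
  have hZU : |Z * U2| ≤ (c + 1000) * m := by
    have e1 : Z * U2 = V2 - (E / 2 + 39 * Z) * U1 - 78 * Real.sinh u := by rw [heq]; ring
    have e2 : |(E / 2 + 39 * Z) * U1| ≤ 384 * (11 / 5 * m) := by
      rw [abs_mul]
      apply mul_le_mul _ hU1 (abs_nonneg _) (by norm_num)
      have := abs_le.1 hE
      rw [abs_le]; constructor <;> linarith only [hZ1, this, hZ2, this.1, this.2]
    have e3 : |78 * Real.sinh u| ≤ 78 * (5 / 4 * m) := by
      rw [abs_mul, abs_of_pos (by norm_num : (0 : ℝ) < 78)]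
      linarith only [hu, hsinh]
    rw [e1]
    have e4 : |V2 - (E / 2 + 39 * Z) * U1 - 78 * Real.sinh u| ≤
        |V2| + |(E / 2 + 39 * Z) * U1| + |78 * Real.sinh u| := by
      refine (abs_sub _ _).trans (add_le_add (abs_sub _ _) le_rfl)
    linarith only [e4, e3, e2, hV, hm]
  have hU2 : |U2| ≤ (2 * c + 2000) * m := by
    rw [abs_mul, abs_of_pos (by linarith only [hZ1] : 0 < Z)] at hZU
    have h1 : 1 / 2 * |U2| ≤ Z * |U2| := mul_le_mul_of_nonneg_right hZ1 (abs_nonneg _)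
    linarith only [h1, hZU]
  refine ⟨hU2, ?_⟩
  unfold nl
  have hmm : 0 ≤ m ^ 2 + h := by positivity
  have a1 : |(Z - 1) * U2| ≤ (4 * (m ^ 2 + h)) * ((2 * c + 2000) * m) := by
    rw [abs_mul]
    exact mul_le_mul hZ hU2 (abs_nonneg _) (by positivity)
  have hu2 : u ^ 2 ≤ m ^ 2 := by rw [← sq_abs u]; exact pow_le_pow_left₀ (abs_nonneg _) hu 2
  have a2 : |39 * (Real.cosh u - 1) * U1| ≤ 39 * m ^ 2 * (11 / 5 * m) := by
    rw [abs_mul]
    have h1 : 0 ≤ Real.cosh u - 1 := by linarith only [Real.one_le_cosh u]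
    have h2 : |39 * (Real.cosh u - 1)| ≤ 39 * m ^ 2 := by
      rw [abs_of_nonneg (by positivity)]
      linarith only [hu1, hu2, cosh_sub hu1]
    exact mul_le_mul h2 hU1 (abs_nonneg _) (by positivity)
  have a3 : |78 * (Real.sinh u - u)| ≤ 78 * (2 / 9 * m ^ 3) := by
    rw [abs_mul, abs_of_pos (by norm_num : (0 : ℝ) < 78)]
    have h1 := sinh_sub hu1
    have h2 : |u| ^ 3 ≤ m ^ 3 := pow_le_pow_left₀ (abs_nonneg _) hu 3
    linarith only [h2, h1]
  have a4 : |(Z - 1) * U2 + 39 * (Real.cosh u - 1) * U1 + 78 * (Real.sinh u - u)| ≤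
      |(Z - 1) * U2| + |39 * (Real.cosh u - 1) * U1| + |78 * (Real.sinh u - u)| :=
    (abs_add_le _ _).trans (add_le_add (abs_add_le _ _) le_rfl)
  have hm3 : 0 ≤ m * h := mul_nonneg hm hh
  have hm4 : 0 ≤ c * (m * h) := mul_nonneg hc hm3
  have hm5 : 0 ≤ m ^ 3 := by positivity
  have hm6 : 0 ≤ c * m ^ 3 := mul_nonneg hc hm5
  calc _ ≤ _ := a4
    _ ≤ (4 * (m ^ 2 + h)) * ((2 * c + 2000) * m) + 39 * m ^ 2 * (11 / 5 * m)
        + 78 * (2 / 9 * m ^ 3) := add_le_add (add_le_add a1 a2) a3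
    _ = (8 * c + 8000) * (m * (m ^ 2 + h)) + (429 / 5 + 52 / 3) * m ^ 3 := by ring
    _ ≤ _ := by linarith only [hm5, hm3]

/-- from the size `m ≤ k M` to the final form -/
theorem final {a b1 n m k M h hz c : ℝ} (hm : 0 ≤ m) (hk : 1 ≤ k) (hM : 0 ≤ M) (hmk : m ≤ k * M)
    (hc : 0 ≤ c) (hz0 : 0 ≤ hz) (hh : h = 4 * hz) (ha : |a| ≤ m) (hb : |b1| ≤ 11 / 5 * m)
    (hn : |n| ≤ (8 * c + 8200) * (m * (m ^ 2 + h))) :
    |a| ≤ (8 * c + 8200) * 4 * k ^ 3 * M ∧ |b1| ≤ (8 * c + 8200) * 4 * k ^ 3 * M ∧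
      |n| ≤ (8 * c + 8200) * 4 * k ^ 3 * M * (M ^ 2 + hz) := by
  have hk3 : k ≤ k ^ 3 := by nlinarith only [hk, sq_nonneg (k - 1), sq_nonneg k]
  have hk2 : 1 ≤ k ^ 2 := by nlinarith only [hk]
  have hkM : k * M ≤ k ^ 3 * M := mul_le_mul_of_nonneg_right hk3 hM
  have hk3M : 0 ≤ k ^ 3 * M := by positivity
  have hck : 0 ≤ c * (k ^ 3 * M) := mul_nonneg hc hk3M
  refine ⟨?_, ?_, ?_⟩
  · linarith only [hck, hkM, ha, hmk, hm]
  · linarith only [hck, hkM, hb, hmk, hm]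
  · have h1 : m * (m ^ 2 + h) ≤ (k * M) * ((k * M) ^ 2 + h) := by
      apply mul_le_mul hmk _ (by rw [hh]; positivity) (by positivity)
      have : m ^ 2 ≤ (k * M) ^ 2 := pow_le_pow_left₀ hm hmk 2
      linarith only [this]
    have h2 : (k * M) * ((k * M) ^ 2 + h) ≤ 4 * k ^ 3 * M * (M ^ 2 + hz) := by
      rw [hh]
      have e1 : (k * M) * ((k * M) ^ 2 + 4 * hz) = k ^ 3 * M * M ^ 2 + 4 * k * (M * hz) := by ring
      have e2 : 4 * k ^ 3 * M * (M ^ 2 + hz) = 4 * (k ^ 3 * M * M ^ 2) + 4 * k ^ 3 * (M * hz) := by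
        ring
      rw [e1, e2]
      have h3 : 0 ≤ k ^ 3 * M * M ^ 2 := by positivity
      have h4 : k * (M * hz) ≤ k ^ 3 * (M * hz) := mul_le_mul_of_nonneg_right hk3 (by positivity)
      linarith only [h3, h4]
    calc |n| ≤ (8 * c + 8200) * (m * (m ^ 2 + h)) := hn
      _ ≤ (8 * c + 8200) * (4 * k ^ 3 * M * (M ^ 2 + hz)) :=
        mul_le_mul_of_nonneg_left (h1.trans h2) (by positivity)
      _ = _ := by ring

theorem en_ge_one {z : ℝ} (hz : 0 < z) : 1 ≤ en z := by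
  unfold en
  rcases le_total z 1 with h | h
  · have : 1 ≤ z ^ (-(11 / 10 : ℝ)) := Real.one_le_rpow_of_pos_of_le_one_of_nonpos hz h (by norm_num)
    have := pow_pos hz 3
    linarith
  · have h1 : 1 ≤ z ^ 3 := one_le_pow₀ h
    have := Real.rpow_pos_of_pos hz (-(11 / 10 : ℝ))
    linarith only [h1, this]

theorem pow_le_en {z l : ℝ} (hz : 0 < z) (hl : 0 ≤ l) (hl3 : l ≤ 3) : (4 * z) ^ l ≤ 64 * en z := by
  have h4 : 0 < 4 * z := by linarith only [hz]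
  rcases le_total (4 * z) 1 with h | h
  · have h1 : (4 * z) ^ l ≤ 1 := Real.rpow_le_one h4.le h hl
    linarith only [hz, h, h1, en_ge_one hz]
  · have h1 : (4 * z) ^ l ≤ (4 * z) ^ (3 : ℝ) := Real.rpow_le_rpow_of_exponent_le h hl3
    have h2 : (4 * z) ^ (3 : ℝ) = 64 * z ^ 3 := by
      rw [show (3 : ℝ) = ((3 : ℕ) : ℝ) by norm_num, Real.rpow_natCast]; ring
    rw [h2] at h1
    have := Real.rpow_pos_of_pos hz (-(11 / 10 : ℝ))
    unfold en
    linarith only [h1, this]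

theorem inv_le_en {y : ℝ} (hy : 0 < y) : y ^ (-(11 / 5 : ℝ)) ≤ en (y ^ 2 / 4) := by
  unfold en
  have h0 : 0 < y ^ 2 / 4 := by positivity
  have h1 : y ^ (-(11 / 5 : ℝ)) ≤ (y ^ 2 / 4) ^ (-(11 / 10 : ℝ)) := by
    have e1 : y ^ (-(11 / 5 : ℝ)) = (y ^ 2) ^ (-(11 / 10 : ℝ)) := by
      rw [← Real.rpow_natCast y 2, ← Real.rpow_mul hy.le]
      norm_num
    rw [e1]
    exact Real.rpow_le_rpow_of_nonpos h0 (by linarith only [h0]) (by norm_num)
  have := pow_pos h0 3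
  linarith only [h1, this]

end Vale.Agent.P244.ST.SS.Pt
end

section

/-!
# P244 / ST / S : the inner region and the outer region for `PtStatement`
-/

open Set Filter
open scoped ContDiff Topology

namespace Vale.Agent.P244.ST.SS.Pt

open Vale.Agent.P244.ST.M2

variable {w f : Fn} {t x : ℝ} {q : Par} {g : ℝ → ℝ}

/-- everything needed for `core` at one point, with size `m` -/
structure Pin (w f : Fn) (t x m c h : ℝ) : Prop where
  m0 : 0 ≤ m
  m1 : m ≤ 1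
  u : |uu w f t x| ≤ m
  G : |GG w f t x| ≤ 11 / 5 * m
  V : |(rr w f t x) ^ 2 * VV w f t x| ≤ c * m
  Z : |ZZ w f t x - 1| ≤ 4 * (m ^ 2 + h)
  Z1 : 1 / 2 ≤ ZZ w f t x
  Z2 : ZZ w f t x ≤ 6
  E : |39 * (Real.cosh (uu w f t x) - ZZ w f t x)
      - (rr w f t x) ^ 2 * (PP w f t x) ^ 2 / 4 - (rr w f t x) ^ 2 * RR w f t x / 40| ≤ 300

theorem rr_sq (hτ : 0 < tau t) (x : ℝ) : rr w f t x ^ 2 = yv w f t x ^ 2 * tau t := by
  unfold yv
  rw [div_pow, Real.sq_sqrt hτ.le]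
  field_simp

/-- the outer region -/
theorem outer (hFO : M.FO q w f t x) (hrs : 0 < rs w f t x) {h : ℝ}
    (hh : h = rr w f t x ^ 2 * (3 * q.eta)) (hh0 : 0 ≤ h) (hh1 : h ≤ 1)
    (hxi0 : 0 ≤ M.xi q (rr w f t x)) :
    Pin w f t x (M.xi q (rr w f t x)) 1 h := by
  set m := M.xi q (rr w f t x) with hm
  have hm6 := hFO.xi_le
  have hr := Vale.Agent.P244.ST.M2.rr_pos (w := w) (f := f) (t := t) x
  have hm2 : m ^ 2 ≤ 1 / 10 ^ 12 := by nlinarith only [hxi0, hm6]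
  have hZge := hFO.Z_ge
  have hZle := hFO.Z_le
  have e0 : rr w f t x ^ 2 * (3 * q.eta) / 1640 = h / 1640 := by rw [hh]
  rw [e0] at hZge
  have hZ1 : 1 / 2 ≤ ZZ w f t x := by linarith only [hZge, hm2, hh1]
  have hZ2 : ZZ w f t x ≤ 6 := by linarith only [hZle, hm2]
  have hPsq : (rr w f t x) ^ 2 * (PP w f t x) ^ 2 ≤ m ^ 2 := by
    have h1 := hFO.P_le
    have h2 : (rr w f t x * |PP w f t x|) ^ 2 ≤ m ^ 2 :=
      pow_le_pow_left₀ (by positivity) h1 2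
    calc _ = (rr w f t x * |PP w f t x|) ^ 2 := by rw [mul_pow, sq_abs]
      _ ≤ _ := h2
  have hZG := ZG (w := w) (f := f) (t := t) x hrs.ne'
  have hG2 : GG w f t x ^ 2 ≤ (11 / 5 * m) ^ 2 := by
    have h1 : 1 / 2 * GG w f t x ^ 2 ≤ ZZ w f t x * GG w f t x ^ 2 :=
      mul_le_mul_of_nonneg_right hZ1 (sq_nonneg _)
    linarith only [sq_nonneg m, h1, hZG, hPsq]
  have hG : |GG w f t x| ≤ 11 / 5 * m := abs_le_of_sq_le_sq hG2 (by positivity)
  have hu1 : |uu w f t x| ≤ 1 := hFO.u_le.trans (by linarith only [hm6])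
  have hc2 := cosh_le_two hu1
  have hc1 := Real.one_le_cosh (uu w f t x)
  refine ⟨hxi0, by linarith only [hm6], hFO.u_le, hG, ?_, ?_, hZ1, hZ2, ?_⟩
  · rw [abs_mul, abs_of_pos (by positivity : 0 < (rr w f t x) ^ 2), one_mul]
    exact hFO.V_le
  · rw [abs_le]; constructor <;> linarith only [hZle, hZge, hh0]
  · have hR0 := hFO.R_nonneg
    have hR1 := hFO.R_le
    have h1 : 0 ≤ (rr w f t x) ^ 2 * RR w f t x := by positivity
    have h2 : (rr w f t x) ^ 2 * RR w f t x ≤ h := by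
      rw [hh]; exact mul_le_mul_of_nonneg_left hR1 (by positivity)
    have h3 : 0 ≤ (rr w f t x) ^ 2 * (PP w f t x) ^ 2 := by positivity
    rw [abs_le]; constructor <;> linarith only [hh1, hm2, hZle, hPsq, hc1, h2, hZge, hc2, h1, h3]

theorem kapp_le : M.kapp ≤ 11 / 5 := by
  unfold M.kapp; linarith only [kap_gt, kap_lt]

theorem kap_le_kapp : kap ≤ M.kapp := by
  unfold M.kapp; linarith only [kap_gt]

/-- `T₀ (ρ₀/y)^{κ'} ≤ A y^{-11/5}` -/
theorem T0_le (hρ0 : 0 < q.rho0) (hρ1 : q.rho0 ≤ 1) {y : ℝ} (hy : 0 < y) (hy1 : y ≤ q.rho0)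
    (hA : 0 ≤ q.A t) : q.T0 t * (q.rho0 / y) ^ M.kapp ≤ q.A t * y ^ (-(11 / 5 : ℝ)) := by
  unfold Par.T0
  rw [mul_assoc]
  apply mul_le_mul_of_nonneg_left _ hA
  rw [Real.div_rpow hρ0.le hy.le, ← mul_div_assoc, ← Real.rpow_add hρ0, div_eq_mul_inv,
    ← Real.rpow_neg hy.le]
  have h1 : q.rho0 ^ (-kap + M.kapp) ≤ 1 :=
    Real.rpow_le_one hρ0.le hρ1 (by linarith only [kap_le_kapp])
  have h2 : y ^ (-M.kapp) ≤ y ^ (-(11 / 5 : ℝ)) :=
    Real.rpow_le_rpow_of_exponent_ge hy (hy1.trans hρ1) (by linarith only [kapp_le])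
  calc _ ≤ 1 * y ^ (-M.kapp) := mul_le_mul_of_nonneg_right h1 (Real.rpow_nonneg hy.le _)
    _ ≤ _ := by rw [one_mul]; exact h2

theorem pureZ {zs th m h zz : ℝ} (h1 : 1 ≤ zs) (h3 : zs ≤ 41 / 19) (hm : zs - 1 ≤ 11 / 10 * m ^ 2)
    (th0 : th ≤ 0) (thm : -th ≤ m ^ 2 / 10 ^ 4 + h / 1640) (m2 : m ^ 2 ≤ 1) (_hh0 : 0 ≤ h)
    (hh1 : h ≤ 1) (hzz : zz = zs * (1 + th)) :
    1 / 2 ≤ zz ∧ zz ≤ 6 ∧ |zz - 1| ≤ 4 * (m ^ 2 + h) := by
  have hprod : zs * (-th) ≤ 41 / 19 * (m ^ 2 / 10 ^ 4 + h / 1640) :=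
    mul_le_mul h3 thm (by linarith only [th0]) (by norm_num)
  have hprod0 : 0 ≤ zs * (-th) := mul_nonneg (by linarith only [h1]) (by linarith only [th0])
  have hZZ' : zz = zs - zs * (-th) := by rw [hzz]; ring
  have m20 := sq_nonneg m
  rw [hZZ']
  refine ⟨by linarith only [h1, m2, hh1, hprod], by linarith only [hm, m2, hprod0], ?_⟩
  rw [abs_le]
  constructor <;> linarith only [h1, hm, th0, thm, hprod, hprod0]

theorem Zs_sub_le (hg : IsBub g) {u m : ℝ} (hu0 : 0 < u) (hum : u ≤ m) (hu1 : |u| ≤ 1) :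
    Zs g u - 1 ≤ 11 / 10 * m ^ 2 := by
  have hcs := cosh_sub hu1
  have h1 := q_lo hg hu0
  have h2 := Zs_q hg hu0
  have h4 := g_sq_le hg hu0
  have h5 : qb g u = 39 - g u ^ 2 / 4 := rfl
  have h6 : (Zs g u - 1) * qb g u = 39 * (Real.cosh u - 1) + g u ^ 2 / 4 := by
    rw [sub_mul, h2, h5]; ring
  have hu2 : u ^ 2 ≤ m ^ 2 := pow_le_pow_left₀ hu0.le hum 2
  have h7 : (Zs g u - 1) * qb g u ≤ (11 / 10 * m ^ 2) * 38 := by
    have := sq_nonneg m
    rw [h6]; linarith only [this, hu2, h4, hcs]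
  have h8 : (11 / 10 * m ^ 2) * 38 ≤ (11 / 10 * m ^ 2) * qb g u :=
    mul_le_mul_of_nonneg_left h1.le (by positivity)
  exact le_of_mul_le_mul_right (h7.trans h8) (by linarith only [h1])

theorem th_m (hg : IsBub g) {u m th eb h r2 : ℝ} (hu0 : 0 < u) (hum : u ≤ m) (heb0 : 0 ≤ eb)
    (heb : eb ≤ 1 / 10 ^ 4) (hh0 : 0 ≤ h) (hr : r2 = h)
    (h1 : -th ≤ g u ^ 2 * eb ^ 2 / 148 + r2 / (1640 * Zs g u)) :
    -th ≤ m ^ 2 / 10 ^ 4 + h / 1640 := by
  have h4 := g_sq_le hg hu0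
  have hu2 : u ^ 2 ≤ m ^ 2 := pow_le_pow_left₀ hu0.le hum 2
  have h5 : g u ^ 2 * eb ^ 2 ≤ (4.472 * m ^ 2) * (1 / 10 ^ 4) ^ 2 :=
    mul_le_mul (h4.trans (by linarith only [hu2])) (pow_le_pow_left₀ heb0 heb 2) (sq_nonneg _)
      (by positivity)
  have hZs1 := one_le_Zs hg hu0
  have h6 : r2 / (1640 * Zs g u) ≤ h / 1640 := by
    rw [hr]
    apply div_le_div_of_nonneg_left hh0 (by norm_num)
    linarith only [hZs1]
  have h7 : g u ^ 2 * eb ^ 2 / 148 ≤ m ^ 2 / 10 ^ 4 := by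
    have := sq_nonneg m
    linarith only [this, h5]
  linarith only [h1, h6, h7]

theorem G_le' (hg : IsBub g) {u G e : ℝ} (hu0 : 0 < u) (he : |e| ≤ 1 / 10 ^ 4)
    (hG : G = g u * (1 - e)) : |G| ≤ 11 / 5 * u := by
  have hgp := g_pos hg hu0
  have hgu : g u ≤ 2.1147 * u := by
    have h1 := hg.upper u hu0
    have h2 := tanh_le_self hu0
    have h4 := tanh_pos hu0
    nlinarith only [hu0, h1, h2, kap_lt, kap_gt]
  rw [hG, abs_mul, abs_of_pos hgp]
  have h1 : |1 - e| ≤ 1 + 1 / 10 ^ 4 := by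
    have := abs_le.1 he
    rw [abs_le]; constructor <;> linarith only [this, this.1, this.2]
  calc g u * |1 - e| ≤ (2.1147 * u) * (1 + 1 / 10 ^ 4) :=
        mul_le_mul hgu h1 (abs_nonneg _) (by positivity)
    _ ≤ _ := by linarith only [hu0]

/-- `r² |V| ≤ 3 BV m` in the inner region -/
theorem V_le (hFI : M.FI q g w f t x) (hb2 : |VV w f t x| ≤ q.Vb t (uu w f t x))
    (ht1 : 0 < tau t) (hρ0 : 0 < q.rho0) (hρ1 : q.rho0 ≤ 1) (hBV : 0 ≤ q.BV)
    (hy1 : yv w f t x ≤ q.rho0) (hA : 0 < q.A t) (hm1 : Real.sinh (uu w f t x) ≤ 1) :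
    |(rr w f t x) ^ 2 * VV w f t x| ≤ 3 * q.BV * Real.sinh (uu w f t x) := by
  have hu0 := hFI.u_pos
  have h1 := hFI.sinh_le
  generalize hu : uu w f t x = u at *
  have hy : 0 < yv w f t x := div_pos (Vale.Agent.P244.ST.M2.rr_pos x) (Real.sqrt_pos.2 ht1)
  have hrs2 := rr_sq (w := w) (f := f) ht1 x
  generalize yv w f t x = y at *
  have hT0 : 0 < q.T0 t := by
    unfold Par.T0; exact mul_pos hA (Real.rpow_pos_of_pos hρ0 _)
  have hm0 : 0 < Real.sinh u := Real.sinh_pos_iff.2 hu0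
  have hum : u ≤ Real.sinh u := Real.self_le_sinh_iff.2 hu0.le
  have hu1 : |u| ≤ 1 := by rw [abs_of_pos hu0]; linarith only [hm1, hum]
  have hc2 := cosh_le_two hu1
  have hc1 := Real.one_le_cosh u
  have hr := Vale.Agent.P244.ST.M2.rr_pos (w := w) (f := f) (t := t) x
  rw [abs_mul, abs_of_pos (by positivity : 0 < (rr w f t x) ^ 2)]
  have hT := tanh_pos hu0
  have hTm : Real.tanh u ≤ Real.sinh u := (tanh_le_self hu0).trans hum
  generalize Real.sinh u = m at *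
  have hratio : Real.tanh u / q.T0 t ≤ 6 / 5 * y ^ (-(11 / 5 : ℝ)) := by
    rw [div_le_iff₀ hT0]
    have h2 : (q.rho0 / y) ^ M.kapp ≤ y ^ (-(11 / 5 : ℝ)) := by
      rw [Real.div_rpow hρ0.le hy.le, div_eq_mul_inv, ← Real.rpow_neg hy.le]
      have h3 : q.rho0 ^ M.kapp ≤ 1 :=
        Real.rpow_le_one hρ0.le hρ1 (by linarith only [kap_le_kapp, kap_gt])
      have h4 : y ^ (-M.kapp) ≤ y ^ (-(11 / 5 : ℝ)) :=
        Real.rpow_le_rpow_of_exponent_ge hy (hy1.trans hρ1) (by linarith only [kapp_le])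
      calc _ ≤ 1 * y ^ (-M.kapp) := mul_le_mul_of_nonneg_right h3 (Real.rpow_nonneg hy.le _)
        _ ≤ _ := by rw [one_mul]; exact h4
    calc Real.tanh u ≤ m := hTm
      _ ≤ 6 / 5 * q.T0 t * (q.rho0 / y) ^ M.kapp := h1
      _ ≤ 6 / 5 * q.T0 t * y ^ (-(11 / 5 : ℝ)) :=
        mul_le_mul_of_nonneg_left h2 (by positivity)
      _ = _ := by ring
  have hra0 : 0 < Real.tanh u / q.T0 t := div_pos hT hT0
  have hpow : y ^ 2 * (Real.tanh u / q.T0 t) ^ ST.aa ≤ 6 / 5 := by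
    have hy' : 0 ≤ y ^ (-(11 / 5 : ℝ)) := Real.rpow_nonneg hy.le _
    have h1 : (Real.tanh u / q.T0 t) ^ ST.aa ≤ (6 / 5 * y ^ (-(11 / 5 : ℝ))) ^ ST.aa :=
      Real.rpow_le_rpow hra0.le hratio (by unfold ST.aa; norm_num)
    rw [Real.mul_rpow (by norm_num) hy', ← Real.rpow_mul hy.le] at h1
    have h2 : (6 / 5 : ℝ) ^ ST.aa ≤ 6 / 5 := by
      have : (6 / 5 : ℝ) ^ ST.aa ≤ (6 / 5 : ℝ) ^ (1 : ℝ) :=
        Real.rpow_le_rpow_of_exponent_le (by norm_num) (by unfold ST.aa; norm_num)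
      rwa [Real.rpow_one] at this
    have h3 : y ^ 2 * y ^ (-(11 / 5 : ℝ) * ST.aa) ≤ 1 := by
      rw [← Real.rpow_natCast y 2, ← Real.rpow_add hy]
      apply Real.rpow_le_one hy.le (hy1.trans hρ1)
      unfold ST.aa; norm_num
    have h4 : 0 ≤ y ^ (-(11 / 5 : ℝ) * ST.aa) := Real.rpow_nonneg hy.le _
    calc y ^ 2 * (Real.tanh u / q.T0 t) ^ ST.aa
        ≤ y ^ 2 * ((6 / 5 : ℝ) ^ ST.aa * y ^ (-(11 / 5 : ℝ) * ST.aa)) :=
          mul_le_mul_of_nonneg_left h1 (by positivity)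
      _ = (6 / 5 : ℝ) ^ ST.aa * (y ^ 2 * y ^ (-(11 / 5 : ℝ) * ST.aa)) := by ring
      _ ≤ (6 / 5) * 1 := mul_le_mul h2 h3 (by positivity) (by norm_num)
      _ = _ := by norm_num
  have hcosh : Real.cosh u ^ ST.aa ≤ 2 := by
    have : Real.cosh u ^ ST.aa ≤ Real.cosh u ^ (1 : ℝ) :=
      Real.rpow_le_rpow_of_exponent_le hc1 (by unfold ST.aa; norm_num)
    rw [Real.rpow_one] at this
    linarith only [hc2, this]
  have hcosh0 : 0 ≤ Real.cosh u ^ ST.aa := Real.rpow_nonneg (by linarith only [hc1]) _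
  have hra : 0 ≤ (Real.tanh u / q.T0 t) ^ ST.aa := Real.rpow_nonneg hra0.le _
  have hfin : (rr w f t x) ^ 2 * q.Vb t u = (q.BV * (y ^ 2 * (Real.tanh u / q.T0 t) ^ ST.aa)) *
      (Real.tanh u * Real.cosh u ^ ST.aa) := by
    rw [hrs2]
    unfold Par.Vb
    have := ht1.ne'
    field_simp
  calc (rr w f t x) ^ 2 * |VV w f t x| ≤ (rr w f t x) ^ 2 * q.Vb t u :=
        mul_le_mul_of_nonneg_left hb2 (by positivity)
    _ = _ := hfin
    _ ≤ (q.BV * (6 / 5)) * (m * 2) := by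
        apply mul_le_mul (mul_le_mul_of_nonneg_left hpow hBV)
          (mul_le_mul hTm hcosh hcosh0 hm0.le) (mul_nonneg hT.le hcosh0) (by positivity)
    _ ≤ _ := by
      have := mul_nonneg hBV hm0.le
      linarith only [this]

theorem sinh_le' (hFI : M.FI q g w f t x) (ht1 : 0 < tau t)
    (hρ0 : 0 < q.rho0) (hρ1 : q.rho0 ≤ 1) (hy1 : yv w f t x ≤ q.rho0) (hA : 0 < q.A t) :
    Real.sinh (uu w f t x) ≤ 6 / 5 * (q.A t * yv w f t x ^ (-(11 / 5 : ℝ))) := by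
  have hy : 0 < yv w f t x := div_pos (Vale.Agent.P244.ST.M2.rr_pos x) (Real.sqrt_pos.2 ht1)
  have h1 := hFI.sinh_le
  have h2 := T0_le (q := q) (t := t) hρ0 hρ1 hy hy1 hA.le
  calc Real.sinh (uu w f t x) ≤ 6 / 5 * q.T0 t * (q.rho0 / yv w f t x) ^ M.kapp := h1
    _ = 6 / 5 * (q.T0 t * (q.rho0 / yv w f t x) ^ M.kapp) := by ring
    _ ≤ _ := by linarith only [h2]

/-- the inner region -/
theorem inner (hg : IsBub g) (hFI : M.FI q g w f t x) (hb2 : |VV w f t x| ≤ q.Vb t (uu w f t x))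
    (ht1 : 0 < tau t)
    (hρ0 : 0 < q.rho0) (hρ1 : q.rho0 ≤ 1) (hBV : 0 ≤ q.BV)
    (hy1 : yv w f t x ≤ q.rho0) (hA : 0 < q.A t)
    (hm1 : Real.sinh (uu w f t x) ≤ 1) {h : ℝ}
    (hh : h = rr w f t x ^ 2 * (3 * q.eta)) (hh0 : 0 ≤ h) (hh1 : h ≤ 1) :
    Pin w f t x (Real.sinh (uu w f t x)) (3 * q.BV) h := by
  have hV := V_le hFI hb2 ht1 hρ0 hρ1 hBV hy1 hA hm1
  have hu0 := hFI.u_pos
  have hm0 : 0 < Real.sinh (uu w f t x) := Real.sinh_pos_iff.2 hu0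
  have hum : uu w f t x ≤ Real.sinh (uu w f t x) := Real.self_le_sinh_iff.2 hu0.le
  have hu1 : |uu w f t x| ≤ 1 := by rw [abs_of_pos hu0]; linarith only [hm1, hum]
  have hc2 := cosh_le_two hu1
  have hc1 := Real.one_le_cosh (uu w f t x)
  have hr := Vale.Agent.P244.ST.M2.rr_pos (w := w) (f := f) (t := t) x
  have heb0 : 0 ≤ M.eb q w f t x := (abs_nonneg _).trans hFI.e_le
  have heb : M.eb q w f t x ≤ 1 / 10 ^ 4 := by
    have h1 := hFI.eb_le
    have h3 : M.eb q w f t x * 1 ≤ M.eb q w f t x * Real.cosh (uu w f t x) :=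
      mul_le_mul_of_nonneg_left hc1 heb0
    linarith only [h1, h3]
  have he := hFI.e_le.trans heb
  have hgp := g_pos hg hu0
  have hGe : GG w f t x = g (uu w f t x) * (1 - ee g w f t x) := by
    unfold ee
    have := hgp.ne'
    field_simp
    ring
  have hG := G_le' hg hu0 he hGe
  have hthm := th_m hg hu0 hum heb0 heb hh0 hh.symm hFI.th_ge
  have hZZ : ZZ w f t x = Zs g (uu w f t x) * (1 + th g w f t x) := by
    unfold th
    have := (Zs_pos hg hu0).ne'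
    field_simp
    ring
  obtain ⟨hZ1, hZ2, hZ3⟩ := pureZ (one_le_Zs hg hu0) (by linarith only [hg, hu0, hc2, Zs_le hg hu0])
    (Zs_sub_le hg hu0 hum hu1) hFI.th_le hthm (pow_le_one₀ hm0.le hm1) hh0 hh1 hZZ
  have hZG := ZG (w := w) (f := f) (t := t) x hFI.rs_pos.ne'
  have hG2 : GG w f t x ^ 2 ≤ 5 := by
    have h1 : |GG w f t x| ≤ 11 / 5 := hG.trans (by linarith only [hm1, hum])
    have h2 : |GG w f t x| ^ 2 ≤ (11 / 5) ^ 2 := pow_le_pow_left₀ (abs_nonneg _) h1 2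
    rw [sq_abs] at h2
    norm_num at h2 ⊢
    linarith only [h2]
  refine ⟨hm0.le, hm1, by rw [abs_of_pos hu0]; exact hum, hG.trans (by linarith only [hum]), hV, hZ3, hZ1,
    hZ2, ?_⟩
  have hR0 := hFI.R_nonneg
  have hR1 := hFI.R_le
  have h1 : 0 ≤ (rr w f t x) ^ 2 * RR w f t x := by positivity
  have h2 : (rr w f t x) ^ 2 * RR w f t x ≤ h := by
    rw [hh]; exact mul_le_mul_of_nonneg_left hR1 (by positivity)
  have h3 : 0 ≤ (rr w f t x) ^ 2 * (PP w f t x) ^ 2 := by positivity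
  have h4 : (rr w f t x) ^ 2 * (PP w f t x) ^ 2 ≤ 30 := by
    rw [hZG]
    calc _ ≤ (6 : ℝ) * 5 := mul_le_mul hZ2 hG2 (sq_nonneg _) (by norm_num)
      _ = 30 := by norm_num
  rw [abs_le]; constructor <;> linarith only [hh1, hc1, hZ2, h2, h4, hc2, hZ1, h1, h3]

end Vale.Agent.P244.ST.SS.Pt
end

section

/-!
# P244-ST, block M7 : the linear solution `ε Φ₃` in the coordinates `(t, ρ)`
-/

set_option linter.all false

open Set Filter Topology

namespace Vale.Agent.P244.ST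

noncomputable section

/-- the Laguerre parameter `a = D/2 - 1` -/
def aL : ℝ := DD / 2 - 1

theorem kap_sq : kap ^ 2 - 39 * kap + 78 = 0 := by
  have h : Real.sqrt 1209 ^ 2 = 1209 := Real.sq_sqrt (by norm_num)
  unfold kap
  linear_combination (1 / 4) * h

theorem kap_lt' : kap < 2.1147 := by
  have h : (34.7706 : ℝ) < Real.sqrt 1209 := by rw [Real.lt_sqrt (by norm_num)]; norm_num
  unfold kap; linarith only [h]

theorem kap_gt' : 2.1146 < kap := by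
  have h : Real.sqrt 1209 < (34.7708 : ℝ) := by rw [Real.sqrt_lt' (by norm_num)]; norm_num
  unfold kap; linarith only [h]

theorem aL_eq : aL = 39 / 2 - kap := by unfold aL DD; ring

theorem aL_gt : -1 < aL := by have := kap_lt'; rw [aL_eq]; linarith only [this]

theorem lam3_eq : lam 3 = 3 - kap / 2 := by unfold lam; norm_num

theorem ll_eq (i : ℕ) (z : ℝ) : ll i z = ∑ k ∈ Finset.range (i + 1), Lag.cf aL i k * z ^ k := by
  unfold ll Lag.cf aL
  refine Finset.sum_congr rfl fun k _ => ?_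
  congr 2
  refine Finset.prod_congr rfl fun l _ => ?_
  ring

theorem Ph_eq (i : ℕ) {t r : ℝ} (ht : t < 1) (hr : 0 < r) :
    Ph i t r = BD.PhiD kap aL i 0 r (1 - t) := by
  have hτ : 0 < tau t := by unfold tau; linarith only [ht]
  have hs : 0 < Real.sqrt (tau t) := Real.sqrt_pos.2 hτ
  unfold Ph ph BD.PhiD lam
  rw [ll_eq, Real.div_rpow hr.le hs.le]
  have h1 : Real.sqrt (tau t) ^ (-kap) = (tau t) ^ (-kap / 2) := by
    rw [Real.sqrt_eq_rpow, ← Real.rpow_mul hτ.le]; congr 1; ring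
  have h2 : (tau t) ^ ((i : ℝ) - kap / 2) = (tau t) ^ i * (tau t) ^ (-kap / 2) := by
    rw [← Real.rpow_natCast, ← Real.rpow_add hτ]; congr 1; ring
  have h3 : (tau t) ^ (-kap / 2) ≠ 0 := (Real.rpow_pos_of_pos hτ _).ne'
  have h4 : (r / Real.sqrt (tau t)) ^ 2 = r ^ 2 / tau t := by
    rw [div_pow, Real.sq_sqrt hτ.le]
  rw [h1, h2, h4]
  have h5 : ∑ k ∈ Finset.range (i + 1), (2 * (k : ℝ) - kap) ^ 0 * Lag.cf aL i k *
      (r ^ 2 / 4) ^ k * (1 - t) ^ (i - k) =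
      (tau t) ^ i * ∑ k ∈ Finset.range (i + 1), Lag.cf aL i k * (r ^ 2 / tau t / 4) ^ k := by
    rw [Finset.mul_sum]
    refine Finset.sum_congr rfl fun k hk => ?_
    have hk' : k ≤ i := Nat.lt_succ_iff.1 (Finset.mem_range.1 hk)
    have h6 : (tau t) ^ i = (tau t) ^ (i - k) * (tau t) ^ k := by
      rw [← pow_add, Nat.sub_add_cancel hk']
    have h7 : (r ^ 2 / tau t / 4) ^ k * (tau t) ^ k = (r ^ 2 / 4) ^ k := by
      rw [← mul_pow]; congr 1; field_simp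
    rw [h6, ← h7]
    unfold tau
    ring
  rw [h5]
  field_simp

/-- `(r∂_r)^j (ε Φ₃)` at `(t, ρ)` -/
def Fj (eps : ℝ) (j : ℕ) (t ρ : ℝ) : ℝ := eps * BD.PhiD kap aL 3 j (Real.exp ρ) (1 - t)

theorem Fj_zero (eps : ℝ) {t ρ : ℝ} (ht : t < 1) : Fj eps 0 t ρ = eps * Ph 3 t (Real.exp ρ) := by
  rw [Fj, Ph_eq 3 ht (Real.exp_pos ρ)]

theorem hasDerivAt_Fj (eps : ℝ) (j : ℕ) (t ρ : ℝ) :
    HasDerivAt (Fj eps j t) (Fj eps (j + 1) t ρ) ρ := by
  have h1 := (BD.hasDerivAt_PhiD kap aL 3 j (Real.exp_pos ρ) (1 - t)).comp ρ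
    (Real.hasDerivAt_exp ρ)
  have h2 := h1.const_mul eps
  refine h2.congr_deriv ?_
  have := (Real.exp_pos ρ).ne'
  unfold Fj
  field_simp

theorem hasDerivAt_Fj_t (eps : ℝ) (j : ℕ) (t ρ : ℝ) :
    HasDerivAt (fun t => Fj eps j t ρ) (-(eps * BD.PhiDt kap aL 3 j (Real.exp ρ) (1 - t))) t := by
  have h1 := (BD.hasDerivAt_PhiD_tau kap aL 3 j (Real.exp ρ) (1 - t)).comp t
    ((hasDerivAt_id t).const_sub 1)
  have h2 := h1.const_mul eps
  refine h2.congr_deriv ?_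
  ring

theorem PhiDt0 (r τ : ℝ) : -(r ^ 2 * BD.PhiDt kap aL 3 0 r τ) = BD.PhiD kap aL 3 2 r τ +
    39 * BD.PhiD kap aL 3 1 r τ + 78 * BD.PhiD kap aL 3 0 r τ := by
  have h := BD.Phi_linear_aux (m := 40) (κ := kap) (a := aL)
    (by have := kap_sq; linear_combination this) (by rw [aL_eq]; ring) aL_gt 3 r τ
  rw [h]; norm_num

theorem PhiDt1 (r τ : ℝ) : -(r ^ 2 * BD.PhiDt kap aL 3 1 r τ) = BD.PhiD kap aL 3 3 r τ +
    37 * BD.PhiD kap aL 3 2 r τ - 156 * BD.PhiD kap aL 3 0 r τ := by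
  have e0 := Lag.cf_succ aL_gt 3 0
  have e1 := Lag.cf_succ aL_gt 3 1
  have e2 := Lag.cf_succ aL_gt 3 2
  have ha := aL_eq
  have hk := kap_sq
  rw [ha] at e0 e1 e2
  norm_num at e0 e1 e2
  unfold BD.PhiDt BD.PhiD
  rw [ha]
  simp only [Finset.sum_range_succ, Finset.sum_range_zero]
  norm_num
  generalize Lag.cf (39 / 2 - kap) 3 0 = c0 at *
  generalize Lag.cf (39 / 2 - kap) 3 1 = c1 at *
  generalize Lag.cf (39 / 2 - kap) 3 2 = c2 at *
  generalize Lag.cf (39 / 2 - kap) 3 3 = c3 at *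
  generalize r ^ (-kap) = X
  generalize kap = k at *
  linear_combination X * (4 * k * (r ^ 2 / 4) * τ ^ 2) * e0 -
    X * (4 * (2 - k) * (r ^ 2 / 4) ^ 2 * τ) * e1 - X * (4 * (4 - k) * (r ^ 2 / 4) ^ 3) * e2 +
    X * ((k + 2) * c0 * τ ^ 3 + k * c1 * (r ^ 2 / 4) * τ ^ 2 + (k - 2) * c2 * (r ^ 2 / 4) ^ 2 * τ +
      (k - 4) * c3 * (r ^ 2 / 4) ^ 3) * hk

theorem exp_neg_two (ρ x : ℝ) : Real.exp (-2 * ρ) * (Real.exp ρ ^ 2 * x) = x := by
  have h : Real.exp (-2 * ρ) * Real.exp ρ ^ 2 = 1 := by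
    rw [pow_two, ← Real.exp_add, ← Real.exp_add, ← Real.exp_zero]; congr 1; ring
  linear_combination x * h

theorem Fj0_t (eps t ρ : ℝ) : HasDerivAt (fun t => Fj eps 0 t ρ)
    (Real.exp (-2 * ρ) * (Fj eps 2 t ρ + 39 * Fj eps 1 t ρ + 78 * Fj eps 0 t ρ)) t := by
  refine (hasDerivAt_Fj_t eps 0 t ρ).congr_deriv ?_
  have h1 := PhiDt0 (Real.exp ρ) (1 - t)
  have h2 := exp_neg_two ρ (-(eps * BD.PhiDt kap aL 3 0 (Real.exp ρ) (1 - t)))
  unfold Fj
  linear_combination -h2 + (Real.exp (-2 * ρ) * eps) * h1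

theorem Fj1_t (eps t ρ : ℝ) : HasDerivAt (fun t => Fj eps 1 t ρ)
    (Real.exp (-2 * ρ) * (Fj eps 3 t ρ + 37 * Fj eps 2 t ρ - 156 * Fj eps 0 t ρ)) t := by
  refine (hasDerivAt_Fj_t eps 1 t ρ).congr_deriv ?_
  have h1 := PhiDt1 (Real.exp ρ) (1 - t)
  have h2 := exp_neg_two ρ (-(eps * BD.PhiDt kap aL 3 1 (Real.exp ρ) (1 - t)))
  unfold Fj
  linear_combination -h2 + (Real.exp (-2 * ρ) * eps) * h1

/-- bound of `Fj` on the window -/
theorem exists_Fj_bound (y₀ y₁ : ℝ) (hy₀ : 0 < y₀) : ∃ C : ℝ, 0 ≤ C ∧ ∀ eps ≥ (0 : ℝ), ∀ j ≤ 3,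
    ∀ t₁ < (1 : ℝ), ∀ q ∈ Win y₀ y₁ t₁, |Fj eps j q.1 q.2| ≤ C * (eps * (tau q.1) ^ (lam 3)) := by
  obtain ⟨C0, h00, h0⟩ := BD.exists_PhiD_bound kap aL 3 0
  obtain ⟨C1, h10, h1⟩ := BD.exists_PhiD_bound kap aL 3 1
  obtain ⟨C2, h20, h2⟩ := BD.exists_PhiD_bound kap aL 3 2
  obtain ⟨C3, h30, h3⟩ := BD.exists_PhiD_bound kap aL 3 3
  have hC : ∀ j ≤ 3, ∀ r τ : ℝ, 0 < r → 0 ≤ τ →
      |BD.PhiD kap aL 3 j r τ| ≤ (C0 + C1 + C2 + C3) * (r ^ (-kap) * (r ^ 2 + τ) ^ 3) := by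
    intro j hj r τ hr hτ
    have hx : 0 ≤ r ^ (-kap) * (r ^ 2 + τ) ^ 3 := by positivity
    have : j = 0 ∨ j = 1 ∨ j = 2 ∨ j = 3 := by omega
    rcases this with rfl | rfl | rfl | rfl
    · refine (h0 r τ hr hτ).trans (mul_le_mul_of_nonneg_right (by linarith only [h10, h20, h30]) hx)
    · refine (h1 r τ hr hτ).trans (mul_le_mul_of_nonneg_right (by linarith only [h00, h20, h30]) hx)
    · refine (h2 r τ hr hτ).trans (mul_le_mul_of_nonneg_right (by linarith only [h00, h10, h30]) hx)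
    · refine (h3 r τ hr hτ).trans (mul_le_mul_of_nonneg_right (by linarith only [h00, h10, h20]) hx)
  set C := C0 + C1 + C2 + C3 with hCd
  have hC0 : 0 ≤ C := by positivity
  refine ⟨C * (y₀ ^ (-kap) * (1 + y₁ ^ 2) ^ 3), by positivity, ?_⟩
  intro eps heps j hj t₁ ht₁ q hq
  obtain ⟨⟨ht0, ht1⟩, hl, hr⟩ := hq
  have hτ : 0 < 1 - q.1 := by linarith only [ht₁, ht1]
  have hs : 0 < Real.sqrt (1 - q.1) := Real.sqrt_pos.2 hτ
  have hss : Real.sqrt (1 - q.1) ^ 2 = 1 - q.1 := Real.sq_sqrt hτ.le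
  have he := Real.exp_pos q.2
  have hb := hC j hj (Real.exp q.2) (1 - q.1) he hτ.le
  have hk : (0 : ℝ) < kap := by linarith only [kap_gt']
  have e1 : Real.exp q.2 ^ (-kap) ≤ y₀ ^ (-kap) * (1 - q.1) ^ (-kap / 2) := by
    have h5 : Real.exp q.2 ^ (-kap) ≤ (y₀ * Real.sqrt (1 - q.1)) ^ (-kap) :=
      Real.rpow_le_rpow_of_nonpos (by positivity) hl (by linarith only [hk])
    rw [Real.mul_rpow hy₀.le hs.le] at h5
    have h6 : Real.sqrt (1 - q.1) ^ (-kap) = (1 - q.1) ^ (-kap / 2) := by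
      rw [Real.sqrt_eq_rpow, ← Real.rpow_mul hτ.le]; congr 1; ring
    rwa [h6] at h5
  have e2 : Real.exp q.2 ^ 2 + (1 - q.1) ≤ (1 + y₁ ^ 2) * (1 - q.1) := by
    have h5 : Real.exp q.2 ^ 2 ≤ (y₁ * Real.sqrt (1 - q.1)) ^ 2 :=
      pow_le_pow_left₀ he.le hr 2
    rw [mul_pow, hss] at h5
    linarith only [h5]
  have e3 : (Real.exp q.2 ^ 2 + (1 - q.1)) ^ 3 ≤ (1 + y₁ ^ 2) ^ 3 * (1 - q.1) ^ 3 := by
    rw [← mul_pow]
    exact pow_le_pow_left₀ (by positivity) e2 3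
  have e4 : (1 - q.1) ^ (-kap / 2) * (1 - q.1) ^ 3 = (tau q.1) ^ (lam 3) := by
    rw [lam3_eq, tau, ← Real.rpow_natCast, ← Real.rpow_add hτ]; congr 1; push_cast; ring
  unfold Fj
  rw [abs_mul, abs_of_nonneg heps]
  calc eps * |BD.PhiD kap aL 3 j (Real.exp q.2) (1 - q.1)|
      ≤ eps * (C * (Real.exp q.2 ^ (-kap) * (Real.exp q.2 ^ 2 + (1 - q.1)) ^ 3)) :=
        mul_le_mul_of_nonneg_left hb heps
    _ ≤ eps * (C * ((y₀ ^ (-kap) * (1 - q.1) ^ (-kap / 2)) *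
        ((1 + y₁ ^ 2) ^ 3 * (1 - q.1) ^ 3))) := by
        gcongr
    _ = C * (y₀ ^ (-kap) * (1 + y₁ ^ 2) ^ 3) * (eps * (tau q.1) ^ (lam 3)) := by
        rw [← e4]; ring

end

end Vale.Agent.P244.ST
end

section

/-!
# P244-ST, block M7 : interfaces (target: `M.M7Statement` of M/Skel.lean)

* `WinIn`  : smallness on the window `ρ₀/16 ≤ y ≤ 400` (from `M.Hist`);
* `B1Out` (output of Bernstein 1): `G = -Φ₁ + O(√σ A)` on `ρ₀/8 ≤ y ≤ 200`;
* `B2Out` (output of Bernstein 2): bounds of `τ V`;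
* `M3Bd`, `M4Bd`, `M7Fin` : the final pieces.

`Fj eps j t ρ = (r∂_r)^j (ε Φ₃)` at `ρ = log r` (M7Phi).
-/

set_option linter.all false

open Set Filter Topology

namespace Vale.Agent.P244.ST.M7

noncomputable section

/-- for all bubble functions, for all parameters in order, `C` holds for all histories. -/
def EvH (C : Par → (ℝ → ℝ) → Fn → Fn → ℝ → Prop) : Prop :=
  ∀ g : ℝ → ℝ, IsBub g → Ev fun q => ∀ b w f T t₁, M.Hist q g w f T t₁ → InitOK q g b w f →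
    C q g w f t₁

theorem EvH.and {C D : Par → (ℝ → ℝ) → Fn → Fn → ℝ → Prop} (hC : EvH C) (hD : EvH D) :
    EvH fun q g w f t₁ => C q g w f t₁ ∧ D q g w f t₁ := fun g hg =>
  (((hC g hg).and (hD g hg)).mono fun _ h b w f T t₁ hM hI =>
    ⟨h.1 b w f T t₁ hM hI, h.2 b w f T t₁ hM hI⟩)

/-- Facts about the parameters alone. -/
theorem EvH.of_ev {C : Par → Prop} (hC : Ev C) : EvH fun q _ _ _ _ => C q := fun _ _ =>
  hC.mono fun _ h _ _ _ _ _ _ _ => h

theorem EvH.mono {C D : Par → (ℝ → ℝ) → Fn → Fn → ℝ → Prop} (hC : EvH C)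
    (h : ∀ q g b w f T t₁, IsBub g → M.Hist q g w f T t₁ → InitOK q g b w f →
      C q g w f t₁ → D q g w f t₁) : EvH D :=
  fun g hg => (hC g hg).mono fun q hq b w f T t₁ hM hI =>
    h q g b w f T t₁ hg hM hI (hq b w f T t₁ hM hI)

/-- Standard smallness facts of the parameters; `s bv mu mp mv` arbitrary functions. -/
structure P7 (r₁ : ℝ) (s bv mu mp : ℝ → ℝ) (mv : ℝ → ℝ → ℝ) (q : Par) : Prop where
  B : 1 ≤ q.B
  rho0 : 0 < q.rho0
  rho0_le : q.rho0 ≤ r₁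
  BV : bv q.rho0 ≤ q.BV
  BV1 : 1 ≤ q.BV
  MU : mu q.rho0 ≤ q.MU
  MP : mp q.rho0 ≤ q.MP
  MV : mv q.rho0 q.BV ≤ q.MV
  CU : q.MU ≤ q.CU
  CP : q.MP ≤ q.CP
  CV : q.MV ≤ q.CV
  sg : 0 < q.sg
  sg_le : q.sg ≤ s q.rho0
  N : 2000 ≤ q.N
  eps : 0 < q.eps
  eps_le : q.eps ≤ s q.rho0

theorem ev_P7 {r₁ : ℝ} (hr₁ : 0 < r₁) (s bv mu mp : ℝ → ℝ) (mv : ℝ → ℝ → ℝ)
    (hs : ∀ ρ > 0, 0 < s ρ) : Ev (P7 r₁ s bv mu mp mv) := by
  refine ⟨1, fun B hB => ⟨r₁, hr₁, fun rho0 h1 => ⟨max 1 (bv rho0), fun BV h2 =>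
    ⟨mu rho0, fun MU h3 => ⟨mp rho0, fun MP h4 => ⟨mv rho0 BV, fun MV h5 => ⟨MU, fun CU h6 =>
    ⟨MP, fun CP h7 => ⟨MV, fun CV h8 => ⟨0, fun GR h9 => ⟨s rho0, hs _ h1.1, fun sg h10 =>
    ⟨1, one_pos, fun d0 h11 => ⟨1, one_pos, fun rb h12 => ⟨2000, fun N h13 =>
    ⟨s rho0, hs _ h1.1, fun eps h14 => ?_⟩⟩⟩⟩⟩⟩⟩⟩⟩⟩⟩⟩⟩⟩⟩
  exact ⟨hB, h1.1, h1.2, (le_max_right _ _).trans h2, (le_max_left _ _).trans h2, h3, h4, h5, h6,
    h7, h8, h10.1, h10.2, h13, h14.1, h14.2⟩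

/-- INPUT: everything is small on the window `ρ₀/16 ≤ y ≤ 400`. -/
def WinIn : Prop := EvH fun q _g w f t₁ => ∀ t ∈ Icc 0 t₁, ∀ x ∈ Ioo (0 : ℝ) 1,
  q.rho0 / 16 ≤ yv w f t x → yv w f t x ≤ 400 →
    |uu w f t x| ≤ q.sg ∧ |GG w f t x| ≤ q.sg ∧ |ZZ w f t x - 1| ≤ q.sg ∧
      |(rr w f t x) ^ 2 * RR w f t x| ≤ q.sg ∧ |(rr w f t x) ^ 2 * E0 w f t x| ≤ q.sg

/-- OUTPUT of Bernstein 1. -/
def B1Out : Prop := ∃ C : ℝ → ℝ, (∀ ρ > 0, 0 < C ρ) ∧
  EvH fun q _g w f t₁ => ∀ t ∈ Icc 0 t₁, ∀ x ∈ Ioo (0 : ℝ) 1,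
    q.rho0 / 8 ≤ yv w f t x → yv w f t x ≤ 200 →
      |GG w f t x + Fj q.eps 1 t (rho w f t x)| ≤ C q.rho0 * Real.sqrt q.sg * q.A t

/-- OUTPUT of Bernstein 2. -/
def B2Out : Prop := ∃ C : ℝ → ℝ, (∀ ρ > 0, 0 < C ρ) ∧
  EvH fun q _g w f t₁ => ∀ t ∈ Icc 0 t₁, ∀ x ∈ Ioo (0 : ℝ) 1,
    (yv w f t x = q.rho0 → tau t * |VV w f t x| ≤ (2200 * q.BV + C q.rho0) * q.A t) ∧
    (q.rho0 ≤ yv w f t x → yv w f t x ≤ 100 →
      tau t * |VV w f t x| ≤ C q.rho0 * (1 + q.BV) * q.A t)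

/-- boundary value for (b1) at `y = ρ₀` -/
def M3Bd : Prop := EvH fun q g w f t₁ => ∀ t ∈ Icc 0 t₁, ∀ x ∈ Ioo (0 : ℝ) 1,
  yv w f t x = q.rho0 → |ff g w f t x| < q.fb t (uu w f t x)

/-- boundary value for (b2) at `y = ρ₀` -/
def M4Bd : Prop := EvH fun q _g w f t₁ => ∀ t ∈ Icc 0 t₁, ∀ x ∈ Ioo (0 : ℝ) 1,
  yv w f t x = q.rho0 → |VV w f t x| < q.Vb t (uu w f t x)

/-- strict (b4) -/
def M7Fin : Prop := EvH fun q _g w f t₁ => ∀ t ∈ Icc 0 t₁, ∀ x ∈ Ioo (0 : ℝ) 1,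
  q.rho0 ≤ yv w f t x → yv w f t x ≤ 25 →
    |uu w f t x| < q.MU * q.A t ∧ |PP w f t x| < q.MP * q.A t / Real.sqrt (tau t) ∧
      |VV w f t x| < q.MV * q.A t / tau t

end

end Vale.Agent.P244.ST.M7
end

section

/-!
# P244-ST, block M7 : the input `WinIn` (smallness on the window `ρ₀/16 ≤ y ≤ 400`)
-/

open Set Filter Topology

namespace Vale.Agent.P244.ST.M

open Vale.Agent.P244.ST

noncomputable section

/-- smallness of the parameters for the window `ρ₀/16 ≤ y ≤ 400` -/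
structure WinPar (q : Par) : Prop where
  rho0 : 0 < q.rho0
  rho0_le : q.rho0 ≤ 1
  sg : 0 < q.sg
  sg_le : q.sg ≤ 1 / 5
  K1n : 0 ≤ K1 q
  N : 5 ≤ q.N
  eps : 0 < q.eps
  eta : 480000 * q.eta ≤ q.sg / 4
  xi : K1 q * q.eps * 400 ^ bb ≤ q.sg / 100
  T0 : 6 / 5 * (q.eps * q.rho0 ^ (-kap)) * 16 ^ kapp ≤ q.sg / 100

theorem ev_WinPar : Ev WinPar := by
  refine ev_of_N (K := 5) (by norm_num) fun q hq => ?_
  have h5 : (0 : ℝ) ≤ 5 := by norm_num
  have hK1 : 0 ≤ K1 q := K1_nonneg_of hq.rho0 (h5.trans hq.MU) (h5.trans hq.MP)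
    (h5.trans hq.MV) (h5.trans hq.CU) (h5.trans hq.CP) (h5.trans hq.CV)
  have hs := hq.sg
  refine ⟨max 5 (1 / q.sg * (4 * 480000 * 10 ^ 4)), fun N hN => ?_⟩
  have hN5 : 5 ≤ N := (le_max_left _ _).trans hN
  have hN2 : 1 / q.sg * (4 * 480000 * 10 ^ 4) ≤ N := (le_max_right _ _).trans hN
  have hr : 0 < q.rho0 ^ (-kap) := Real.rpow_pos_of_pos hq.rho0 _
  obtain ⟨e1, he1, h1⟩ := exists_mul_le (F := K1 q * 400 ^ bb) (c := q.sg / 100)
    (mul_nonneg hK1 (by positivity)) (by positivity)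
  obtain ⟨e2, he2, h2⟩ := exists_mul_le (F := 6 / 5 * q.rho0 ^ (-kap) * 16 ^ kapp)
    (c := q.sg / 100) (by positivity) (by positivity)
  refine ⟨min e1 e2, lt_min he1 he2, fun eps he => ?_⟩
  have a1 := h1 eps ⟨he.1, he.2.trans (min_le_left _ _)⟩
  have a2 := h2 eps ⟨he.1, he.2.trans (min_le_right _ _)⟩
  refine
    { rho0 := hq.rho0
      rho0_le := hq.rho0'.trans (by norm_num)
      sg := hq.sg
      sg_le := hq.sg'
      K1n := hK1
      N := hN5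
      eps := he.1
      eta := ?_
      xi := ?_
      T0 := ?_ }
  · show 480000 * (10 ^ 4 / N ^ 2) ≤ q.sg / 4
    have hNp : 0 < N := by linarith only [hN5]
    have h3 : 4 * 480000 * 10 ^ 4 ≤ q.sg * N := by
      have := mul_le_mul_of_nonneg_left hN2 hs.le
      rw [← mul_assoc, mul_one_div_cancel hs.ne', one_mul] at this
      exact this
    have h4 : q.sg * N ≤ q.sg * N ^ 2 := mul_le_mul_of_nonneg_left (by (by_contra nlg; linarith only [nlg, mul_pos (sub_pos.2 (not_le.1 nlg)) (sub_pos.2 (not_le.1 nlg)), mul_nonneg (sq_nonneg (N : ℝ)) (sub_nonneg.2 hN5), mul_nonneg (sq_nonneg (N : ℝ)) (le_of_lt (sub_pos.2 (not_le.1 nlg))), mul_nonneg (sq_nonneg (N : ℝ)) (sq_nonneg (N : ℝ))])) hs.le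
    rw [← mul_div_assoc, div_le_div_iff₀ (by positivity) (by norm_num)]
    linarith only [h3, h4]
  · calc K1 q * eps * 400 ^ bb = K1 q * 400 ^ bb * eps := by ring
      _ ≤ _ := a1
  · calc 6 / 5 * (eps * q.rho0 ^ (-kap)) * 16 ^ kapp
        = 6 / 5 * q.rho0 ^ (-kap) * 16 ^ kapp * eps := by ring
      _ ≤ _ := a2

variable {q : Par} {g : ℝ → ℝ} {w f : Fn} {t : ℝ}

theorem A_le_eps (he : 0 < q.eps) (ht0 : 0 ≤ t) (ht : t < 1) : q.A t ≤ q.eps := by
  have h1 : 0 < tau t := M2.tau_pos ht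
  have h2 : tau t ≤ 1 := by unfold tau; linarith only [ht0]
  have h3 : (tau t) ^ (lam 3) ≤ 1 := Real.rpow_le_one h1.le h2 mb_lam3_pos.le
  calc q.A t = q.eps * (tau t) ^ (lam 3) := rfl
    _ ≤ q.eps * 1 := mul_le_mul_of_nonneg_left h3 he.le
    _ = q.eps := mul_one _

theorem rr_le_yv (ht0 : 0 ≤ t) (ht : t < 1) (x : ℝ) : rr w f t x ≤ yv w f t x := by
  have hs := Real.sqrt_pos.2 (M2.tau_pos ht)
  have h1 : Real.sqrt (tau t) ≤ 1 := Real.sqrt_le_one.2 (by unfold tau; linarith only [ht0])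
  have hr := M2.rr_pos (w := w) (f := f) (t := t) x
  have hy : yv w f t x = rr w f t x / Real.sqrt (tau t) := rfl
  rw [hy, le_div_iff₀ hs]
  linarith only [mul_nonneg (sub_nonneg.2 h1) (le_of_lt (sub_pos.2 hr))]

/-- the outer part `ρ₀ ≤ y ≤ 400` -/
theorem win_outer (hq : WinPar q) (ht0 : 0 ≤ t) (ht : t < 1) {x : ℝ}
    (hrs : 0 < rs w f t x) (hO : FO q w f t x) (hy : yv w f t x ≤ 400) :
    |uu w f t x| ≤ q.sg ∧ |GG w f t x| ≤ q.sg ∧ |ZZ w f t x - 1| ≤ q.sg ∧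
      |(rr w f t x) ^ 2 * RR w f t x| ≤ q.sg ∧ |(rr w f t x) ^ 2 * E0 w f t x| ≤ q.sg := by
  have hs := hq.sg
  have hs5 := hq.sg_le
  have hr := M2.rr_pos (w := w) (f := f) (t := t) x
  have hr4 : rr w f t x ≤ 400 := (rr_le_yv ht0 ht x).trans hy
  have hb := bb_pos
  have hNp : 0 < q.N := by linarith only [hq, hs, hs5, hq.N]
  have hη : 0 < q.eta := by unfold Par.eta; positivity
  have hξ : xi q (rr w f t x) ≤ q.sg / 100 := by
    refine le_trans ?_ hq.xi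
    unfold xi
    exact mul_le_mul_of_nonneg_left (Real.rpow_le_rpow hr.le hr4 (by linarith only [hs, hs5, hb]))
      (mul_nonneg hq.K1n hq.eps.le)
  have hξ0 : 0 ≤ xi q (rr w f t x) := (abs_nonneg _).trans hO.u_le
  have hr2 : (rr w f t x) ^ 2 ≤ 160000 := by (by_contra nlg; linarith [mul_nonneg (sub_nonneg.2 hr4) (sub_nonneg.2 hr4), mul_nonneg (le_of_lt (sub_pos.2 hr)) (sub_nonneg.2 hr4), mul_nonneg (le_of_lt (sub_pos.2 (not_le.1 nlg))) (sub_nonneg.2 hr4), mul_pos (sub_pos.2 (not_le.1 nlg)) (sub_pos.2 hr)])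
  have hr2p : 0 < (rr w f t x) ^ 2 := by positivity
  have hrη : (rr w f t x) ^ 2 * (3 * q.eta) ≤ q.sg / 4 := by
    refine le_trans ?_ hq.eta
    nlinarith only [hs, hs5, hη, hr2]
  have hξ2 : xi q (rr w f t x) ^ 2 ≤ q.sg / 50000 := by
    have : xi q (rr w f t x) ^ 2 ≤ (q.sg / 100) ^ 2 := pow_le_pow_left₀ hξ0 hξ 2
    nlinarith only [hs, hs5, this]
  have hZlo : -(q.sg / 2) ≤ ZZ w f t x - 1 := by
    refine le_trans ?_ hO.Z_ge
    have : (rr w f t x) ^ 2 * (3 * q.eta) / 1640 ≤ q.sg / 4 := by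
      have h1 : 0 ≤ (rr w f t x) ^ 2 * (3 * q.eta) := by positivity
      have h2 : (rr w f t x) ^ 2 * (3 * q.eta) / 1640 ≤ (rr w f t x) ^ 2 * (3 * q.eta) :=
        div_le_self h1 (by norm_num)
      linarith only [hs, hrη]
    linarith only [hs, hrη, hξ2]
  have hZ2 : 1 / 2 ≤ ZZ w f t x := by linarith only [hs, hs5, hZlo]
  refine ⟨?_, ?_, ?_, ?_, ?_⟩
  · exact (hO.u_le.trans hξ).trans (by linarith only [hs])
  · refine abs_le_of_sq_le_sq' ?_ hs.le |> abs_le.2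
    have h1 : (GG w f t x) ^ 2 * ZZ w f t x = (rr w f t x * |PP w f t x|) ^ 2 := by
      unfold GG ZZ
      rw [mul_pow, sq_abs]
      field_simp
    have h2 : (rr w f t x * |PP w f t x|) ^ 2 ≤ xi q (rr w f t x) ^ 2 :=
      pow_le_pow_left₀ (mul_nonneg hr.le (abs_nonneg _)) hO.P_le 2
    have h3 : (GG w f t x) ^ 2 * (1 / 2) ≤ (GG w f t x) ^ 2 * ZZ w f t x :=
      mul_le_mul_of_nonneg_left hZ2 (sq_nonneg _)
    have h4 : xi q (rr w f t x) ^ 2 ≤ (q.sg / 100) ^ 2 := pow_le_pow_left₀ hξ0 hξ 2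
    nlinarith only [h1, h2, h3, h4]
  · rw [abs_le]
    have := hO.Z_le
    constructor <;> linarith only [hs, hZlo, hξ2, this]
  · have h1 : 0 ≤ (rr w f t x) ^ 2 * RR w f t x := mul_nonneg hr2p.le hO.R_nonneg
    rw [abs_of_nonneg h1]
    have h2 := mul_le_mul_of_nonneg_left hO.R_le hr2p.le
    linarith only [hs, hrη, h2]
  · rw [abs_mul, abs_of_pos hr2p]
    have h1 := mul_le_mul_of_nonneg_left hO.E0_le hr2p.le
    have h2 : (rr w f t x) ^ 2 * (3 / 2 * q.eta + 3000 * xi q (rr w f t x) ^ 2 /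
        (rr w f t x) ^ 2) = (rr w f t x) ^ 2 * (3 * q.eta) / 2 + 3000 * xi q (rr w f t x) ^ 2 := by
      field_simp
    rw [h2] at h1
    linarith only [h1, hξ2, hrη, hs]

/-- the inner part `ρ₀/16 ≤ y ≤ ρ₀` -/
theorem win_inner (hg : IsBub g) (hq : WinPar q) (ht0 : 0 ≤ t) (ht : t < 1) {x : ℝ}
    (hI : FI q g w f t x) (hy0 : q.rho0 / 16 ≤ yv w f t x) (hy : yv w f t x ≤ q.rho0) :
    |uu w f t x| ≤ q.sg ∧ |GG w f t x| ≤ q.sg ∧ |ZZ w f t x - 1| ≤ q.sg ∧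
      |(rr w f t x) ^ 2 * RR w f t x| ≤ q.sg ∧ |(rr w f t x) ^ 2 * E0 w f t x| ≤ q.sg := by
  have hs := hq.sg
  have hs5 := hq.sg_le
  have hr := M2.rr_pos (w := w) (f := f) (t := t) x
  have hr1 : rr w f t x ≤ 1 := (rr_le_yv ht0 ht x).trans (hy.trans hq.rho0_le)
  have hNp : 0 < q.N := lt_of_lt_of_le (by norm_num) hq.N
  have hη : 0 < q.eta := by unfold Par.eta; positivity
  have hη1 : q.eta ≤ q.sg / 1920000 := by have := hq.eta; linarith only [this]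
  have hu := hI.u_pos
  have hyp : 0 < yv w f t x := M2.yv_pos ht x
  have hkp : 0 < kapp := by unfold kapp; linarith only [hs5, hη, hη1, M2.kap_gt]
  have hA := A_le_eps (q := q) hq.eps ht0 ht
  have hrk : 0 < q.rho0 ^ (-kap) := Real.rpow_pos_of_pos hq.rho0 _
  -- `sinh u ≤ σ/100`
  have hsinh : Real.sinh (uu w f t x) ≤ q.sg / 100 := by
    refine hI.sinh_le.trans (le_trans ?_ hq.T0)
    have h1 : q.T0 t ≤ q.eps * q.rho0 ^ (-kap) := mul_le_mul_of_nonneg_right hA hrk.le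
    have h0 : 0 ≤ q.rho0 / yv w f t x := div_nonneg hq.rho0.le hyp.le
    have h2 : (q.rho0 / yv w f t x) ^ kapp ≤ 16 ^ kapp := by
      refine Real.rpow_le_rpow h0 ?_ hkp.le
      rw [div_le_iff₀ hyp]; linarith only [hy0]
    have h4 : 0 ≤ q.eps * q.rho0 ^ (-kap) := mul_nonneg hq.eps.le hrk.le
    exact mul_le_mul (mul_le_mul_of_nonneg_left h1 (by norm_num)) h2 (Real.rpow_nonneg h0 _)
      (mul_nonneg (by norm_num) h4)
  have hsp : 0 < Real.sinh (uu w f t x) := Real.sinh_pos_iff.2 hu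
  have hus : uu w f t x ≤ Real.sinh (uu w f t x) := Real.self_le_sinh_iff.2 hu.le
  have hc1 := Real.one_le_cosh (uu w f t x)
  have hcs : Real.cosh (uu w f t x) ^ 2 = 1 + Real.sinh (uu w f t x) ^ 2 := by
    rw [Real.cosh_sq]; ring
  have hs2 : Real.sinh (uu w f t x) ^ 2 ≤ q.sg / 50000 := by
    have : Real.sinh (uu w f t x) ^ 2 ≤ (q.sg / 100) ^ 2 := pow_le_pow_left₀ hsp.le hsinh 2
    nlinarith only [this, hs, hs5]
  have hcu : Real.cosh (uu w f t x) ≤ 1 + Real.sinh (uu w f t x) ^ 2 / 2 := by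
    nlinarith only [hcs, sq_nonneg (Real.cosh (uu w f t x) - 1)]
  have hg0 := M2.g_pos hg hu
  have htanh : Real.tanh (uu w f t x) ≤ Real.sinh (uu w f t x) := by
    rw [Real.tanh_eq_sinh_div_cosh]
    exact div_le_self hsp.le hc1
  have hgle : g (uu w f t x) ≤ 2.12 * Real.sinh (uu w f t x) := by
    have h1 := hg.upper _ hu
    have h2 := M2.kap_lt
    have h3 := M2.tanh_pos hu
    have h4 : kap * Real.tanh (uu w f t x) ≤ 2.12 * Real.tanh (uu w f t x) :=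
      mul_le_mul_of_nonneg_right (by linarith only [h2]) h3.le
    linarith only [h1, h4, htanh]
  have hg2 : g (uu w f t x) ^ 2 ≤ q.sg / 10000 := by
    have h1 : g (uu w f t x) ^ 2 ≤ (2.12 * Real.sinh (uu w f t x)) ^ 2 :=
      pow_le_pow_left₀ hg0.le hgle 2
    have h2 : (2.12 * Real.sinh (uu w f t x)) ^ 2 = 2.12 ^ 2 * Real.sinh (uu w f t x) ^ 2 := by
      ring
    rw [h2] at h1
    norm_num at h1
    linarith only [h1, hs2, hs]
  have hg2p : 0 ≤ g (uu w f t x) ^ 2 := sq_nonneg _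
  have heb0 : 0 ≤ eb q w f t x := (abs_nonneg _).trans hI.e_le
  have heb : eb q w f t x ≤ 1 / 10 ^ 4 := by
    have h1 := hI.eb_le
    have h2 := mul_le_mul_of_nonneg_left hc1 heb0
    linarith only [h1, h2]
  have hq1 := M2.q_lo hg hu
  have hZs1 : Zs g (uu w f t x) ≤ 2 := by
    have h1 := M2.Zs_le hg hu
    linarith only [h1, hcu, hs2, hs5]
  have hZs0 : 1 ≤ Zs g (uu w f t x) := hc1.trans (M2.cosh_le_Zs hg hu)
  have hZs2 : Zs g (uu w f t x) - 1 ≤ q.sg / 4 := by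
    have h1 := M2.Zs_q hg hu
    have h2 : qb g (uu w f t x) = 39 - g (uu w f t x) ^ 2 / 4 := rfl
    have h3 : (Zs g (uu w f t x) - 1) * qb g (uu w f t x) =
        39 * (Real.cosh (uu w f t x) - 1) + g (uu w f t x) ^ 2 / 4 := by
      rw [sub_mul, h1, h2]; ring
    have h4 : (Zs g (uu w f t x) - 1) * 38 ≤ (Zs g (uu w f t x) - 1) * qb g (uu w f t x) :=
      mul_le_mul_of_nonneg_left hq1.le (sub_nonneg.2 hZs0)
    linarith only [h3, h4, hcu, hs2, hg2, hs]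
  -- `θ`
  have hZp : 0 < Zs g (uu w f t x) := lt_of_lt_of_le one_pos hZs0
  have hZ : ZZ w f t x - 1 = (Zs g (uu w f t x) - 1) +
      Zs g (uu w f t x) * th g w f t x := by
    unfold th
    field_simp
    ring
  have hth0 := hI.th_le
  have hr2 : (rr w f t x) ^ 2 ≤ 1 := pow_le_one₀ hr.le hr1
  have hr2p : 0 < (rr w f t x) ^ 2 := by positivity
  have h7 : (rr w f t x) ^ 2 * (3 * q.eta) ≤ 1 * (3 * q.eta) :=
    mul_le_mul_of_nonneg_right hr2 (by positivity)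
  have hZg : Zs g (uu w f t x) * (g (uu w f t x) ^ 2 * 1) ≤ 2 * (g (uu w f t x) ^ 2 * 1) :=
    mul_le_mul_of_nonneg_right hZs1 (by linarith only [hg2p])
  have hth1 : -(Zs g (uu w f t x) * th g w f t x) ≤ q.sg / 4 := by
    have h1 := mul_le_mul_of_nonneg_left hI.th_ge hZp.le
    have h2 : Zs g (uu w f t x) * (g (uu w f t x) ^ 2 * eb q w f t x ^ 2 / 148 +
        (rr w f t x) ^ 2 * (3 * q.eta) / (1640 * Zs g (uu w f t x))) =
        Zs g (uu w f t x) * (g (uu w f t x) ^ 2 * eb q w f t x ^ 2) / 148 +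
        (rr w f t x) ^ 2 * (3 * q.eta) / 1640 := by
      field_simp
    rw [h2] at h1
    have h3 : eb q w f t x ^ 2 ≤ 1 := pow_le_one₀ heb0 (heb.trans (by norm_num))
    have h4 : g (uu w f t x) ^ 2 * eb q w f t x ^ 2 ≤ g (uu w f t x) ^ 2 * 1 :=
      mul_le_mul_of_nonneg_left h3 hg2p
    have h5 : Zs g (uu w f t x) * (g (uu w f t x) ^ 2 * eb q w f t x ^ 2) ≤
        Zs g (uu w f t x) * (g (uu w f t x) ^ 2 * 1) :=
      mul_le_mul_of_nonneg_left h4 hZp.le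
    have h8 : -(Zs g (uu w f t x) * th g w f t x) = Zs g (uu w f t x) * -th g w f t x := by ring
    rw [h8]
    linarith only [h1, h5, hZg, hg2, h7, hη1, hs]
  refine ⟨?_, ?_, ?_, ?_, ?_⟩
  · rw [abs_of_pos hu]; linarith only [hus, hsinh, hs]
  · have h1 : GG w f t x = g (uu w f t x) * (1 - ee g w f t x) := by
      unfold ee
      field_simp
      ring
    rw [h1, abs_mul, abs_of_pos hg0]
    have h2 : |1 - ee g w f t x| ≤ 2 := by
      have h3 := abs_le.1 (hI.e_le.trans heb)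
      rw [abs_le]
      constructor <;> linarith only [h3.1, h3.2]
    have h3 : g (uu w f t x) * |1 - ee g w f t x| ≤ g (uu w f t x) * 2 :=
      mul_le_mul_of_nonneg_left h2 hg0.le
    norm_num at hgle
    linarith only [h3, hgle, hsinh, hs]
  · rw [hZ, abs_le]
    have h9 : Zs g (uu w f t x) * th g w f t x ≤ 0 := mul_nonpos_of_nonneg_of_nonpos hZp.le hth0
    constructor <;> linarith only [h9, hth1, hZs0, hZs2, hs]
  · have h1 : 0 ≤ (rr w f t x) ^ 2 * RR w f t x := mul_nonneg hr2p.le hI.R_nonneg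
    rw [abs_of_nonneg h1]
    have h2 := mul_le_mul_of_nonneg_left hI.R_le hr2p.le
    linarith only [h2, h7, hη1, hs]
  · rw [abs_mul, abs_of_pos hr2p]
    have h1 := mul_le_mul_of_nonneg_left hI.E0_le hr2p.le
    have h2 : (rr w f t x) ^ 2 * (11 / 10 * (3 * q.eta) +
        11 * Zs g (uu w f t x) * g (uu w f t x) ^ 2 * q.fb t (uu w f t x)) =
        11 / 10 * ((rr w f t x) ^ 2 * (3 * q.eta)) +
        11 * (Zs g (uu w f t x) * (g (uu w f t x) ^ 2 * eb q w f t x)) := by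
      unfold eb; ring
    rw [h2] at h1
    have h4 : g (uu w f t x) ^ 2 * eb q w f t x ≤ g (uu w f t x) ^ 2 * 1 :=
      mul_le_mul_of_nonneg_left (heb.trans (by norm_num)) hg2p
    have h5 : Zs g (uu w f t x) * (g (uu w f t x) ^ 2 * eb q w f t x) ≤
        Zs g (uu w f t x) * (g (uu w f t x) ^ 2 * 1) :=
      mul_le_mul_of_nonneg_left h4 hZp.le
    linarith only [h1, h5, hZg, hg2, h7, hη1, hs]

end

end Vale.Agent.P244.ST.M

namespace Vale.Agent.P244.ST.M7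

/-- **Input of M7**: everything is small on the window `ρ₀/16 ≤ y ≤ 400`. -/
theorem winIn : WinIn := by
  intro g hg
  refine M.ev_WinPar.mono ?_
  intro q hq b w f T t₁ H _ t ht x hx hy0 hy
  have ht1 : t < 1 := lt_of_le_of_lt ht.2 (H.mem.2.trans_le H.T_le)
  have htT : t ∈ Ico 0 T := ⟨ht.1, lt_of_le_of_lt ht.2 H.mem.2⟩
  rcases le_total (yv w f t x) q.rho0 with h | h
  · exact M.win_inner hg hq ht.1 ht1 (H.fI t ht x hx h) hy0 h
  · exact M.win_outer hq ht.1 ht1 (H.qual.rs_pos t htT x hx)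
      (H.fO t ht x ⟨hx.1.le, hx.2⟩ h) hy

end Vale.Agent.P244.ST.M7
end
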