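import Mathlib
import Vale.Agent.P244.Bd3.B1
import Vale.Agent.P244.Bd3.B3

set_option linter.all false

section
set_option linter.all false
/-!
# P264 / Cal : smooth parametric integrals over closed convex sets, Hadamard division
-/
open Set MeasureTheory Filter Topology Function
open scoped ContDiff

namespace P264.Cal

section Param
variable {E : Type} [NormedAddCommGroup E] [NormedSpace ℝ E]

/-- Differentiation under `∫₀¹` within a compact convex set. -/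
theorem hasFDerivWithinAt_integral {F : Type} [NormedAddCommGroup F] [NormedSpace ℝ F]
    [CompleteSpace F] {S : Set E} (hS : IsCompact S) (hc : Convex ℝ S)
    {f : E → ℝ → F} {f' : E → ℝ → (E →L[ℝ] F)} {a b : ℝ} (hab : a ≤ b)
    (hf : ContinuousOn (fun q : E × ℝ => f q.1 q.2) (S ×ˢ Icc a b))
    (hf' : ContinuousOn (fun q : E × ℝ => f' q.1 q.2) (S ×ˢ Icc a b))
    (hd : ∀ p ∈ S, ∀ s ∈ Icc a b, HasFDerivWithinAt (fun q => f q s) (f' p s) S p)
    {p : E} (hp : p ∈ S) :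
    HasFDerivWithinAt (fun q => ∫ s in a..b, f q s) (∫ s in a..b, f' p s) S p := by
  have hK : IsCompact (S ×ˢ Icc a b) := hS.prod isCompact_Icc
  have huc : UniformContinuousOn (fun q : E × ℝ => f' q.1 q.2) (S ×ˢ Icc a b) :=
    hK.uniformContinuousOn_of_continuous hf'
  have hsec : ∀ q ∈ S, ContinuousOn (fun s => f q s) (Icc a b) := by
    intro q hq
    exact hf.comp (f := fun s : ℝ => ((q, s) : E × ℝ)) (by fun_prop) (fun s hs => ⟨hq, hs⟩)
  have hsec' : ∀ q ∈ S, ContinuousOn (fun s => f' q s) (Icc a b) := by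
    intro q hq
    exact hf'.comp (f := fun s : ℝ => ((q, s) : E × ℝ)) (by fun_prop) (fun s hs => ⟨hq, hs⟩)
  have hint : ∀ q ∈ S, IntervalIntegrable (fun s => f q s) volume a b := by
    intro q hq
    apply ContinuousOn.intervalIntegrable
    rw [uIcc_of_le hab]; exact hsec q hq
  have hint' : ∀ q ∈ S, IntervalIntegrable (fun s => f' q s) volume a b := by
    intro q hq
    apply ContinuousOn.intervalIntegrable
    rw [uIcc_of_le hab]; exact hsec' q hq
  rw [hasFDerivWithinAt_iff_isLittleO, Asymptotics.isLittleO_iff]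
  intro c hc0
  set ε : ℝ := c / (b - a + 1) with hε
  have hba : 0 < b - a + 1 := by linarith
  have hε0 : 0 < ε := div_pos hc0 hba
  rw [Metric.uniformContinuousOn_iff] at huc
  obtain ⟨δ, hδ, hδ'⟩ := huc ε hε0
  have hball : S ∩ Metric.ball p δ ∈ 𝓝[S] p :=
    inter_mem self_mem_nhdsWithin (mem_nhdsWithin_of_mem_nhds (Metric.ball_mem_nhds p hδ))
  filter_upwards [hball] with q hq
  have hconv : Convex ℝ (S ∩ Metric.ball p δ) := hc.inter (convex_ball p δ)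
  have hpm : p ∈ S ∩ Metric.ball p δ := ⟨hp, Metric.mem_ball_self hδ⟩
  have key : ∀ s ∈ Icc a b, ‖f q s - f p s - f' p s (q - p)‖ ≤ ε * ‖q - p‖ := by
    intro s hs
    apply hconv.norm_image_sub_le_of_norm_hasFDerivWithin_le' (f := fun q => f q s)
      (f' := fun q => f' q s) (φ := f' p s) (C := ε)
    · intro r hr
      exact (hd r hr.1 s hs).mono inter_subset_left
    · intro r hr
      have := hδ' (r, s) ⟨hr.1, hs⟩ (p, s) ⟨hp, hs⟩ (by
        rw [Prod.dist_eq]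
        simp only [dist_self]
        have h1 : dist r p < δ := hr.2
        exact max_lt h1 hδ)
      rw [dist_eq_norm] at this
      exact this.le
    · exact hpm
    · exact hq
  have e1 : (∫ s in a..b, f' p s) (q - p) = ∫ s in a..b, f' p s (q - p) := by
    rw [ContinuousLinearMap.intervalIntegral_apply (hint' p hp)]
  have hintp : IntervalIntegrable (fun s => f' p s (q - p)) volume a b := by
    apply ContinuousOn.intervalIntegrable
    rw [uIcc_of_le hab]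
    exact (hsec' p hp).clm_apply continuousOn_const
  rw [e1, ← intervalIntegral.integral_sub (hint q hq.1) (hint p hp),
    ← intervalIntegral.integral_sub ((hint q hq.1).sub (hint p hp)) hintp]
  calc ‖∫ s in a..b, (f q s - f p s - f' p s (q - p))‖ ≤ (ε * ‖q - p‖) * |b - a| := by
        apply intervalIntegral.norm_integral_le_of_norm_le_const
        intro s hs
        rw [uIoc_of_le hab] at hs
        exact key s ⟨hs.1.le, hs.2⟩
    _ ≤ c * ‖q - p‖ := by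
        rw [abs_of_nonneg (by linarith), hε]
        have h2 : (b - a) / (b - a + 1) ≤ 1 := by
          rw [div_le_one hba]; linarith
        have h3 : c / (b - a + 1) * ‖q - p‖ * (b - a) = c * ‖q - p‖ * ((b - a) / (b - a + 1)) := by
          field_simp
        rw [h3]
        have h4 : 0 ≤ c * ‖q - p‖ := by positivity
        linarith only [mul_nonneg (sub_nonneg.2 h2) (sub_nonneg.2 h4)]

/-- Continuity of parametric integrals on a compact set. -/
theorem continuousOn_integral {F : Type} [NormedAddCommGroup F] [NormedSpace ℝ F]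
    {S : Set E} (hS : IsCompact S) {f : E → ℝ → F} {a b : ℝ} (hab : a ≤ b)
    (hf : ContinuousOn (fun q : E × ℝ => f q.1 q.2) (S ×ˢ Icc a b)) :
    ContinuousOn (fun q => ∫ s in a..b, f q s) S := by
  have hK : IsCompact (S ×ˢ Icc a b) := hS.prod isCompact_Icc
  have huc : UniformContinuousOn (fun q : E × ℝ => f q.1 q.2) (S ×ˢ Icc a b) :=
    hK.uniformContinuousOn_of_continuous hf
  have hsec : ∀ q ∈ S, ContinuousOn (fun s => f q s) (Icc a b) := by
    intro q hq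
    exact hf.comp (f := fun s : ℝ => ((q, s) : E × ℝ)) (by fun_prop) (fun s hs => ⟨hq, hs⟩)
  have hint : ∀ q ∈ S, IntervalIntegrable (fun s => f q s) volume a b := by
    intro q hq
    apply ContinuousOn.intervalIntegrable
    rw [uIcc_of_le hab]; exact hsec q hq
  rw [Metric.continuousOn_iff]
  intro p hp c hc0
  set ε : ℝ := c / (b - a + 1) with hε
  have hba : 0 < b - a + 1 := by linarith
  have hε0 : 0 < ε := div_pos hc0 hba
  rw [Metric.uniformContinuousOn_iff] at huc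
  obtain ⟨δ, hδ, hδ'⟩ := huc ε hε0
  refine ⟨δ, hδ, fun q hq hqp => ?_⟩
  rw [dist_eq_norm, ← intervalIntegral.integral_sub (hint q hq) (hint p hp)]
  calc ‖∫ s in a..b, (f q s - f p s)‖ ≤ ε * |b - a| := by
        apply intervalIntegral.norm_integral_le_of_norm_le_const
        intro s hs
        rw [uIoc_of_le hab] at hs
        have := hδ' (q, s) ⟨hq, hs.1.le, hs.2⟩ (p, s) ⟨hp, hs.1.le, hs.2⟩ (by
          rw [Prod.dist_eq]
          simp only [dist_self]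
          exact max_lt hqp hδ)
        rw [dist_eq_norm] at this
        exact this.le
    _ < c := by
        rw [abs_of_nonneg (by linarith), hε]
        have h3 : c / (b - a + 1) * (b - a) = c - c / (b - a + 1) := by
          field_simp; ring
        rw [h3]; linarith

theorem contDiffOn_integral_nat {S : Set E} (hS : IsCompact S) (hc : Convex ℝ S)
    (hu : UniqueDiffOn ℝ S) {a b : ℝ} (hab : a < b) (n : ℕ) :
    ∀ (F : Type) [NormedAddCommGroup F] [NormedSpace ℝ F] [CompleteSpace F] (f : E × ℝ → F),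
      ContDiffOn ℝ n f (S ×ˢ Icc a b) → ContDiffOn ℝ n (fun p => ∫ s in a..b, f (p, s)) S := by
  have huK : UniqueDiffOn ℝ (S ×ˢ Icc a b) := hu.prod (uniqueDiffOn_Icc hab)
  induction n with
  | zero =>
    intro F _ _ _ f hf
    simp only [CharP.cast_eq_zero, contDiffOn_zero] at hf ⊢
    exact continuousOn_integral hS hab.le (f := fun p s => f (p, s)) hf
  | succ n ih =>
    intro F _ _ _ f hf
    have hf' : ContDiffOn ℝ n (fderivWithin ℝ f (S ×ˢ Icc a b)) (S ×ˢ Icc a b) :=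
      hf.fderivWithin huK (by norm_cast)
    set f' : E × ℝ → (E →L[ℝ] F) := fun q =>
      (fderivWithin ℝ f (S ×ˢ Icc a b) q).comp (ContinuousLinearMap.inl ℝ E ℝ) with hf'def
    have hf'c : ContDiffOn ℝ n f' (S ×ˢ Icc a b) := by
      apply hf'.clm_comp contDiffOn_const
    have hdf : ∀ p ∈ S, ∀ s ∈ Icc a b, HasFDerivWithinAt (fun q => f (q, s)) (f' (p, s)) S p := by
      intro p hp s hs
      have h1 : HasFDerivWithinAt f (fderivWithin ℝ f (S ×ˢ Icc a b) (p, s)) (S ×ˢ Icc a b) (p, s) :=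
        ((hf.differentiableOn (by simp)) (p, s) ⟨hp, hs⟩).hasFDerivWithinAt
      have h2 : HasFDerivWithinAt (fun q : E => ((q, s) : E × ℝ)) (ContinuousLinearMap.inl ℝ E ℝ) S p :=
        (hasFDerivAt_prodMk_left p s).hasFDerivWithinAt
      exact HasFDerivWithinAt.comp p h1 h2 (fun q hq => ⟨hq, hs⟩)
    have hder := fun p (hp : p ∈ S) => hasFDerivWithinAt_integral hS hc (f := fun p s => f (p, s))
      (f' := fun p s => f' (p, s)) hab.le hf.continuousOn hf'c.continuousOn hdf hp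
    have := ih (E →L[ℝ] F) f' hf'c
    have hcast : ((n + 1 : ℕ) : WithTop ℕ∞) = (n : WithTop ℕ∞) + 1 := by norm_cast
    rw [hcast, contDiffOn_succ_iff_hasFDerivWithinAt_of_uniqueDiffOn hu]
    refine ⟨by simp, fun p => ∫ s in a..b, f' (p, s), this, hder⟩

/-- Smooth parametric integrals over a compact convex set, closed up to the boundary. -/
theorem contDiffOn_integral {F : Type} [NormedAddCommGroup F] [NormedSpace ℝ F] [CompleteSpace F]
    {S : Set E} (hS : IsCompact S) (hc : Convex ℝ S)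
    (hu : UniqueDiffOn ℝ S) {a b : ℝ} (hab : a < b) {f : E × ℝ → F}
    (hf : ContDiffOn ℝ ∞ f (S ×ˢ Icc a b)) :
    ContDiffOn ℝ ∞ (fun p => ∫ s in a..b, f (p, s)) S := by
  rw [contDiffOn_infty]
  intro n
  exact contDiffOn_integral_nat hS hc hu hab n F f (hf.of_le (by exact_mod_cast le_top))

end Param

section Box
variable {a b c d : ℝ}

theorem uniqueDiffOn_box (hab : a < b) (hcd : c < d) :
    UniqueDiffOn ℝ (Icc a b ×ˢ Icc c d) :=
  (uniqueDiffOn_Icc hab).prod (uniqueDiffOn_Icc hcd)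

end Box

end P264.Cal
end

section

/-!
# P244-ST : the conformal gauge system as identities in the differential algebra `smoothAlg T`

`smoothAlg T` = smooth functions of `(x,t)` on `[-1,1] × [0,T)` (space variable first).
-/

open Set Topology Filter
open scoped ContDiff

namespace Vale.Agent.P244.ST

open Vale.Agent.P244.BB

variable {T : ℝ}

/-! ### elements of the algebra -/

/-- element of the algebra given by a smooth function `u t x` (time first). -/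
noncomputable def el (u : ℝ → ℝ → ℝ)
    (hu : ContDiffOn ℝ ∞ (fun z : ℝ × ℝ => u z.1 z.2) (Ico 0 T ×ˢ Icc (-1) 1)) : smoothAlg T :=
  mkS (fun p => u p.2 p.1)
    (hu.comp (f := fun p : ℝ × ℝ => (p.2, p.1)) (contDiff_snd.prodMk contDiff_fst).contDiffOn
      (fun _ hp => ⟨hp.2, hp.1⟩))

lemma ext_el {u : ℝ → ℝ → ℝ}
    (hu : ContDiffOn ℝ ∞ (fun z : ℝ × ℝ => u z.1 z.2) (Ico 0 T ×ˢ Icc (-1) 1)) {p : ℝ × ℝ}
    (hp : p ∈ dom T) : ext (el u hu) p = u p.2 p.1 := ext_mkS _ hp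

lemma Icc_unique : UniqueDiffOn ℝ (Icc (-1 : ℝ) 1) := uniqueDiffOn_Icc (by norm_num)

lemma dx_eq_ext (f : smoothAlg T) {h : ℝ → ℝ} {x t : ℝ} (hx : x ∈ Icc (-1 : ℝ) 1)
    (ht : t ∈ Ico 0 T) (he : ∀ y ∈ Icc (-1 : ℝ) 1, h y = ext f (y, t)) :
    dx h x = ext (dz f) (x, t) := by
  unfold dx
  rw [derivWithin_congr (fun y hy => he y hy) (he x hx)]
  exact (hasDerivWithinAt_z f hx ht).derivWithin (Icc_unique x hx)

lemma dt_eq_ext (f : smoothAlg T) {h : ℝ → ℝ} {h' x t : ℝ} (hx : x ∈ Icc (-1 : ℝ) 1)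
    (ht : t ∈ Ico 0 T) (he : ∀ s ∈ Ico 0 T, h s = ext f (x, s))
    (hd : HasDerivWithinAt h h' (Ico 0 T) t) : ext (dt f) (x, t) = h' := by
  have h1 := hasDerivWithinAt_t f hx ht
  have h2 : HasDerivWithinAt h (ext (dt f) (x, t)) (Ico 0 T) t :=
    h1.congr (fun s hs => he s hs) (he t ht)
  have hu : UniqueDiffWithinAt ℝ (Ico 0 T) t := uniqueDiffOn_Ico 0 T t ht
  exact hu.eq_deriv _ h2 hd

/-- the coordinate function -/
noncomputable def Xs : smoothAlg T := mkS (fun p => p.1) contDiff_fst.contDiffOn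

lemma ext_Xs {p : ℝ × ℝ} (hp : p ∈ dom T) : ext (Xs : smoothAlg T) p = p.1 := ext_mkS _ hp

/-- the time function -/
noncomputable def Ts : smoothAlg T := mkS (fun p => p.2) contDiff_snd.contDiffOn

lemma ext_Ts {p : ℝ × ℝ} (hp : p ∈ dom T) : ext (Ts : smoothAlg T) p = p.2 := ext_mkS _ hp

lemma dz_eq_of (f : smoothAlg T) {G : ℝ × ℝ → ℝ} {p : ℝ × ℝ} (hp : p ∈ dom T)
    (h : HasDerivWithinAt (fun z => ext f (z, p.2)) (G p) (Icc (-1) 1) p.1) :
    ext (dz f) p = G p := by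
  have h1 := hasDerivWithinAt_z f hp.1 hp.2
  exact (Icc_unique p.1 hp.1).eq_deriv _ h1 h

lemma dt_eq_of (f : smoothAlg T) {G : ℝ × ℝ → ℝ} {p : ℝ × ℝ} (hp : p ∈ dom T)
    (h : HasDerivWithinAt (fun s => ext f (p.1, s)) (G p) (Ico 0 T) p.2) :
    ext (dt f) p = G p := by
  have h1 := hasDerivWithinAt_t f hp.1 hp.2
  exact (uniqueDiffOn_Ico 0 T p.2 hp.2).eq_deriv _ h1 h

lemma dz_Xs : dz (Xs : smoothAlg T) = 1 := by
  apply smooth_ext
  intro p hp
  rw [ext_one hp]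
  refine dz_eq_of Xs (G := fun _ => 1) hp ?_
  refine (hasDerivWithinAt_id p.1 _).congr (fun z hz => ?_) ?_
  · exact ext_Xs ⟨hz, hp.2⟩
  · exact ext_Xs ⟨hp.1, hp.2⟩

lemma dt_Xs : dt (Xs : smoothAlg T) = 0 := by
  apply smooth_ext
  intro p hp
  rw [ext_zero]
  refine dt_eq_of Xs (G := fun _ => 0) hp ?_
  refine (hasDerivWithinAt_const p.2 _ p.1).congr (fun s hs => ?_) ?_
  · exact ext_Xs ⟨hp.1, hs⟩
  · exact ext_Xs ⟨hp.1, hp.2⟩

lemma dz_Ts : dz (Ts : smoothAlg T) = 0 := by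
  apply smooth_ext
  intro p hp
  rw [ext_zero]
  refine dz_eq_of Ts (G := fun _ => 0) hp ?_
  refine (hasDerivWithinAt_const p.1 _ p.2).congr (fun z hz => ?_) ?_
  · exact ext_Ts ⟨hz, hp.2⟩
  · exact ext_Ts ⟨hp.1, hp.2⟩

lemma dt_Ts : dt (Ts : smoothAlg T) = 1 := by
  apply smooth_ext
  intro p hp
  rw [ext_one hp]
  refine dt_eq_of Ts (G := fun _ => 1) hp ?_
  refine (hasDerivWithinAt_id p.2 _).congr (fun s hs => ?_) ?_
  · exact ext_Ts ⟨hp.1, hs⟩
  · exact ext_Ts ⟨hp.1, hp.2⟩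

/-- composition with a smooth function of one variable -/
noncomputable def compS (φ : ℝ → ℝ) (hφ : ContDiff ℝ ∞ φ) (f : smoothAlg T) : smoothAlg T :=
  mkS (fun p => φ (ext f p)) (hφ.comp_contDiffOn (ext_contDiffOn f))

lemma ext_compS {φ : ℝ → ℝ} (hφ : ContDiff ℝ ∞ φ) (f : smoothAlg T) {p : ℝ × ℝ} (hp : p ∈ dom T) :
    ext (compS φ hφ f) p = φ (ext f p) := ext_mkS _ hp

lemma dz_compS {φ φ' : ℝ → ℝ} (hφ : ContDiff ℝ ∞ φ) (hφ' : ContDiff ℝ ∞ φ')
    (hd : ∀ y, HasDerivAt φ (φ' y) y) (f : smoothAlg T) :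
    dz (compS φ hφ f) = compS φ' hφ' f * dz f := by
  apply smooth_ext
  intro p hp
  rw [ext_mul, ext_compS hφ' f hp]
  refine dz_eq_of _ (G := fun p => φ' (ext f p) * ext (dz f) p) hp ?_
  have h1 := (hd (ext f (p.1, p.2))).comp_hasDerivWithinAt p.1 (hasDerivWithinAt_z f hp.1 hp.2)
  refine h1.congr (fun z hz => ?_) ?_
  · exact ext_compS hφ f ⟨hz, hp.2⟩
  · exact ext_compS hφ f ⟨hp.1, hp.2⟩

lemma dt_compS {φ φ' : ℝ → ℝ} (hφ : ContDiff ℝ ∞ φ) (hφ' : ContDiff ℝ ∞ φ')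
    (hd : ∀ y, HasDerivAt φ (φ' y) y) (f : smoothAlg T) :
    dt (compS φ hφ f) = compS φ' hφ' f * dt f := by
  apply smooth_ext
  intro p hp
  rw [ext_mul, ext_compS hφ' f hp]
  refine dt_eq_of _ (G := fun p => φ' (ext f p) * ext (dt f) p) hp ?_
  have h1 := (hd (ext f (p.1, p.2))).comp_hasDerivWithinAt p.2 (hasDerivWithinAt_t f hp.1 hp.2)
  refine h1.congr (fun s hs => ?_) ?_
  · exact ext_compS hφ f ⟨hp.1, hs⟩
  · exact ext_compS hφ f ⟨hp.1, hp.2⟩

/-- exponential -/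
noncomputable def expS (f : smoothAlg T) : smoothAlg T := compS Real.exp Real.contDiff_exp f

lemma ext_expS (f : smoothAlg T) {p : ℝ × ℝ} (hp : p ∈ dom T) :
    ext (expS f) p = Real.exp (ext f p) := ext_compS _ f hp

lemma dz_expS (f : smoothAlg T) : dz (expS f) = expS f * dz f :=
  dz_compS Real.contDiff_exp Real.contDiff_exp Real.hasDerivAt_exp f

lemma dt_expS (f : smoothAlg T) : dt (expS f) = expS f * dt f :=
  dt_compS Real.contDiff_exp Real.contDiff_exp Real.hasDerivAt_exp f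

lemma expS_pos (f : smoothAlg T) {p : ℝ × ℝ} (hp : p ∈ dom T) : 0 < ext (expS f) p := by
  rw [ext_expS _ hp]; exact Real.exp_pos _

/-! ### the primitive -/

lemma prim_smooth (f : smoothAlg T) :
    ContDiffOn ℝ ∞ (fun p : ℝ × ℝ => ∫ y in (0 : ℝ)..p.1, ext f (y, p.2)) (dom T) := by
  intro p hp
  obtain ⟨T', h1, h2⟩ := exists_between hp.2.2
  have h0 : 0 < T' := lt_of_le_of_lt hp.2.1 h1
  set K : Set (ℝ × ℝ) := Icc (-1) 1 ×ˢ Icc 0 T' with hK
  have hKd : K ⊆ dom T := fun q hq => ⟨hq.1, ⟨hq.2.1, lt_of_le_of_lt hq.2.2 h2⟩⟩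
  have hmem : ∀ q ∈ K, ∀ s ∈ Icc (0 : ℝ) 1, (s * q.1, q.2) ∈ K := by
    intro q hq s hs
    refine ⟨⟨?_, ?_⟩, hq.2⟩
    · have := hq.1.1; have := hq.1.2; obtain ⟨h5, h6⟩ := hs
      show -1 ≤ s * q.1
      nlinarith
    · have := hq.1.1; have := hq.1.2; obtain ⟨h5, h6⟩ := hs
      show s * q.1 ≤ 1
      linarith only [mul_nonneg (sub_nonneg.2 h6) (sub_nonneg.2 h6), mul_nonneg (sub_nonneg.2 h5) (sub_nonneg.2 h6), mul_nonneg (sub_nonneg.2 this) (sub_nonneg.2 h5)]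
  have hint : ContDiffOn ℝ ∞ (fun q : ℝ × ℝ => ∫ s in (0:ℝ)..1, ext f (s * q.1, q.2)) K := by
    refine P264.Cal.contDiffOn_integral (isCompact_Icc.prod isCompact_Icc)
      ((convex_Icc _ _).prod (convex_Icc _ _))
      (P264.Cal.uniqueDiffOn_box (by norm_num) h0) zero_lt_one
      (f := fun q : (ℝ × ℝ) × ℝ => ext f (q.2 * q.1.1, q.1.2)) ?_
    refine (ext_contDiffOn f).comp (f := fun q : (ℝ × ℝ) × ℝ => (q.2 * q.1.1, q.1.2)) ?_ ?_
    · apply ContDiff.contDiffOn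
      fun_prop
    · rintro ⟨q, s⟩ ⟨hq, hs⟩
      exact hKd (hmem q hq s hs)
  have hF : ContDiffOn ℝ ∞ (fun p : ℝ × ℝ => ∫ y in (0 : ℝ)..p.1, ext f (y, p.2)) K := by
    refine (contDiff_fst.contDiffOn.mul hint).congr fun q hq => ?_
    have := intervalIntegral.smul_integral_comp_mul_right (f := fun y => ext f (y, q.2))
      (a := 0) (b := 1) q.1
    simp only [zero_mul, one_mul, smul_eq_mul] at this
    exact this.symm
  have hnb : K ∈ 𝓝[dom T] p := by
    have h3 : (univ : Set ℝ) ×ˢ Iio T' ∈ 𝓝 p :=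
      prod_mem_nhds univ_mem (Iio_mem_nhds h1)
    have h4 : (univ : Set ℝ) ×ˢ Iio T' ∩ dom T ⊆ K := by
      rintro q ⟨hq1, hq2⟩
      exact ⟨hq2.1, ⟨hq2.2.1, le_of_lt hq1.2⟩⟩
    exact mem_of_superset (inter_mem (mem_nhdsWithin_of_mem_nhds h3) self_mem_nhdsWithin) h4
  exact (hF p ⟨hp.1, ⟨hp.2.1, h1.le⟩⟩).mono_of_mem_nhdsWithin hnb

/-- the primitive in the space variable, vanishing at `x = 0` -/
noncomputable def primS (f : smoothAlg T) : smoothAlg T := mkS _ (prim_smooth f)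

lemma ext_primS (f : smoothAlg T) {p : ℝ × ℝ} (hp : p ∈ dom T) :
    ext (primS f) p = ∫ y in (0 : ℝ)..p.1, ext f (y, p.2) := ext_mkS _ hp

lemma slice_continuousOn (f : smoothAlg T) {t : ℝ} (ht : t ∈ Ico 0 T) :
    ContinuousOn (fun z => ext f (z, t)) (Icc (-1) 1) :=
  (ext_continuousOn f).comp (f := fun z : ℝ => ((z, t) : ℝ × ℝ)) (by fun_prop)
    (fun _ hz => ⟨hz, ht⟩)

lemma dz_primS (f : smoothAlg T) : dz (primS f) = f := by
  apply smooth_ext
  intro p hp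
  refine dz_eq_of _ (G := fun p => ext f p) hp ?_
  have hc := slice_continuousOn f hp.2
  have hx := hp.1
  -- fundamental theorem of calculus within `[-1,1]`
  have hi : IntervalIntegrable (fun y => ext f (y, p.2)) MeasureTheory.volume 0 p.1 := by
    apply ContinuousOn.intervalIntegrable
    refine hc.mono (fun y hy => ?_)
    rcases le_total 0 p.1 with h | h
    · rw [uIcc_of_le h] at hy; exact ⟨by linarith only [hy, hy.1], hy.2.trans hx.2⟩
    · rw [uIcc_of_ge h] at hy; exact ⟨hx.1.trans hy.1, by linarith only [hy, hy.2]⟩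
  have hm : StronglyMeasurableAtFilter (fun y => ext f (y, p.2)) (𝓝[Icc (-1) 1] p.1)
      MeasureTheory.volume :=
    hc.stronglyMeasurableAtFilter_nhdsWithin measurableSet_Icc p.1
  have : Fact (p.1 ∈ Icc (-1 : ℝ) 1) := ⟨hx⟩
  have hd := intervalIntegral.integral_hasDerivWithinAt_right (s := Icc (-1 : ℝ) 1)
    (t := Icc (-1 : ℝ) 1) hi hm (hc p.1 hx)
  refine hd.congr (fun z hz => ?_) ?_
  · exact ext_primS f ⟨hz, hp.2⟩
  · exact ext_primS f ⟨hp.1, hp.2⟩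

lemma primS_zero (f : smoothAlg T) {t : ℝ} (ht : t ∈ Ico 0 T) : ext (primS f) (0, t) = 0 := by
  rw [ext_primS f ⟨by norm_num, ht⟩]
  simp

end Vale.Agent.P244.ST
end

section

/-!
# P244-ST : the system in the differential algebra, geometric operators

For a solution `(w,f)` of the conformal gauge system on `[0,T)`: elements `W, F` of `smoothAlg T`,
`E = exp(-2W)`, the gauge function `J`, the material derivative `Dt`, the Laplacian `Lap`.
-/

open Set Topology Filter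
open scoped ContDiff

namespace Vale.Agent.P244.ST

open Vale.Agent.P244.BB

variable {T : ℝ}

/-! ### rules for `dz`, `dt` -/

lemma dz_add (f g : smoothAlg T) : dz (f + g) = dz f + dz g := (pdD (T := T) (1, 0)).map_add f g
lemma dt_add (f g : smoothAlg T) : dt (f + g) = dt f + dt g := (pdD (T := T) (0, 1)).map_add f g
lemma dz_sub (f g : smoothAlg T) : dz (f - g) = dz f - dz g := (pdD (T := T) (1, 0)).map_sub f g
lemma dt_sub (f g : smoothAlg T) : dt (f - g) = dt f - dt g := (pdD (T := T) (0, 1)).map_sub f g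
lemma dz_neg (f : smoothAlg T) : dz (-f) = -dz f := (pdD (T := T) (1, 0)).map_neg f
lemma dt_neg (f : smoothAlg T) : dt (-f) = -dt f := (pdD (T := T) (0, 1)).map_neg f
lemma dz_one : dz (1 : smoothAlg T) = 0 := (pdD (T := T) (1, 0)).map_one_eq_zero
lemma dz_cst (c : ℝ) : dz (cst c : smoothAlg T) = 0 := (pdD (T := T) (1, 0)).map_algebraMap c
lemma dt_cst (c : ℝ) : dt (cst c : smoothAlg T) = 0 := (pdD (T := T) (0, 1)).map_algebraMap c
lemma dz_natCast (n : ℕ) : dz (n : smoothAlg T) = 0 := (pdD (T := T) (1, 0)).map_natCast n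
lemma dt_natCast (n : ℕ) : dt (n : smoothAlg T) = 0 := (pdD (T := T) (0, 1)).map_natCast n
lemma dz_ofNat (n : ℕ) [n.AtLeastTwo] : dz (OfNat.ofNat n : smoothAlg T) = 0 := dz_natCast n
lemma dt_ofNat (n : ℕ) [n.AtLeastTwo] : dt (OfNat.ofNat n : smoothAlg T) = 0 := dt_natCast n

lemma dz_dt_comm (f : smoothAlg T) : dz (dt f) = dt (dz f) := pd_comm _ _ f

lemma ext_natCast (n : ℕ) {p : ℝ × ℝ} (hp : p ∈ dom T) : ext (n : smoothAlg T) p = n := by
  rw [← ev_eq hp, map_natCast]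

lemma ext_ofNat (n : ℕ) [n.AtLeastTwo] {p : ℝ × ℝ} (hp : p ∈ dom T) :
    ext (OfNat.ofNat n : smoothAlg T) p = OfNat.ofNat n := by
  rw [← ev_eq hp, map_ofNat]

lemma ext_pow (f : smoothAlg T) (n : ℕ) {p : ℝ × ℝ} (hp : p ∈ dom T) :
    ext (f ^ n) p = ext f p ^ n := by
  rw [← ev_eq hp, map_pow, ev_eq hp]

/-! ### the system -/

/-- `1 - x²` -/
noncomputable def Ss : smoothAlg T := 1 - Xs * Xs

lemma ext_Ss {p : ℝ × ℝ} (hp : p ∈ dom T) : ext (Ss : smoothAlg T) p = 1 - p.1 ^ 2 := by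
  rw [Ss, ext_sub, ext_one hp, ext_mul, ext_Xs hp]; ring

lemma dz_Ss : dz (Ss : smoothAlg T) = -2 * Xs := by
  rw [Ss, dz_sub, dz_mul, dz_one, dz_Xs]; ring

lemma dt_Ss : dt (Ss : smoothAlg T) = 0 := by
  rw [Ss, dt_sub, dt_mul, dt_one, dt_Xs]; ring

/-- Laplacian of `S^{p+1}` -/
noncomputable def lapS (p : ℕ) (h : smoothAlg T) : smoothAlg T :=
  Ss * dz (dz h) - ((p : smoothAlg T) + 1) * Xs * dz h

/-- A solution of the conformal gauge system in the algebra. -/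
structure Sys (p : ℕ) (T : ℝ) where
  W : smoothAlg T
  F : smoothAlg T
  eqW : dt W = expS (-W - W) * (lapS p W - (p : smoothAlg T)) + (Xs - Ss * dz W) *
    primS (expS (-W - W) * (((p : smoothAlg T) - 1) * (dz W * dz W) + (p : smoothAlg T) * (dz F * dz F)))
  eqF : dt F = expS (-W - W) * lapS p F - ((p : smoothAlg T) - 1) * expS (-F - F) - Ss * dz F *
    primS (expS (-W - W) * (((p : smoothAlg T) - 1) * (dz W * dz W) + (p : smoothAlg T) * (dz F * dz F)))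

namespace Sys

variable {p : ℕ} (M : Sys p T)

/-- `e^{-2W}` -/
noncomputable def E : smoothAlg T := expS (-M.W - M.W)

/-- `e^{-2F}` -/
noncomputable def H : smoothAlg T := expS (-M.F - M.F)

/-- nonlocal gauge term -/
noncomputable def J : smoothAlg T :=
  primS (M.E * (((p : smoothAlg T) - 1) * (dz M.W * dz M.W) + (p : smoothAlg T) * (dz M.F * dz M.F)))

/-- `(p-1) W_x + p F_x` -/
noncomputable def a : smoothAlg T := ((p : smoothAlg T) - 1) * dz M.W + (p : smoothAlg T) * dz M.F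

/-- the speed `-X = E a + J` -/
noncomputable def Y : smoothAlg T := M.E * M.a + M.J

lemma dz_E : dz M.E = -2 * M.E * dz M.W := by
  rw [E, dz_expS, dz_sub, dz_neg]; ring

lemma dt_E : dt M.E = -2 * M.E * dt M.W := by
  rw [E, dt_expS, dt_sub, dt_neg]; ring

lemma dz_H : dz M.H = -2 * M.H * dz M.F := by
  rw [H, dz_expS, dz_sub, dz_neg]; ring

lemma dt_H : dt M.H = -2 * M.H * dt M.F := by
  rw [H, dt_expS, dt_sub, dt_neg]; ring

lemma dz_J : dz M.J = M.E * (((p : smoothAlg T) - 1) * (dz M.W * dz M.W) +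
    (p : smoothAlg T) * (dz M.F * dz M.F)) := dz_primS _

lemma eq_W : dt M.W = M.E * (lapS p M.W - (p : smoothAlg T)) + (Xs - Ss * dz M.W) * M.J := M.eqW

lemma eq_F : dt M.F = M.E * lapS p M.F - ((p : smoothAlg T) - 1) * M.H - Ss * dz M.F * M.J := M.eqF

end Sys

/-- a `ConfSol` as a system -/
noncomputable def ConfSol.sys {p : ℕ} {w f : ℝ → ℝ → ℝ} (h : ConfSol p w f T) : Sys p T := by
  have key : ∀ {x t : ℝ} (hx : x ∈ Icc (-1 : ℝ) 1) (ht : t ∈ Ico 0 T) (hp : ((x, t) : ℝ × ℝ) ∈ dom T),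
      (∀ y ∈ Icc (-1 : ℝ) 1, w t y = ext (el w h.smooth_w) (y, t)) ∧
      (∀ y ∈ Icc (-1 : ℝ) 1, f t y = ext (el f h.smooth_f) (y, t)) := by
    intro x t hx ht hp
    exact ⟨fun y hy => (ext_el h.smooth_w (mem_dom hy ht)).symm,
      fun y hy => (ext_el h.smooth_f (mem_dom hy ht)).symm⟩
  have kW : ∀ {y t : ℝ} (hy : y ∈ Icc (-1 : ℝ) 1) (ht : t ∈ Ico 0 T),
      dx (w t) y = ext (dz (el w h.smooth_w)) (y, t) := fun hy ht =>
    dx_eq_ext _ hy ht (key hy ht (mem_dom hy ht)).1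
  have kF : ∀ {y t : ℝ} (hy : y ∈ Icc (-1 : ℝ) 1) (ht : t ∈ Ico 0 T),
      dx (f t) y = ext (dz (el f h.smooth_f)) (y, t) := fun hy ht =>
    dx_eq_ext _ hy ht (key hy ht (mem_dom hy ht)).2
  have kWW : ∀ {y t : ℝ} (hy : y ∈ Icc (-1 : ℝ) 1) (ht : t ∈ Ico 0 T),
      dx (dx (w t)) y = ext (dz (dz (el w h.smooth_w))) (y, t) := fun hy ht =>
    dx_eq_ext _ hy ht fun z hz => kW hz ht
  have kFF : ∀ {y t : ℝ} (hy : y ∈ Icc (-1 : ℝ) 1) (ht : t ∈ Ico 0 T),
      dx (dx (f t)) y = ext (dz (dz (el f h.smooth_f))) (y, t) := fun hy ht =>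
    dx_eq_ext _ hy ht fun z hz => kF hz ht
  have kJ : ∀ {x t : ℝ} (hx : x ∈ Icc (-1 : ℝ) 1) (ht : t ∈ Ico 0 T), Jf p (w t) (f t) x =
      ext (primS (expS (-(el w h.smooth_w) - el w h.smooth_w) * (((p : smoothAlg T) - 1) *
        (dz (el w h.smooth_w) * dz (el w h.smooth_w)) + (p : smoothAlg T) *
        (dz (el f h.smooth_f) * dz (el f h.smooth_f))))) (x, t) := by
    intro x t hx ht
    rw [ext_primS _ (mem_dom hx ht), Jf]
    refine intervalIntegral.integral_congr fun y hy => ?_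
    have hy' : y ∈ Icc (-1 : ℝ) 1 := by
      rcases le_total 0 x with h1 | h1
      · rw [uIcc_of_le h1] at hy; exact ⟨by linarith only [hy, hy.1], hy.2.trans hx.2⟩
      · rw [uIcc_of_ge h1] at hy; exact ⟨hx.1.trans hy.1, by linarith [hy.2]⟩
    have hp := mem_dom hy' ht
    simp only [Jd]
    rw [kW hy' ht, kF hy' ht]
    simp only [ext_add, ext_sub, ext_mul, ext_neg, ext_natCast p hp, ext_one hp, ext_expS _ hp,
      ext_el _ hp]
    rw [show -w t y - w t y = -2 * w t y by ring]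
    ring
  exact
    { W := el w h.smooth_w
      F := el f h.smooth_f
      eqW := by
        apply smooth_ext
        rintro ⟨x, t⟩ hp
        rw [dt_eq_ext (el w h.smooth_w) hp.1 hp.2 (fun s hs => (ext_el h.smooth_w
          (mem_dom hp.1 hs)).symm) (h.eq_w t hp.2 x hp.1), rhsW, lap, kJ hp.1 hp.2, kW hp.1 hp.2,
          kWW hp.1 hp.2]
        simp only [lapS, ext_add, ext_sub, ext_mul, ext_neg, ext_natCast p hp, ext_one hp,
          ext_expS _ hp, ext_el _ hp, ext_Xs hp, ext_Ss hp]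
        rw [show -w t x - w t x = -2 * w t x by ring]
      eqF := by
        apply smooth_ext
        rintro ⟨x, t⟩ hp
        rw [dt_eq_ext (el f h.smooth_f) hp.1 hp.2 (fun s hs => (ext_el h.smooth_f
          (mem_dom hp.1 hs)).symm) (h.eq_f t hp.2 x hp.1), rhsF, lap, kJ hp.1 hp.2, kF hp.1 hp.2,
          kFF hp.1 hp.2]
        simp only [lapS, ext_add, ext_sub, ext_mul, ext_neg, ext_natCast p hp, ext_one hp,
          ext_expS _ hp, ext_el _ hp, ext_Xs hp, ext_Ss hp]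
        rw [show -w t x - w t x = -2 * w t x by ring, show -f t x - f t x = -2 * f t x by ring] }

end Vale.Agent.P244.ST
end

section

/-!
# P244-ST, block A : explicit jet formulas for the geometric quantities

For `|x| < 1` all quantities of `Geo.lean` are explicit functions of the 2-jets of `w` and `f`.
-/

open Set Filter Topology
open scoped ContDiff

namespace Vale.Agent.P244.ST.Tip

open Vale.Agent.P244.BB (smoothAlg dom mem_dom ext dz ext_continuousOn hasDerivWithinAt_z)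

/-- 2-jet of `h` at `x`: derivative `h1` near `x`, second derivative `h2` at `x`. -/
structure Jet (h h1 : ℝ → ℝ) (h2 x : ℝ) : Prop where
  d1 : ∀ᶠ y in 𝓝 x, HasDerivAt h (h1 y) y
  d2 : HasDerivAt h1 h2 x

theorem Jet.at {h h1 : ℝ → ℝ} {h2 x : ℝ} (H : Jet h h1 h2 x) : HasDerivAt h (h1 x) x :=
  H.d1.self_of_nhds

theorem Jet.add {h h1 k k1 : ℝ → ℝ} {h2 k2 x : ℝ} (H : Jet h h1 h2 x) (K : Jet k k1 k2 x) :
    Jet (fun y => h y + k y) (fun y => h1 y + k1 y) (h2 + k2) x :=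
  ⟨(H.d1.and K.d1).mono fun _ hy => hy.1.add hy.2, H.d2.add K.d2⟩

theorem Jet.sub {h h1 k k1 : ℝ → ℝ} {h2 k2 x : ℝ} (H : Jet h h1 h2 x) (K : Jet k k1 k2 x) :
    Jet (fun y => h y - k y) (fun y => h1 y - k1 y) (h2 - k2) x :=
  ⟨(H.d1.and K.d1).mono fun _ hy => hy.1.sub hy.2, H.d2.sub K.d2⟩

theorem sx_pos {x : ℝ} (hx : x ∈ Ioo (-1 : ℝ) 1) : 0 < sx x := by
  have : 0 < 1 - x ^ 2 := by nlinarith only [hx, hx.1, hx.2]
  exact Real.sqrt_pos.2 this

theorem sx_sq {x : ℝ} (hx : x ∈ Ioo (-1 : ℝ) 1) : sx x ^ 2 = 1 - x ^ 2 := by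
  have : 0 ≤ 1 - x ^ 2 := by nlinarith only [hx, hx.1, hx.2]
  exact Real.sq_sqrt this

theorem one_sub_pos {x : ℝ} (hx : x ∈ Ioo (-1 : ℝ) 1) : 0 < 1 - x ^ 2 := by
  nlinarith only [hx, hx.1, hx.2]

theorem hasDerivAt_sx {x : ℝ} (hx : x ∈ Ioo (-1 : ℝ) 1) : HasDerivAt sx (-x / sx x) x := by
  have h1 : HasDerivAt (fun y : ℝ => 1 - y ^ 2) (-(2 * x)) x := by
    simpa using ((hasDerivAt_id x).pow 2).const_sub 1
  have h2 := h1.sqrt (one_sub_pos hx).ne'
  have e : -(2 * x) / (2 * Real.sqrt (1 - x ^ 2)) = -x / sx x := by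
    unfold sx
    have := (sx_pos hx).ne'
    unfold sx at this
    field_simp
  rw [e] at h2
  exact h2

/-- the jet of `log (1 - x^2) / 2` -/
theorem jet_log {x : ℝ} (hx : x ∈ Ioo (-1 : ℝ) 1) :
    Jet (fun y => Real.log (1 - y ^ 2) / 2) (fun y => -(y / (1 - y ^ 2)))
      (-((1 + x ^ 2) / (1 - x ^ 2) ^ 2)) x := by
  have hpoly : ∀ y : ℝ, HasDerivAt (fun y : ℝ => 1 - y ^ 2) (-(2 * y)) y := fun y => by
    simpa using ((hasDerivAt_id y).pow 2).const_sub 1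
  refine ⟨?_, ?_⟩
  · filter_upwards [Ioo_mem_nhds hx.1 hx.2] with y hy
    have h2 := ((hpoly y).log (one_sub_pos hy).ne').div_const 2
    refine h2.congr_deriv ?_
    have := (one_sub_pos hy).ne'
    field_simp
  · have h2 := ((hasDerivAt_id x).div (hpoly x) (one_sub_pos hx).ne').neg
    refine h2.congr_deriv ?_
    simp only [id]
    ring

section

variable {w f : Fn} {t x : ℝ} {w1 f1 : ℝ → ℝ} {w2 f2 : ℝ}

theorem jet_uu (hx : x ∈ Ioo (-1 : ℝ) 1) (hw : Jet (w t) w1 w2 x) (hf : Jet (f t) f1 f2 x) :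
    Jet (uu w f t) (fun y => f1 y - w1 y + y / (1 - y ^ 2))
      (f2 - w2 + (1 + x ^ 2) / (1 - x ^ 2) ^ 2) x := by
  have h := (hf.sub hw).sub (jet_log hx)
  refine ⟨h.d1.mono fun y hy => ?_, ?_⟩
  · refine hy.congr_deriv ?_
    ring
  · refine (h.d2.congr_of_eventuallyEq (Eventually.of_forall fun y => ?_)).congr_deriv ?_
    · ring
    · ring

theorem jet_rho (hx : x ∈ Ioo (-1 : ℝ) 1) (hw : Jet (w t) w1 w2 x) (hf : Jet (f t) f1 f2 x) :
    Jet (rho w f t) (fun y => (f1 y + w1 y - y / (1 - y ^ 2)) / 2)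
      ((f2 + w2 - (1 + x ^ 2) / (1 - x ^ 2) ^ 2) / 2) x := by
  have h := (hf.add hw).add (jet_log hx)
  refine ⟨h.d1.mono fun y hy => ?_, ?_⟩
  · have h3 := (hy.sub_const (Real.log zeta0)).div_const 2
    refine h3.congr_deriv ?_
    ring
  · have h3 := h.d2.div_const 2
    refine (h3.congr_of_eventuallyEq (Eventually.of_forall fun y => ?_)).congr_deriv ?_
    · ring
    · ring

theorem Ds_eq {H : Fn} {H1 : ℝ → ℝ} {H2 : ℝ} (hH : Jet (H t) H1 H2 x) :
    Ds w H t x = -(sx x * Real.exp (-w t x)) * H1 x := by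
  unfold Ds Dx
  rw [hH.at.deriv]

theorem DsDs_eq (hx : x ∈ Ioo (-1 : ℝ) 1) (hw : Jet (w t) w1 w2 x) {H : Fn} {H1 : ℝ → ℝ} {H2 : ℝ}
    (hH : Jet (H t) H1 H2 x) :
    Ds w (Ds w H) t x = Real.exp (-2 * w t x) *
      ((1 - x ^ 2) * H2 - x * H1 x - (1 - x ^ 2) * w1 x * H1 x) := by
  have he : (Ds w H t) =ᶠ[𝓝 x] fun y => -(sx y * Real.exp (-w t y)) * H1 y := by
    filter_upwards [hH.d1] with y hy
    unfold Ds Dx
    rw [hy.deriv]
  have hs := hasDerivAt_sx hx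
  have hexp : HasDerivAt (fun y => Real.exp (-w t y)) (Real.exp (-w t x) * -w1 x) x :=
    (hw.at.neg).exp
  have hd : HasDerivAt (Ds w H t) (-(-x / sx x * Real.exp (-w t x) +
      sx x * (Real.exp (-w t x) * -w1 x)) * H1 x + -(sx x * Real.exp (-w t x)) * H2) x :=
    (((hs.mul hexp).neg).mul hH.d2).congr_of_eventuallyEq he
  have e1 : Ds w (Ds w H) t x = -(sx x * Real.exp (-w t x)) * deriv (Ds w H t) x := rfl
  rw [e1, hd.deriv]
  have hs2 := sx_sq hx
  have hs0 := (sx_pos hx).ne'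
  have e2 : Real.exp (-2 * w t x) = Real.exp (-w t x) * Real.exp (-w t x) := by
    rw [← Real.exp_add]
    ring_nf
  rw [e2, ← hs2]
  field_simp
  ring

/-- `ρ_s` -/
theorem rs_eq (hx : x ∈ Ioo (-1 : ℝ) 1) (hw : Jet (w t) w1 w2 x) (hf : Jet (f t) f1 f2 x) :
    rs w f t x = Real.exp (-w t x) * (x - (1 - x ^ 2) * (f1 x + w1 x)) / (2 * sx x) := by
  unfold rs
  rw [Ds_eq (jet_rho hx hw hf)]
  have hs2 := sx_sq hx
  have hs0 := (sx_pos hx).ne'
  have h1 := (one_sub_pos hx).ne'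
  rw [← hs2] at h1 ⊢
  field_simp
  ring

/-- `P` -/
theorem PP_eq (hx : x ∈ Ioo (-1 : ℝ) 1) (hw : Jet (w t) w1 w2 x) (hf : Jet (f t) f1 f2 x) :
    PP w f t x = -(Real.exp (-w t x) * (x + (1 - x ^ 2) * (f1 x - w1 x)) / sx x) := by
  unfold PP
  rw [Ds_eq (jet_uu hx hw hf)]
  have hs2 := sx_sq hx
  have hs0 := (sx_pos hx).ne'
  have h1 := (one_sub_pos hx).ne'
  rw [← hs2] at h1 ⊢
  field_simp
  ring

theorem Lp_eq (hx : x ∈ Ioo (-1 : ℝ) 1) (hw : Jet (w t) w1 w2 x) (hf : Jet (f t) f1 f2 x)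
    {H : Fn} {H1 : ℝ → ℝ} {H2 : ℝ} (hH : Jet (H t) H1 H2 x) :
    Lp w f H t x = Real.exp (-2 * w t x) *
      ((1 - x ^ 2) * H2 - 21 * x * H1 x + (1 - x ^ 2) * (19 * w1 x + 20 * f1 x) * H1 x) := by
  unfold Lp
  have h2 : Ds w (rho w f) t x = rs w f t x := rfl
  rw [DsDs_eq hx hw hH, h2, rs_eq hx hw hf, Ds_eq hH]
  have hs2 := sx_sq hx
  have hs0 := (sx_pos hx).ne'
  have e2 : Real.exp (-2 * w t x) = Real.exp (-w t x) * Real.exp (-w t x) := by
    rw [← Real.exp_add]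
    ring_nf
  rw [e2]
  field_simp
  ring

/-- `G` -/
theorem GG_eq (hx : x ∈ Ioo (-1 : ℝ) 1) (hw : Jet (w t) w1 w2 x) (hf : Jet (f t) f1 f2 x) :
    GG w f t x = 2 * (x + (1 - x ^ 2) * (f1 x - w1 x)) / (x - (1 - x ^ 2) * (f1 x + w1 x)) := by
  unfold GG
  rw [rs_eq hx hw hf, PP_eq hx hw hf]
  have hs0 := (sx_pos hx).ne'
  have he := (Real.exp_pos (-w t x)).ne'
  rcases eq_or_ne (x - (1 - x ^ 2) * (f1 x + w1 x)) 0 with h | h
  · rw [h]
    simp
  · field_simp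

end

section

variable (w f : Fn) {t x : ℝ}

theorem exp_half_log (hx : x ∈ Ioo (-1 : ℝ) 1) : Real.exp (Real.log (1 - x ^ 2) / 2) = sx x := by
  rw [Real.exp_half, Real.exp_log (one_sub_pos hx)]
  rfl

theorem exp_uu (hx : x ∈ Ioo (-1 : ℝ) 1) :
    Real.exp (uu w f t x) = Real.exp (f t x) / (Real.exp (w t x) * sx x) := by
  unfold uu
  rw [Real.exp_sub, Real.exp_sub, exp_half_log hx, div_div]

theorem exp_neg_uu (hx : x ∈ Ioo (-1 : ℝ) 1) :
    Real.exp (-uu w f t x) = Real.exp (w t x) * sx x / Real.exp (f t x) := by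
  rw [Real.exp_neg, exp_uu w f hx, inv_div]

theorem rr_sq (hx : x ∈ Ioo (-1 : ℝ) 1) :
    rr w f t x ^ 2 = Real.exp (f t x) * Real.exp (w t x) * sx x / zeta0 := by
  have hz : (0 : ℝ) < zeta0 := by unfold zeta0; norm_num
  unfold rr
  rw [← Real.exp_nat_mul]
  have e : ((2 : ℕ) : ℝ) * rho w f t x =
      f t x + w t x + Real.log (1 - x ^ 2) / 2 - Real.log zeta0 := by
    unfold rho
    push_cast
    ring
  rw [e, Real.exp_sub, Real.exp_add, Real.exp_add, exp_half_log hx, Real.exp_log hz]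

theorem sinh_div (hx : x ∈ Ioo (-1 : ℝ) 1) :
    78 * Real.sinh (uu w f t x) / rr w f t x ^ 2 =
      19 * (Real.exp (-2 * w t x) / (1 - x ^ 2) - Real.exp (-2 * f t x)) := by
  rw [Real.sinh_eq, exp_uu w f hx, exp_neg_uu w f hx, rr_sq w f hx]
  have e1 : Real.exp (-2 * w t x) = (Real.exp (w t x) * Real.exp (w t x))⁻¹ := by
    rw [← Real.exp_add, ← Real.exp_neg]
    ring_nf
  have e2 : Real.exp (-2 * f t x) = (Real.exp (f t x) * Real.exp (f t x))⁻¹ := by
    rw [← Real.exp_add, ← Real.exp_neg]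
    ring_nf
  rw [e1, e2, ← sx_sq hx]
  have hs0 := (sx_pos hx).ne'
  have hw := (Real.exp_pos (w t x)).ne'
  have hf := (Real.exp_pos (f t x)).ne'
  unfold zeta0
  field_simp
  ring

theorem cosh_div (hx : x ∈ Ioo (-1 : ℝ) 1) :
    39 * Real.cosh (uu w f t x) / rr w f t x ^ 2 =
      19 / 2 * (Real.exp (-2 * w t x) / (1 - x ^ 2) + Real.exp (-2 * f t x)) := by
  rw [Real.cosh_eq, exp_uu w f hx, exp_neg_uu w f hx, rr_sq w f hx]
  have e1 : Real.exp (-2 * w t x) = (Real.exp (w t x) * Real.exp (w t x))⁻¹ := by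
    rw [← Real.exp_add, ← Real.exp_neg]
    ring_nf
  have e2 : Real.exp (-2 * f t x) = (Real.exp (f t x) * Real.exp (f t x))⁻¹ := by
    rw [← Real.exp_add, ← Real.exp_neg]
    ring_nf
  rw [e1, e2, ← sx_sq hx]
  have hs0 := (sx_pos hx).ne'
  have hw := (Real.exp_pos (w t x)).ne'
  have hf := (Real.exp_pos (f t x)).ne'
  unfold zeta0
  field_simp

end

/-! ### jets of a solution -/

section

variable {p : ℕ} {w f : Fn} {T t x : ℝ}

theorem smooth_jet {u : Fn} (hu : ContDiffOn ℝ ∞ (fun z : ℝ × ℝ => u z.1 z.2)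
    (Ico 0 T ×ˢ Icc (-1) 1)) (ht : t ∈ Ico 0 T) (hx : x ∈ Ioo (-1 : ℝ) 1) :
    Jet (u t) (dx (u t)) (dx (dx (u t)) x) x := by
  have key : ∀ y ∈ Icc (-1 : ℝ) 1, u t y = ext (el u hu) (y, t) := fun y hy =>
    (ext_el hu (mem_dom hy ht)).symm
  have k1 : ∀ y ∈ Icc (-1 : ℝ) 1, dx (u t) y = ext (dz (el u hu)) (y, t) := fun y hy =>
    dx_eq_ext _ hy ht key
  have k2 : ∀ y ∈ Icc (-1 : ℝ) 1, dx (dx (u t)) y = ext (dz (dz (el u hu))) (y, t) := fun y hy =>
    dx_eq_ext _ hy ht k1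
  refine ⟨?_, ?_⟩
  · filter_upwards [Ioo_mem_nhds hx.1 hx.2] with y hy
    have hy' : y ∈ Icc (-1 : ℝ) 1 := ⟨hy.1.le, hy.2.le⟩
    have h1 := hasDerivWithinAt_z (el u hu) hy' ht
    have h2 : HasDerivWithinAt (u t) (ext (dz (el u hu)) (y, t)) (Icc (-1) 1) y :=
      h1.congr (fun z hz => key z hz) (key y hy')
    rw [k1 y hy']
    exact h2.hasDerivAt (Icc_mem_nhds hy.1 hy.2)
  · have hy' : x ∈ Icc (-1 : ℝ) 1 := ⟨hx.1.le, hx.2.le⟩
    have h1 := hasDerivWithinAt_z (dz (el u hu)) hy' ht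
    have h2 : HasDerivWithinAt (dx (u t)) (ext (dz (dz (el u hu))) (x, t)) (Icc (-1) 1) x :=
      h1.congr (fun z hz => k1 z hz) (k1 x hy')
    rw [k2 x hy']
    exact h2.hasDerivAt (Icc_mem_nhds hx.1 hx.2)

/-- continuity of `u`, `u_x`, `u_xx` up to the tip, as functions of `(t,x)` -/
theorem smooth_cont {u : Fn} (hu : ContDiffOn ℝ ∞ (fun z : ℝ × ℝ => u z.1 z.2)
    (Ico 0 T ×ˢ Icc (-1) 1)) :
    ContinuousOn (fun z : ℝ × ℝ => u z.1 z.2) (Ico 0 T ×ˢ Icc (-1) 1) ∧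
    ContinuousOn (fun z : ℝ × ℝ => dx (u z.1) z.2) (Ico 0 T ×ˢ Icc (-1) 1) ∧
    ContinuousOn (fun z : ℝ × ℝ => dx (dx (u z.1)) z.2) (Ico 0 T ×ˢ Icc (-1) 1) := by
  have key : ∀ t ∈ Ico 0 T, ∀ y ∈ Icc (-1 : ℝ) 1, u t y = ext (el u hu) (y, t) :=
    fun t ht y hy => (ext_el hu (mem_dom hy ht)).symm
  have k1 : ∀ t ∈ Ico 0 T, ∀ y ∈ Icc (-1 : ℝ) 1, dx (u t) y = ext (dz (el u hu)) (y, t) :=
    fun t ht y hy => dx_eq_ext _ hy ht (key t ht)
  have k2 : ∀ t ∈ Ico 0 T, ∀ y ∈ Icc (-1 : ℝ) 1,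
      dx (dx (u t)) y = ext (dz (dz (el u hu))) (y, t) :=
    fun t ht y hy => dx_eq_ext _ hy ht (k1 t ht)
  have hsw : ∀ g : smoothAlg T,
      ContinuousOn (fun z : ℝ × ℝ => ext g (z.2, z.1)) (Ico 0 T ×ˢ Icc (-1) 1) := fun g =>
    (ext_continuousOn g).comp (continuous_snd.prodMk continuous_fst).continuousOn
      (fun z hz => mem_dom hz.2 hz.1)
  refine ⟨hu.continuousOn, ?_, ?_⟩
  · exact (hsw _).congr fun z hz => k1 z.1 hz.1 z.2 hz.2
  · exact (hsw _).congr fun z hz => k2 z.1 hz.1 z.2 hz.2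

variable (h : ConfSol 20 w f T)

include h

theorem jw (ht : t ∈ Ico 0 T) (hx : x ∈ Ioo (-1 : ℝ) 1) :
    Jet (w t) (dx (w t)) (dx (dx (w t)) x) x := smooth_jet h.smooth_w ht hx

theorem jf (ht : t ∈ Ico 0 T) (hx : x ∈ Ioo (-1 : ℝ) 1) :
    Jet (f t) (dx (f t)) (dx (dx (f t)) x) x := smooth_jet h.smooth_f ht hx

theorem VV_eq (ht : t ∈ Ico 0 T) (hx : x ∈ Ioo (-1 : ℝ) 1) :
    VV w f t x = ric2 20 (w t) (f t) x - ric1 20 (w t) (f t) x := by
  unfold VV
  rw [Lp_eq hx (jw h ht hx) (jf h ht hx) (jet_uu hx (jw h ht hx) (jf h ht hx)), sinh_div w f hx]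
  unfold ric2 ric1 lap gx
  have h1 := (one_sub_pos hx).ne'
  push_cast
  field_simp
  ring

theorem yy_eq (ht : t ∈ Ico 0 T) (hx : x ∈ Ioo (-1 : ℝ) 1) :
    yy w f t x = -(ric1 20 (w t) (f t) x + ric2 20 (w t) (f t) x) / 2 := by
  unfold yy
  rw [Lp_eq hx (jw h ht hx) (jf h ht hx) (jet_rho hx (jw h ht hx) (jf h ht hx)), cosh_div w f hx]
  unfold ric2 ric1 lap gx
  have h1 := (one_sub_pos hx).ne'
  push_cast
  field_simp
  ring

theorem E0_eq (ht : t ∈ Ico 0 T) (hx : x ∈ Ioo (-1 : ℝ) 1) :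
    E0 w f t x = ric0 20 (w t) (f t) x := by
  unfold E0
  have e1 : Ds w (rs w f) t x = Ds w (Ds w (rho w f)) t x := rfl
  rw [e1, DsDs_eq hx (jw h ht hx) (jet_rho hx (jw h ht hx) (jf h ht hx)),
    rs_eq hx (jw h ht hx) (jf h ht hx), PP_eq hx (jw h ht hx) (jf h ht hx)]
  unfold ric0 ric2 lap gx
  have hs0 := (sx_pos hx).ne'
  have hs2 := sx_sq hx
  have h1 := (one_sub_pos hx).ne'
  have e2 : Real.exp (-2 * w t x) = Real.exp (-w t x) ^ 2 := by
    rw [← Real.exp_nat_mul]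
    ring_nf
  rw [e2, neg_sq, div_pow, div_pow, mul_pow 2 (sx x), hs2]
  push_cast
  field_simp
  ring

theorem RR_eq (ht : t ∈ Ico 0 T) (hx : x ∈ Ioo (-1 : ℝ) 1) :
    RR w f t x = scal 20 (w t) (f t) x := by
  unfold RR scal
  rw [E0_eq h ht hx, yy_eq h ht hx]
  push_cast
  ring

end

end Vale.Agent.P244.ST.Tip
end

section

/-!
# P244-ST, block M, (Q1): the scalar curvature stays nonnegative
-/

open Set Topology Filter
open scoped ContDiff

namespace Vale.Agent.P244.ST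

open Vale.Agent.P244.BB

variable {T : ℝ} {p : ℕ}

namespace Sys

variable (M : Sys p T)

/-- Ricci eigenvalue along the fibre `S^p`. -/
noncomputable def ric1 : smoothAlg T :=
  -(M.E * (lapS p M.F + Ss * dz M.F * M.a)) + ((p : smoothAlg T) - 1) * M.H

/-- Ricci eigenvalue along the latitude spheres. -/
noncomputable def ric2 : smoothAlg T :=
  -(M.E * (lapS p M.W - (p : smoothAlg T) - Xs * M.a + Ss * dz M.W * M.a))

/-- Ricci eigenvalue in the meridian direction. -/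
noncomputable def ric0 : smoothAlg T := M.ric2 - M.E * Ss *
    (((p : smoothAlg T) - 1) * (dz (dz M.W) - dz M.W ^ 2)
      + (p : smoothAlg T) * (dz (dz M.F) + dz M.F ^ 2 - 2 * dz M.W * dz M.F))

/-- scalar curvature -/
noncomputable def R : smoothAlg T :=
  M.ric0 + (p : smoothAlg T) * M.ric1 + (p : smoothAlg T) * M.ric2

/-- the abstract system attached to `M` -/
noncomputable def gen : GSys (smoothAlg T) where
  d := (pdD (T := T) (1, 0)).restrictScalars ℤ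
  D := (pdD (T := T) (0, 1)).restrictScalars ℤ
  comm a := (dz_dt_comm a).symm
  p := (p : smoothAlg T)
  dp := dz_natCast p
  Dp := dt_natCast p
  X := Xs
  dX := dz_Xs
  DX := dt_Xs
  W := M.W
  F := M.F
  E := M.E
  G := M.H
  J := M.J
  dE := M.dz_E
  DE := M.dt_E
  dG := M.dz_H
  DG := M.dt_H
  dJ := by
    have := M.dz_J
    rw [pow_two, pow_two]
    exact this
  DW := by
    have := M.eq_W
    rw [lapS, Ss, ← pow_two] at this
    exact this
  DF := by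
    have := M.eq_F
    rw [lapS, Ss, ← pow_two] at this
    exact this

lemma gen_ric1 : M.gen.ric1 = M.ric1 := by
  simp only [GSys.ric1, GSys.L, GSys.gx, ric1, lapS, a, Ss, ← pow_two]
  rfl

lemma gen_ric2 : M.gen.ric2 = M.ric2 := by
  simp only [GSys.ric2, GSys.L, GSys.gx, ric2, lapS, a, Ss, ← pow_two]
  rfl

lemma gen_ric0 : M.gen.ric0 = M.ric0 := by
  rw [GSys.ric0, gen_ric2, ric0]
  simp only [Ss, ← pow_two]
  rfl

lemma gen_R : M.gen.R = M.R := by
  rw [GSys.R, gen_ric2, gen_ric0, gen_ric1, R]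
  rfl

/-- evolution of the scalar curvature -/
theorem dt_R : dt M.R = M.E * lapS p M.R - Ss * M.J * dz M.R
    + 2 * (M.ric0 ^ 2 + (p : smoothAlg T) * M.ric1 ^ 2 + (p : smoothAlg T) * M.ric2 ^ 2) := by
  have h := M.gen.D_R
  rw [gen_R, gen_ric0, gen_ric1, gen_ric2] at h
  have h1 : M.gen.L M.R = lapS p M.R := by
    simp only [GSys.L, lapS, Ss, ← pow_two]
    rfl
  rw [h1] at h
  simp only [Ss, ← pow_two]
  exact h

lemma E_pos {q : ℝ × ℝ} (hq : q ∈ dom T) : 0 < ext M.E q := expS_pos _ hq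

/-- (Q1) the scalar curvature stays nonnegative. -/
theorem R_nonneg (h0 : ∀ x ∈ Icc (-1 : ℝ) 1, 0 < T → 0 ≤ ext M.R (x, 0)) :
    ∀ t ∈ Ico 0 T, ∀ x ∈ Icc (-1 : ℝ) 1, 0 ≤ ext M.R (x, t) := by
  have key : ∀ t ∈ Ico 0 T, ∀ x ∈ Icc (-1 : ℝ) 1, ext (-M.R) (x, t) ≤ 0 := by
    refine weak_max (-M.R) (fun x hx hT => ?_) ?_
    · rw [ext_neg]; linarith only [h0, hx, hT, h0 x hx hT]
    · intro T' hT'
      refine ⟨0, fun x hx t ht _ => ?_⟩
      have hd : (x, t) ∈ dom T := mem_dom hx ⟨ht.1.le, lt_of_le_of_lt ht.2 hT'.2⟩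
      have hE := M.E_pos hd
      refine ⟨ext M.E (x, t) * (1 - x ^ 2), -(ext M.E (x, t) * ((p : ℝ) + 1) * x) -
        (1 - x ^ 2) * ext M.J (x, t), ?_, ?_, ?_, ?_⟩
      · have : 0 ≤ 1 - x ^ 2 := by linarith only [mul_nonneg (sub_nonneg.2 hx.1) (sub_nonneg.2 hx.2)]
        positivity
      · rintro rfl
        refine ⟨by ring, ?_⟩
        have : 0 ≤ ext M.E (1, t) * ((p : ℝ) + 1) := by positivity
        linarith only [this]
      · rintro rfl
        refine ⟨by ring, ?_⟩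
        have : 0 ≤ ext M.E (-1, t) * ((p : ℝ) + 1) := by positivity
        linarith only [this]
      · rw [dt_neg, dz_neg, dz_neg, ext_neg, ext_neg, ext_neg, M.dt_R]
        simp only [lapS, ext_add, ext_sub, ext_mul, ext_natCast p hd, ext_one hd, ext_Xs hd,
          ext_Ss hd, ext_ofNat _ hd, pow_two]
        have h1 : 0 ≤ ext M.ric0 (x, t) * ext M.ric0 (x, t) := mul_self_nonneg _
        have h2 : 0 ≤ ext M.ric1 (x, t) * ext M.ric1 (x, t) := mul_self_nonneg _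
        have h3 : 0 ≤ ext M.ric2 (x, t) * ext M.ric2 (x, t) := mul_self_nonneg _
        have h4 : (0 : ℝ) ≤ p := Nat.cast_nonneg p
        nlinarith only [h2, h3, h4, mul_nonneg h4 h2, mul_nonneg h4 h3]
  intro t ht x hx
  have := key t ht x hx
  rw [ext_neg] at this
  linarith only [this]

end Sys

/-! ### the bridge to the functions `w, f` -/

section bridge

variable {w f : ℝ → ℝ → ℝ} (h : ConfSol p w f T) {x t : ℝ}

lemma ConfSol.ext_W (hx : x ∈ Icc (-1 : ℝ) 1) (ht : t ∈ Ico 0 T) :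
    ext h.sys.W (x, t) = w t x := ext_el h.smooth_w (mem_dom hx ht)

lemma ConfSol.ext_F (hx : x ∈ Icc (-1 : ℝ) 1) (ht : t ∈ Ico 0 T) :
    ext h.sys.F (x, t) = f t x := ext_el h.smooth_f (mem_dom hx ht)

lemma ConfSol.ext_dzW (hx : x ∈ Icc (-1 : ℝ) 1) (ht : t ∈ Ico 0 T) :
    ext (dz h.sys.W) (x, t) = dx (w t) x :=
  (dx_eq_ext _ hx ht fun _ hy => (h.ext_W hy ht).symm).symm

lemma ConfSol.ext_dzF (hx : x ∈ Icc (-1 : ℝ) 1) (ht : t ∈ Ico 0 T) :
    ext (dz h.sys.F) (x, t) = dx (f t) x :=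
  (dx_eq_ext _ hx ht fun _ hy => (h.ext_F hy ht).symm).symm

lemma ConfSol.ext_dzzW (hx : x ∈ Icc (-1 : ℝ) 1) (ht : t ∈ Ico 0 T) :
    ext (dz (dz h.sys.W)) (x, t) = dx (dx (w t)) x :=
  (dx_eq_ext _ hx ht fun _ hy => (h.ext_dzW hy ht).symm).symm

lemma ConfSol.ext_dzzF (hx : x ∈ Icc (-1 : ℝ) 1) (ht : t ∈ Ico 0 T) :
    ext (dz (dz h.sys.F)) (x, t) = dx (dx (f t)) x :=
  (dx_eq_ext _ hx ht fun _ hy => (h.ext_dzF hy ht).symm).symm

lemma ConfSol.ext_E (hx : x ∈ Icc (-1 : ℝ) 1) (ht : t ∈ Ico 0 T) :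
    ext h.sys.E (x, t) = Real.exp (-2 * w t x) := by
  rw [Sys.E, ext_expS _ (mem_dom hx ht), ext_sub, ext_neg, h.ext_W hx ht]
  congr 1; ring

lemma ConfSol.ext_H (hx : x ∈ Icc (-1 : ℝ) 1) (ht : t ∈ Ico 0 T) :
    ext h.sys.H (x, t) = Real.exp (-2 * f t x) := by
  rw [Sys.H, ext_expS _ (mem_dom hx ht), ext_sub, ext_neg, h.ext_F hx ht]
  congr 1; ring

/-- the element `R` is the scalar curvature of `Conf.lean` -/
theorem ConfSol.ext_R (hx : x ∈ Icc (-1 : ℝ) 1) (ht : t ∈ Ico 0 T) :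
    ext h.sys.R (x, t) = scal p (w t) (f t) x := by
  have hd := mem_dom hx ht
  simp only [Sys.R, Sys.ric0, Sys.ric1, Sys.ric2, Sys.a, lapS, ext_add, ext_sub, ext_mul, ext_neg,
    ext_natCast p hd, ext_one hd, ext_Xs hd, ext_Ss hd, ext_ofNat _ hd, ext_pow _ _ hd,
    h.ext_E hx ht, h.ext_H hx ht, h.ext_dzW hx ht, h.ext_dzF hx ht, h.ext_dzzW hx ht,
    h.ext_dzzF hx ht, scal, Vale.Agent.P244.ST.ric0, Vale.Agent.P244.ST.ric1,
    Vale.Agent.P244.ST.ric2, lap, gx]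

end bridge

end Vale.Agent.P244.ST
end

section

/-!
# P244-ST, block M, (Q2): `φ_s ≥ 0`, `ψ_s ≥ 0` between the tip and the equator

`q = F_x ≤ 0` and `B = x - (1-x²) W_x ≥ 0` on `[0,1]`.
-/

open Set Topology Filter
open scoped ContDiff

namespace Vale.Agent.P244.ST

open Vale.Agent.P244.BB

variable {T : ℝ} {p : ℕ}

/-- an even element -/
def EvS (f : smoothAlg T) : Prop :=
  ∀ t ∈ Ico 0 T, ∀ x ∈ Icc (-1 : ℝ) 1, ext f (-x, t) = ext f (x, t)

/-- an odd element -/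
def OdS (f : smoothAlg T) : Prop :=
  ∀ t ∈ Ico 0 T, ∀ x ∈ Icc (-1 : ℝ) 1, ext f (-x, t) = -ext f (x, t)

lemma neg_mem_I {x : ℝ} (hx : x ∈ Icc (-1 : ℝ) 1) : -x ∈ Icc (-1 : ℝ) 1 :=
  ⟨by linarith only [hx, hx.2], by linarith only [hx, hx.1]⟩

lemma OdS.zero {f : smoothAlg T} (h : OdS f) {t : ℝ} (ht : t ∈ Ico 0 T) : ext f (0, t) = 0 := by
  have := h t ht 0 (by norm_num)
  rw [neg_zero] at this
  linarith only [this]

lemma hasDeriv_refl (f : smoothAlg T) {x t : ℝ} (hx : x ∈ Icc (-1 : ℝ) 1) (ht : t ∈ Ico 0 T) :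
    HasDerivWithinAt (fun z => ext f (-z, t)) (-ext (dz f) (-x, t)) (Icc (-1) 1) x := by
  have h1 := hasDerivWithinAt_z f (neg_mem_I hx) ht
  have h2 : HasDerivWithinAt (fun z : ℝ => -z) (-1) (Icc (-1) 1) x :=
    (hasDerivAt_neg x).hasDerivWithinAt
  have h3 := h1.comp x h2 (fun z hz => neg_mem_I hz)
  exact h3.congr_deriv (by ring)

lemma EvS.dz {f : smoothAlg T} (h : EvS f) : OdS (dz f) := by
  intro t ht x hx
  have h1 := hasDeriv_refl f hx ht
  have h2 : HasDerivWithinAt (fun z => ext f (z, t)) (-ext (BB.dz f) (-x, t)) (Icc (-1) 1) x :=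
    h1.congr (fun z hz => (h t ht z hz).symm) (h t ht x hx).symm
  have h3 := (Icc_unique x hx).eq_deriv _ (hasDerivWithinAt_z f hx ht) h2
  linarith only [h3]

lemma OdS.dz {f : smoothAlg T} (h : OdS f) : EvS (dz f) := by
  intro t ht x hx
  have h1 := (hasDeriv_refl f hx ht).neg
  have h2 : HasDerivWithinAt (fun z => ext f (z, t)) (-(-ext (BB.dz f) (-x, t)))
      (Icc (-1) 1) x := by
    refine h1.congr (fun z hz => ?_) ?_
    · show ext f (z, t) = -ext f (-z, t)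
      rw [h t ht z hz, neg_neg]
    · show ext f (x, t) = -ext f (-x, t)
      rw [h t ht x hx, neg_neg]
  have h3 := (Icc_unique x hx).eq_deriv _ (hasDerivWithinAt_z f hx ht) h2
  linarith only [h3]

namespace Sys

variable (M : Sys p T)

/-- `B = x - (1-x²) W_x`, equal to `ψ_s`. -/
noncomputable def B : smoothAlg T := Xs - Ss * dz M.W

lemma dt_q : dt (dz M.F) = M.E * (Ss * dz (dz (dz M.F)) - ((p : smoothAlg T) + 3) * Xs * dz (dz M.F))
    - (2 * M.E * dz M.W + M.J) * Ss * dz (dz M.F)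
    + (-((p : smoothAlg T) + 1) * M.E + 2 * ((p : smoothAlg T) + 1) * Xs * M.E * dz M.W
      + 2 * ((p : smoothAlg T) - 1) * M.H + 2 * Xs * M.J - Ss * dz M.J) * dz M.F := by
  rw [← dz_dt_comm, M.eq_F]
  simp only [lapS, dz_add, dz_sub, dz_mul, dz_E, dz_H, dz_Ss, dz_Xs, dz_natCast, dz_one]
  ring

lemma dz_B : dz M.B = 1 + 2 * Xs * dz M.W - Ss * dz (dz M.W) := by
  simp only [B, dz_sub, dz_mul, dz_Ss, dz_Xs]
  ring

lemma dzz_B : dz (dz M.B) = 2 * dz M.W + 4 * Xs * dz (dz M.W) - Ss * dz (dz (dz M.W)) := by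
  have h2 : dz (2 : smoothAlg T) = 0 := dz_ofNat 2
  rw [dz_B]
  simp only [dz_add, dz_sub, dz_mul, dz_Ss, dz_Xs, dz_one, h2]
  ring

lemma dt_B : dt M.B = M.E * Ss * dz (dz M.B)
    - (2 * (Xs - M.B) * M.E + ((p : smoothAlg T) - 1) * Xs * M.E + Ss * M.J) * dz M.B
    + (((p : smoothAlg T) - 1) * M.E * (1 + 2 * Xs * dz M.W) - Ss * dz M.J) * M.B := by
  have h : dt M.B = -(Ss * dz (dt M.W)) := by
    rw [B, dt_sub, dt_mul, dt_Xs, dt_Ss, dz_dt_comm]; ring
  rw [h, M.eq_W, dzz_B, dz_B]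
  simp only [lapS, dz_add, dz_sub, dz_mul, dz_E, dz_Ss, dz_Xs, dz_natCast, dz_one, B]
  ring

end Sys

/-- an even system -/
structure Sys.IsEven (M : Sys p T) : Prop where
  W : EvS M.W
  F : EvS M.F

lemma ConfSol.isEven {w f : ℝ → ℝ → ℝ} (h : ConfSol p w f T) : h.sys.IsEven where
  W t ht x hx := by rw [h.ext_W hx ht, h.ext_W (neg_mem_I hx) ht, h.even_w t ht x hx]
  F t ht x hx := by rw [h.ext_F hx ht, h.ext_F (neg_mem_I hx) ht, h.even_f t ht x hx]

lemma od_Xs : OdS (Xs : smoothAlg T) := by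
  intro t ht x hx
  rw [ext_Xs (mem_dom hx ht), ext_Xs (mem_dom (neg_mem_I hx) ht)]

lemma ev_Ss : EvS (Ss : smoothAlg T) := by
  intro t ht x hx
  rw [ext_Ss (mem_dom hx ht), ext_Ss (mem_dom (neg_mem_I hx) ht)]
  ring

lemma EvS.mul_od {f g : smoothAlg T} (hf : EvS f) (hg : OdS g) : OdS (f * g) := by
  intro t ht x hx; rw [ext_mul, ext_mul, hf t ht x hx, hg t ht x hx, mul_neg]

lemma OdS.sub {f g : smoothAlg T} (hf : OdS f) (hg : OdS g) : OdS (f - g) := by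
  intro t ht x hx; rw [ext_sub, ext_sub, hf t ht x hx, hg t ht x hx]; ring

namespace Sys

variable {M : Sys p T}

lemma J_zero (M : Sys p T) {t : ℝ} (ht : t ∈ Ico 0 T) : ext M.J (0, t) = 0 := primS_zero _ ht

lemma IsEven.B (h : M.IsEven) : OdS M.B := od_Xs.sub (ev_Ss.mul_od h.W.dz)

lemma B_one (M : Sys p T) {t : ℝ} (ht : t ∈ Ico 0 T) : ext M.B (1, t) = 1 := by
  have hd : ((1 : ℝ), t) ∈ dom T := mem_dom (by norm_num) ht
  rw [Sys.B, ext_sub, ext_mul, ext_Xs hd, ext_Ss hd]; norm_num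

/-- (Q2), first half: `F_x ≤ 0` on `[0,1]`. -/
theorem dzF_nonpos (hM : M.IsEven) (h0 : ∀ x ∈ Icc (0 : ℝ) 1, 0 < T → ext (dz M.F) (x, 0) ≤ 0) :
    ∀ t ∈ Ico 0 T, ∀ x ∈ Icc (0 : ℝ) 1, ext (dz M.F) (x, t) ≤ 0 := by
  refine weak_max01 (dz M.F) h0 (fun t ht => (hM.F.dz.zero ht).le) ?_
  intro T' hT'
  obtain ⟨k, hk0, hk⟩ := ext_bound (-((p : smoothAlg T) + 1) * M.E + 2 * ((p : smoothAlg T) + 1) *
    Xs * M.E * dz M.W + 2 * ((p : smoothAlg T) - 1) * M.H + 2 * Xs * M.J - Ss * dz M.J) hT'.2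
  refine ⟨k, fun x hx t ht hpos => ?_⟩
  have hx' : x ∈ Icc (-1 : ℝ) 1 := ⟨by linarith only [hx, hx.1], hx.2⟩
  have hd : (x, t) ∈ dom T := mem_dom hx' ⟨ht.1.le, lt_of_le_of_lt ht.2 hT'.2⟩
  have hE := M.E_pos hd
  have hk1 := (abs_le.1 (hk x hx' t ⟨ht.1.le, ht.2⟩)).2
  refine ⟨ext M.E (x, t) * (1 - x ^ 2), -(ext M.E (x, t) * ((p : ℝ) + 3) * x) -
    (1 - x ^ 2) * (2 * ext M.E (x, t) * ext (dz M.W) (x, t) + ext M.J (x, t)), ?_, ?_, ?_, ?_⟩
  · have : 0 ≤ 1 - x ^ 2 := by linarith only [mul_nonneg (sub_nonneg.2 hx'.1) (sub_nonneg.2 hx'.2)]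
    positivity
  · rintro rfl
    refine ⟨by ring, ?_⟩
    have : 0 ≤ ext M.E (1, t) * ((p : ℝ) + 3) := by positivity
    linarith only [this]
  · rintro rfl
    exact absurd hx.1 (by norm_num)
  · have h1 : ext (dt (dz M.F)) (x, t) = ext M.E (x, t) * (1 - x ^ 2) *
        ext (dz (dz (dz M.F))) (x, t) + (-(ext M.E (x, t) * ((p : ℝ) + 3) * x) -
        (1 - x ^ 2) * (2 * ext M.E (x, t) * ext (dz M.W) (x, t) + ext M.J (x, t))) *
        ext (dz (dz M.F)) (x, t) + ext (-((p : smoothAlg T) + 1) * M.E +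
        2 * ((p : smoothAlg T) + 1) * Xs * M.E * dz M.W + 2 * ((p : smoothAlg T) - 1) * M.H +
        2 * Xs * M.J - Ss * dz M.J) (x, t) * ext (dz M.F) (x, t) := by
      rw [M.dt_q]
      simp only [ext_add, ext_sub, ext_mul, ext_natCast p hd, ext_one hd, ext_Xs hd, ext_neg,
        ext_Ss hd, ext_ofNat _ hd]
      ring
    rw [h1]
    have := mul_le_mul_of_nonneg_right hk1 hpos.le
    linarith only [this]

/-- (Q2), second half: `B ≥ 0` on `[0,1]`. -/
theorem B_nonneg (hM : M.IsEven) (hp : 1 ≤ p)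
    (h0 : ∀ x ∈ Icc (0 : ℝ) 1, 0 < T → 0 ≤ ext M.B (x, 0)) :
    ∀ t ∈ Ico 0 T, ∀ x ∈ Icc (0 : ℝ) 1, 0 ≤ ext M.B (x, t) := by
  have key : ∀ t ∈ Ico 0 T, ∀ x ∈ Icc (0 : ℝ) 1, ext (-M.B) (x, t) ≤ 0 := by
    refine weak_max01 (-M.B) (fun x hx hT => ?_) (fun t ht => ?_) ?_
    · rw [ext_neg]; linarith only [h0, hx, hT, h0 x hx hT]
    · rw [ext_neg, hM.B.zero ht, neg_zero]
    intro T' hT'
    obtain ⟨k, hk0, hk⟩ := ext_bound (((p : smoothAlg T) - 1) * M.E * (1 + 2 * Xs * dz M.W) -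
      Ss * dz M.J) hT'.2
    refine ⟨k, fun x hx t ht hpos => ?_⟩
    have hx' : x ∈ Icc (-1 : ℝ) 1 := ⟨by linarith only [hx, hx.1], hx.2⟩
    have htT : t ∈ Ico 0 T := ⟨ht.1.le, lt_of_le_of_lt ht.2 hT'.2⟩
    have hd : (x, t) ∈ dom T := mem_dom hx' htT
    have hE := M.E_pos hd
    have hk1 := (abs_le.1 (hk x hx' t ⟨ht.1.le, ht.2⟩)).2
    have hp1 : (1 : ℝ) ≤ p := by exact_mod_cast hp
    refine ⟨ext M.E (x, t) * (1 - x ^ 2), -(2 * (x - ext M.B (x, t)) * ext M.E (x, t) +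
      ((p : ℝ) - 1) * x * ext M.E (x, t) + (1 - x ^ 2) * ext M.J (x, t)), ?_, ?_, ?_, ?_⟩
    · have : 0 ≤ 1 - x ^ 2 := by linarith only [mul_nonneg (sub_nonneg.2 hx'.1) (sub_nonneg.2 hx'.2)]
      positivity
    · rintro rfl
      refine ⟨by ring, ?_⟩
      rw [M.B_one htT]
      have h5 : (0 : ℝ) ≤ (p : ℝ) - 1 := by linarith only [hp1]
      have : 0 ≤ ((p : ℝ) - 1) * 1 * ext M.E (1, t) := by positivity
      linarith only [this]
    · rintro rfl
      exact absurd hx.1 (by norm_num)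
    · have h1 : ext (dt (-M.B)) (x, t) = ext M.E (x, t) * (1 - x ^ 2) *
          ext (dz (dz (-M.B))) (x, t) + (-(2 * (x - ext M.B (x, t)) * ext M.E (x, t) +
          ((p : ℝ) - 1) * x * ext M.E (x, t) + (1 - x ^ 2) * ext M.J (x, t))) *
          ext (dz (-M.B)) (x, t) + ext (((p : smoothAlg T) - 1) * M.E * (1 + 2 * Xs * dz M.W) -
          Ss * dz M.J) (x, t) * ext (-M.B) (x, t) := by
        rw [dt_neg, dz_neg, dz_neg, ext_neg, ext_neg, ext_neg, ext_neg, M.dt_B]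
        simp only [ext_add, ext_sub, ext_mul, ext_natCast p hd, ext_one hd, ext_Xs hd,
          ext_Ss hd, ext_ofNat _ hd]
        ring
      rw [h1]
      have := mul_le_mul_of_nonneg_right hk1 hpos.le
      linarith only [this]
  intro t ht x hx
  have := key t ht x hx
  rw [ext_neg] at this
  linarith only [this]

end Sys

end Vale.Agent.P244.ST
end

section

/-!
# P244-ST, block M: the functions of `Geo.lean` at a fixed time

Explicit formulas for `rs, PP, GG, RR` for `|x| < 1`; in particular `RR = scal 20`.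
-/

open Set Topology Filter
open scoped ContDiff

namespace Vale.Agent.P244.ST

open Vale.Agent.P244.BB

variable {T : ℝ} {w f : Fn}

section

variable {p : ℕ} (h : ConfSol p w f T) {x t : ℝ}

include h

lemma ConfSol.hd_w (hx : x ∈ Ioo (-1 : ℝ) 1) (ht : t ∈ Ico 0 T) :
    HasDerivAt (w t) (dx (w t) x) x := by
  have h1 := hasDerivAt_z h.sys.W hx ht
  rw [h.ext_dzW (Ioo_subset_Icc_self hx) ht] at h1
  refine h1.congr_of_eventuallyEq ?_
  filter_upwards [Ioo_mem_nhds hx.1 hx.2] with y hy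
  exact (h.ext_W (Ioo_subset_Icc_self hy) ht).symm

lemma ConfSol.hd_f (hx : x ∈ Ioo (-1 : ℝ) 1) (ht : t ∈ Ico 0 T) :
    HasDerivAt (f t) (dx (f t) x) x := by
  have h1 := hasDerivAt_z h.sys.F hx ht
  rw [h.ext_dzF (Ioo_subset_Icc_self hx) ht] at h1
  refine h1.congr_of_eventuallyEq ?_
  filter_upwards [Ioo_mem_nhds hx.1 hx.2] with y hy
  exact (h.ext_F (Ioo_subset_Icc_self hy) ht).symm

lemma ConfSol.hd_wx (hx : x ∈ Ioo (-1 : ℝ) 1) (ht : t ∈ Ico 0 T) :
    HasDerivAt (dx (w t)) (dx (dx (w t)) x) x := by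
  have h1 := hasDerivAt_z (dz h.sys.W) hx ht
  rw [h.ext_dzzW (Ioo_subset_Icc_self hx) ht] at h1
  refine h1.congr_of_eventuallyEq ?_
  filter_upwards [Ioo_mem_nhds hx.1 hx.2] with y hy
  exact (h.ext_dzW (Ioo_subset_Icc_self hy) ht).symm

lemma ConfSol.hd_fx (hx : x ∈ Ioo (-1 : ℝ) 1) (ht : t ∈ Ico 0 T) :
    HasDerivAt (dx (f t)) (dx (dx (f t)) x) x := by
  have h1 := hasDerivAt_z (dz h.sys.F) hx ht
  rw [h.ext_dzzF (Ioo_subset_Icc_self hx) ht] at h1
  refine h1.congr_of_eventuallyEq ?_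
  filter_upwards [Ioo_mem_nhds hx.1 hx.2] with y hy
  exact (h.ext_dzF (Ioo_subset_Icc_self hy) ht).symm

end

lemma one_sub_sq_pos {x : ℝ} (hx : x ∈ Ioo (-1 : ℝ) 1) : 0 < 1 - x ^ 2 := by
  nlinarith only [hx, hx.1, hx.2]

lemma sx_posQ {x : ℝ} (hx : x ∈ Ioo (-1 : ℝ) 1) : 0 < sx x :=
  Real.sqrt_pos.2 (one_sub_sq_pos hx)

lemma sx_sqQ {x : ℝ} (hx : x ∈ Ioo (-1 : ℝ) 1) : sx x ^ 2 = 1 - x ^ 2 :=
  Real.sq_sqrt (one_sub_sq_pos hx).le

lemma hd_log {x : ℝ} (hx : x ∈ Ioo (-1 : ℝ) 1) :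
    HasDerivAt (fun y : ℝ => Real.log (1 - y ^ 2) / 2) (-(x / (1 - x ^ 2))) x := by
  have h1 : HasDerivAt (fun y : ℝ => 1 - y ^ 2) (-(2 * x)) x := by
    simpa using ((hasDerivAt_id x).pow 2).const_sub 1
  have h2 := (h1.log (one_sub_sq_pos hx).ne').div_const 2
  exact h2.congr_deriv (by ring)

lemma hd_sx {x : ℝ} (hx : x ∈ Ioo (-1 : ℝ) 1) : HasDerivAt sx (-(x / sx x)) x := by
  have h1 : HasDerivAt (fun y : ℝ => 1 - y ^ 2) (-(2 * x)) x := by
    simpa using ((hasDerivAt_id x).pow 2).const_sub 1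
  have h2 := h1.sqrt (one_sub_sq_pos hx).ne'
  refine h2.congr_deriv ?_
  show -(2 * x) / (2 * sx x) = -(x / sx x)
  have := (sx_posQ hx).ne'
  field_simp

/-- `ρ_x` -/
noncomputable def rhox (w f : Fn) : Fn := fun t x =>
  (dx (f t) x + dx (w t) x - x / (1 - x ^ 2)) / 2

/-- `u_x` -/
noncomputable def ux (w f : Fn) : Fn := fun t x => dx (f t) x - dx (w t) x + x / (1 - x ^ 2)

section

variable {p : ℕ} (h : ConfSol p w f T) {x t : ℝ}

include h

lemma ConfSol.hd_rho (hx : x ∈ Ioo (-1 : ℝ) 1) (ht : t ∈ Ico 0 T) :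
    HasDerivAt (rho w f t) (rhox w f t x) x := by
  have h1 := ((((h.hd_f hx ht).add (h.hd_w hx ht)).add (hd_log hx)).sub_const
    (Real.log zeta0)).div_const 2
  exact h1.congr_deriv (by rw [rhox]; ring)

lemma ConfSol.hd_uu (hx : x ∈ Ioo (-1 : ℝ) 1) (ht : t ∈ Ico 0 T) :
    HasDerivAt (uu w f t) (ux w f t x) x := by
  have h1 := ((h.hd_f hx ht).sub (h.hd_w hx ht)).sub (hd_log hx)
  exact h1.congr_deriv (by rw [ux]; ring)

lemma ConfSol.Dx_rho (hx : x ∈ Ioo (-1 : ℝ) 1) (ht : t ∈ Ico 0 T) :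
    Dx (rho w f) t x = rhox w f t x := (h.hd_rho hx ht).deriv

lemma ConfSol.Dx_uu (hx : x ∈ Ioo (-1 : ℝ) 1) (ht : t ∈ Ico 0 T) :
    Dx (uu w f) t x = ux w f t x := (h.hd_uu hx ht).deriv

lemma ConfSol.rs_eq (hx : x ∈ Ioo (-1 : ℝ) 1) (ht : t ∈ Ico 0 T) :
    rs w f t x = -(sx x * Real.exp (-w t x)) * rhox w f t x := by
  rw [rs, Ds, h.Dx_rho hx ht]

lemma ConfSol.PP_eq (hx : x ∈ Ioo (-1 : ℝ) 1) (ht : t ∈ Ico 0 T) :
    PP w f t x = -(sx x * Real.exp (-w t x)) * ux w f t x := by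
  rw [PP, Ds, h.Dx_uu hx ht]

/-- second derivative of `ρ` -/
noncomputable def _root_.Vale.Agent.P244.ST.rhoxx (w f : Fn) : Fn := fun t x =>
  (dx (dx (f t)) x + dx (dx (w t)) x - (1 + x ^ 2) / (1 - x ^ 2) ^ 2) / 2

lemma ConfSol.hd_rhox (hx : x ∈ Ioo (-1 : ℝ) 1) (ht : t ∈ Ico 0 T) :
    HasDerivAt (rhox w f t) (rhoxx w f t x) x := by
  have hS := (one_sub_sq_pos hx).ne'
  have h1 : HasDerivAt (fun y : ℝ => 1 - y ^ 2) (-(2 * x)) x := by
    simpa using ((hasDerivAt_id x).pow 2).const_sub 1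
  have h2 := (hasDerivAt_id x).div h1 hS
  have h3 := (((h.hd_fx hx ht).add (h.hd_wx hx ht)).sub h2).div_const 2
  refine h3.congr_deriv ?_
  rw [rhoxx]
  simp only [id]
  field_simp
  ring

lemma ConfSol.hd_rs (hx : x ∈ Ioo (-1 : ℝ) 1) (ht : t ∈ Ico 0 T) :
    HasDerivAt (rs w f t) (x / sx x * Real.exp (-w t x) * rhox w f t x
      + sx x * Real.exp (-w t x) * dx (w t) x * rhox w f t x
      - sx x * Real.exp (-w t x) * rhoxx w f t x) x := by
  have h0 : HasDerivAt (fun y => Real.exp (-w t y)) (Real.exp (-w t x) * -dx (w t) x) x :=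
    (h.hd_w hx ht).fun_neg.exp
  have h1 : HasDerivAt (fun y => -(sx y * Real.exp (-w t y)) * rhox w f t y)
      (-(-(x / sx x) * Real.exp (-w t x) + sx x * (Real.exp (-w t x) * -dx (w t) x)) *
        rhox w f t x + -(sx x * Real.exp (-w t x)) * rhoxx w f t x) x :=
    (((hd_sx hx).fun_mul h0).fun_neg).fun_mul (h.hd_rhox hx ht)
  refine (h1.congr_deriv (by ring)).congr_of_eventuallyEq ?_
  filter_upwards [Ioo_mem_nhds hx.1 hx.2] with y hy
  rw [h.rs_eq hy ht]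

lemma ConfSol.Ds_rs (hx : x ∈ Ioo (-1 : ℝ) 1) (ht : t ∈ Ico 0 T) :
    Ds w (rs w f) t x = Real.exp (-2 * w t x) * ((1 - x ^ 2) * rhoxx w f t x
      - x * rhox w f t x - (1 - x ^ 2) * dx (w t) x * rhox w f t x) := by
  have hs := (sx_posQ hx).ne'
  have h2 : Real.exp (-2 * w t x) = Real.exp (-w t x) * Real.exp (-w t x) := by
    rw [← Real.exp_add]; congr 1; ring
  rw [Ds, Dx, (h.hd_rs hx ht).deriv, h2, ← sx_sqQ hx]
  field_simp
  ring

end

lemma exp_two (w : Fn) (t x : ℝ) :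
    Real.exp (-2 * w t x) = Real.exp (-w t x) * Real.exp (-w t x) := by
  rw [← Real.exp_add]; congr 1; ring

lemma zeta0_pos' : 0 < zeta0 := by unfold zeta0; norm_num

lemma rr_sq {x t : ℝ} (hx : x ∈ Ioo (-1 : ℝ) 1) :
    (rr w f t x) ^ 2 = Real.exp (f t x) * Real.exp (w t x) * sx x / zeta0 := by
  have hS := one_sub_sq_pos hx
  have h1 : (rr w f t x) ^ 2 = Real.exp (f t x + w t x + Real.log (1 - x ^ 2) / 2 -
      Real.log zeta0) := by
    rw [rr, ← Real.exp_nat_mul]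
    congr 1
    rw [rho]; push_cast; ring
  rw [h1, Real.exp_sub, Real.exp_add, Real.exp_add, Real.exp_log zeta0_pos']
  congr 2
  rw [sx, Real.sqrt_eq_rpow, Real.rpow_def_of_pos hS]
  congr 1; ring

lemma exp_uuQ {x t : ℝ} (hx : x ∈ Ioo (-1 : ℝ) 1) :
    Real.exp (uu w f t x) = Real.exp (f t x) / (Real.exp (w t x) * sx x) := by
  have hS := one_sub_sq_pos hx
  rw [uu, Real.exp_sub, Real.exp_sub, div_div]
  congr 2
  rw [sx, Real.sqrt_eq_rpow, Real.rpow_def_of_pos hS]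
  congr 1; ring

lemma cosh_div {x t : ℝ} (hx : x ∈ Ioo (-1 : ℝ) 1) :
    Real.cosh (uu w f t x) / (rr w f t x) ^ 2 =
      zeta0 / 2 * (Real.exp (-2 * w t x) / (1 - x ^ 2) + Real.exp (-2 * f t x)) := by
  have h1 := sx_posQ hx
  have h2 := sx_sqQ hx
  have h3 := Real.exp_pos (w t x)
  have h4 := Real.exp_pos (f t x)
  have h5 := zeta0_pos'
  rw [Real.cosh_eq, Real.exp_neg, exp_uuQ hx, rr_sq hx, ← h2,
    show -2 * w t x = -(w t x + w t x) by ring, show -2 * f t x = -(f t x + f t x) by ring,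
    Real.exp_neg, Real.exp_neg, Real.exp_add, Real.exp_add]
  field_simp

/-- `RR` is the scalar curvature of `Conf.lean`. -/
theorem ConfSol.RR_eq (h : ConfSol 20 w f T) {x t : ℝ} (hx : x ∈ Ioo (-1 : ℝ) 1)
    (ht : t ∈ Ico 0 T) : RR w f t x = scal 20 (w t) (f t) x := by
  have hS := one_sub_sq_pos hx
  have hD := h.Ds_rs hx ht
  have hrs2 : (rs w f t x) ^ 2 = Real.exp (-2 * w t x) * (1 - x ^ 2) * (rhox w f t x) ^ 2 := by
    rw [h.rs_eq hx ht, exp_two, ← sx_sqQ hx]; ring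
  have hPP2 : (PP w f t x) ^ 2 = Real.exp (-2 * w t x) * (1 - x ^ 2) * (ux w f t x) ^ 2 := by
    rw [h.PP_eq hx ht, exp_two, ← sx_sqQ hx]; ring
  have hE0 : E0 w f t x = -(40 * Ds w (rs w f) t x) - 40 * (rs w f t x) ^ 2 -
      10 * (PP w f t x) ^ 2 := rfl
  have hyy : yy w f t x = Ds w (rs w f) t x + 40 * (rs w f t x) ^ 2 -
      39 * (Real.cosh (uu w f t x) / (rr w f t x) ^ 2) := by
    have : yy w f t x = Ds w (rs w f) t x + 40 * rs w f t x * rs w f t x -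
      39 * Real.cosh (uu w f t x) / (rr w f t x) ^ 2 := rfl
    rw [this]; ring
  rw [RR, hE0, hyy, hrs2, hPP2, hD, cosh_div hx]
  simp only [scal, ric0, ric1, ric2, lap, gx, rhox, ux, rhoxx, zeta0]
  push_cast
  set E := Real.exp (-2 * w t x)
  set H := Real.exp (-2 * f t x)
  set w1 := dx (w t) x
  set f1 := dx (f t) x
  set w2 := dx (dx (w t)) x
  set f2 := dx (dx (f t)) x
  have hS' := hS.ne'
  field_simp
  ring

end Vale.Agent.P244.ST
end

section

/-!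
# P244-ST, block C1, part (B): the volume is nonincreasing

`μ = e^{20F+21w} (1-x²)^{19/2}` is the density of the volume; `d/dt ∫ μ = - ∫ R μ ≤ 0`.
Consequence: `artanh x` is bounded where `φψ` and `ψ` are bounded below on `[0,x]`.
-/

open Set Topology Filter MeasureTheory
open scoped ContDiff

namespace Vale.Agent.P244.ST

open Vale.Agent.P244.BB

variable {T : ℝ}

namespace Sys

variable (M : Sys 20 T)

/-- `e^{20F+21W}` -/
noncomputable def mu : smoothAlg T := expS (20 * M.F + 21 * M.W)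

lemma dz_mu : dz M.mu = M.mu * (20 * dz M.F + 21 * dz M.W) := by
  rw [mu, dz_expS, dz_add, dz_mul, dz_mul, dz_ofNat, dz_ofNat]; ring

lemma dt_mu : dt M.mu = M.mu * (20 * dt M.F + 21 * dt M.W) := by
  rw [mu, dt_expS, dt_add, dt_mul, dt_mul, dt_ofNat, dt_ofNat]; ring

/-- the continuity equation for the volume density -/
lemma dt_mu_eq : dt M.mu = -(M.R * M.mu) - dz (Ss * M.Y * M.mu) + 19 * Xs * M.Y * M.mu := by
  rw [dt_mu, eq_W, eq_F]
  simp only [dz_mul, dz_Ss, Y, dz_add, dz_E, dz_J, a, dz_sub, dz_one, dz_natCast, dz_mu]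
  simp only [R, ric0, ric1, ric2, lapS, a]
  push_cast
  ring

end Sys

/-! ### integrals of elements of the algebra against `sx^19` -/

namespace MCVol

lemma sx_cont : Continuous sx := by
  unfold sx
  exact Real.continuous_sqrt.comp (by fun_prop)

lemma sx_nonneg (x : ℝ) : 0 ≤ sx x := Real.sqrt_nonneg _

lemma sx_le_one (x : ℝ) : sx x ≤ 1 := by
  unfold sx
  rw [Real.sqrt_le_one]
  nlinarith only [sq_nonneg x]

lemma sub_I : Icc (0 : ℝ) 1 ⊆ Icc (-1) 1 := Icc_subset_Icc (by norm_num) le_rfl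

lemma exists_bound (f : smoothAlg T) {t₁ : ℝ} (ht₁ : t₁ < T) :
    ∃ C, ∀ t ∈ Icc 0 t₁, ∀ x ∈ Icc (0 : ℝ) 1, |ext f (x, t)| ≤ C := by
  have hK : Icc (-1 : ℝ) 1 ×ˢ Icc 0 t₁ ⊆ dom T := fun p hp =>
    mem_dom hp.1 ⟨hp.2.1, lt_of_le_of_lt hp.2.2 ht₁⟩
  obtain ⟨C, hC⟩ := (isCompact_Icc.prod isCompact_Icc).exists_bound_of_continuousOn
    ((ext_continuousOn f).mono hK)
  exact ⟨C, fun t ht x hx => hC (x, t) ⟨sub_I hx, ht⟩⟩

/-- the integral against the weight -/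
noncomputable def vol (f : smoothAlg T) (t : ℝ) : ℝ := ∫ x in (0 : ℝ)..1, ext f (x, t) * sx x ^ 19

lemma slice_cont (f : smoothAlg T) {t : ℝ} (ht : t ∈ Ico 0 T) :
    ContinuousOn (fun x => ext f (x, t) * sx x ^ 19) (Icc 0 1) :=
  ((slice_continuousOn f ht).mono sub_I).mul (sx_cont.pow 19).continuousOn

lemma slice_int (f : smoothAlg T) {t : ℝ} (ht : t ∈ Ico 0 T) :
    IntervalIntegrable (fun x => ext f (x, t) * sx x ^ 19) volume 0 1 := by
  refine ContinuousOn.intervalIntegrable ?_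
  rw [uIcc_of_le zero_le_one]
  exact slice_cont f ht

lemma uIoc_sub : uIoc (0 : ℝ) 1 ⊆ Icc 0 1 := by
  rw [uIoc_of_le zero_le_one]; exact Ioc_subset_Icc_self

lemma slice_meas (f : smoothAlg T) {t : ℝ} (ht : t ∈ Ico 0 T) :
    AEStronglyMeasurable (fun x => ext f (x, t) * sx x ^ 19) (volume.restrict (uIoc 0 1)) :=
  ((slice_cont f ht).mono uIoc_sub).aestronglyMeasurable measurableSet_uIoc

lemma abs_mul_sx_le {a C x : ℝ} (h : |a| ≤ C) : |a * sx x ^ 19| ≤ C := by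
  have h1 : sx x ^ 19 ≤ 1 := pow_le_one₀ (sx_nonneg x) (sx_le_one x)
  have h2 : 0 ≤ sx x ^ 19 := pow_nonneg (sx_nonneg x) 19
  rw [abs_mul, abs_of_nonneg h2]
  calc |a| * sx x ^ 19 ≤ C * 1 := mul_le_mul h h1 h2 ((abs_nonneg a).trans h)
    _ = C := mul_one C

lemma vol_hasDerivAt (f : smoothAlg T) {t : ℝ} (ht : t ∈ Ioo 0 T) :
    HasDerivAt (vol f) (vol (dt f) t) t := by
  have ht₁ : (t + T) / 2 < T := by linarith only [ht, ht.2]
  obtain ⟨C, hC⟩ := exists_bound (dt f) ht₁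
  have hs : Ioo (t / 2) ((t + T) / 2) ∈ 𝓝 t := Ioo_mem_nhds (by linarith only [ht, ht.1])
    (by linarith only [ht₁, ht.2])
  have hsub : ∀ s ∈ Ioo (t / 2) ((t + T) / 2), s ∈ Ioo 0 T := fun s hs =>
    ⟨by linarith only [ht, hs, hs.1, ht.1], by linarith only [ht₁, hs, hs.2]⟩
  refine (intervalIntegral.hasDerivAt_integral_of_dominated_loc_of_deriv_le
    (F := fun s x => ext f (x, s) * sx x ^ 19) (F' := fun s x => ext (dt f) (x, s) * sx x ^ 19)
    (bound := fun _ => C) hs ?_ (slice_int f ⟨ht.1.le, ht.2⟩) (slice_meas (dt f) ⟨ht.1.le, ht.2⟩)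
    ?_ intervalIntegrable_const ?_).2
  · filter_upwards [hs] with s hs
    exact slice_meas f ⟨(hsub s hs).1.le, (hsub s hs).2⟩
  · refine Eventually.of_forall fun x hx s hs => ?_
    exact abs_mul_sx_le (hC s ⟨(hsub s hs).1.le, hs.2.le⟩ x (uIoc_sub hx))
  · refine Eventually.of_forall fun x hx s hs => ?_
    exact (hasDerivAt_t f (sub_I (uIoc_sub hx)) (hsub s hs)).mul_const _

lemma vol_cont (f : smoothAlg T) : ContinuousOn (vol f) (Ico 0 T) := by
  intro t ht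
  have ht₁ : (t + T) / 2 < T := by linarith only [ht, ht.2]
  obtain ⟨C, hC⟩ := exists_bound f ht₁
  have hs : Iio ((t + T) / 2) ∈ 𝓝 t := Iio_mem_nhds (by linarith only [ht₁, ht.2])
  refine intervalIntegral.continuousWithinAt_of_dominated_interval (bound := fun _ => C) ?_ ?_
    intervalIntegrable_const ?_
  · filter_upwards [self_mem_nhdsWithin] with s hs
    exact slice_meas f hs
  · filter_upwards [self_mem_nhdsWithin, mem_nhdsWithin_of_mem_nhds hs] with s hs hs'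
    exact Eventually.of_forall fun x hx => abs_mul_sx_le (hC s ⟨hs.1, (mem_Iio.1 hs').le⟩ x
      (uIoc_sub hx))
  · refine Eventually.of_forall fun x hx => ?_
    exact (hasDerivWithinAt_t f (sub_I (uIoc_sub hx)) ht).continuousWithinAt.mul
      continuousWithinAt_const

end MCVol

namespace Sys

variable (M : Sys 20 T)

open MCVol

lemma Y_zero (hM : M.IsEven) {t : ℝ} (ht : t ∈ Ico 0 T) : ext M.Y (0, t) = 0 := by
  have hd : ((0 : ℝ), t) ∈ dom T := mem_dom (by norm_num) ht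
  have h1 : ext (dz M.W) (0, t) = 0 := (hM.W.dz).zero ht
  have h2 : ext (dz M.F) (0, t) = 0 := (hM.F.dz).zero ht
  have h3 : ext M.J (0, t) = 0 := primS_zero _ ht
  rw [Y, a]
  simp only [ext_add, ext_mul, h1, h2, h3]
  ring

lemma vol_dt_mu (hM : M.IsEven) (hR : ∀ t ∈ Ico 0 T, ∀ x ∈ Icc (0 : ℝ) 1, 0 ≤ ext M.R (x, t))
    {t : ℝ} (ht : t ∈ Ico 0 T) : vol (dt M.mu) t ≤ 0 := by
  have hflux : vol (-(dz (Ss * M.Y * M.mu)) + 19 * Xs * M.Y * M.mu) t = 0 := by
    have h1 : ∀ x ∈ Ioo (0 : ℝ) 1, HasDerivAt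
        (fun x => -(ext (Ss * M.Y * M.mu) (x, t) * sx x ^ 19))
        (ext (-(dz (Ss * M.Y * M.mu)) + 19 * Xs * M.Y * M.mu) (x, t) * sx x ^ 19) x := by
      intro x hx
      have hx' : x ∈ Ioo (-1 : ℝ) 1 := ⟨by linarith only [hx, hx.1], hx.2⟩
      have hd : (x, t) ∈ dom T := mem_dom (Ioo_subset_Icc_self hx') ht
      have a1 := ((hasDerivAt_z (Ss * M.Y * M.mu) hx' ht).mul ((hd_sx hx').pow 19)).neg
      refine a1.congr_deriv ?_
      have hs := sx_posQ hx'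
      have hs2 := sx_sqQ hx'
      simp only [ext_add, ext_neg, ext_mul, ext_Ss hd, ext_Xs hd, ext_ofNat 19 hd, Pi.pow_apply]
      rw [← hs2]
      push_cast
      field_simp
      ring
    have h2 : ContinuousOn (fun x => -(ext (Ss * M.Y * M.mu) (x, t) * sx x ^ 19)) (Icc 0 1) :=
      (slice_cont _ ht).neg
    have h3 := intervalIntegral.integral_eq_sub_of_hasDerivAt_of_le zero_le_one h2 h1
      (slice_int _ ht)
    rw [vol, h3]
    have hd0 : ((0 : ℝ), t) ∈ dom T := mem_dom (by norm_num) ht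
    have hs1 : sx 1 = 0 := by unfold sx; norm_num
    rw [ext_mul, ext_mul, ext_mul, ext_mul, M.Y_zero hM ht, hs1]
    ring
  have hsplit : vol (dt M.mu) t = -(vol (M.R * M.mu) t) := by
    have e : ∀ x ∈ uIcc (0 : ℝ) 1, ext (dt M.mu) (x, t) * sx x ^ 19 =
        ext (-(dz (Ss * M.Y * M.mu)) + 19 * Xs * M.Y * M.mu) (x, t) * sx x ^ 19 -
        ext (M.R * M.mu) (x, t) * sx x ^ 19 := by
      intro x _
      rw [dt_mu_eq]
      simp only [ext_add, ext_sub, ext_neg]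
      ring
    have e2 : vol (dt M.mu) t = vol (-(dz (Ss * M.Y * M.mu)) + 19 * Xs * M.Y * M.mu) t -
        vol (M.R * M.mu) t := by
      unfold vol
      rw [intervalIntegral.integral_congr e]
      exact intervalIntegral.integral_sub (slice_int _ ht) (slice_int _ ht)
    rw [e2, hflux, zero_sub]
  rw [hsplit, neg_nonpos]
  refine intervalIntegral.integral_nonneg zero_le_one fun x hx => ?_
  have hd : (x, t) ∈ dom T := mem_dom (sub_I hx) ht
  rw [ext_mul]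
  have h1 := hR t ht x hx
  have h2 : 0 < ext M.mu (x, t) := expS_pos _ hd
  have h3 := pow_nonneg (sx_nonneg x) 19
  positivity

/-- the volume is nonincreasing -/
theorem vol_anti (hM : M.IsEven)
    (hR : ∀ t ∈ Ico 0 T, ∀ x ∈ Icc (0 : ℝ) 1, 0 ≤ ext M.R (x, t)) :
    AntitoneOn (vol M.mu) (Ico 0 T) := by
  refine antitoneOn_of_deriv_nonpos (convex_Ico 0 T) (vol_cont M.mu) ?_ ?_
  · intro t ht
    rw [interior_Ico] at ht
    exact (vol_hasDerivAt M.mu ht).differentiableAt.differentiableWithinAt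
  · intro t ht
    rw [interior_Ico] at ht
    rw [(vol_hasDerivAt M.mu ht).deriv]
    exact M.vol_dt_mu hM hR ⟨ht.1.le, ht.2⟩

end Sys

namespace MCVol

variable {w f : Fn}

/-- derivative of `artanh` -/
lemma hasDerivAt_artanh {y : ℝ} (hy : y ∈ Ioo (-1 : ℝ) 1) :
    HasDerivAt (fun y : ℝ => Real.log ((1 + y) / (1 - y)) / 2) (1 / (1 - y ^ 2)) y := by
  have h1 : (1 : ℝ) - y ≠ 0 := by linarith only [hy, hy.2]
  have h2 : (1 : ℝ) + y ≠ 0 := by linarith only [hy, hy.1]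
  have h3 := (one_sub_sq_pos hy).ne'
  have a1 : HasDerivAt (fun y : ℝ => 1 + y) 1 y := (hasDerivAt_id y).const_add 1
  have a2 : HasDerivAt (fun y : ℝ => 1 - y) (-1) y := (hasDerivAt_id y).const_sub 1
  have a3 := ((a1.div a2 h1).log (div_ne_zero h2 h1)).div_const 2
  refine a3.congr_deriv ?_
  have h4 : (1 : ℝ) - y ^ 2 = (1 + y) * (1 - y) := by ring
  rw [h4]
  simp only [Pi.div_apply]
  field_simp
  ring

/-- the volume bound: `artanh x` is bounded where `φψ`, `ψ` are bounded below on `[0,x]`. -/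
theorem vol_bound (h : ConfSol 20 w f T) (hQ : Qual w f T) (hT0 : 0 < T) :
    ∃ V0 > 0, ∀ t ∈ Ico 0 T, ∀ x ∈ Ico (0 : ℝ) 1, ∀ c > 0,
      (∀ y ∈ Icc 0 x, c ≤ Real.exp (f t y) * Real.exp (w t y) * sx y) →
      (∀ y ∈ Icc 0 x, c ≤ Real.exp (w t y) * sx y) →
      c ^ 21 * (Real.log ((1 + x) / (1 - x)) / 2) ≤ V0 := by
  have hR : ∀ t ∈ Ico 0 T, ∀ x ∈ Icc (0 : ℝ) 1, 0 ≤ ext h.sys.R (x, t) := by
    intro t ht
    have h1 : ∀ x ∈ Ico (0 : ℝ) 1, 0 ≤ ext h.sys.R (x, t) := by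
      intro x hx
      have hx' : x ∈ Ioo (-1 : ℝ) 1 := ⟨by linarith only [hx, hx.1], hx.2⟩
      rw [h.ext_R (Ioo_subset_Icc_self hx') ht, ← h.RR_eq hx' ht]
      exact hQ.R_nonneg t ht x hx
    have hc : ContinuousOn (fun x => ext h.sys.R (x, t)) (Icc 0 1) :=
      (slice_continuousOn _ ht).mono sub_I
    intro x hx
    rcases eq_or_lt_of_le hx.2 with h2 | h2
    · subst h2
      have h3 : Tendsto (fun x => ext h.sys.R (x, t)) (𝓝[Ico 0 1] 1) (𝓝 (ext h.sys.R (1, t))) :=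
        (hc 1 hx).mono_left (nhdsWithin_mono _ Ico_subset_Icc_self)
      have : (𝓝[Ico (0 : ℝ) 1] 1).NeBot := by
        rw [← mem_closure_iff_nhdsWithin_neBot, closure_Ico (by norm_num)]
        exact right_mem_Icc.2 zero_le_one
      exact ge_of_tendsto h3 (by filter_upwards [self_mem_nhdsWithin] with y hy; exact h1 y hy)
    · exact h1 x ⟨hx.1, h2⟩
  have hanti := h.sys.vol_anti h.isEven hR
  refine ⟨|vol h.sys.mu 0| + 1, by positivity, fun t ht x hx c hc h1 h2 => ?_⟩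
  have hmu : ∀ y ∈ Icc (0 : ℝ) 1, ext h.sys.mu (y, t) * sx y ^ 19 =
      Real.exp (20 * f t y + 21 * w t y) * sx y ^ 19 := by
    intro y hy
    have hd : (y, t) ∈ dom T := mem_dom (sub_I hy) ht
    rw [Sys.mu, ext_expS _ hd, ext_add, ext_mul, ext_mul, ext_ofNat 20 hd, ext_ofNat 21 hd,
      h.ext_F (sub_I hy) ht, h.ext_W (sub_I hy) ht]
  have hle : vol h.sys.mu t ≤ |vol h.sys.mu 0| :=
    (hanti ⟨le_rfl, hT0⟩ ht ht.1).trans (le_abs_self _)
  have hxI : ∀ y ∈ Icc 0 x, y ∈ Icc (0 : ℝ) 1 := fun y hy => ⟨hy.1, hy.2.trans hx.2.le⟩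
  have hxI' : ∀ y ∈ Icc 0 x, y ∈ Ioo (-1 : ℝ) 1 := fun y hy =>
    ⟨by linarith only [hy, hy.1], lt_of_le_of_lt hy.2 hx.2⟩
  have i1 : IntervalIntegrable (fun y => ext h.sys.mu (y, t) * sx y ^ 19) volume 0 x := by
    refine ContinuousOn.intervalIntegrable ?_
    rw [uIcc_of_le hx.1]
    exact (slice_cont _ ht).mono hxI
  have i2 : IntervalIntegrable (fun y => ext h.sys.mu (y, t) * sx y ^ 19) volume x 1 := by
    refine ContinuousOn.intervalIntegrable ?_
    rw [uIcc_of_le hx.2.le]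
    exact (slice_cont _ ht).mono (Icc_subset_Icc_left hx.1)
  have hpart : ∫ y in (0 : ℝ)..x, ext h.sys.mu (y, t) * sx y ^ 19 ≤ vol h.sys.mu t := by
    rw [vol, ← intervalIntegral.integral_add_adjacent_intervals i1 i2]
    have : 0 ≤ ∫ y in x..1, ext h.sys.mu (y, t) * sx y ^ 19 := by
      refine intervalIntegral.integral_nonneg hx.2.le fun y hy => ?_
      rw [hmu y ⟨hx.1.trans hy.1, hy.2⟩]
      have := pow_nonneg (sx_nonneg y) 19
      positivity
    linarith only [h, this]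
  have i3 : IntervalIntegrable (fun y : ℝ => c ^ 21 * (1 / (1 - y ^ 2))) volume 0 x := by
    refine ContinuousOn.intervalIntegrable ?_
    rw [uIcc_of_le hx.1]
    refine continuousOn_const.mul (continuousOn_const.div (by fun_prop) fun y hy => ?_)
    exact (one_sub_sq_pos (hxI' y hy)).ne'
  have hlow : ∫ y in (0 : ℝ)..x, c ^ 21 * (1 / (1 - y ^ 2)) ≤
      ∫ y in (0 : ℝ)..x, ext h.sys.mu (y, t) * sx y ^ 19 := by
    refine intervalIntegral.integral_mono_on hx.1 i3 i1 fun y hy => ?_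
    rw [hmu y (hxI y hy)]
    have hs := sx_posQ (hxI' y hy)
    have hs2 := sx_sqQ (hxI' y hy)
    have b1 := h1 y hy
    have b2 := h2 y hy
    have b3 : Real.exp (20 * f t y + 21 * w t y) =
        (Real.exp (f t y) * Real.exp (w t y)) ^ 20 * Real.exp (w t y) := by
      rw [mul_pow, ← Real.exp_nat_mul, ← Real.exp_nat_mul, ← Real.exp_add, ← Real.exp_add]
      congr 1; push_cast; ring
    have b4 : Real.exp (20 * f t y + 21 * w t y) * sx y ^ 19 =
        (Real.exp (f t y) * Real.exp (w t y) * sx y) ^ 20 * (Real.exp (w t y) * sx y) *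
          (1 / sx y ^ 2) := by
      rw [b3]; field_simp
    rw [b4, ← hs2]
    refine mul_le_mul_of_nonneg_right ?_ (by positivity)
    calc c ^ 21 = c ^ 20 * c := by ring
      _ ≤ _ := mul_le_mul (pow_le_pow_left₀ hc.le b1 20) b2 hc.le (by positivity)
  have hart : ∫ y in (0 : ℝ)..x, c ^ 21 * (1 / (1 - y ^ 2)) =
      c ^ 21 * (Real.log ((1 + x) / (1 - x)) / 2) := by
    rw [intervalIntegral.integral_const_mul]
    congr 1
    have i4 : IntervalIntegrable (fun y : ℝ => 1 / (1 - y ^ 2)) volume 0 x := by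
      refine ContinuousOn.intervalIntegrable ?_
      rw [uIcc_of_le hx.1]
      refine continuousOn_const.div (by fun_prop) fun y hy => ?_
      exact (one_sub_sq_pos (hxI' y hy)).ne'
    rw [intervalIntegral.integral_eq_sub_of_hasDerivAt (f := fun y : ℝ =>
      Real.log ((1 + y) / (1 - y)) / 2) (fun y hy => ?_) i4]
    · simp
    · rw [uIcc_of_le hx.1] at hy
      exact hasDerivAt_artanh (hxI' y hy)
  rw [hart] at hlow
  linarith only [hlow, hpart, hle]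

end MCVol

end Vale.Agent.P244.ST
end
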