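import Mathlib
import Vale.Agent.P244.Bd3.B1
import Vale.Agent.P244.Bd3.B3

set_option linter.all false

section

/-!
# P244-ST, closure f : the pure inequality

`h = T^a cosh^{-(1-a)}`, `a = 1/20`: `g · d/du {(2 Zs + As) h - Zs g h'} ≥ 0.099 · 39 · cosh u · h`.
-/

open Set Filter Topology

namespace Vale.Agent.P244.ST.PureF

theorem hasDerivAt_tanh (u : ℝ) : HasDerivAt Real.tanh (1 - Real.tanh u ^ 2) u := by
  have hc : Real.cosh u ≠ 0 := (Real.cosh_pos u).ne'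
  have h := (Real.hasDerivAt_sinh u).div (Real.hasDerivAt_cosh u) hc
  have h1 : (fun x => Real.sinh x / Real.cosh x) = Real.tanh := by
    funext x; rw [Real.tanh_eq_sinh_div_cosh]
  have h2 : (Real.cosh u * Real.cosh u - Real.sinh u * Real.sinh u) / Real.cosh u ^ 2 =
      1 - Real.tanh u ^ 2 := by
    rw [Real.tanh_eq_sinh_div_cosh]
    field_simp
  rw [← h2, ← h1]
  exact h

theorem tanh_pos {u : ℝ} (hu : 0 < u) : 0 < Real.tanh u := by
  rw [Real.tanh_eq_sinh_div_cosh]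
  exact div_pos (Real.sinh_pos_iff.mpr hu) (Real.cosh_pos u)

theorem tanh_mul_cosh (u : ℝ) : Real.tanh u * Real.cosh u = Real.sinh u := by
  rw [Real.tanh_eq_sinh_div_cosh, div_mul_cancel₀ _ (Real.cosh_pos u).ne']

theorem kap_lt : kap < 2.1147 := by
  have h1 : 34.7706 < Real.sqrt 1209 := by
    rw [Real.lt_sqrt (by norm_num)]; norm_num
  unfold kap; linarith only [h1]

theorem kap_gt : 2.1146 < kap := by
  have h1 : Real.sqrt 1209 < 34.7708 := by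
    rw [Real.sqrt_lt' (by norm_num)]; norm_num
  unfold kap; linarith only [h1]

variable {g : ℝ → ℝ}

/-! ### elementary facts on `g` -/

theorem g_pos (hg : IsBub g) {u : ℝ} (hu : 0 < u) : 0 < g u := by
  have h1 := hg.lower u hu
  have h2 := tanh_pos hu
  linarith only [h1, h2]

theorem g_deriv (hg : IsBub g) {u : ℝ} (hu : 0 < u) : HasDerivAt g (deriv g u) u :=
  (hg.ode u hu).differentiableAt.hasDerivAt

/-- `g g' = q (g - 2 tanh u)` -/
theorem g_ode (hg : IsBub g) {u : ℝ} (hu : 0 < u) :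
    g u * deriv g u = qb g u * (g u - 2 * Real.tanh u) := by
  rw [(hg.ode u hu).deriv, qb]
  have := (g_pos hg hu).ne'
  field_simp

theorem qb_gt (hg : IsBub g) {u : ℝ} (hu : 0 < u) : 38 < qb g u := by
  have h1 := g_pos hg hu
  have h2 := hg.lt_two u hu
  unfold qb
  nlinarith only [h1, h2]

/-- `G1 = g / tanh u` lies in `(2, κ)`. -/
theorem quot_gt (hg : IsBub g) {u : ℝ} (hu : 0 < u) : 2 < g u / Real.tanh u := by
  rw [lt_div_iff₀ (tanh_pos hu)]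
  exact hg.lower u hu

theorem quot_lt (hg : IsBub g) {u : ℝ} (hu : 0 < u) : g u / Real.tanh u < kap := by
  rw [div_lt_iff₀ (tanh_pos hu)]
  exact hg.upper u hu

/-! ### the weight `h` -/

/-- `h = T^a cosh^{-(1-a)}` -/
noncomputable def hF (u : ℝ) : ℝ := (Real.tanh u) ^ aa * (Real.cosh u) ^ (-(1 - aa))

/-- `h'` -/
noncomputable def hF1 (u : ℝ) : ℝ :=
  hF u * (aa * (1 - Real.tanh u ^ 2) / Real.tanh u - (1 - aa) * Real.tanh u)

/-! ### the inequality -/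

/-- `(2 Zs + As) h - Zs g h'` -/
noncomputable def KF (g : ℝ → ℝ) (u : ℝ) : ℝ :=
  (2 * Zs g u + As g u) * hF u - Zs g u * g u * hF1 u

/-- the bracket: `KF = 39 cosh u · h · Kb` -/
noncomputable def Kb (g : ℝ → ℝ) (u : ℝ) : ℝ :=
  2 / qb g u + 4 * Real.tanh u / g u - 1 + g u * (Real.tanh u ^ 2 - aa) / (Real.tanh u * qb g u)

/-- derivative of `Kb` -/
noncomputable def Kb1 (g : ℝ → ℝ) (u : ℝ) : ℝ :=
  g u * deriv g u / qb g u ^ 2 * (1 - aa / 2 * (g u / Real.tanh u)) +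
  (4 / g u ^ 2 + aa / (Real.tanh u ^ 2 * qb g u)) *
    (g u * (1 - Real.tanh u ^ 2) - deriv g u * Real.tanh u) +
  (deriv g u * Real.tanh u + g u * (1 - Real.tanh u ^ 2)) / qb g u +
  g u * Real.tanh u * (g u * deriv g u) / (2 * qb g u ^ 2)

/-- derivative of `KF` -/
noncomputable def KF1 (g : ℝ → ℝ) (u : ℝ) : ℝ :=
  39 * (Real.cosh u * hF u) * (aa / Real.tanh u * Kb g u + Kb1 g u)

end Vale.Agent.P244.ST.PureF
end

section

/-!
# P244-ST : the `ℝ`-algebra of smooth functions on an open set `Ω ⊆ ℝ × ℝ`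

`sO Ω`, `mk H hH`, `toFn h`, derivations `dX`, `dT` (commuting).
-/

open Set Filter TopologicalSpace
open scoped ContDiff Topology

namespace Vale.Agent.P244.ST

noncomputable section

variable (Ω : Opens (ℝ × ℝ))

open Classical in
/-- extension by zero of a function on `Ω` -/
def extF (h : Ω → ℝ) : Fn := fun t x => if hz : (t, x) ∈ Ω then h ⟨(t, x), hz⟩ else 0

variable {Ω}

lemma extF_mem (h : Ω → ℝ) {t x : ℝ} (hz : (t, x) ∈ Ω) : extF Ω h t x = h ⟨(t, x), hz⟩ := by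
  rw [extF, dif_pos hz]

lemma extF_add (h k : Ω → ℝ) (t x : ℝ) : extF Ω (h + k) t x = extF Ω h t x + extF Ω k t x := by
  by_cases hz : (t, x) ∈ Ω
  · simp only [extF_mem _ hz, Pi.add_apply]
  · simp only [extF, dif_neg hz, add_zero]

lemma extF_mul (h k : Ω → ℝ) (t x : ℝ) : extF Ω (h * k) t x = extF Ω h t x * extF Ω k t x := by
  by_cases hz : (t, x) ∈ Ω
  · simp only [extF_mem _ hz, Pi.mul_apply]
  · simp only [extF, dif_neg hz, mul_zero]

variable (Ω) in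
/-- the algebra of smooth functions on `Ω` -/
def sO : Subalgebra ℝ (Ω → ℝ) where
  carrier := {h | Sm (Ω : Set (ℝ × ℝ)) (extF Ω h)}
  mul_mem' {a b} ha hb := by
    have h1 : Sm (Ω : Set (ℝ × ℝ)) fun t x => extF Ω a t x * extF Ω b t x := Sm.mul ha hb
    exact h1.congr fun z _ => extF_mul a b z.1 z.2
  add_mem' {a b} ha hb := by
    have h1 : Sm (Ω : Set (ℝ × ℝ)) fun t x => extF Ω a t x + extF Ω b t x := Sm.add ha hb
    exact h1.congr fun z _ => extF_add a b z.1 z.2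
  algebraMap_mem' c := by
    refine (Sm.const (Ω := (Ω : Set (ℝ × ℝ))) c).congr ?_
    rintro ⟨t, x⟩ hz
    exact extF_mem _ hz

/-- an element as a function of `(t,x)` -/
def toFn (h : sO Ω) : Fn := extF Ω h.1

lemma toFn_sm (h : sO Ω) : Sm (Ω : Set (ℝ × ℝ)) (toFn h) := h.2

/-- the element given by a smooth function -/
def mk (H : Fn) (hH : Sm (Ω : Set (ℝ × ℝ)) H) : sO Ω :=
  ⟨fun z => H z.1.1 z.1.2, hH.congr (by rintro ⟨t, x⟩ hz; exact extF_mem _ hz)⟩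

lemma toFn_mk {H : Fn} (hH : Sm (Ω : Set (ℝ × ℝ)) H) {t x : ℝ} (hz : (t, x) ∈ Ω) :
    toFn (mk H hH) t x = H t x := extF_mem _ hz

lemma sO_ext {h k : sO Ω} (e : ∀ t x, (t, x) ∈ Ω → toFn h t x = toFn k t x) : h = k := by
  apply Subtype.ext
  funext z
  obtain ⟨⟨t, x⟩, hz⟩ := z
  have := e t x hz
  rwa [toFn, toFn, extF_mem _ hz, extF_mem _ hz] at this

lemma mk_toFn (h : sO Ω) : mk (toFn h) (toFn_sm h) = h :=
  sO_ext fun _ _ hz => toFn_mk _ hz

lemma mk_congr {H K : Fn} (hH : Sm (Ω : Set (ℝ × ℝ)) H) (hK : Sm (Ω : Set (ℝ × ℝ)) K)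
    (e : ∀ t x, (t, x) ∈ Ω → H t x = K t x) : mk H hH = mk K hK :=
  sO_ext fun t x hz => by rw [toFn_mk _ hz, toFn_mk _ hz, e t x hz]

lemma toFn_add (h k : sO Ω) (t x : ℝ) : toFn (h + k) t x = toFn h t x + toFn k t x :=
  extF_add h.1 k.1 t x

lemma toFn_mul (h k : sO Ω) (t x : ℝ) : toFn (h * k) t x = toFn h t x * toFn k t x :=
  extF_mul h.1 k.1 t x

/-- evaluation at a point -/
def evO {t x : ℝ} (hz : (t, x) ∈ Ω) : sO Ω →ₐ[ℝ] ℝ :=
  (Pi.evalAlgHom ℝ (fun _ : Ω => ℝ) ⟨(t, x), hz⟩).comp (sO Ω).val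

lemma evO_eq {t x : ℝ} (hz : (t, x) ∈ Ω) (h : sO Ω) : evO hz h = toFn h t x := by
  rw [toFn, extF_mem _ hz]; rfl

lemma toFn_neg (h : sO Ω) {t x : ℝ} (hz : (t, x) ∈ Ω) : toFn (-h) t x = -toFn h t x := by
  rw [← evO_eq hz, map_neg, evO_eq hz]

lemma toFn_sub (h k : sO Ω) {t x : ℝ} (hz : (t, x) ∈ Ω) :
    toFn (h - k) t x = toFn h t x - toFn k t x := by
  rw [← evO_eq hz, map_sub, evO_eq hz, evO_eq hz]

lemma toFn_pow (h : sO Ω) (n : ℕ) {t x : ℝ} (hz : (t, x) ∈ Ω) :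
    toFn (h ^ n) t x = toFn h t x ^ n := by
  rw [← evO_eq hz, map_pow, evO_eq hz]

lemma toFn_one {t x : ℝ} (hz : (t, x) ∈ Ω) : toFn (1 : sO Ω) t x = 1 := by
  rw [← evO_eq hz, map_one]

lemma toFn_ofNat (n : ℕ) [n.AtLeastTwo] {t x : ℝ} (hz : (t, x) ∈ Ω) :
    toFn (ofNat(n) : sO Ω) t x = ofNat(n) := by
  rw [← evO_eq hz, map_ofNat]

lemma toFn_algebraMap (c : ℝ) {t x : ℝ} (hz : (t, x) ∈ Ω) :
    toFn (algebraMap ℝ (sO Ω) c) t x = c := by
  rw [← evO_eq hz]; exact AlgHom.commutes _ c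

lemma mk_mul {H K : Fn} (hH : Sm (Ω : Set (ℝ × ℝ)) H) (hK : Sm (Ω : Set (ℝ × ℝ)) K) :
    mk H hH * mk K hK = mk (fun t x => H t x * K t x) (hH.mul hK) := rfl

lemma mk_neg {H : Fn} (hH : Sm (Ω : Set (ℝ × ℝ)) H) :
    -mk H hH = mk (fun t x => -H t x) hH.neg := rfl

/-! ### derivations -/

/-- `∂_x` -/
def dX : Derivation ℝ (sO Ω) (sO Ω) :=
  Derivation.mk'
    { toFun := fun h => mk (Dx (toFn h)) ((toFn_sm h).dx Ω.isOpen)
      map_add' := fun h k => by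
        refine sO_ext fun t x hz => ?_
        rw [toFn_add, toFn_mk _ hz, toFn_mk _ hz, toFn_mk _ hz]
        have h1 := (toFn_sm h).hasDeriv_x Ω.isOpen hz
        have h2 := (toFn_sm k).hasDeriv_x Ω.isOpen hz
        have h3 : toFn (h + k) t = toFn h t + toFn k t := by
          funext y; exact toFn_add h k t y
        rw [Dx, h3]
        exact (h1.add h2).deriv
      map_smul' := fun c h => by
        refine sO_ext fun t x hz => ?_
        have h1 := (toFn_sm h).hasDeriv_x Ω.isOpen hz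
        have h3 : ∀ y, toFn (c • h) t y = c * toFn h t y := by
          intro y
          rw [Algebra.smul_def, toFn_mul]
          by_cases hy : (t, y) ∈ Ω
          · rw [toFn_algebraMap _ hy]
          · simp only [toFn, extF, dif_neg hy, mul_zero]
        have h4 : toFn (c • h) t = fun y => c * toFn h t y := funext h3
        simp only [RingHom.id_apply]
        rw [toFn_mk _ hz, Dx, h4, (h1.const_mul c).deriv, Algebra.smul_def, toFn_mul,
          toFn_algebraMap _ hz, toFn_mk _ hz] }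
    fun h k => by
      refine sO_ext fun t x hz => ?_
      have h1 := (toFn_sm h).hasDeriv_x Ω.isOpen hz
      have h2 := (toFn_sm k).hasDeriv_x Ω.isOpen hz
      have h3 : toFn (h * k) t = toFn h t * toFn k t := by
        funext y; exact toFn_mul h k t y
      simp only [LinearMap.coe_mk, AddHom.coe_mk, smul_eq_mul]
      rw [toFn_mk _ hz, Dx, h3, (h1.mul h2).deriv, toFn_add, toFn_mul, toFn_mul, toFn_mk _ hz,
        toFn_mk _ hz]
      ring

/-- `∂_t` -/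
def dT : Derivation ℝ (sO Ω) (sO Ω) :=
  Derivation.mk'
    { toFun := fun h => mk (Dt (toFn h)) ((toFn_sm h).dt Ω.isOpen)
      map_add' := fun h k => by
        refine sO_ext fun t x hz => ?_
        rw [toFn_add, toFn_mk _ hz, toFn_mk _ hz, toFn_mk _ hz]
        have h1 := (toFn_sm h).hasDeriv_t Ω.isOpen hz
        have h2 := (toFn_sm k).hasDeriv_t Ω.isOpen hz
        have h3 : (fun s => toFn (h + k) s x) = fun s => toFn h s x + toFn k s x := by
          funext y; exact toFn_add h k y x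
        rw [Dt, h3]
        exact (h1.add h2).deriv
      map_smul' := fun c h => by
        refine sO_ext fun t x hz => ?_
        have h1 := (toFn_sm h).hasDeriv_t Ω.isOpen hz
        have h3 : ∀ y, toFn (c • h) y x = c * toFn h y x := by
          intro y
          rw [Algebra.smul_def, toFn_mul]
          by_cases hy : (y, x) ∈ Ω
          · rw [toFn_algebraMap _ hy]
          · simp only [toFn, extF, dif_neg hy, mul_zero]
        have h4 : (fun s => toFn (c • h) s x) = fun y => c * toFn h y x := funext h3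
        simp only [RingHom.id_apply]
        rw [toFn_mk _ hz, Dt, h4, (h1.const_mul c).deriv, Algebra.smul_def, toFn_mul,
          toFn_algebraMap _ hz, toFn_mk _ hz] }
    fun h k => by
      refine sO_ext fun t x hz => ?_
      have h1 := (toFn_sm h).hasDeriv_t Ω.isOpen hz
      have h2 := (toFn_sm k).hasDeriv_t Ω.isOpen hz
      have h3 : (fun s => toFn (h * k) s x) = (fun s => toFn h s x) * fun s => toFn k s x := by
        funext y; exact toFn_mul h k y x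
      simp only [LinearMap.coe_mk, AddHom.coe_mk, smul_eq_mul]
      rw [toFn_mk _ hz, Dt, h3, (h1.mul h2).deriv, toFn_add, toFn_mul, toFn_mul, toFn_mk _ hz,
        toFn_mk _ hz]
      ring

lemma dX_toFn (h : sO Ω) {t x : ℝ} (hz : (t, x) ∈ Ω) : toFn (dX h) t x = Dx (toFn h) t x :=
  toFn_mk ((toFn_sm h).dx Ω.isOpen) hz

lemma dT_toFn (h : sO Ω) {t x : ℝ} (hz : (t, x) ∈ Ω) : toFn (dT h) t x = Dt (toFn h) t x :=
  toFn_mk ((toFn_sm h).dt Ω.isOpen) hz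

lemma dX_mk {H : Fn} (hH : Sm (Ω : Set (ℝ × ℝ)) H) :
    dX (mk H hH) = mk (Dx H) (hH.dx Ω.isOpen) := by
  refine sO_ext fun t x hz => ?_
  rw [dX_toFn _ hz, toFn_mk _ hz]
  exact Dx_congr Ω.isOpen (fun z hz' => toFn_mk (t := z.1) (x := z.2) hH hz') hz

lemma dT_mk {H : Fn} (hH : Sm (Ω : Set (ℝ × ℝ)) H) :
    dT (mk H hH) = mk (Dt H) (hH.dt Ω.isOpen) := by
  refine sO_ext fun t x hz => ?_
  rw [dT_toFn _ hz, toFn_mk _ hz]
  exact Dt_congr Ω.isOpen (fun z hz' => toFn_mk (t := z.1) (x := z.2) hH hz') hz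

lemma dT_dX (h : sO Ω) : dT (dX h) = dX (dT h) := by
  conv_lhs => rw [← mk_toFn h]
  conv_rhs => rw [← mk_toFn h]
  rw [dX_mk, dT_mk, dT_mk, dX_mk]
  refine sO_ext fun t x hz => ?_
  rw [toFn_mk _ hz, toFn_mk _ hz]
  exact (toFn_sm h).comm Ω.isOpen hz

/-- `∂_x` of `mk H` from a pointwise derivative -/
lemma dX_mk_eq {H K : Fn} (hH : Sm (Ω : Set (ℝ × ℝ)) H) (hK : Sm (Ω : Set (ℝ × ℝ)) K)
    (e : ∀ t x, (t, x) ∈ Ω → HasDerivAt (H t) (K t x) x) : dX (mk H hH) = mk K hK := by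
  rw [dX_mk]
  exact mk_congr _ _ fun t x hz => (e t x hz).deriv

lemma dT_mk_eq {H K : Fn} (hH : Sm (Ω : Set (ℝ × ℝ)) H) (hK : Sm (Ω : Set (ℝ × ℝ)) K)
    (e : ∀ t x, (t, x) ∈ Ω → HasDerivAt (fun s => H s x) (K t x) t) :
    dT (mk H hH) = mk K hK := by
  rw [dT_mk]
  exact mk_congr _ _ fun t x hz => (e t x hz).deriv

end

end Vale.Agent.P244.ST
end

section

/-!
# P244-ST, closure R : pure inequalities (region I and `y ≥ ρ₀`)

`RB = η (1+t) + K r² (cosh u - 1) S^{-γ}`, `S = τ + r²/100`, `K = GR ε^{-2a}`.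
-/

open Set

namespace Vale.Agent.P244.ST.ClR

open Vale.Agent.P244.ST.PureF

noncomputable section

/-- the value of `(D_t - Lap) RB` at a point: `r2 = r²`, `c = cosh u`, `s = sinh u`,
`Z = r² ρ_s²`, `zp = r² ρ_s P`, `p2 = r² P²`. -/
def LRB (η K τ r2 c s Z zp p2 : ℝ) : ℝ :=
  η + K * ((τ + r2 / 100) ^ (-gam) * (78 * (c - 1) - 4 * Z * (c - 1) - c * p2 - 4 * zp * s)
    + r2 * (c - 1) * (gam * (τ + r2 / 100) ^ (-gam - 1) * (1 + (78 * c + 4 * Z) / 100)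
        - gam * (gam + 1) * (τ + r2 / 100) ^ (-gam - 2) * (4 * r2 * Z / 100 ^ 2))
    + 4 * gam / 100 * r2 * (τ + r2 / 100) ^ (-gam - 1) * (2 * Z * (c - 1) + s * zp))

/-- the bracket; `ω = r² / (100 S)` -/
def Br (ω c s Z zp p2 : ℝ) : ℝ :=
  78 * (c - 1) - 4 * Z * (c - 1) - c * p2 - 4 * zp * s
    + ω * (c - 1) * gam * (100 + 78 * c + 4 * Z)
    - 4 * gam * (gam + 1) * (c - 1) * ω ^ 2 * Z + 4 * gam * ω * (2 * Z * (c - 1) + s * zp)

theorem LRB_eq {η K τ r2 c s Z zp p2 : ℝ} (hS : 0 < τ + r2 / 100) :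
    LRB η K τ r2 c s Z zp p2 = η + K * ((τ + r2 / 100) ^ (-gam) *
      Br (r2 / (100 * (τ + r2 / 100))) c s Z zp p2) := by
  unfold LRB Br
  have h1 : (τ + r2 / 100) ^ (-gam - 1) = (τ + r2 / 100) ^ (-gam) / (τ + r2 / 100) :=
    Real.rpow_sub_one hS.ne' _
  have h2 : (τ + r2 / 100) ^ (-gam - 2) =
      (τ + r2 / 100) ^ (-gam) / (τ + r2 / 100) / (τ + r2 / 100) := by
    rw [← h1, ← Real.rpow_sub_one hS.ne']
    congr 1
    ring
  rw [h1, h2]
  set S := τ + r2 / 100 with hSd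
  have hS' : S ≠ 0 := hS.ne'
  field_simp
  ring

theorem gam_lt : gam < 2.1943 := by
  have := kap_gt
  unfold gam aa lam
  push_cast
  linarith only [this]

theorem gam_gt : 2.19 < gam := by
  have := kap_lt
  unfold gam aa lam
  push_cast
  linarith only [this]

/-- region I: the bracket -/
theorem Br_I {ω c s Z G : ℝ} (hc : 1 ≤ c) (hs : s ^ 2 = c ^ 2 - 1) (hs0 : 0 ≤ s) (hω : 0 ≤ ω)
    (hω1 : ω ≤ 1 / 1000) (hZ0 : 0 ≤ Z) (hωZ : ω * Z ≤ 11 / 10000) (hZ : Z ≤ 39 / 38 * c)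
    (hG : |G * c - 2 * s| * c ≤ 0.14 * s) :
    77 * (c - 1) ≤ Br ω c s Z (-(Z * G)) (Z * G ^ 2) := by
  have hc0 : 0 < c := by linarith only [hc]
  have g1 := gam_lt
  have g2 := gam_gt
  have hx : 0 ≤ c - 1 := by linarith only [hc]
  have hs2 : s ^ 2 = (c - 1) * (c + 1) := by rw [hs]; ring
  -- the square
  have hd : (G * c - 2 * s) ^ 2 * c ^ 2 ≤ 0.14 ^ 2 * s ^ 2 := by
    have h1 : (|G * c - 2 * s| * c) ^ 2 ≤ (0.14 * s) ^ 2 :=
      pow_le_pow_left₀ (mul_nonneg (abs_nonneg _) hc0.le) hG 2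
    rw [mul_pow, sq_abs, mul_pow] at h1
    exact h1
  have hdd : Z / c * (G * c - 2 * s) ^ 2 ≤ 0.05 * (c - 1) := by
    have h1 : Z / c ≤ 39 / 38 := by
      rw [div_le_iff₀ hc0]; exact hZ
    have h2 : 0 ≤ Z / c := by positivity
    have h3 : (G * c - 2 * s) ^ 2 ≤ 0.04 * (c - 1) := by
      have h4 : (G * c - 2 * s) ^ 2 * c ^ 2 ≤ 0.04 * (c - 1) * c ^ 2 := by
        refine hd.trans ?_
        rw [hs2]
        have h5 : (c + 1) ≤ 2 * c ^ 2 := by nlinarith only [hc, hs]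
        have h6 : (c - 1) * (c + 1) ≤ (c - 1) * (2 * c ^ 2) := mul_le_mul_of_nonneg_left h5 hx
        linarith only [mul_nonneg hx (sq_nonneg c), h6]
      exact le_of_mul_le_mul_right h4 (by positivity)
    calc Z / c * (G * c - 2 * s) ^ 2 ≤ 39 / 38 * (0.04 * (c - 1)) :=
          mul_le_mul h1 h3 (sq_nonneg _) (by norm_num)
      _ ≤ 0.05 * (c - 1) := by linarith only [hc]
  -- `s G`
  have hsG : s * G ≤ 4.28 * (c - 1) := by
    have h1 : G * c ≤ 2.14 * s := by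
      have h2 : G * c - 2 * s ≤ |G * c - 2 * s| := le_abs_self _
      have h3 : |G * c - 2 * s| ≤ |G * c - 2 * s| * c :=
        le_mul_of_one_le_right (abs_nonneg _) hc
      linarith only [h3, h2, hG]
    have h2 : s * G * c ≤ 4.28 * (c - 1) * c := by
      have h3 : s * (G * c) ≤ s * (2.14 * s) := mul_le_mul_of_nonneg_left h1 hs0
      have h4 : s * (2.14 * s) = 2.14 * ((c - 1) * (c + 1)) := by rw [← hs2]; ring
      nlinarith only [hc, hs, h3]
    exact le_of_mul_le_mul_right h2 hc0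
  have e1 : Br ω c s Z (-(Z * G)) (Z * G ^ 2) =
      78 * (c - 1) + 4 * Z * (c - 1) / c - Z / c * (G * c - 2 * s) ^ 2
      + ω * (c - 1) * gam * (100 + 78 * c + 4 * Z)
      - 4 * gam * (gam + 1) * (c - 1) * ω * (ω * Z)
      + 4 * gam * (ω * Z) * (2 * (c - 1) - s * G) := by
    unfold Br
    have hc0' := hc0.ne'
    field_simp
    linear_combination (4 * Z) * hs2
  rw [e1]
  have t1 : 0 ≤ 4 * Z * (c - 1) / c := by (clear * - hZ0 hc; positivity)
  have t2 : 0 ≤ ω * (c - 1) * gam * (100 + 78 * c + 4 * Z) := by positivity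
  have hωZ0 : 0 ≤ ω * Z := mul_nonneg hω hZ0
  have t3 : 4 * gam * (gam + 1) * (c - 1) * ω * (ω * Z) ≤ 0.001 * (c - 1) := by
    have h1 : 4 * gam * (gam + 1) ≤ 29 := by nlinarith only [g1, g2]
    have h2 : ω * (ω * Z) ≤ 1 / 1000 * (11 / 10000) := mul_le_mul hω1 hωZ hωZ0 (by norm_num)
    have h3 : 0 ≤ ω * (ω * Z) := mul_nonneg hω hωZ0
    have h4 : 0 ≤ 4 * gam * (gam + 1) := by positivity
    calc 4 * gam * (gam + 1) * (c - 1) * ω * (ω * Z)
        = (4 * gam * (gam + 1)) * (ω * (ω * Z)) * (c - 1) := by ring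
      _ ≤ 29 * (1 / 1000 * (11 / 10000)) * (c - 1) :=
          mul_le_mul_of_nonneg_right (mul_le_mul h1 h2 h3 (by norm_num)) hx
      _ ≤ 0.001 * (c - 1) := by linarith only [hc]
  have t4 : -(0.03 * (c - 1)) ≤ 4 * gam * (ω * Z) * (2 * (c - 1) - s * G) := by
    have h1 : -(2.28 * (c - 1)) ≤ 2 * (c - 1) - s * G := by linarith only [hsG]
    have h2 : 4 * gam * (ω * Z) ≤ 4 * 2.1943 * (11 / 10000) :=
      mul_le_mul (by linarith only [g1]) hωZ hωZ0 (by norm_num)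
    have h3 : 0 ≤ 4 * gam * (ω * Z) := by positivity
    have h4 : 4 * gam * (ω * Z) * (-(2.28 * (c - 1))) ≤
        4 * gam * (ω * Z) * (2 * (c - 1) - s * G) := mul_le_mul_of_nonneg_left h1 h3
    have h5 : 4 * gam * (ω * Z) * (2.28 * (c - 1)) ≤ 4 * 2.1943 * (11 / 10000) * (2.28 * (c - 1)) :=
      mul_le_mul_of_nonneg_right h2 (by linarith only [hc])
    linarith only [h5, h4, hc]
  linarith only [t4, t3, t2, t1, hdd, hc]

/-- `g - 2 tanh u ≤ 0.118 T (1 - T²)` -/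
theorem g_sub_le {g : ℝ → ℝ} (hg : IsBub g) {u : ℝ} (hu : 0 < u) :
    g u - 2 * Real.tanh u ≤ 0.118 * Real.tanh u * (1 - Real.tanh u ^ 2) := by
  have hT := tanh_pos hu
  have hT1 := Real.tanh_lt_one u
  have hg0 := g_pos hg hu
  have hk := kap_lt
  have hq := qb_gt hg hu
  have h1 := g_ode hg hu
  have h2 := hg.ratio u hu
  have h3 := hg.upper u hu
  have h4 := hg.lower u hu
  have hT2 : 0 < 1 - Real.tanh u ^ 2 := by nlinarith only [hT, hT1]
  -- q (g - 2T) T = g g' T ≤ g² (1 - T²)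
  have h5 : qb g u * (g u - 2 * Real.tanh u) * Real.tanh u ≤
      g u * (g u * (1 - Real.tanh u ^ 2)) := by
    rw [← h1, mul_assoc]
    exact mul_le_mul_of_nonneg_left h2 hg0.le
  have h6 : g u ≤ 2.1147 * Real.tanh u := by linarith only [mul_pos (sub_pos.2 hT) (sub_pos.2 hk), h3]
  have h7 : g u * (g u * (1 - Real.tanh u ^ 2)) ≤
      (2.1147 * Real.tanh u) * ((2.1147 * Real.tanh u) * (1 - Real.tanh u ^ 2)) :=
    mul_le_mul h6 (mul_le_mul_of_nonneg_right h6 hT2.le) (by positivity) (by positivity)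
  have h8 : 38 * (g u - 2 * Real.tanh u) * Real.tanh u ≤
      qb g u * (g u - 2 * Real.tanh u) * Real.tanh u := by
    apply mul_le_mul_of_nonneg_right _ hT.le
    exact mul_le_mul_of_nonneg_right hq.le (by linarith only [h4])
  have h9 : 38 * (g u - 2 * Real.tanh u) ≤ 2.1147 * (2.1147 * Real.tanh u) *
      (1 - Real.tanh u ^ 2) := by
    refine le_of_mul_le_mul_right ?_ hT
    calc 38 * (g u - 2 * Real.tanh u) * Real.tanh u ≤ _ := h8
      _ ≤ _ := h5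
      _ ≤ _ := h7
      _ = _ := by ring
  have h10 : 0 ≤ Real.tanh u * (1 - Real.tanh u ^ 2) := by positivity
  linarith only [h9, h4]

theorem hG_of {g : ℝ → ℝ} (hg : IsBub g) {u G e : ℝ} (hu : 0 < u) (hG : G = g u * (1 - e))
    (he : |e| * Real.cosh u ≤ 1 / 100) :
    |G * Real.cosh u - 2 * Real.sinh u| * Real.cosh u ≤ 0.14 * Real.sinh u := by
  have hT := tanh_pos hu
  have hc := Real.cosh_pos u
  have hs : Real.sinh u = Real.tanh u * Real.cosh u := (tanh_mul_cosh u).symm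
  have hk := kap_lt
  have h1 := g_sub_le hg hu
  have h2 := hg.lower u hu
  have h3 := hg.upper u hu
  have hg0 := g_pos hg hu
  have h4 : (1 - Real.tanh u ^ 2) * Real.cosh u ^ 2 = 1 := by
    have h5 := Real.cosh_sq u
    have h6 : Real.tanh u ^ 2 * Real.cosh u ^ 2 = Real.sinh u ^ 2 := by rw [hs]; ring
    nlinarith only [h5, h6]
  have e1 : G * Real.cosh u - 2 * Real.sinh u =
      (g u - 2 * Real.tanh u) * Real.cosh u - g u * e * Real.cosh u := by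
    rw [hG, hs]; ring
  have h5 : |G * Real.cosh u - 2 * Real.sinh u| ≤
      (g u - 2 * Real.tanh u) * Real.cosh u + g u * (|e| * Real.cosh u) := by
    rw [e1]
    refine (abs_sub _ _).trans ?_
    rw [abs_of_nonneg (by
      have : 0 ≤ g u - 2 * Real.tanh u := by linarith only [h2]
      positivity : 0 ≤ (g u - 2 * Real.tanh u) * Real.cosh u), abs_mul, abs_mul,
      abs_of_pos hg0, abs_of_pos hc]
    linarith only [mul_assoc (g u) |e| (Real.cosh u)]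
  have h6 : |G * Real.cosh u - 2 * Real.sinh u| * Real.cosh u ≤
      ((g u - 2 * Real.tanh u) * Real.cosh u + g u * (|e| * Real.cosh u)) * Real.cosh u :=
    mul_le_mul_of_nonneg_right h5 hc.le
  refine h6.trans ?_
  have h7 : (g u - 2 * Real.tanh u) * Real.cosh u * Real.cosh u ≤ 0.118 * Real.tanh u := by
    have h8 : (g u - 2 * Real.tanh u) * Real.cosh u ^ 2 ≤
        0.118 * Real.tanh u * (1 - Real.tanh u ^ 2) * Real.cosh u ^ 2 :=
      mul_le_mul_of_nonneg_right h1 (by positivity)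
    have h9 : 0.118 * Real.tanh u * (1 - Real.tanh u ^ 2) * Real.cosh u ^ 2 =
        0.118 * Real.tanh u := by rw [mul_assoc, h4]; ring
    linarith only [h9, h8]
  have h8 : g u * (|e| * Real.cosh u) ≤ 2.1147 * Real.tanh u * (1 / 100) := by
    apply mul_le_mul _ he (by positivity) (by positivity)
    nlinarith only [hT, hk, h3]
  have h9 : Real.tanh u ≤ Real.tanh u * Real.cosh u :=
    le_mul_of_one_le_right hT.le (Real.one_le_cosh u)
  have h10 : g u * (|e| * Real.cosh u) * Real.cosh u ≤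
      2.1147 * Real.tanh u * (1 / 100) * Real.cosh u := mul_le_mul_of_nonneg_right h8 hc.le
  rw [hs]
  linarith only [h10, h9, h7, hT]

/-- `(1.001)^{-γ} ≥ 0.99` -/
theorem S_lower {τ S : ℝ} (hτ : 0 < τ) (hS : 0 < S) (h : S ≤ 1.001 * τ) :
    0.99 * τ ^ (-gam) ≤ S ^ (-gam) := by
  have g1 := gam_lt
  have g2 := gam_gt
  have h1 : (1.001 * τ) ^ (-gam) ≤ S ^ (-gam) :=
    Real.rpow_le_rpow_of_nonpos hS h (by linarith only [g1, g2])
  have h2 : (1.001 * τ) ^ (-gam) = 1.001 ^ (-gam) * τ ^ (-gam) :=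
    Real.mul_rpow (by norm_num) hτ.le
  have h3 : (0.99:ℝ) ≤ 1.001 ^ (-gam) := by
    have h4 : (1.001:ℝ) ^ (-(3:ℝ)) ≤ 1.001 ^ (-gam) :=
      Real.rpow_le_rpow_of_exponent_le (by norm_num) (by linarith only [g1, g2])
    refine le_trans ?_ h4
    rw [Real.rpow_neg (by norm_num)]
    norm_num
  have h4 : 0 ≤ τ ^ (-gam) := (Real.rpow_pos_of_pos hτ _).le
  calc 0.99 * τ ^ (-gam) ≤ 1.001 ^ (-gam) * τ ^ (-gam) := mul_le_mul_of_nonneg_right h3 h4
    _ = (1.001 * τ) ^ (-gam) := h2.symm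
    _ ≤ _ := h1

/-- `Y = τ^{-1} (T/T₀)^a T (cosh u)^a` -/
def YY (q : Par) (t u : ℝ) : ℝ :=
  1 / tau t * (Real.tanh u / q.T0 t) ^ aa * Real.tanh u * (Real.cosh u) ^ aa

theorem Vb_eq (q : Par) (t u : ℝ) : q.Vb t u = q.BV * YY q t u := by
  unfold Par.Vb YY; ring

theorem T0_pos {q : Par} {t : ℝ} (ht : t < 1) (hr : 0 < q.rho0) (he : 0 < q.eps) :
    0 < q.T0 t := by
  have h1 : 0 < tau t := by unfold tau; linarith only [ht]
  have h2 := Real.rpow_pos_of_pos h1 (lam 3)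
  have h3 := Real.rpow_pos_of_pos hr (-kap)
  unfold Par.T0 Par.A
  positivity

theorem YY_nonneg {q : Par} {t u : ℝ} (ht : t < 1) (hr : 0 < q.rho0) (he : 0 < q.eps)
    (hu : 0 < u) : 0 ≤ YY q t u := by
  have h1 : 0 < tau t := by unfold tau; linarith only [ht]
  have h2 := T0_pos ht hr he
  have h3 := tanh_pos hu
  have h4 := Real.cosh_pos u
  unfold YY
  positivity

theorem YY_sq {q : Par} {t u : ℝ} (ht : t < 1) (hr : 0 < q.rho0) (hr1 : q.rho0 ≤ 1)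
    (he : 0 < q.eps) (hu : 0 < u) :
    YY q t u ^ 2 ≤ 2 * (Real.cosh u - 1) * q.eps ^ (-(2 * aa)) * (tau t) ^ (-gam) := by
  have hτ : 0 < tau t := by unfold tau; linarith only [ht]
  have hT0 := T0_pos ht hr he
  have hT := tanh_pos hu
  have hT1 := Real.tanh_lt_one u
  have hc := Real.cosh_pos u
  have hc1 := Real.one_le_cosh u
  have h1 : (Real.tanh u / q.T0 t) ^ aa ≤ (q.T0 t) ^ (-aa) := by
    rw [Real.rpow_neg hT0.le, ← Real.inv_rpow hT0.le]
    apply Real.rpow_le_rpow (by positivity) _ (by norm_num [aa])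
    rw [div_eq_mul_inv]
    have : 0 < (q.T0 t)⁻¹ := by positivity
    nlinarith only [hT1, this]
  have h2 : ((q.T0 t) ^ (-aa)) ^ 2 ≤ q.eps ^ (-(2 * aa)) * (tau t) ^ (-(2 * aa * lam 3)) := by
    rw [← Real.rpow_natCast ((q.T0 t) ^ (-aa)) 2, ← Real.rpow_mul hT0.le]
    have e1 : q.T0 t = q.eps * (tau t) ^ (lam 3) * q.rho0 ^ (-kap) := rfl
    have p1 := Real.rpow_pos_of_pos hτ (lam 3)
    have p2 := Real.rpow_pos_of_pos hr (-kap)
    have e2 : (-aa * ((2:ℕ):ℝ)) = -(2 * aa) := by push_cast; ring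
    rw [e2, e1, Real.mul_rpow (by positivity) p2.le, Real.mul_rpow he.le p1.le,
      ← Real.rpow_mul hτ.le, ← Real.rpow_mul hr.le]
    have e3 : lam 3 * -(2 * aa) = -(2 * aa * lam 3) := by ring
    have e4 : (q.rho0) ^ (-kap * -(2 * aa)) ≤ 1 := by
      apply Real.rpow_le_one hr.le hr1
      have := kap_gt
      unfold aa; linarith only [this, hT1, hT]
    rw [e3]
    have p3 := Real.rpow_pos_of_pos he (-(2 * aa))
    have p4 := Real.rpow_pos_of_pos hτ (-(2 * aa * lam 3))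
    exact mul_le_of_le_one_right (by positivity) e4
  have h3 : (Real.tanh u * (Real.cosh u) ^ aa) ^ 2 ≤ 2 * (Real.cosh u - 1) := by
    have e1 : ((Real.cosh u) ^ aa) ^ 2 ≤ Real.cosh u := by
      rw [← Real.rpow_natCast ((Real.cosh u) ^ aa) 2, ← Real.rpow_mul hc.le]
      calc (Real.cosh u) ^ (aa * ((2:ℕ):ℝ)) ≤ (Real.cosh u) ^ (1:ℝ) :=
            Real.rpow_le_rpow_of_exponent_le hc1 (by unfold aa; norm_num)
        _ = Real.cosh u := Real.rpow_one _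
    have e2 : Real.tanh u ^ 2 * Real.cosh u ^ 2 = (Real.cosh u - 1) * (Real.cosh u + 1) := by
      have h5 := Real.cosh_sq u
      have h6 : Real.tanh u * Real.cosh u = Real.sinh u := tanh_mul_cosh u
      have h7 : Real.tanh u ^ 2 * Real.cosh u ^ 2 = Real.sinh u ^ 2 := by rw [← h6]; ring
      rw [h7]; nlinarith only [h5]
    have e3 : Real.tanh u ^ 2 * Real.cosh u ≤ 2 * (Real.cosh u - 1) := by
      have e4 : Real.tanh u ^ 2 * Real.cosh u * Real.cosh u ≤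
          2 * (Real.cosh u - 1) * Real.cosh u := by
        have : Real.tanh u ^ 2 * Real.cosh u * Real.cosh u =
            (Real.cosh u - 1) * (Real.cosh u + 1) := by rw [← e2]; ring
        rw [this]
        nlinarith only [hT, hT1, hc1]
      exact le_of_mul_le_mul_right e4 hc
    rw [mul_pow]
    have : Real.tanh u ^ 2 * ((Real.cosh u) ^ aa) ^ 2 ≤ Real.tanh u ^ 2 * Real.cosh u :=
      mul_le_mul_of_nonneg_left e1 (by positivity)
    linarith only [e3, this]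
  have e5 : (tau t) ^ (-gam) = (1 / tau t) ^ 2 * (tau t) ^ (-(2 * aa * lam 3)) := by
    have : -gam = -(2 * aa * lam 3) - 1 - 1 := by unfold gam; ring
    rw [this, Real.rpow_sub_one hτ.ne', Real.rpow_sub_one hτ.ne']
    field_simp
  have hY : YY q t u = 1 / tau t * (Real.tanh u / q.T0 t) ^ aa *
      (Real.tanh u * (Real.cosh u) ^ aa) := by unfold YY; ring
  rw [hY, mul_pow, mul_pow, e5]
  have h4 : ((Real.tanh u / q.T0 t) ^ aa) ^ 2 ≤
      q.eps ^ (-(2 * aa)) * (tau t) ^ (-(2 * aa * lam 3)) :=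
    (pow_le_pow_left₀ (by positivity) h1 2).trans h2
  have p3 := Real.rpow_pos_of_pos he (-(2 * aa))
  have p4 := Real.rpow_pos_of_pos hτ (-(2 * aa * lam 3))
  calc (1 / tau t) ^ 2 * ((Real.tanh u / q.T0 t) ^ aa) ^ 2 *
        (Real.tanh u * (Real.cosh u) ^ aa) ^ 2
      ≤ (1 / tau t) ^ 2 * (q.eps ^ (-(2 * aa)) * (tau t) ^ (-(2 * aa * lam 3))) *
        (2 * (Real.cosh u - 1)) := by
        apply mul_le_mul _ h3 (by positivity) (by positivity)
        exact mul_le_mul_of_nonneg_left h4 (by positivity)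
    _ = _ := by ring

/-- bound of `Zs g² fb` -/
theorem Zgf_le {g : ℝ → ℝ} (hg : IsBub g) {q : Par} {t u : ℝ} (ht : t < 1) (hr : 0 < q.rho0)
    (he : 0 < q.eps) (hB : 0 ≤ q.B) (hu : 0 < u) :
    Zs g u * (g u) ^ 2 * q.fb t u ≤ 4.6 * (q.B * YY q t u) := by
  have hτ : 0 < tau t := by unfold tau; linarith only [ht]
  have hT0 := T0_pos ht hr he
  have hT := tanh_pos hu
  have hT1 := Real.tanh_lt_one u
  have hc := Real.cosh_pos u
  have hq := qb_gt hg hu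
  have hg0 := g_pos hg hu
  have hk := kap_lt
  have h3 := hg.upper u hu
  have h1 : Zs g u ≤ 39 / 38 * Real.cosh u := by
    unfold Zs
    rw [div_le_iff₀ (by linarith only [hT, hT1, hq])]
    nlinarith only [hT, hT1, hc, hq]
  have h2 : (g u) ^ 2 ≤ 4.472 * Real.tanh u ^ 2 := by
    have : g u ≤ 2.1147 * Real.tanh u := by linarith only [mul_pos (sub_pos.2 hT) (sub_pos.2 hk), h3]
    have h4 : (g u) ^ 2 ≤ (2.1147 * Real.tanh u) ^ 2 := pow_le_pow_left₀ hg0.le this 2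
    linarith only [sq_nonneg (Real.tanh u), h4]
  have hZ0 : 0 ≤ Zs g u := by unfold Zs; have : 0 < qb g u := by linarith only [hT, hT1, hq]
                              positivity
  have h4 : Zs g u * (g u) ^ 2 ≤ 4.6 * (Real.cosh u * Real.tanh u ^ 2) := by
    calc Zs g u * (g u) ^ 2 ≤ (39 / 38 * Real.cosh u) * (4.472 * Real.tanh u ^ 2) :=
          mul_le_mul h1 h2 (by positivity) (by positivity)
      _ ≤ _ := by
          have : 0 ≤ Real.cosh u * Real.tanh u ^ 2 := by positivity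
          linarith only [this]
  have hfb : 0 ≤ q.fb t u := by
    unfold Par.fb; positivity
  have h5 : Zs g u * (g u) ^ 2 * q.fb t u ≤ 4.6 * (Real.cosh u * Real.tanh u ^ 2) * q.fb t u :=
    mul_le_mul_of_nonneg_right h4 hfb
  have h6 : Real.cosh u * (Real.cosh u) ^ (-(1 - aa)) = (Real.cosh u) ^ aa := by
    rw [show (aa : ℝ) = -(1 - aa) + 1 by ring]
    rw [Real.rpow_add hc, Real.rpow_one]
    ring_nf
  have h7 : Real.cosh u * Real.tanh u ^ 2 * q.fb t u = q.B * YY q t u * Real.tanh u := by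
    unfold Par.fb YY
    rw [← h6]
    ring
  have h8 : 0 ≤ q.B * YY q t u := mul_nonneg hB (YY_nonneg ht hr he hu)
  calc Zs g u * (g u) ^ 2 * q.fb t u ≤ 4.6 * (Real.cosh u * Real.tanh u ^ 2) * q.fb t u := h5
    _ = 4.6 * (Real.cosh u * Real.tanh u ^ 2 * q.fb t u) := by ring
    _ = 4.6 * (q.B * YY q t u * Real.tanh u) := by rw [h7]
    _ ≤ 4.6 * (q.B * YY q t u) := by linarith only [mul_nonneg (le_of_lt (sub_pos.2 hT1)) (sub_nonneg.2 h8)]

/-- the source in region I -/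
theorem src_I {η B BV Y E0 R V : ℝ} (hη : 0 < η)
    (hE : |E0| ≤ 3.3 * η + 51 * (B * Y)) (hV : |V| ≤ BV * Y) (hR0 : 0 ≤ R) (hR : R ≤ 3 * η) :
    2 * E0 ^ 2 + (R - E0) ^ 2 / 20 + 20 * V ^ 2 ≤
      46.7 * η ^ 2 + 38 * (60 ^ 2 * B ^ 2 + BV ^ 2) * Y ^ 2 := by
  have hV2 : V ^ 2 ≤ BV ^ 2 * Y ^ 2 := by
    have h1 : |V| ^ 2 ≤ (BV * Y) ^ 2 := pow_le_pow_left₀ (abs_nonneg _) hV 2
    rwa [sq_abs, mul_pow] at h1
  have hE2 : E0 ^ 2 ≤ 2 * (3.3 * η) ^ 2 + 2 * (51 * (B * Y)) ^ 2 := by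
    have h2 : |E0| ^ 2 ≤ (3.3 * η + 51 * (B * Y)) ^ 2 :=
      pow_le_pow_left₀ (abs_nonneg _) hE 2
    rw [sq_abs] at h2
    linarith only [sq_nonneg (3.3 * η - 51 * (B * Y)), h2]
  have hsrc : 2 * E0 ^ 2 + (R - E0) ^ 2 / 20 ≤ 2.1 * E0 ^ 2 + 0.1 * R ^ 2 := by
    linarith only [sq_nonneg (R + E0)]
  have hR2 : R ^ 2 ≤ 9 * η ^ 2 := by nlinarith only [hη, hR0, hR]
  have h3 : 0 ≤ B ^ 2 * Y ^ 2 := by positivity
  have h4 : 0 ≤ BV ^ 2 * Y ^ 2 := by positivity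
  have h5 : (51 * (B * Y)) ^ 2 = 2601 * (B ^ 2 * Y ^ 2) := by ring
  have h6 : 38 * (60 ^ 2 * B ^ 2 + BV ^ 2) * Y ^ 2 =
      136800 * (B ^ 2 * Y ^ 2) + 38 * (BV ^ 2 * Y ^ 2) := by ring
  rw [h6]
  rw [h5] at hE2
  have h7 : (3.3 * η) ^ 2 = 10.89 * η ^ 2 := by ring
  rw [h7] at hE2
  linarith only [hV2, hE2, hsrc, hR2, h3, h4, mul_nonneg (by norm_num : (0:ℝ) ≤ 1) (sq_nonneg η)]

theorem om_I {τ r2 c Z : ℝ} (hτ : 0 < τ) (hr2 : 0 ≤ r2) (hc1 : 1 ≤ c) (hZ0 : 0 ≤ Z)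
    (hZ : Z ≤ 39 / 38 * c) (hD3 : r2 * c ≤ τ / 10) :
    0 ≤ r2 / (100 * (τ + r2 / 100)) ∧ r2 / (100 * (τ + r2 / 100)) ≤ 1 / 1000 ∧
      r2 / (100 * (τ + r2 / 100)) * Z ≤ 11 / 10000 ∧ τ + r2 / 100 ≤ 1.001 * τ := by
  have hr2τ : r2 ≤ τ / 10 := le_trans (le_mul_of_one_le_right hr2 hc1) hD3
  have hS : 0 < τ + r2 / 100 := by positivity
  have hω0 : 0 ≤ r2 / (100 * (τ + r2 / 100)) := by positivity
  have hωτ : r2 / (100 * (τ + r2 / 100)) ≤ r2 / (100 * τ) := by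
    apply div_le_div_of_nonneg_left hr2 (by positivity)
    linarith only [hr2]
  refine ⟨hω0, ?_, ?_, by linarith only [hr2τ]⟩
  · refine hωτ.trans ?_
    rw [div_le_div_iff₀ (by positivity) (by norm_num)]
    linarith only [hr2τ]
  · have hc0 : 0 < c := by linarith only [hc1]
    have h1 : r2 / (100 * (τ + r2 / 100)) * Z ≤ r2 / (100 * τ) * (39 / 38 * c) :=
      mul_le_mul hωτ hZ hZ0 (by positivity)
    refine h1.trans ?_
    have h2 : r2 / (100 * τ) * (39 / 38 * c) = (39 / 38) * (r2 * c) / (100 * τ) := by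
      ring
    rw [h2, div_le_div_iff₀ (by positivity) (by norm_num)]
    linarith only [hτ, hD3]

/-- **closure R, region I** -/
theorem closeR_I {g : ℝ → ℝ} (hg : IsBub g) {q : Par} {t u r Z G e E0 R V : ℝ} (ht : t < 1)
    (hu : 0 < u) (hr : 0 < q.rho0) (hr1 : q.rho0 ≤ 1) (he0 : 0 < q.eps)
    (hB : 0 ≤ q.B) (hBV : 0 ≤ q.BV) (hGR : 60 ^ 2 * q.B ^ 2 + q.BV ^ 2 ≤ q.GR)
    (hη : 0 < q.eta) (hη1 : q.eta < 1 / 50) (hZ0 : 0 ≤ Z) (hZ : Z ≤ 39 / 38 * Real.cosh u)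
    (hG : G = g u * (1 - e)) (he : |e| * Real.cosh u ≤ 1 / 100)
    (hD3 : r ^ 2 * Real.cosh u ≤ tau t / 10)
    (hE : |E0| ≤ 3.3 * q.eta + 11 * (Zs g u * (g u) ^ 2 * q.fb t u))
    (hV : |V| ≤ q.Vb t u) (hR0 : 0 ≤ R) (hR : R ≤ 3 * q.eta) :
    2 * E0 ^ 2 + (R - E0) ^ 2 / 20 + 20 * V ^ 2 <
      LRB q.eta (q.GR * q.eps ^ (-(2 * aa))) (tau t) (r ^ 2) (Real.cosh u) (Real.sinh u) Z
        (-(Z * G)) (Z * G ^ 2) := by
  have hτ : 0 < tau t := by unfold tau; linarith only [ht]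
  have hc1 := Real.one_le_cosh u
  have hx : 0 ≤ Real.cosh u - 1 := by linarith only [hc1]
  have hs : Real.sinh u ^ 2 = Real.cosh u ^ 2 - 1 := by
    have := Real.cosh_sq u; linarith only [this]
  have hs0 : 0 ≤ Real.sinh u := (Real.sinh_pos_iff.2 hu).le
  have hS : 0 < tau t + r ^ 2 / 100 := by positivity
  obtain ⟨hω0, hω1, hωZ, hS1⟩ := om_I hτ (sq_nonneg r) hc1 hZ0 hZ hD3
  have hBr := Br_I hc1 hs hs0 hω0 hω1 hZ0 hωZ hZ (hG_of hg hu hG he)
  rw [LRB_eq hS]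
  have hY0 : 0 ≤ YY q t u := YY_nonneg ht hr he0 hu
  have hY2 := YY_sq ht hr hr1 he0 hu
  have h1 : |E0| ≤ 3.3 * q.eta + 51 * (q.B * YY q t u) := by
    have h2 := Zgf_le hg ht hr he0 hB hu
    have h3 : 0 ≤ q.B * YY q t u := mul_nonneg hB hY0
    linarith only [hE, h2, h3]
  rw [Vb_eq] at hV
  have hsrc := src_I hη h1 hV hR0 hR
  have hη2 : 46.7 * q.eta ^ 2 < q.eta := by nlinarith only [hη, hη1]
  have hSl := S_lower hτ hS hS1
  have hGR0 : 0 ≤ q.GR := le_trans (by (clear * -; positivity)) hGR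
  have p1 := Real.rpow_pos_of_pos he0 (-(2 * aa))
  have p2 := Real.rpow_pos_of_pos hτ (-gam)
  have hK : 0 ≤ q.GR * q.eps ^ (-(2 * aa)) := mul_nonneg hGR0 p1.le
  have h4 : (tau t) ^ (-gam) * (76 * (Real.cosh u - 1)) ≤
      (tau t + r ^ 2 / 100) ^ (-gam) * Br (r ^ 2 / (100 * (tau t + r ^ 2 / 100))) (Real.cosh u)
        (Real.sinh u) Z (-(Z * G)) (Z * G ^ 2) := by
    have h5 := mul_le_mul hSl hBr (by (clear * - hc1; positivity)) (Real.rpow_pos_of_pos hS _).le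
    refine le_trans ?_ h5
    have : 0 ≤ (tau t) ^ (-gam) * (Real.cosh u - 1) := by (clear * - hτ hc1; positivity)
    linarith only [this]
  have h6 := mul_le_mul_of_nonneg_left h4 hK
  have h7 : 38 * (60 ^ 2 * q.B ^ 2 + q.BV ^ 2) * YY q t u ^ 2 ≤
      q.GR * q.eps ^ (-(2 * aa)) * ((tau t) ^ (-gam) * (76 * (Real.cosh u - 1))) := by
    have h8 : 38 * (60 ^ 2 * q.B ^ 2 + q.BV ^ 2) * YY q t u ^ 2 ≤ 38 * q.GR * YY q t u ^ 2 :=
      mul_le_mul_of_nonneg_right (by linarith only [hGR]) (sq_nonneg _)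
    have h9 := mul_le_mul_of_nonneg_left hY2 (by positivity : 0 ≤ 38 * q.GR)
    linarith only [h8, h9]
  linarith only [hsrc, hη2, h6, h7]

end

end Vale.Agent.P244.ST.ClR
end

section

/-!
# P244-ST, closure R : pure inequality in the outer region, parameter conditions
-/

open Set

namespace Vale.Agent.P244.ST.ClR

open Vale.Agent.P244.ST.PureF Vale.Agent.P244.ST.M

noncomputable section

/-- outer region: the bracket -/
theorem Br_O {ω c s Z zp p2 ξ : ℝ} (hc : 1 ≤ c) (hc2 : c ≤ 2) (hs : |s| ≤ 1.1 * ξ)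
    (hξ : 0 ≤ ξ) (hω : 0 ≤ ω) (hω1 : ω ≤ 1) (hZ0 : 0 ≤ Z) (hZ : Z ≤ 1.1)
    (hzp : |zp| ≤ 1.1 * ξ) (hp2 : p2 ≤ ξ ^ 2) :
    -(20 * ξ ^ 2) ≤ Br ω c s Z zp p2 := by
  have g1 := gam_lt
  have g2 := gam_gt
  have hx : 0 ≤ c - 1 := by linarith only [hc]
  have h1 : |zp * s| ≤ 1.21 * ξ ^ 2 := by
    rw [abs_mul]
    calc |zp| * |s| ≤ (1.1 * ξ) * (1.1 * ξ) := mul_le_mul hzp hs (abs_nonneg _) (by positivity)
      _ = _ := by ring
  have h2 : c * p2 ≤ 2 * ξ ^ 2 := by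
    have h3 : c * p2 ≤ c * ξ ^ 2 := mul_le_mul_of_nonneg_left hp2 (by linarith only [hc, g1, g2])
    have h4 : c * ξ ^ 2 ≤ 2 * ξ ^ 2 := mul_le_mul_of_nonneg_right hc2 (sq_nonneg ξ)
    linarith only [h3, h4]
  have e1 : Br ω c s Z zp p2 =
      (c - 1) * (78 - 4 * Z - 4 * gam * (gam + 1) * ω ^ 2 * Z)
      + ω * (c - 1) * gam * (100 + 78 * c + 4 * Z) + 8 * gam * ω * (Z * (c - 1))
      - c * p2 - 4 * (zp * s) + 4 * gam * ω * (zp * s) := by
    unfold Br; ring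
  have h3 : 0 ≤ 78 - 4 * Z - 4 * gam * (gam + 1) * ω ^ 2 * Z := by
    have h4 : 4 * gam * (gam + 1) ≤ 29 := by nlinarith only [g1, g2]
    have h5 : ω ^ 2 ≤ 1 := by linarith only [mul_nonneg (sub_nonneg.2 hω1) (sub_nonneg.2 hω1), mul_nonneg (sub_nonneg.2 hω) (sub_nonneg.2 hω1)]
    have h6 : ω ^ 2 * Z ≤ 1 * 1.1 := mul_le_mul h5 hZ hZ0 (by norm_num)
    have h7 : 0 ≤ ω ^ 2 * Z := by positivity
    have h8 : 4 * gam * (gam + 1) * (ω ^ 2 * Z) ≤ 29 * (1 * 1.1) :=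
      mul_le_mul h4 h6 h7 (by norm_num)
    have h9 : 4 * gam * (gam + 1) * ω ^ 2 * Z = 4 * gam * (gam + 1) * (ω ^ 2 * Z) := by ring
    rw [h9]; linarith only [hZ, g1, g2, h8]
  have h4 : 0 ≤ ω * (c - 1) * gam * (100 + 78 * c + 4 * Z) := by positivity
  have h5 : 0 ≤ 8 * gam * ω * (Z * (c - 1)) := by positivity
  have h6 : |4 * gam * ω * (zp * s)| ≤ 8.8 * (1.21 * ξ ^ 2) := by
    rw [abs_mul]
    apply mul_le_mul _ h1 (abs_nonneg _) (by norm_num)
    rw [abs_of_nonneg (by positivity)]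
    nlinarith only [hω, hω1, g1, g2]
  have h7 := abs_le.1 h6
  have h8 := abs_le.1 h1
  have h9 := mul_nonneg hx h3
  rw [e1]
  nlinarith only [h2, h4, h5, h7, h8, h9, sq_nonneg ξ]

theorem sinh_le_of {u ξ : ℝ} (hu : |u| ≤ ξ) (hξ : ξ ≤ 1 / 10 ^ 6) :
    |Real.sinh u| ≤ 1.1 * ξ ∧ Real.cosh u ≤ 2 := by
  have hξ0 : 0 ≤ ξ := (abs_nonneg _).trans hu
  have hc : Real.cosh u ≤ 1.1 := by
    have h1 : Real.cosh u ≤ Real.exp (u ^ 2 / 2) := Real.cosh_le_exp_half_sq u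
    have h2 : u ^ 2 / 2 ≤ 1 / 100 := by
      have : u ^ 2 ≤ ξ ^ 2 := by rw [← sq_abs]; exact pow_le_pow_left₀ (abs_nonneg _) hu 2
      nlinarith only [hξ, hξ0, this]
    have h3 : Real.exp (u ^ 2 / 2) ≤ Real.exp (1 / 100) := Real.exp_le_exp.2 h2
    have h4 : Real.exp (1 / 100) ≤ 1.1 := by
      have h5 := Real.exp_bound' (x := 1 / 100) (by norm_num) (by norm_num) (n := 2) (by norm_num)
      norm_num [Finset.sum_range_succ, Nat.factorial] at h5
      linarith only [h5]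
    linarith only [h1, h3, h4]
  refine ⟨?_, by linarith only [hc]⟩
  -- |sinh u| ≤ |u| cosh u
  have h1 : |Real.sinh u| ≤ |u| * Real.cosh u := by
    wlog hu0 : 0 ≤ u with H
    · have := H (u := -u) (ξ := ξ) (by rwa [abs_neg]) hξ hξ0 (by rwa [Real.cosh_neg])
        (by linarith only [hu0])
      rwa [Real.sinh_neg, abs_neg, abs_neg, Real.cosh_neg] at this
    · rw [abs_of_nonneg (Real.sinh_nonneg_iff.2 hu0), abs_of_nonneg hu0]
      rcases eq_or_lt_of_le hu0 with h | h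
      · rw [← h]; simp
      · obtain ⟨z, hz, hz2⟩ := exists_deriv_eq_slope Real.sinh h
          Real.continuous_sinh.continuousOn Real.differentiable_sinh.differentiableOn
        rw [Real.deriv_sinh, Real.sinh_zero, sub_zero, sub_zero] at hz2
        have h3 : Real.cosh z ≤ Real.cosh u := by
          rw [Real.cosh_le_cosh, abs_of_pos hz.1, abs_of_pos h]; exact hz.2.le
        rw [hz2, div_le_iff₀ h] at h3
        linarith only [h3]
  calc |Real.sinh u| ≤ |u| * Real.cosh u := h1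
    _ ≤ ξ * 1.1 := mul_le_mul hu hc (Real.cosh_pos u).le hξ0
    _ = 1.1 * ξ := by ring

/-- conditions on the parameters used in closure R -/
structure CondR (q : Par) : Prop where
  rho_pos : 0 < q.rho0
  rho_le : q.rho0 ≤ 1 / 4
  eps_pos : 0 < q.eps
  eps_le : q.eps ≤ 1
  B_nn : 0 ≤ q.B
  BV_nn : 0 ≤ q.BV
  GR_ge : 60 ^ 2 * q.B ^ 2 + q.BV ^ 2 ≤ q.GR
  N_ge : 1000 ≤ q.N
  small : 10 ^ 8 * (1 + q.GR) * K1 q ^ 2 * q.N ^ 6 * q.eps ≤ 1

theorem CondR.GR_nn {q : Par} (h : CondR q) : 0 ≤ q.GR := le_trans (by positivity) h.GR_ge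

theorem CondR.eta_pos {q : Par} (h : CondR q) : 0 < q.eta := by
  have := h.N_ge
  unfold Par.eta
  positivity

theorem CondR.eta_lt {q : Par} (h : CondR q) : q.eta < 1 / 50 := by
  have := h.N_ge
  unfold Par.eta
  rw [div_lt_div_iff₀ (by positivity) (by norm_num)]
  nlinarith only [this]

theorem ev_condR : Ev CondR := by
  refine ⟨0, fun B hB => ⟨1 / 4, by norm_num, fun rho0 hr => ⟨0, fun BV hBV => ⟨0, fun MU _ =>
    ⟨0, fun MP _ => ⟨0, fun MV _ => ⟨0, fun CU _ => ⟨0, fun CP _ => ⟨0, fun CV _ =>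
    ⟨60 ^ 2 * B ^ 2 + BV ^ 2, fun GR hGR => ⟨1, one_pos, fun sg _ => ⟨1, one_pos, fun d0 _ =>
    ⟨1, one_pos, fun rb _ => ⟨1000, fun N hN => ?_⟩⟩⟩⟩⟩⟩⟩⟩⟩⟩⟩⟩⟩⟩
  set k : ℝ := (MU + 25 * MP + 625 * MV + CU + CP + 3 * CV) / rho0 ^ 4 with hk
  set C : ℝ := 10 ^ 8 * (1 + GR) * k ^ 2 * N ^ 6 with hC
  have hGR0 : 0 ≤ GR := le_trans (by positivity) hGR
  have hN0 : (0:ℝ) < N := by linarith only [hN]
  have hC0 : 0 ≤ C := by rw [hC]; (clear * - hGR0 hN; positivity)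
  refine ⟨min 1 (1 / (C + 1)), lt_min one_pos (by (clear * - hGR0 hN; positivity)), fun eps heps => ?_⟩
  refine ⟨hr.1, hr.2, heps.1, heps.2.trans (min_le_left _ _), hB, hBV, hGR, hN, ?_⟩
  have h1 : eps ≤ 1 / (C + 1) := heps.2.trans (min_le_right _ _)
  have h2 : C * eps ≤ C * (1 / (C + 1)) := mul_le_mul_of_nonneg_left h1 hC0
  have h3 : C * (1 / (C + 1)) ≤ 1 := by
    rw [mul_one_div, div_le_one (by (clear * - hGR0 hN; positivity))]
    linarith only []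
  exact h2.trans h3

/-- size of `ξ² / r⁴` and `K ξ² S^{-γ}` -/
theorem xi_bounds {q : Par} (h : CondR q) {r τ : ℝ} (hr : 0 < r) (hrN : r ≤ q.N) (hτ : 0 < τ) :
    21 * (xi q r ^ 2 / r ^ 4) + 20 * (q.GR * q.eps ^ (-(2 * aa))) *
      ((τ + r ^ 2 / 100) ^ (-gam) * xi q r ^ 2) ≤ q.eta / 2 := by
  have g1 := gam_lt
  have g2 := gam_gt
  have k1 := Vale.Agent.P244.ST.PureF.kap_lt
  have k2 := Vale.Agent.P244.ST.PureF.kap_gt
  have hN := h.N_ge
  have hN0 : 0 < q.N := by linarith only [hN, k2, k1]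
  have hN1 : 1 ≤ q.N := by linarith only [k1, k2, hN]
  have he := h.eps_pos
  have he1 := h.eps_le
  have hGR0 := h.GR_nn
  have hpow : ∀ a : ℝ, 0 ≤ a → a ≤ 4 → r ^ a ≤ q.N ^ 4 := by
    intro a ha ha4
    calc r ^ a ≤ q.N ^ a := Real.rpow_le_rpow hr.le hrN ha
      _ ≤ q.N ^ (4:ℝ) := Real.rpow_le_rpow_of_exponent_le hN1 ha4
      _ = q.N ^ 4 := by norm_cast
  have hxi2 : xi q r ^ 2 = K1 q ^ 2 * q.eps ^ 2 * r ^ (2 * bb) := by
    unfold xi
    rw [mul_pow, mul_pow]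
    congr 1
    rw [← Real.rpow_natCast (r ^ bb) 2, ← Real.rpow_mul hr.le]
    congr 1
    push_cast; ring
  have hb : bb = 6 - kap := rfl
  have t1 : xi q r ^ 2 / r ^ 4 ≤ K1 q ^ 2 * q.eps ^ 2 * q.N ^ 4 := by
    rw [hxi2, mul_div_assoc]
    apply mul_le_mul_of_nonneg_left _ (by positivity)
    have h1 : r ^ (2 * bb) / r ^ 4 = r ^ (2 * bb - 4) := by
      rw [Real.rpow_sub hr]
      norm_cast
    rw [h1]
    exact hpow _ (by rw [hb]; linarith only [k2, k1]) (by rw [hb]; linarith only [k1, k2])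
  have t2 : (τ + r ^ 2 / 100) ^ (-gam) * xi q r ^ 2 ≤ 10 ^ 6 * (K1 q ^ 2 * q.eps ^ 2 * q.N ^ 4) := by
    have h1 : (τ + r ^ 2 / 100) ^ (-gam) ≤ (r ^ 2 / 100) ^ (-gam) :=
      Real.rpow_le_rpow_of_nonpos (by positivity) (by linarith only [hτ]) (by linarith only [g2, k1, k2])
    have h2 : (r ^ 2 / 100) ^ (-gam) = r ^ (-(2 * gam)) * 100 ^ gam := by
      rw [Real.div_rpow (by positivity) (by norm_num), Real.rpow_neg (by norm_num : (0:ℝ) ≤ 100),
        div_inv_eq_mul]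
      congr 1
      rw [← Real.rpow_natCast r 2, ← Real.rpow_mul hr.le]
      congr 1
      push_cast; ring
    have h3 : (100:ℝ) ^ gam ≤ 10 ^ 6 := by
      calc (100:ℝ) ^ gam ≤ 100 ^ (3:ℝ) :=
            Real.rpow_le_rpow_of_exponent_le (by norm_num) (by linarith only [g1, k1, k2])
        _ = 10 ^ 6 := by norm_num
    have h4 : (r ^ 2 / 100) ^ (-gam) ≤ 10 ^ 6 * r ^ (-(2 * gam)) := by
      rw [h2, mul_comm]
      exact mul_le_mul_of_nonneg_right h3 (Real.rpow_pos_of_pos hr _).le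
    calc (τ + r ^ 2 / 100) ^ (-gam) * xi q r ^ 2
        ≤ (10 ^ 6 * r ^ (-(2 * gam))) * xi q r ^ 2 :=
          mul_le_mul_of_nonneg_right (h1.trans h4) (sq_nonneg _)
      _ = 10 ^ 6 * (K1 q ^ 2 * q.eps ^ 2 * (r ^ (2 * bb) * r ^ (-(2 * gam)))) := by
          rw [hxi2]; ring
      _ ≤ 10 ^ 6 * (K1 q ^ 2 * q.eps ^ 2 * q.N ^ 4) := by
          apply mul_le_mul_of_nonneg_left _ (by norm_num)
          apply mul_le_mul_of_nonneg_left _ (by positivity)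
          rw [← Real.rpow_add hr]
          exact hpow _ (by rw [hb]; linarith only [g1, k1, k2]) (by rw [hb]; linarith only [g2, k1, k2])
  have t3 : q.eps ^ (-(2 * aa)) * q.eps ^ 2 ≤ q.eps := by
    have h1 : q.eps ^ (-(2 * aa)) * q.eps ^ 2 = q.eps ^ (-(2 * aa) + 2) := by
      rw [Real.rpow_add he]; norm_cast
    rw [h1]
    calc q.eps ^ (-(2 * aa) + 2) ≤ q.eps ^ (1:ℝ) :=
          Real.rpow_le_rpow_of_exponent_ge he he1 (by unfold aa; norm_num)
      _ = q.eps := Real.rpow_one _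
  have t4 : q.eps ^ 2 ≤ q.eps := by (by_contra nlg; linarith only [nlg, mul_nonneg (le_of_lt (sub_pos.2 he)) (sub_nonneg.2 he1), mul_nonneg (le_of_lt (sub_pos.2 (not_le.1 nlg))) (sub_nonneg.2 he1), mul_pos (sub_pos.2 (not_le.1 nlg)) (sub_pos.2 he)])
  have p1 := Real.rpow_pos_of_pos he (-(2 * aa))
  have hM : 0 ≤ K1 q ^ 2 * q.N ^ 4 := by (clear * - hN; positivity)
  have e1 : 21 * (xi q r ^ 2 / r ^ 4) ≤ 21 * (K1 q ^ 2 * q.N ^ 4 * q.eps) := by
    have h1 : K1 q ^ 2 * q.eps ^ 2 * q.N ^ 4 = K1 q ^ 2 * q.N ^ 4 * q.eps ^ 2 := by ring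
    rw [h1] at t1
    have h2 := mul_le_mul_of_nonneg_left t4 hM
    linarith only [h2, t1]
  have e2 : 20 * (q.GR * q.eps ^ (-(2 * aa))) *
      ((τ + r ^ 2 / 100) ^ (-gam) * xi q r ^ 2) ≤
      20 * 10 ^ 6 * q.GR * (K1 q ^ 2 * q.N ^ 4 * q.eps) := by
    calc 20 * (q.GR * q.eps ^ (-(2 * aa))) * ((τ + r ^ 2 / 100) ^ (-gam) * xi q r ^ 2)
        ≤ 20 * (q.GR * q.eps ^ (-(2 * aa))) * (10 ^ 6 * (K1 q ^ 2 * q.eps ^ 2 * q.N ^ 4)) :=
          mul_le_mul_of_nonneg_left t2 (by positivity)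
      _ = 20 * 10 ^ 6 * q.GR * (K1 q ^ 2 * q.N ^ 4 * (q.eps ^ (-(2 * aa)) * q.eps ^ 2)) := by ring
      _ ≤ _ := by
          apply mul_le_mul_of_nonneg_left _ (by positivity)
          exact mul_le_mul_of_nonneg_left t3 hM
  have hs := h.small
  have hη : q.eta / 2 = 5000 / q.N ^ 2 := by unfold Par.eta; ring
  rw [hη, le_div_iff₀ (by positivity)]
  have h5 : (21 * (xi q r ^ 2 / r ^ 4) + 20 * (q.GR * q.eps ^ (-(2 * aa))) *
      ((τ + r ^ 2 / 100) ^ (-gam) * xi q r ^ 2)) * q.N ^ 2 ≤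
      (21 * (K1 q ^ 2 * q.N ^ 4 * q.eps) + 20 * 10 ^ 6 * q.GR * (K1 q ^ 2 * q.N ^ 4 * q.eps)) *
        q.N ^ 2 := mul_le_mul_of_nonneg_right (by linarith only [e1, e2]) (by positivity)
  have h6 : (21 * (K1 q ^ 2 * q.N ^ 4 * q.eps) + 20 * 10 ^ 6 * q.GR *
      (K1 q ^ 2 * q.N ^ 4 * q.eps)) * q.N ^ 2 =
      (21 + 20 * 10 ^ 6 * q.GR) * (K1 q ^ 2 * q.N ^ 6 * q.eps) := by ring
  have h7 : 0 ≤ K1 q ^ 2 * q.N ^ 6 * q.eps := by (clear * - hN he; positivity)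
  have h8 : (21 + 20 * 10 ^ 6 * q.GR) * (K1 q ^ 2 * q.N ^ 6 * q.eps) ≤
      (10 ^ 8 * (1 + q.GR)) * (K1 q ^ 2 * q.N ^ 6 * q.eps) :=
    mul_le_mul_of_nonneg_right (by linarith only [k1, k2, hGR0]) h7
  have h9 : (10 ^ 8 * (1 + q.GR)) * (K1 q ^ 2 * q.N ^ 6 * q.eps) =
      10 ^ 8 * (1 + q.GR) * K1 q ^ 2 * q.N ^ 6 * q.eps := by ring
  linarith only [k1, k2, hs, h5, h7]

/-- the source in the outer region -/
theorem src_O {η ξ r E0 R V : ℝ} (hη : 0 < η) (hr : 0 < r) (hξ0 : 0 ≤ ξ) (hξ : ξ ≤ 1 / 10 ^ 6)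
    (hV : r ^ 2 * |V| ≤ ξ) (hR0 : 0 ≤ R) (hR : R ≤ 3 * η)
    (hE : |E0| ≤ 3 / 2 * η + 3000 * ξ ^ 2 / r ^ 2) :
    2 * E0 ^ 2 + (R - E0) ^ 2 / 20 + 20 * V ^ 2 ≤ 10.4 * η ^ 2 + 21 * (ξ ^ 2 / r ^ 4) := by
  have hr2 : 0 < r ^ 2 := by positivity
  have hV2 : V ^ 2 ≤ ξ ^ 2 / r ^ 4 := by
    rw [le_div_iff₀ (by positivity)]
    have h2 : (r ^ 2 * |V|) ^ 2 ≤ ξ ^ 2 := pow_le_pow_left₀ (by positivity) hV 2
    rw [mul_pow, sq_abs] at h2
    calc V ^ 2 * r ^ 4 = (r ^ 2) ^ 2 * V ^ 2 := by ring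
      _ ≤ _ := h2
  have hX : 0 ≤ ξ ^ 2 / r ^ 4 := by positivity
  have hE2 : E0 ^ 2 ≤ 4.5 * η ^ 2 + 0.1 * (ξ ^ 2 / r ^ 4) := by
    have h2 : |E0| ^ 2 ≤ (3 / 2 * η + 3000 * ξ ^ 2 / r ^ 2) ^ 2 :=
      pow_le_pow_left₀ (abs_nonneg _) hE 2
    rw [sq_abs] at h2
    have h3 : (3000 * ξ ^ 2 / r ^ 2) ^ 2 = 9 * 10 ^ 6 * ξ ^ 2 * (ξ ^ 2 / r ^ 4) := by
      field_simp
      ring
    have h4 : 9 * 10 ^ 6 * ξ ^ 2 * (ξ ^ 2 / r ^ 4) ≤ 0.05 * (ξ ^ 2 / r ^ 4) := by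
      apply mul_le_mul_of_nonneg_right _ hX
      have : ξ ^ 2 ≤ (1 / 10 ^ 6) ^ 2 := pow_le_pow_left₀ hξ0 hξ 2
      linarith only [this]
    have h5 : (3 / 2 * η + 3000 * ξ ^ 2 / r ^ 2) ^ 2 ≤
        2 * (3 / 2 * η) ^ 2 + 2 * (3000 * ξ ^ 2 / r ^ 2) ^ 2 := by
      have := sq_nonneg (3 / 2 * η - 3000 * ξ ^ 2 / r ^ 2)
      linarith only [this, sq_nonneg (3 / 2 * η - 3000 * ξ ^ 2 / r ^ 2)]
    have h6 : 2 * (3 / 2 * η) ^ 2 = 4.5 * η ^ 2 := by ring
    linarith only [h2, h3, h4, h5]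
  have hsrc : 2 * E0 ^ 2 + (R - E0) ^ 2 / 20 ≤ 2.1 * E0 ^ 2 + 0.1 * R ^ 2 := by
    linarith only [sq_nonneg (R + E0)]
  have hR2 : R ^ 2 ≤ 9 * η ^ 2 := by nlinarith only [hη, hR0, hR]
  linarith only [hV2, hX, hE2, hsrc, hR2, sq_nonneg η]

/-- **closure R, outer region** -/
theorem closeR_O {q : Par} (h : CondR q) {τ r u Z zp P E0 R V : ℝ} (hτ : 0 < τ) (hr : 0 < r)
    (hrN : r ≤ q.N) (hξ : xi q r ≤ 1 / 10 ^ 6) (hu : |u| ≤ xi q r) (hP : r * |P| ≤ xi q r)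
    (hV : r ^ 2 * |V| ≤ xi q r) (hZ0 : 0 ≤ Z) (hZ : Z - 1 ≤ 2 * xi q r ^ 2)
    (hzp : zp ^ 2 = Z * (r ^ 2 * P ^ 2)) (hR0 : 0 ≤ R) (hR : R ≤ 3 * q.eta)
    (hE : |E0| ≤ 3 / 2 * q.eta + 3000 * xi q r ^ 2 / r ^ 2) :
    2 * E0 ^ 2 + (R - E0) ^ 2 / 20 + 20 * V ^ 2 <
      LRB q.eta (q.GR * q.eps ^ (-(2 * aa))) τ (r ^ 2) (Real.cosh u) (Real.sinh u) Z
        zp (r ^ 2 * P ^ 2) := by
  have hη := h.eta_pos
  have hη1 := h.eta_lt
  have hS : 0 < τ + r ^ 2 / 100 := by positivity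
  have hξ0 : 0 ≤ xi q r := (abs_nonneg _).trans hu
  obtain ⟨hs, hc2⟩ := sinh_le_of hu hξ
  have hξ2 : xi q r ^ 2 ≤ (1 / 10 ^ 6) ^ 2 := pow_le_pow_left₀ hξ0 hξ 2
  have hZ1 : Z ≤ 1.1 := by linarith only [hZ, hη, hη1, hξ2]
  have hp2 : r ^ 2 * P ^ 2 ≤ xi q r ^ 2 := by
    have h1 : (r * |P|) ^ 2 ≤ xi q r ^ 2 := pow_le_pow_left₀ (by positivity) hP 2
    rwa [mul_pow, sq_abs] at h1
  have hzp1 : |zp| ≤ 1.1 * xi q r := by
    apply abs_le_of_sq_le_sq _ (by positivity)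
    rw [hzp]
    have h1 : Z * (r ^ 2 * P ^ 2) ≤ 1.1 * xi q r ^ 2 :=
      mul_le_mul hZ1 hp2 (by positivity) (by norm_num)
    have h2 : (1.1 * xi q r) ^ 2 = 1.21 * xi q r ^ 2 := by ring
    rw [h2]
    linarith only [h1, sq_nonneg (xi q r)]
  have hω0 : 0 ≤ r ^ 2 / (100 * (τ + r ^ 2 / 100)) := by positivity
  have hω1 : r ^ 2 / (100 * (τ + r ^ 2 / 100)) ≤ 1 := by
    rw [div_le_one (by positivity)]; linarith only [hτ]
  have hBr := Br_O (Real.one_le_cosh u) hc2 hs hξ0 hω0 hω1 hZ0 hZ1 hzp1 hp2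
  rw [LRB_eq hS]
  have hxb := xi_bounds h hr hrN hτ
  have p1 := Real.rpow_pos_of_pos h.eps_pos (-(2 * aa))
  have p2 := Real.rpow_pos_of_pos hS (-gam)
  have hK : 0 ≤ q.GR * q.eps ^ (-(2 * aa)) := mul_nonneg h.GR_nn p1.le
  have h1 := mul_le_mul_of_nonneg_left (mul_le_mul_of_nonneg_left hBr p2.le) hK
  have hsrc := src_O hη hr hξ0 hξ hV hR0 hR hE
  have hη2 : 10.4 * q.eta ^ 2 < q.eta / 2 := by nlinarith only [hR0, hR, hη, hη1]
  have h2 : q.GR * q.eps ^ (-(2 * aa)) * ((τ + r ^ 2 / 100) ^ (-gam) * -(20 * xi q r ^ 2)) =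
      -(20 * (q.GR * q.eps ^ (-(2 * aa))) * ((τ + r ^ 2 / 100) ^ (-gam) * xi q r ^ 2)) := by
    ring
  rw [h2] at h1
  linarith only [hxb, h1, hsrc, hη2]

end

end Vale.Agent.P244.ST.ClR
end

section

/-!
# P244-ST, block M2 : region I (`y ≤ ρ₀`) at one fixed time, facts (D1)-(D4)
-/

open Set Filter Topology
open scoped ContDiff

namespace Vale.Agent.P244.ST.RegI

noncomputable section

/-- smallness of the parameters used in region I -/
structure SmallI (q : Par) : Prop where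
  B1 : 1 ≤ q.B
  r0 : 0 < q.rho0
  r1 : q.rho0 ≤ 1 / 2
  Br : 2 * q.B * q.rho0 ^ 2 ≤ 1 / 10000
  l3 : |ll 3 (q.rho0 ^ 2 / 4) - 1| ≤ 1 / 50
  sg0 : 0 < q.sg
  sgs : Real.sqrt q.sg * q.rho0 ^ kap ≤ 1 / 50
  N4 : 4 ≤ q.N
  e0 : 0 < q.eps
  T0s : q.eps * q.rho0 ^ (-kap) ≤ 1 / 100

theorem ll_cont (i : ℕ) : Continuous (ll i) := by
  unfold ll
  fun_prop

theorem ll3_zero : ll 3 0 = 1 := by
  unfold ll
  simp [Finset.sum_range_succ]

theorem ll3_near : ∃ r₁ > (0 : ℝ), ∀ r, 0 < r → r ≤ r₁ → |ll 3 (r ^ 2 / 4) - 1| ≤ 1 / 50 := by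
  have hc : Continuous fun r : ℝ => ll 3 (r ^ 2 / 4) := (ll_cont 3).comp (by fun_prop)
  have h1 : ContinuousAt (fun r : ℝ => ll 3 (r ^ 2 / 4)) 0 := hc.continuousAt
  obtain ⟨δ, hδ, h2⟩ := Metric.continuousAt_iff.mp h1 (1 / 50) (by norm_num)
  refine ⟨δ / 2, by positivity, fun r hr0 hr1 => ?_⟩
  have h3 := h2 (x := r) (by rw [dist_eq_norm, sub_zero, Real.norm_eq_abs, abs_of_pos hr0]; linarith only [hr0, hr1])
  rw [dist_eq_norm, Real.norm_eq_abs] at h3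
  have e : ll 3 ((0 : ℝ) ^ 2 / 4) = 1 := by
    rw [show (0 : ℝ) ^ 2 / 4 = 0 by norm_num]; exact ll3_zero
  rw [e] at h3
  exact h3.le

theorem kap_pos : 0 < kap := by linarith only [M2.kap_gt]

theorem ev_smallI : Ev SmallI := by
  obtain ⟨d, hd, hll⟩ := ll3_near
  refine ⟨1, fun B hB => ?_⟩
  have hB0 : 0 < B := by linarith only [hB]
  refine ⟨min (min (1 / 2) d) (1 / (20000 * B)), by positivity, fun rho0 hr => ?_⟩
  obtain ⟨hr0, hr1⟩ := hr
  have h1 : rho0 ≤ 1 / 2 := hr1.trans ((min_le_left _ _).trans (min_le_left _ _))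
  have h2 : rho0 ≤ d := hr1.trans ((min_le_left _ _).trans (min_le_right _ _))
  have h3 : rho0 ≤ 1 / (20000 * B) := hr1.trans (min_le_right _ _)
  have h4 : 2 * B * rho0 ^ 2 ≤ 1 / 10000 := by
    rw [le_div_iff₀ (by positivity)] at h3
    nlinarith only [hB, hr0, h1, h3]
  refine ⟨0, fun BV _ => ⟨0, fun MU _ => ⟨0, fun MP _ => ⟨0, fun MV _ => ⟨0, fun CU _ =>
    ⟨0, fun CP _ => ⟨0, fun CV _ => ⟨0, fun GR _ => ⟨1 / 2500, by norm_num, fun sg hsg =>
    ⟨1, one_pos, fun d0 _ => ⟨1, one_pos, fun rb _ => ⟨4, fun N hN =>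
    ⟨rho0 ^ kap / 100, by positivity, fun eps he => ?_⟩⟩⟩⟩⟩⟩⟩⟩⟩⟩⟩⟩⟩
  obtain ⟨hs0, hs1⟩ := hsg
  obtain ⟨he0, he1⟩ := he
  refine ⟨hB, hr0, h1, h4, hll rho0 hr0 h2, hs0, ?_, hN, he0, ?_⟩
  · have k1 : Real.sqrt sg ≤ 1 / 50 := by
      rw [show (1 / 50 : ℝ) = Real.sqrt (1 / 2500) by
        rw [show (1 / 2500 : ℝ) = (1 / 50) ^ 2 by norm_num, Real.sqrt_sq (by norm_num)]]
      exact Real.sqrt_le_sqrt hs1
    have k2 : rho0 ^ kap ≤ 1 := Real.rpow_le_one hr0.le (by linarith only [h1, hs0, hs1]) kap_pos.le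
    have k3 : 0 ≤ rho0 ^ kap := Real.rpow_nonneg hr0.le _
    show Real.sqrt sg * rho0 ^ kap ≤ 1 / 50
    calc Real.sqrt sg * rho0 ^ kap ≤ 1 / 50 * 1 := mul_le_mul k1 k2 k3 (by norm_num)
      _ = 1 / 50 := by norm_num
  · show eps * rho0 ^ (-kap) ≤ 1 / 100
    have k3 : 0 < rho0 ^ kap := Real.rpow_pos_of_pos hr0 _
    rw [Real.rpow_neg hr0.le, ← div_eq_mul_inv, div_le_iff₀ k3]
    linarith only [he1]

/-- the hypotheses at one time -/
structure Hyp (q : Par) (g : ℝ → ℝ) (w f : Fn) (t : ℝ) : Prop where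
  bub : IsBub g
  sl : M2.Slice w f t
  t0 : 0 ≤ t
  t1 : t < 1
  rs_pos : ∀ x ∈ Ioo (0 : ℝ) 1, 0 < rs w f t x
  G_le : ∀ x ∈ Ioo (0 : ℝ) 1, |GG w f t x| ≤ 2
  b1 : ∀ x ∈ Ioo (0 : ℝ) 1, yv w f t x ≤ q.rho0 →
    0 < uu w f t x ∧ |ff g w f t x| ≤ q.fb t (uu w f t x)
  eqr : q.N / 4 ≤ rr w f t 0
  bd : ∀ x ∈ Ioo (0 : ℝ) 1, yv w f t x = q.rho0 →
    9 / 10 * q.T0 t ≤ Real.tanh (uu w f t x) ∧ Real.tanh (uu w f t x) ≤ 11 / 10 * q.T0 t
  small : SmallI q

theorem tau_pos {t : ℝ} (h : t < 1) : 0 < tau t := by unfold tau; linarith only [h]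

theorem tau_le {t : ℝ} (h : 0 ≤ t) : tau t ≤ 1 := by unfold tau; linarith only [h]

/-! ### `T₀` -/

theorem T0_pos {q : Par} (hq : SmallI q) {t : ℝ} (h : t < 1) : 0 < q.T0 t := by
  have h1 := tau_pos h
  have h2 := hq.r0
  have h3 := hq.e0
  unfold Par.T0 Par.A
  positivity

theorem T0_le {q : Par} (hq : SmallI q) {t : ℝ} (h0 : 0 ≤ t) (h : t < 1) : q.T0 t ≤ 1 / 100 := by
  have h1 := tau_pos h
  have h2 := tau_le h0
  have h3 := hq.e0
  have h4 := hq.r0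
  have h5 : tau t ^ lam 3 ≤ 1 := by
    refine Real.rpow_le_one h1.le h2 ?_
    unfold lam
    have := M2.kap_lt
    push_cast
    linarith only [this]
  have h6 : 0 ≤ q.rho0 ^ (-kap) := Real.rpow_nonneg h4.le _
  have h7 := hq.T0s
  unfold Par.T0 Par.A
  calc q.eps * tau t ^ lam 3 * q.rho0 ^ (-kap) = q.eps * q.rho0 ^ (-kap) * tau t ^ lam 3 := by ring
    _ ≤ q.eps * q.rho0 ^ (-kap) * 1 := mul_le_mul_of_nonneg_left h5 (by positivity)
    _ ≤ 1 / 100 := by linarith only [h7]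

/-! ### small facts on hyperbolic functions -/

theorem cosh_of_tanh {u c : ℝ} (h0 : 0 ≤ Real.tanh u) (h1 : Real.tanh u ≤ c) (hc : c ≤ 1 / 50) :
    Real.cosh u ≤ 1001 / 1000 := by
  have hp := Real.cosh_pos u
  have e1 : Real.sinh u = Real.tanh u * Real.cosh u := by
    rw [Real.tanh_eq_sinh_div_cosh, div_mul_cancel₀ _ hp.ne']
  have e2 := Real.cosh_sq u
  rw [e1] at e2
  have h2 : Real.tanh u ^ 2 ≤ (1 / 50) ^ 2 := pow_le_pow_left₀ h0 (h1.trans hc) 2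
  have h3 : Real.tanh u ^ 2 * Real.cosh u ^ 2 ≤ (1 / 50) ^ 2 * Real.cosh u ^ 2 :=
    mul_le_mul_of_nonneg_right h2 (sq_nonneg _)
  nlinarith only [hp, e2, h3]

end

end Vale.Agent.P244.ST.RegI
end

section

/-!
# P244-ST, block M2 : region I, existence of the boundary point and monotone quantities
-/

open Set Filter Topology
open scoped ContDiff

namespace Vale.Agent.P244.ST.RegI

noncomputable section

/-! ### monotonicity along `x` -/

theorem anti_of {a b : ℝ} {F F' : ℝ → ℝ} (hF : ∀ x ∈ Icc a b, HasDerivAt F (F' x) x)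
    (h : ∀ x ∈ Icc a b, F' x ≤ 0) (hab : a ≤ b) : F b ≤ F a := by
  have h1 : AntitoneOn F (Icc a b) := by
    refine antitoneOn_of_deriv_nonpos (convex_Icc a b)
      (fun x hx => (hF x hx).continuousAt.continuousWithinAt) ?_ ?_
    · intro x hx
      exact (hF x (interior_subset hx)).differentiableAt.differentiableWithinAt
    · intro x hx
      rw [(hF x (interior_subset hx)).deriv]
      exact h x (interior_subset hx)
  exact h1 (left_mem_Icc.mpr hab) (right_mem_Icc.mpr hab) hab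

theorem mono_of {a b : ℝ} {F F' : ℝ → ℝ} (hF : ∀ x ∈ Icc a b, HasDerivAt F (F' x) x)
    (h : ∀ x ∈ Icc a b, 0 ≤ F' x) (hab : a ≤ b) : F a ≤ F b := by
  have h1 := anti_of (F := fun x => -F x) (F' := fun x => -F' x)
    (fun x hx => (hF x hx).neg) (fun x hx => by have := h x hx; linarith only [this]) hab
  simpa using h1

section

variable {q : Par} {g : ℝ → ℝ} {w f : Fn} {t : ℝ}

theorem mem1 {x : ℝ} (hx : x ∈ Ioo (0 : ℝ) 1) : x ∈ Ioo (-1 : ℝ) 1 := ⟨by linarith only [hx, hx.1], hx.2⟩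

/-- `r` decreases strictly on `[0,1)` -/
theorem rr_anti (sl : M2.Slice w f t) (hrs : ∀ x ∈ Ioo (0 : ℝ) 1, 0 < rs w f t x) :
    StrictAntiOn (rr w f t) (Ico 0 1) := by
  have hsub : Ico (0 : ℝ) 1 ⊆ Ioo (-1 : ℝ) 1 := fun x hx => ⟨by linarith only [hx, hx.1], hx.2⟩
  refine strictAntiOn_of_deriv_neg (convex_Ico 0 1) ((M2.smooth_rr sl).continuousOn.mono hsub) ?_
  intro x hx
  rw [interior_Ico] at hx
  rw [(M2.hasDerivAt_rr sl (mem1 hx)).deriv]
  exact mul_neg_of_neg_of_pos (M2.r1_neg (mem1 hx) (hrs x hx)) (M2.rr_pos x)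

/-- `r → 0` at the tip -/
theorem rr_tip (sl : M2.Slice w f t) : Tendsto (rr w f t) (𝓝[<] 1) (𝓝 0) := by
  have hc : ContinuousOn (fun x => f t x + w t x) (Icc (-1) 1) :=
    sl.hf.continuousOn.add sl.hw.continuousOn
  obtain ⟨C, hC⟩ := isCompact_Icc.exists_bound_of_continuousOn hc
  have hlog : Tendsto (fun x : ℝ => Real.log (1 - x ^ 2)) (𝓝[<] 1) atBot := by
    refine Real.tendsto_log_nhdsGT_zero.comp ?_
    refine tendsto_nhdsWithin_iff.mpr ⟨?_, ?_⟩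
    · have h1 : ContinuousAt (fun x : ℝ => 1 - x ^ 2) 1 := by fun_prop
      have h2 : Tendsto (fun x : ℝ => 1 - x ^ 2) (𝓝 1) (𝓝 0) := by
        have := h1.tendsto
        norm_num at this
        exact this
      exact h2.mono_left nhdsWithin_le_nhds
    · have h3 : ∀ᶠ x : ℝ in 𝓝[<] 1, x ∈ Ioo (0 : ℝ) 1 :=
        Ioo_mem_nhdsLT (by norm_num)
      filter_upwards [h3] with x hx
      show (0 : ℝ) < 1 - x ^ 2
      nlinarith only [hx, hx.1, hx.2]
  have hrho : Tendsto (rho w f t) (𝓝[<] 1) atBot := by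
    have hb : Tendsto (fun x : ℝ => (C + Real.log (1 - x ^ 2) / 2 - Real.log zeta0) / 2)
        (𝓝[<] 1) atBot := by
      refine Tendsto.atBot_div_const (by norm_num) ?_
      refine tendsto_atBot_add_const_right _ (-Real.log zeta0) ?_
      refine tendsto_atBot_add_const_left _ C ?_
      exact Tendsto.atBot_div_const (by norm_num) hlog
    refine tendsto_atBot_mono' _ ?_ hb
    have h3 : ∀ᶠ x : ℝ in 𝓝[<] 1, x ∈ Ioo (0 : ℝ) 1 := Ioo_mem_nhdsLT (by norm_num)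
    filter_upwards [h3] with x hx
    have h4 := hC x ⟨by linarith only [hx, hx.1], hx.2.le⟩
    rw [Real.norm_eq_abs] at h4
    have h5 := (abs_le.mp h4).2
    unfold rho
    linarith [h5]
  exact Real.tendsto_exp_atBot.comp hrho

theorem Hyp.tau_pos (h : Hyp q g w f t) : 0 < tau t := RegI.tau_pos h.t1

theorem Hyp.sq_pos (h : Hyp q g w f t) : 0 < Real.sqrt (tau t) := Real.sqrt_pos.mpr h.tau_pos

theorem Hyp.yv_le_iff (h : Hyp q g w f t) {x c : ℝ} :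
    yv w f t x ≤ c ↔ rr w f t x ≤ c * Real.sqrt (tau t) := by
  unfold yv
  rw [div_le_iff₀ h.sq_pos]

/-- the boundary point of region I -/
theorem Hyp.exists_x0 (h : Hyp q g w f t) : ∃ x0 ∈ Ioo (0 : ℝ) 1, yv w f t x0 = q.rho0 ∧
    ∀ x ∈ Ioo (0 : ℝ) 1, (yv w f t x ≤ q.rho0 ↔ x0 ≤ x) := by
  have hsq := h.sq_pos
  have hsq1 : Real.sqrt (tau t) ≤ 1 := by
    have := Real.sqrt_le_sqrt (tau_le h.t0)
    rwa [Real.sqrt_one] at this
  have hr0 := h.small.r0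
  have hanti := rr_anti h.sl h.rs_pos
  have hv : 0 < q.rho0 * Real.sqrt (tau t) := by positivity
  have h1 : q.rho0 * Real.sqrt (tau t) < rr w f t 0 := by
    have k1 : q.rho0 * Real.sqrt (tau t) ≤ 1 / 2 * 1 :=
      mul_le_mul h.small.r1 hsq1 hsq.le (by norm_num)
    have k2 := h.eqr
    have k3 := h.small.N4
    linarith only [hv, k1, k2, k3]
  have h2 : ∀ᶠ x in 𝓝[<] (1 : ℝ), rr w f t x < q.rho0 * Real.sqrt (tau t) :=
    (rr_tip h.sl).eventually (gt_mem_nhds hv)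
  have h3 : ∀ᶠ x : ℝ in 𝓝[<] 1, x ∈ Ioo (0 : ℝ) 1 := Ioo_mem_nhdsLT (by norm_num)
  obtain ⟨x2, h4, h5⟩ := (h2.and h3).exists
  have hsub : Icc (0 : ℝ) x2 ⊆ Ioo (-1 : ℝ) 1 :=
    fun x hx => ⟨by linarith only [hx, hx.1], lt_of_le_of_lt hx.2 h5.2⟩
  have hcont : ContinuousOn (rr w f t) (Icc 0 x2) := (M2.smooth_rr h.sl).continuousOn.mono hsub
  obtain ⟨x0, hx0, he⟩ := intermediate_value_Icc' h5.1.le hcont ⟨h4.le, h1.le⟩
  have hx00 : 0 < x0 := by
    rcases hx0.1.eq_or_lt with hh | hh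
    · rw [← hh] at he; linarith only [h1, he]
    · exact hh
  have hx01 : x0 < 1 := lt_of_le_of_lt hx0.2 h5.2
  refine ⟨x0, ⟨hx00, hx01⟩, ?_, fun x hx => ?_⟩
  · unfold yv
    rw [he]
    field_simp
  · rw [h.yv_le_iff, ← he]
    exact hanti.le_iff_ge ⟨hx.1.le, hx.2⟩ ⟨hx00.le, hx01⟩

end

end

end Vale.Agent.P244.ST.RegI
end

section

/-!
# P244-ST, block M2 : region I, (D1)
-/

open Set Filter Topology
open scoped ContDiff

namespace Vale.Agent.P244.ST.RegI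

noncomputable section

variable {q : Par} {g : ℝ → ℝ} {w f : Fn} {t : ℝ}

theorem tanh_pos {u : ℝ} (hu : 0 < u) : 0 < Real.tanh u := PureF.tanh_pos hu

theorem G_eq (hg : IsBub g) {x : ℝ} (hu : 0 < uu w f t x) :
    GG w f t x = g (uu w f t x) * (1 - ee g w f t x) := by
  have := (PureF.g_pos hg hu).ne'
  unfold ee
  field_simp
  ring

theorem e_abs {x : ℝ} : |ee g w f t x| = rr w f t x ^ 2 * |ff g w f t x| := by
  have h1 := M2.rr_pos (w := w) (f := f) (t := t) x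
  have h2 : ee g w f t x = rr w f t x ^ 2 * ff g w f t x := by
    unfold ff; field_simp
  rw [h2, abs_mul, abs_of_pos (by positivity)]

/-- the bound of `e` in region I -/
def eb (q : Par) (w f : Fn) (t x : ℝ) : ℝ := rr w f t x ^ 2 * q.fb t (uu w f t x)

/-- its logarithm, up to a constant -/
def Lf (w f : Fn) (t x : ℝ) : ℝ :=
  2 * rho w f t x + aa * Real.log (Real.tanh (uu w f t x))
    - (1 - aa) * Real.log (Real.cosh (uu w f t x))

def Lc (q : Par) (t : ℝ) : ℝ := Real.log (q.B / tau t) - aa * Real.log (q.T0 t)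

theorem eb_eq (h : SmallI q) (ht : t < 1) {x : ℝ} (hu : 0 < uu w f t x) :
    eb q w f t x = Real.exp (Lf w f t x + Lc q t) := by
  have hT := tanh_pos hu
  have hc := Real.cosh_pos (uu w f t x)
  have h0 := T0_pos h ht
  have hta := tau_pos ht
  have hB : 0 < q.B := by linarith only [h, h.B1]
  have hBt : 0 < q.B / tau t := by positivity
  unfold eb Par.fb rr
  rw [Real.rpow_def_of_pos (by positivity : 0 < Real.tanh (uu w f t x) / q.T0 t),
    Real.rpow_def_of_pos hc, Real.log_div hT.ne' h0.ne', ← Real.exp_nat_mul]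
  nth_rewrite 1 [← Real.exp_log hBt]
  rw [← Real.exp_add, ← Real.exp_add, ← Real.exp_add]
  congr 1
  unfold Lf Lc
  push_cast
  ring

section

variable (h : Hyp q g w f t)
include h

theorem Hyp.du {x : ℝ} (hx : x ∈ Ioo (0 : ℝ) 1) :
    HasDerivAt (uu w f t) (M2.r1 w f t x * -(GG w f t x)) x :=
  M2.hasDerivAt_uu h.sl (mem1 hx) (h.rs_pos x hx).ne'

theorem Hyp.drho {x : ℝ} (hx : x ∈ Ioo (0 : ℝ) 1) :
    HasDerivAt (rho w f t) (M2.r1 w f t x) x := M2.hasDerivAt_rho h.sl (mem1 hx)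

theorem Hyp.r1n {x : ℝ} (hx : x ∈ Ioo (0 : ℝ) 1) : M2.r1 w f t x < 0 :=
  M2.r1_neg (mem1 hx) (h.rs_pos x hx)

theorem Hyp.dlogcosh {x : ℝ} (hx : x ∈ Ioo (0 : ℝ) 1) :
    HasDerivAt (fun x => Real.log (Real.cosh (uu w f t x)))
      (M2.r1 w f t x * -(GG w f t x * Real.tanh (uu w f t x))) x := by
  have hc := Real.cosh_pos (uu w f t x)
  have h1 := ((h.du hx).cosh).log hc.ne'
  refine h1.congr_deriv ?_
  rw [Real.tanh_eq_sinh_div_cosh]
  field_simp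

theorem Hyp.dlogtanh {x : ℝ} (hx : x ∈ Ioo (0 : ℝ) 1) (hu : 0 < uu w f t x) :
    HasDerivAt (fun x => Real.log (Real.tanh (uu w f t x)))
      (M2.r1 w f t x * -(GG w f t x * ((1 - Real.tanh (uu w f t x) ^ 2)
        / Real.tanh (uu w f t x)))) x := by
  have hT := tanh_pos hu
  have h1 : HasDerivAt (fun x => Real.tanh (uu w f t x))
      ((1 - Real.tanh (uu w f t x) ^ 2) * (M2.r1 w f t x * -(GG w f t x))) x :=
    (PureF.hasDerivAt_tanh (uu w f t x)).comp x (h.du hx)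
  refine (h1.log hT.ne').congr_deriv ?_
  ring

theorem Hyp.dlogsinh {x : ℝ} (hx : x ∈ Ioo (0 : ℝ) 1) (hu : 0 < uu w f t x) :
    HasDerivAt (fun x => Real.log (Real.sinh (uu w f t x)))
      (M2.r1 w f t x * -(GG w f t x / Real.tanh (uu w f t x))) x := by
  have hs : 0 < Real.sinh (uu w f t x) := Real.sinh_pos_iff.mpr hu
  have hc := Real.cosh_pos (uu w f t x)
  have h1 := ((h.du hx).sinh).log hs.ne'
  refine h1.congr_deriv ?_
  rw [Real.tanh_eq_sinh_div_cosh]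
  field_simp

theorem Hyp.dLf {x : ℝ} (hx : x ∈ Ioo (0 : ℝ) 1) (hu : 0 < uu w f t x) :
    HasDerivAt (Lf w f t) (M2.r1 w f t x * (2 - aa * (GG w f t x *
      ((1 - Real.tanh (uu w f t x) ^ 2) / Real.tanh (uu w f t x)))
      + (1 - aa) * (GG w f t x * Real.tanh (uu w f t x)))) x := by
  have h1 := (((h.drho hx).const_mul 2).add ((h.dlogtanh hx hu).const_mul aa)).sub
    ((h.dlogcosh hx).const_mul (1 - aa))
  refine h1.congr_deriv ?_
  ring

/-- `G` when `e` is small -/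
theorem Hyp.G_bd {x : ℝ} (hu : 0 < uu w f t x) {δ : ℝ} (he : |ee g w f t x| ≤ δ) (hδ : δ ≤ 1) :
    2 * (1 - δ) * Real.tanh (uu w f t x) ≤ GG w f t x ∧
      GG w f t x ≤ kap * (1 + δ) * Real.tanh (uu w f t x) := by
  have hT := tanh_pos hu
  have h1 := h.bub.lower _ hu
  have h2 := h.bub.upper _ hu
  have hg := PureF.g_pos h.bub hu
  obtain ⟨e1, e2⟩ := abs_le.mp he
  rw [G_eq h.bub hu]
  constructor
  · calc 2 * (1 - δ) * Real.tanh (uu w f t x) = (2 * Real.tanh (uu w f t x)) * (1 - δ) := by ring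
      _ ≤ g (uu w f t x) * (1 - δ) := mul_le_mul_of_nonneg_right h1.le (by linarith only [hδ])
      _ ≤ g (uu w f t x) * (1 - ee g w f t x) :=
          mul_le_mul_of_nonneg_left (by linarith only [e2]) hg.le
  · calc g (uu w f t x) * (1 - ee g w f t x) ≤ g (uu w f t x) * (1 + δ) :=
          mul_le_mul_of_nonneg_left (by linarith only [e1]) hg.le
      _ ≤ (kap * Real.tanh (uu w f t x)) * (1 + δ) :=
          mul_le_mul_of_nonneg_right h2.le (by linarith only [e1, e2, (abs_nonneg _).trans he])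
      _ = kap * (1 + δ) * Real.tanh (uu w f t x) := by ring

/-- values at the boundary of region I -/
theorem Hyp.u_x0 {x : ℝ} (hx : x ∈ Ioo (0 : ℝ) 1) (hy : yv w f t x = q.rho0) :
    0 < uu w f t x ∧ Real.cosh (uu w f t x) ≤ 1001 / 1000 ∧
      Real.sinh (uu w f t x) ≤ 6 / 5 * q.T0 t := by
  have hu := (h.b1 x hx hy.le).1
  obtain ⟨b1, b2⟩ := h.bd x hx hy
  have hT0 := T0_pos h.small h.t1
  have hT1 := T0_le h.small h.t0 h.t1
  have hT := tanh_pos hu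
  have hc := cosh_of_tanh hT.le b2 (by linarith only [hT1, hT0])
  refine ⟨hu, hc, ?_⟩
  have hp := Real.cosh_pos (uu w f t x)
  have e1 : Real.sinh (uu w f t x) = Real.tanh (uu w f t x) * Real.cosh (uu w f t x) := by
    rw [Real.tanh_eq_sinh_div_cosh, div_mul_cancel₀ _ hp.ne']
  rw [e1]
  calc Real.tanh (uu w f t x) * Real.cosh (uu w f t x) ≤ (11 / 10 * q.T0 t) * (1001 / 1000) :=
        mul_le_mul b2 hc hp.le (by positivity)
    _ ≤ 6 / 5 * q.T0 t := by linarith only [hT0]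

theorem Hyp.eb_x0 {x : ℝ} (hx : x ∈ Ioo (0 : ℝ) 1) (hy : yv w f t x = q.rho0) :
    eb q w f t x ≤ 11 / 10 * q.B * q.rho0 ^ 2 := by
  obtain ⟨hu, hc1, hs1⟩ := h.u_x0 hx hy
  have hT0 := T0_pos h.small h.t1
  have hT1 := T0_le h.small h.t0 h.t1
  have hT := tanh_pos hu
  have hta := h.tau_pos
  have hB : 0 < q.B := by linarith only [h, hT0, hT1, h.small.B1]
  have h1 : Real.tanh (uu w f t x) / q.T0 t ≤ 11 / 10 := by
    rw [div_le_iff₀ hT0]
    exact (h.bd x hx hy).2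
  have h2 : (Real.tanh (uu w f t x) / q.T0 t) ^ aa ≤ 11 / 10 := by
    have k1 : (Real.tanh (uu w f t x) / q.T0 t) ^ aa ≤ (11 / 10 : ℝ) ^ aa :=
      Real.rpow_le_rpow (by positivity) h1 (by norm_num [aa])
    have k2 : (11 / 10 : ℝ) ^ aa ≤ (11 / 10 : ℝ) ^ (1 : ℝ) :=
      Real.rpow_le_rpow_of_exponent_le (by norm_num) (by norm_num [aa])
    rw [Real.rpow_one] at k2
    exact k1.trans k2
  have h3 : Real.cosh (uu w f t x) ^ (-(1 - aa)) ≤ 1 :=
    Real.rpow_le_one_of_one_le_of_nonpos (Real.one_le_cosh _) (by norm_num [aa])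
  have h3' : 0 ≤ Real.cosh (uu w f t x) ^ (-(1 - aa)) :=
    Real.rpow_nonneg (Real.cosh_pos _).le _
  have h2' : 0 ≤ (Real.tanh (uu w f t x) / q.T0 t) ^ aa := Real.rpow_nonneg (by positivity) _
  have h4 : rr w f t x ^ 2 = q.rho0 ^ 2 * tau t := by
    have k1 : rr w f t x = q.rho0 * Real.sqrt (tau t) := by
      rw [← hy]; unfold yv
      have := h.sq_pos
      field_simp
    rw [k1, mul_pow, Real.sq_sqrt hta.le]
  have h5 : (Real.tanh (uu w f t x) / q.T0 t) ^ aa * Real.cosh (uu w f t x) ^ (-(1 - aa)) ≤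
      11 / 10 * 1 := mul_le_mul h2 h3 h3' (by norm_num)
  unfold eb Par.fb
  rw [h4]
  have e1 : q.rho0 ^ 2 * tau t * (q.B / tau t * (Real.tanh (uu w f t x) / q.T0 t) ^ aa *
      Real.cosh (uu w f t x) ^ (-(1 - aa))) = q.rho0 ^ 2 * q.B *
      ((Real.tanh (uu w f t x) / q.T0 t) ^ aa * Real.cosh (uu w f t x) ^ (-(1 - aa))) := by
    field_simp
  rw [e1]
  calc q.rho0 ^ 2 * q.B * ((Real.tanh (uu w f t x) / q.T0 t) ^ aa *
        Real.cosh (uu w f t x) ^ (-(1 - aa))) ≤ q.rho0 ^ 2 * q.B * (11 / 10 * 1) :=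
        mul_le_mul_of_nonneg_left h5 (by positivity)
    _ = 11 / 10 * q.B * q.rho0 ^ 2 := by ring

/-- (D1), the bound of `eb` -/
theorem Hyp.eb_le {x : ℝ} (hx : x ∈ Ioo (0 : ℝ) 1) (hy : yv w f t x ≤ q.rho0) :
    eb q w f t x ≤ 11 / 10 * q.B * q.rho0 ^ 2 := by
  obtain ⟨x0, hx0, hy0, hiff⟩ := h.exists_x0
  have hle := (hiff x hx).mp hy
  have hB : 0 < q.B := by linarith only [h, h.small.B1]
  have hr0 := h.small.r0
  have hδ : 0 < 11 / 10 * q.B * q.rho0 ^ 2 := by positivity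
  have hδ1 : 11 / 10 * q.B * q.rho0 ^ 2 ≤ 1 / 10000 := by
    have := h.small.Br
    linarith only [mul_pos hB (pow_pos hr0 2), this]
  have hmem : ∀ z ∈ Icc x0 x, z ∈ Ioo (0 : ℝ) 1 :=
    fun z hz => ⟨lt_of_lt_of_le hx0.1 hz.1, lt_of_le_of_lt hz.2 hx.2⟩
  have hb1 : ∀ z ∈ Icc x0 x, 0 < uu w f t z ∧ |ff g w f t z| ≤ q.fb t (uu w f t z) :=
    fun z hz => h.b1 z (hmem z hz) ((hiff z (hmem z hz)).mpr hz.1)
  have key : ∀ ⦃z⦄, z ∈ Icc x0 x → Lf w f t z ≤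
      (fun _ => Real.log (11 / 10 * q.B * q.rho0 ^ 2) - Lc q t) z := by
    refine image_le_of_deriv_right_lt_deriv_boundary'
      (f' := fun z => M2.r1 w f t z * (2 - aa * (GG w f t z *
        ((1 - Real.tanh (uu w f t z) ^ 2) / Real.tanh (uu w f t z)))
        + (1 - aa) * (GG w f t z * Real.tanh (uu w f t z)))) (B' := fun _ => 0) ?_ ?_ ?_
        continuousOn_const ?_ ?_
    · intro z hz
      exact (h.dLf (hmem z hz) (hb1 z hz).1).continuousAt.continuousWithinAt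
    · intro z hz
      exact (h.dLf (hmem z (Ico_subset_Icc_self hz)) (hb1 z (Ico_subset_Icc_self hz)).1).hasDerivWithinAt
    · have k1 := h.eb_x0 hx0 hy0
      rw [eb_eq h.small h.t1 (hb1 x0 ⟨le_rfl, hle⟩).1] at k1
      have k2 := Real.log_le_log (Real.exp_pos _) k1
      rw [Real.log_exp] at k2
      show Lf w f t x0 ≤ Real.log (11 / 10 * q.B * q.rho0 ^ 2) - Lc q t
      linarith only [k2]
    · intro z _
      exact hasDerivWithinAt_const _ _ _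
    · intro z hz hzeq
      have hz' := Ico_subset_Icc_self hz
      obtain ⟨hu, hf⟩ := hb1 z hz'
      have hT := tanh_pos hu
      have hT1 := Real.tanh_lt_one (uu w f t z)
      have k1 : eb q w f t z = 11 / 10 * q.B * q.rho0 ^ 2 := by
        rw [eb_eq h.small h.t1 hu]
        have : Lf w f t z + Lc q t = Real.log (11 / 10 * q.B * q.rho0 ^ 2) := by
          rw [hzeq]; ring
        rw [this, Real.exp_log hδ]
      have k2 : |ee g w f t z| ≤ 1 / 10000 := by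
        rw [e_abs]
        have k3 : rr w f t z ^ 2 * |ff g w f t z| ≤ eb q w f t z := by
          unfold eb
          exact mul_le_mul_of_nonneg_left hf (sq_nonneg _)
        linarith only [hδ1, k1, k3]
      obtain ⟨G1, G2⟩ := h.G_bd hu k2 (by norm_num)
      have hG0 : 0 ≤ GG w f t z := by
        refine le_trans ?_ G1
        have := hT.le
        positivity
      have k4 : GG w f t z * ((1 - Real.tanh (uu w f t z) ^ 2) / Real.tanh (uu w f t z)) ≤ 3 := by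
        have k5 : (1 - Real.tanh (uu w f t z) ^ 2) / Real.tanh (uu w f t z) ≤
            1 / Real.tanh (uu w f t z) :=
          div_le_div_of_nonneg_right (by nlinarith only []) hT.le
        have k6 : GG w f t z * (1 / Real.tanh (uu w f t z)) ≤ 3 := by
          rw [mul_one_div, div_le_iff₀ hT]
          have := PureF.kap_lt
          nlinarith only [hδ, hδ1, hT, G1, G2, this]
        exact (mul_le_mul_of_nonneg_left k5 hG0).trans k6
      have k7 : 0 ≤ GG w f t z * Real.tanh (uu w f t z) := mul_nonneg hG0 hT.le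
      refine mul_neg_of_neg_of_pos (h.r1n (hmem z hz')) ?_
      norm_num [aa]
      linarith only [k7, k4, hδ1, hδ]
  have k1 := key (right_mem_Icc.mpr hle)
  rw [eb_eq h.small h.t1 (hb1 x ⟨hle, le_rfl⟩).1, ← Real.le_log_iff_exp_le hδ]
  simp only at k1
  linarith only [k1]

/-- (D1) -/
theorem Hyp.D1 {x : ℝ} (hx : x ∈ Ioo (0 : ℝ) 1) (hy : yv w f t x ≤ q.rho0) :
    |ee g w f t x| ≤ rr w f t x ^ 2 * q.fb t (uu w f t x) ∧
      rr w f t x ^ 2 * q.fb t (uu w f t x) ≤ 11 / 10 * q.B * q.rho0 ^ 2 := by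
  refine ⟨?_, h.eb_le hx hy⟩
  rw [e_abs]
  exact mul_le_mul_of_nonneg_left (h.b1 x hx hy).2 (sq_nonneg _)

theorem Hyp.e_small {x : ℝ} (hx : x ∈ Ioo (0 : ℝ) 1) (hy : yv w f t x ≤ q.rho0) :
    |ee g w f t x| ≤ 1 / 10000 := by
  obtain ⟨h1, h2⟩ := h.D1 hx hy
  have hB : 0 < q.B := by linarith only [h, h.small.B1]
  have := h.small.Br
  linarith only [mul_pos hB (pow_pos h.small.r0 2), this, h2, h1]

/-- (D2) -/
theorem Hyp.D2 {x : ℝ} (hx : x ∈ Ioo (0 : ℝ) 1) (hy : yv w f t x ≤ q.rho0) :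
    2 * (1 - 1 / 10000) * Real.tanh (uu w f t x) ≤ GG w f t x ∧
      GG w f t x ≤ kap * (1 + 1 / 10000) * Real.tanh (uu w f t x) :=
  h.G_bd (h.b1 x hx hy).1 (h.e_small hx hy) (by norm_num)

end

end

end Vale.Agent.P244.ST.RegI
end

section

/-!
# P244-ST, block M2 : region I, (D1)-(D4), final statements
-/

open Set Filter Topology
open scoped ContDiff

namespace Vale.Agent.P244.ST.RegI

noncomputable section

variable {q : Par} {g : ℝ → ℝ} {w f : Fn} {t : ℝ}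

theorem tanh_mono {a b : ℝ} (hab : a ≤ b) : Real.tanh a ≤ Real.tanh b := by
  have h1 : Monotone Real.tanh := by
    refine monotone_of_deriv_nonneg (fun x => (PureF.hasDerivAt_tanh x).differentiableAt) ?_
    intro x
    rw [(PureF.hasDerivAt_tanh x).deriv]
    have h2 := Real.tanh_lt_one x
    have h3 := Real.neg_one_lt_tanh x
    nlinarith only [h2, h3]
  exact h1 hab

section

variable (h : Hyp q g w f t)
include h

/-- a segment of region I -/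
theorem Hyp.seg {x x' : ℝ} (hx : x ∈ Ioo (0 : ℝ) 1) (hx' : x' ∈ Ioo (0 : ℝ) 1)
    (hy : yv w f t x ≤ q.rho0) : ∀ z ∈ Icc x x', z ∈ Ioo (0 : ℝ) 1 ∧ yv w f t z ≤ q.rho0 := by
  obtain ⟨x0, hx0, _, hiff⟩ := h.exists_x0
  intro z hz
  have hz1 : z ∈ Ioo (0 : ℝ) 1 := ⟨lt_of_lt_of_le hx.1 hz.1, lt_of_le_of_lt hz.2 hx'.2⟩
  exact ⟨hz1, (hiff z hz1).mpr (((hiff x hx).mp hy).trans hz.1)⟩

theorem Hyp.G_nonneg {x : ℝ} (hx : x ∈ Ioo (0 : ℝ) 1) (hy : yv w f t x ≤ q.rho0) :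
    0 ≤ GG w f t x := by
  refine le_trans ?_ (h.D2 hx hy).1
  have := (tanh_pos (h.b1 x hx hy).1).le
  positivity

/-- `u` increases towards the tip -/
theorem Hyp.u_mono {x x' : ℝ} (hx : x ∈ Ioo (0 : ℝ) 1) (hx' : x' ∈ Ioo (0 : ℝ) 1)
    (hy : yv w f t x ≤ q.rho0) (hle : x ≤ x') : uu w f t x ≤ uu w f t x' := by
  have hs := h.seg hx hx' hy
  refine mono_of (F' := fun z => M2.r1 w f t z * -(GG w f t z)) (fun z hz => h.du (hs z hz).1)
    (fun z hz => ?_) hle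
  exact mul_nonneg_of_nonpos_of_nonpos (h.r1n (hs z hz).1).le
    (neg_nonpos.mpr (h.G_nonneg (hs z hz).1 (hs z hz).2))

/-- (D1), lower bound of `tanh u` -/
theorem Hyp.D1T {x : ℝ} (hx : x ∈ Ioo (0 : ℝ) 1) (hy : yv w f t x ≤ q.rho0) :
    9 / 10 * q.T0 t ≤ Real.tanh (uu w f t x) := by
  obtain ⟨x0, hx0, hy0, hiff⟩ := h.exists_x0
  have hle := (hiff x hx).mp hy
  exact (h.bd x0 hx0 hy0).1.trans (tanh_mono (h.u_mono hx0 hx hy0.le hle))

/-- (D2), comparison of `sinh u` at two points, upper bound -/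
theorem Hyp.D2log {x x' : ℝ} (hx : x ∈ Ioo (0 : ℝ) 1) (hx' : x' ∈ Ioo (0 : ℝ) 1)
    (hy : yv w f t x ≤ q.rho0) (hle : x ≤ x') :
    Real.log (Real.sinh (uu w f t x')) + kap * (1 + 1 / 10000) * rho w f t x' ≤
      Real.log (Real.sinh (uu w f t x)) + kap * (1 + 1 / 10000) * rho w f t x ∧
    Real.log (Real.sinh (uu w f t x)) + 2 * (1 - 1 / 10000) * rho w f t x ≤
      Real.log (Real.sinh (uu w f t x')) + 2 * (1 - 1 / 10000) * rho w f t x' := by
  have hs := h.seg hx hx' hy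
  have hu : ∀ z ∈ Icc x x', 0 < uu w f t z := fun z hz => (h.b1 z (hs z hz).1 (hs z hz).2).1
  constructor
  · refine anti_of (F := fun z => Real.log (Real.sinh (uu w f t z))
      + kap * (1 + 1 / 10000) * rho w f t z)
      (F' := fun z => M2.r1 w f t z * -(GG w f t z / Real.tanh (uu w f t z))
        + kap * (1 + 1 / 10000) * M2.r1 w f t z)
      (fun z hz => (h.dlogsinh (hs z hz).1 (hu z hz)).add ((h.drho (hs z hz).1).const_mul _))
      (fun z hz => ?_) hle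
    have hT := tanh_pos (hu z hz)
    have h1 : GG w f t z / Real.tanh (uu w f t z) ≤ kap * (1 + 1 / 10000) := by
      rw [div_le_iff₀ hT]; exact (h.D2 (hs z hz).1 (hs z hz).2).2
    have h2 := h.r1n (hs z hz).1
    have e : M2.r1 w f t z * -(GG w f t z / Real.tanh (uu w f t z))
        + kap * (1 + 1 / 10000) * M2.r1 w f t z =
        M2.r1 w f t z * (kap * (1 + 1 / 10000) - GG w f t z / Real.tanh (uu w f t z)) := by ring
    rw [e]
    exact mul_nonpos_of_nonpos_of_nonneg h2.le (by linarith only [h1])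
  · refine mono_of (F := fun z => Real.log (Real.sinh (uu w f t z))
      + 2 * (1 - 1 / 10000) * rho w f t z)
      (F' := fun z => M2.r1 w f t z * -(GG w f t z / Real.tanh (uu w f t z))
        + 2 * (1 - 1 / 10000) * M2.r1 w f t z)
      (fun z hz => (h.dlogsinh (hs z hz).1 (hu z hz)).add ((h.drho (hs z hz).1).const_mul _))
      (fun z hz => ?_) hle
    have hT := tanh_pos (hu z hz)
    have h1 : 2 * (1 - 1 / 10000) ≤ GG w f t z / Real.tanh (uu w f t z) := by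
      rw [le_div_iff₀ hT]; exact (h.D2 (hs z hz).1 (hs z hz).2).1
    have h2 := h.r1n (hs z hz).1
    have e : M2.r1 w f t z * -(GG w f t z / Real.tanh (uu w f t z))
        + 2 * (1 - 1 / 10000) * M2.r1 w f t z =
        -M2.r1 w f t z * (GG w f t z / Real.tanh (uu w f t z) - 2 * (1 - 1 / 10000)) := by ring
    rw [e]
    exact mul_nonneg (by linarith only [h2]) (by linarith only [h1])

/-- (D2), power form -/
theorem Hyp.D2pow {x x' : ℝ} (hx : x ∈ Ioo (0 : ℝ) 1) (hx' : x' ∈ Ioo (0 : ℝ) 1)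
    (hy : yv w f t x ≤ q.rho0) (hle : x ≤ x') :
    Real.sinh (uu w f t x') ≤ Real.sinh (uu w f t x) *
      (rr w f t x / rr w f t x') ^ (kap * (1 + 1 / 10000)) ∧
    Real.sinh (uu w f t x) * (rr w f t x / rr w f t x') ^ ((2 : ℝ) * (1 - 1 / 10000)) ≤
      Real.sinh (uu w f t x') := by
  obtain ⟨h1, h2⟩ := h.D2log hx hx' hy hle
  have hs := h.seg hx hx' hy
  have hu := (h.b1 x hx hy).1
  have hu' := (h.b1 x' hx' (hs x' ⟨hle, le_rfl⟩).2).1
  have hsx : 0 < Real.sinh (uu w f t x) := Real.sinh_pos_iff.mpr hu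
  have hsx' : 0 < Real.sinh (uu w f t x') := Real.sinh_pos_iff.mpr hu'
  have hr := M2.rr_pos (w := w) (f := f) (t := t) x
  have hr' := M2.rr_pos (w := w) (f := f) (t := t) x'
  have e1 : Real.log (rr w f t x / rr w f t x') = rho w f t x - rho w f t x' := by
    rw [Real.log_div hr.ne' hr'.ne', rr, rr, Real.log_exp, Real.log_exp]
  have e2 : ∀ c : ℝ, Real.sinh (uu w f t x) * (rr w f t x / rr w f t x') ^ c =
      Real.exp (Real.log (Real.sinh (uu w f t x)) + c * (rho w f t x - rho w f t x')) := by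
    intro c
    rw [Real.exp_add, Real.exp_log hsx, Real.rpow_def_of_pos (by positivity), e1, mul_comm c]
  rw [e2, e2]
  constructor
  · rw [← Real.log_le_iff_le_exp hsx']
    linarith only [h1]
  · rw [← Real.le_log_iff_exp_le hsx']
    linarith only [h2]

/-- (D3), monotonicity -/
theorem Hyp.D3anti {x x' : ℝ} (hx : x ∈ Ioo (0 : ℝ) 1) (hx' : x' ∈ Ioo (0 : ℝ) 1)
    (hy : yv w f t x ≤ q.rho0) (hle : x ≤ x') :
    rr w f t x' ^ 2 * Real.cosh (uu w f t x') ≤ rr w f t x ^ 2 * Real.cosh (uu w f t x) := by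
  have hs := h.seg hx hx' hy
  have h1 : 2 * rho w f t x' + Real.log (Real.cosh (uu w f t x')) ≤
      2 * rho w f t x + Real.log (Real.cosh (uu w f t x)) := by
    refine anti_of (F := fun z => 2 * rho w f t z + Real.log (Real.cosh (uu w f t z)))
      (F' := fun z => 2 * M2.r1 w f t z + M2.r1 w f t z * -(GG w f t z * Real.tanh (uu w f t z)))
      (fun z hz => ((h.drho (hs z hz).1).const_mul 2).add (h.dlogcosh (hs z hz).1))
      (fun z hz => ?_) hle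
    have hT := tanh_pos (h.b1 z (hs z hz).1 (hs z hz).2).1
    have hT1 := Real.tanh_lt_one (uu w f t z)
    have hG := (abs_le.mp (h.G_le z (hs z hz).1)).2
    have h2 : GG w f t z * Real.tanh (uu w f t z) ≤ 2 * 1 :=
      mul_le_mul hG hT1.le hT.le (by norm_num)
    have h3 := h.r1n (hs z hz).1
    have e : 2 * M2.r1 w f t z + M2.r1 w f t z * -(GG w f t z * Real.tanh (uu w f t z)) =
        M2.r1 w f t z * (2 - GG w f t z * Real.tanh (uu w f t z)) := by ring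
    rw [e]
    exact mul_nonpos_of_nonpos_of_nonneg h3.le (by linarith only [h2])
  have e : ∀ z, rr w f t z ^ 2 * Real.cosh (uu w f t z) =
      Real.exp (2 * rho w f t z + Real.log (Real.cosh (uu w f t z))) := by
    intro z
    rw [Real.exp_add, Real.exp_log (Real.cosh_pos _), rr, ← Real.exp_nat_mul]
    push_cast
    rfl
  rw [e, e]
  exact Real.exp_le_exp.mpr h1

theorem Hyp.rr_x0 {x : ℝ} (hy : yv w f t x = q.rho0) :
    rr w f t x = q.rho0 * Real.sqrt (tau t) := by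
  rw [← hy]; unfold yv
  have := h.sq_pos
  field_simp

theorem Hyp.rr_x0_sq {x : ℝ} (hy : yv w f t x = q.rho0) :
    rr w f t x ^ 2 = q.rho0 ^ 2 * tau t := by
  rw [h.rr_x0 hy, mul_pow, Real.sq_sqrt h.tau_pos.le]

/-- (D3) -/
theorem Hyp.D3 {x : ℝ} (hx : x ∈ Ioo (0 : ℝ) 1) (hy : yv w f t x ≤ q.rho0) :
    rr w f t x ^ 2 * Real.cosh (uu w f t x) ≤ 101 / 100 * q.rho0 ^ 2 * tau t := by
  obtain ⟨x0, hx0, hy0, hiff⟩ := h.exists_x0
  have hle := (hiff x hx).mp hy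
  have h1 := h.D3anti hx0 hx hy0.le hle
  have h2 := (h.u_x0 hx0 hy0).2.1
  rw [h.rr_x0_sq hy0] at h1
  have h3 : 0 ≤ q.rho0 ^ 2 * tau t := mul_nonneg (sq_nonneg _) h.tau_pos.le
  have h4 := mul_le_mul_of_nonneg_left h2 h3
  linarith only [h4, h3, h1]

/-- (D4) -/
theorem Hyp.D4 {x : ℝ} (hx : x ∈ Ioo (0 : ℝ) 1) (hy : yv w f t x ≤ q.rho0)
    (hs1 : 1 ≤ Real.sinh (uu w f t x)) :
    rr w f t x ^ 2 * Real.cosh (uu w f t x) ≤ Real.sqrt 2 * q.rho0 ^ 2 * tau t *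
      (6 / 5 * q.T0 t) ^ (2 / (kap * (1 + 1 / 10000))) := by
  obtain ⟨x0, hx0, hy0, hiff⟩ := h.exists_x0
  have hle := (hiff x hx).mp hy
  have hs := h.seg hx0 hx hy0.le
  have hT0 := T0_pos h.small h.t1
  have hT1 := T0_le h.small h.t0 h.t1
  have k2 := (h.u_x0 hx0 hy0).2.2
  have hcont : ContinuousOn (fun z => Real.sinh (uu w f t z)) (Icc x0 x) :=
    fun z hz => (h.du (hs z hz).1).sinh.continuousAt.continuousWithinAt
  obtain ⟨x1, hx1, he⟩ := intermediate_value_Icc hle hcont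
    (show (1 : ℝ) ∈ Icc (Real.sinh (uu w f t x0)) (Real.sinh (uu w f t x)) from
      ⟨by linarith only [k2, hT1, hT0], hs1⟩)
  simp only at he
  have hx1' := (hs x1 hx1).1
  have h1 := h.D3anti hx1' hx (hs x1 hx1).2 hx1.2
  have h2 : Real.cosh (uu w f t x1) = Real.sqrt 2 := by
    have h3 := Real.cosh_sq (uu w f t x1)
    rw [he] at h3
    rw [← Real.sqrt_sq (Real.cosh_pos (uu w f t x1)).le, h3]
    norm_num
  rw [h2] at h1
  have h4 := (h.D2pow hx0 hx1' hy0.le hx1.1).1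
  rw [he] at h4
  have hr0 := M2.rr_pos (w := w) (f := f) (t := t) x0
  have hr1 := M2.rr_pos (w := w) (f := f) (t := t) x1
  have hkp : 0 < kap * (1 + 1 / 10000) := mul_pos kap_pos (by norm_num)
  -- `(r₁/r₀)^κ' ≤ 11/10 T₀`
  have h5 : (rr w f t x1 / rr w f t x0) ^ (kap * (1 + 1 / 10000)) ≤ 6 / 5 * q.T0 t := by
    have e : rr w f t x1 / rr w f t x0 = (rr w f t x0 / rr w f t x1)⁻¹ := by rw [inv_div]
    rw [e, Real.inv_rpow (by positivity)]
    have hp : 0 < (rr w f t x0 / rr w f t x1) ^ (kap * (1 + 1 / 10000)) := by positivity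
    rw [inv_le_iff_one_le_mul₀ hp]
    exact h4.trans (mul_le_mul_of_nonneg_right k2 hp.le)
  have h6 : (rr w f t x1 / rr w f t x0) ^ 2 ≤
      (6 / 5 * q.T0 t) ^ (2 / (kap * (1 + 1 / 10000))) := by
    have h7 : ((rr w f t x1 / rr w f t x0) ^ (kap * (1 + 1 / 10000))) ^
        (2 / (kap * (1 + 1 / 10000))) ≤ (6 / 5 * q.T0 t) ^ (2 / (kap * (1 + 1 / 10000))) :=
      Real.rpow_le_rpow (by positivity) h5 (by positivity)
    rw [← Real.rpow_mul (by positivity)] at h7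
    have e : kap * (1 + 1 / 10000) * (2 / (kap * (1 + 1 / 10000))) = 2 :=
      mul_div_cancel₀ 2 hkp.ne'
    rw [e] at h7
    have e2 : (rr w f t x1 / rr w f t x0) ^ (2 : ℝ) = (rr w f t x1 / rr w f t x0) ^ 2 := by
      exact_mod_cast Real.rpow_natCast (rr w f t x1 / rr w f t x0) 2
    rw [e2] at h7
    exact h7
  have h8 : rr w f t x1 ^ 2 ≤ q.rho0 ^ 2 * tau t *
      (6 / 5 * q.T0 t) ^ (2 / (kap * (1 + 1 / 10000))) := by
    have e : rr w f t x1 ^ 2 = rr w f t x0 ^ 2 * (rr w f t x1 / rr w f t x0) ^ 2 := by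
      field_simp
    rw [e, h.rr_x0_sq hy0]
    exact mul_le_mul_of_nonneg_left h6 (mul_nonneg (sq_nonneg _) h.tau_pos.le)
  have h9 := mul_le_mul_of_nonneg_right h8 (Real.sqrt_nonneg 2)
  linarith only [h9, h1]

/-- (D4), the product `eb · cosh u` -/
theorem Hyp.D4e {x : ℝ} (hx : x ∈ Ioo (0 : ℝ) 1) (hy : yv w f t x ≤ q.rho0) :
    rr w f t x ^ 2 * q.fb t (uu w f t x) * Real.cosh (uu w f t x) ≤ 2 * q.B * q.rho0 ^ 2 := by
  have hu := (h.b1 x hx hy).1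
  have hB : 0 < q.B := by linarith only [h, h.small.B1]
  have hr0 := h.small.r0
  have hc := Real.cosh_pos (uu w f t x)
  have hc1 := Real.one_le_cosh (uu w f t x)
  have hta := h.tau_pos
  have hT := tanh_pos hu
  have hT0 := T0_pos h.small h.t1
  have hT1 := T0_le h.small h.t0 h.t1
  have hBr : 0 < q.B * q.rho0 ^ 2 := by positivity
  rcases le_or_gt (Real.sinh (uu w f t x)) 1 with hs | hs
  · have h1 := (h.D1 hx hy).2
    have h2 : Real.cosh (uu w f t x) ≤ 3 / 2 := by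
      have h3 := Real.cosh_sq (uu w f t x)
      have h4 : 0 ≤ Real.sinh (uu w f t x) := (Real.sinh_pos_iff.mpr hu).le
      (by_contra nlg; linarith only [nlg, mul_eq_zero_of_left (sub_eq_zero.2 h3) (Real.sinh (uu w f t x) - (0)), mul_nonneg (sub_nonneg.2 hs) (sub_nonneg.2 h4), mul_eq_zero_of_left (sub_eq_zero.2 h3) (1 - (Real.sinh (uu w f t x))), mul_nonneg (sub_nonneg.2 hs) (sub_nonneg.2 hs), mul_nonneg (sub_nonneg.2 hc1) (sub_nonneg.2 hc1), mul_nonneg (le_of_lt (sub_pos.2 (not_le.1 nlg))) (sub_nonneg.2 hT1), mul_pos (sub_pos.2 (not_le.1 nlg)) (sub_pos.2 hT0)])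
    have h5 : 0 ≤ rr w f t x ^ 2 * q.fb t (uu w f t x) := by
      have := h.D1 hx hy
      exact (abs_nonneg _).trans this.1
    calc rr w f t x ^ 2 * q.fb t (uu w f t x) * Real.cosh (uu w f t x) ≤
        (11 / 10 * q.B * q.rho0 ^ 2) * (3 / 2) := mul_le_mul h1 h2 hc.le (by positivity)
      _ ≤ 2 * q.B * q.rho0 ^ 2 := by linarith only [hBr]
  · have h1 := h.D4 hx hy hs.le
    have e1 : rr w f t x ^ 2 * q.fb t (uu w f t x) * Real.cosh (uu w f t x) =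
        q.B / tau t * (Real.tanh (uu w f t x) / q.T0 t) ^ aa *
          (Real.cosh (uu w f t x)) ^ (-(1 - aa)) * (rr w f t x ^ 2 * Real.cosh (uu w f t x)) := by
      unfold Par.fb; ring
    have h2 : Real.cosh (uu w f t x) ^ (-(1 - aa)) ≤ 1 :=
      Real.rpow_le_one_of_one_le_of_nonpos hc1 (by norm_num [aa])
    have h2' : 0 ≤ Real.cosh (uu w f t x) ^ (-(1 - aa)) := Real.rpow_nonneg hc.le _
    have h3 : (Real.tanh (uu w f t x) / q.T0 t) ^ aa ≤ (1 / q.T0 t) ^ aa :=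
      Real.rpow_le_rpow (by positivity)
        (div_le_div_of_nonneg_right (Real.tanh_lt_one _).le hT0.le) (by norm_num [aa])
    have h3' : 0 ≤ (Real.tanh (uu w f t x) / q.T0 t) ^ aa := Real.rpow_nonneg (by positivity) _
    have h4 : (1 / q.T0 t) ^ aa * (6 / 5 * q.T0 t) ^ (2 / (kap * (1 + 1 / 10000))) ≤
        6 / 5 := by
      have k0 : 0 < 6 / 5 * q.T0 t := by positivity
      have k1 : (6 / 5 * q.T0 t) ^ (2 / (kap * (1 + 1 / 10000))) ≤ (6 / 5 * q.T0 t) ^ aa := by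
        refine Real.rpow_le_rpow_of_exponent_ge k0 (by linarith only [hT0, hT1]) ?_
        rw [le_div_iff₀ (mul_pos kap_pos (by norm_num))]
        have := PureF.kap_lt
        have hk := kap_pos
        norm_num [aa]
        linarith only [this, hT1, hT0]
      have k2 : (1 / q.T0 t) ^ aa * (6 / 5 * q.T0 t) ^ aa = (6 / 5 : ℝ) ^ aa := by
        rw [← Real.mul_rpow (by positivity) k0.le]
        congr 1
        field_simp
      have k3 : (6 / 5 : ℝ) ^ aa ≤ (6 / 5 : ℝ) ^ (1 : ℝ) :=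
        Real.rpow_le_rpow_of_exponent_le (by norm_num) (by norm_num [aa])
      rw [Real.rpow_one] at k3
      calc (1 / q.T0 t) ^ aa * (6 / 5 * q.T0 t) ^ (2 / (kap * (1 + 1 / 10000)))
          ≤ (1 / q.T0 t) ^ aa * (6 / 5 * q.T0 t) ^ aa :=
            mul_le_mul_of_nonneg_left k1 (Real.rpow_nonneg (by positivity) _)
        _ = (6 / 5 : ℝ) ^ aa := k2
        _ ≤ 6 / 5 := k3
    have h5 : Real.sqrt 2 ≤ 3 / 2 := by
      rw [Real.sqrt_le_left (by norm_num)]; norm_num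
    have hp : 0 ≤ (6 / 5 * q.T0 t) ^ (2 / (kap * (1 + 1 / 10000))) :=
      Real.rpow_nonneg (by positivity) _
    have h6 : (Real.tanh (uu w f t x) / q.T0 t) ^ aa *
        (Real.cosh (uu w f t x)) ^ (-(1 - aa)) ≤ (1 / q.T0 t) ^ aa * 1 :=
      mul_le_mul h3 h2 h2' (Real.rpow_nonneg (by positivity) _)
    have h7 : 0 ≤ (Real.tanh (uu w f t x) / q.T0 t) ^ aa *
        (Real.cosh (uu w f t x)) ^ (-(1 - aa)) := mul_nonneg h3' h2'
    rw [e1]
    calc q.B / tau t * (Real.tanh (uu w f t x) / q.T0 t) ^ aa *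
          (Real.cosh (uu w f t x)) ^ (-(1 - aa)) * (rr w f t x ^ 2 * Real.cosh (uu w f t x))
        = q.B / tau t * ((Real.tanh (uu w f t x) / q.T0 t) ^ aa *
          (Real.cosh (uu w f t x)) ^ (-(1 - aa)) * (rr w f t x ^ 2 * Real.cosh (uu w f t x))) := by
          ring
      _ ≤ q.B / tau t * ((1 / q.T0 t) ^ aa * 1 * (Real.sqrt 2 * q.rho0 ^ 2 * tau t *
          (6 / 5 * q.T0 t) ^ (2 / (kap * (1 + 1 / 10000))))) := by
          refine mul_le_mul_of_nonneg_left ?_ (by positivity)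
          exact mul_le_mul h6 h1 (by positivity) (by positivity)
      _ = q.B * q.rho0 ^ 2 * (Real.sqrt 2 *
          ((1 / q.T0 t) ^ aa * (6 / 5 * q.T0 t) ^ (2 / (kap * (1 + 1 / 10000))))) := by
          field_simp
      _ ≤ q.B * q.rho0 ^ 2 * (3 / 2 * (6 / 5)) := by
          refine mul_le_mul_of_nonneg_left ?_ hBr.le
          exact mul_le_mul h5 h4 (mul_nonneg (Real.rpow_nonneg (by positivity) _) hp)
            (by norm_num)
      _ ≤ 2 * q.B * q.rho0 ^ 2 := by linarith only [hBr]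

end

end

end Vale.Agent.P244.ST.RegI
end

section

/-!
# P244-ST : the barrier `RB` is at most `3 η` (pure inequalities)
-/

open Set
open scoped ContDiff

namespace Vale.Agent.P244.ST.RBL

open Vale.Agent.P244.ST

theorem kap_gt : (211 : ℝ) / 100 < kap := by
  unfold kap
  have h : Real.sqrt 1209 < 3478 / 100 := by
    rw [Real.sqrt_lt' (by norm_num)]; norm_num
  linarith only [h]

theorem kap_lt : kap < (212 : ℝ) / 100 := by
  unfold kap
  have h : (3476 : ℝ) / 100 < Real.sqrt 1209 := by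
    rw [Real.lt_sqrt (by norm_num)]; norm_num
  linarith only [h]

/-- the exponent `2/κ'` -/
noncomputable def se : ℝ := 2 / (kap * (1 + 1 / 10000))

theorem se_gt : (94 : ℝ) / 100 < se := by
  unfold se
  have h1 := kap_gt
  have h2 := kap_lt
  rw [lt_div_iff₀ (by linarith only [h2, h1])]
  linarith only [h2, h1]

theorem se_lt : se < (95 : ℝ) / 100 := by
  unfold se
  have h1 := kap_gt
  have h2 := kap_lt
  rw [div_lt_iff₀ (by linarith only [h2, h1])]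
  linarith only [h2, h1]

theorem lam3 : lam 3 = 3 - kap / 2 := by unfold lam; norm_num

theorem exp_tau : 0 ≤ 1 + lam 3 * se - gam := by
  unfold gam aa
  rw [lam3]
  have h1 := kap_gt
  have h2 := kap_lt
  have h3 := se_gt
  nlinarith only [h1, h2, h3]

/-- size of the second part of `RB` in region I -/
noncomputable def cI (q : Par) : ℝ :=
  2 * |q.GR| * q.rho0 ^ 2 * (6 / 5 : ℝ) ^ se * q.rho0 ^ (-(kap * se))

theorem rb_I : Ev fun q => ∀ t ∈ Ico (0 : ℝ) 1, ∀ r u : ℝ, 0 < r →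
    r ^ 2 * (Real.cosh u - 1) ≤ 2 * q.rho0 ^ 2 * tau t * (6 / 5 * q.T0 t) ^ se →
    q.RB t r u ≤ 3 * q.eta := by
  have hE : Ev fun q => q.eps ≤ (q.eta / (cI q + 1)) ^ 2 := by
    apply ev_eps
    · intro q q' h _ _ hN
      unfold cI Par.eta
      rw [h.GR, h.rho0, hN]
    · intro q h0 _ _ hN
      have h1 : 0 ≤ cI q := by unfold cI; positivity
      have h2 : 0 < q.eta := by unfold Par.eta; positivity
      positivity
  refine ((ev_pos (K := 1) one_pos).and hE).mono ?_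
  rintro q ⟨hP, hq⟩ t ht r u hr hQ
  have hτ : 0 < tau t := by unfold tau; linarith only [ht, ht.2]
  have hτ1 : tau t ≤ 1 := by unfold tau; linarith only [ht, ht.1]
  have hε : 0 < q.eps := hP.eps
  have hε1 : q.eps ≤ 1 := by have := hP.eps'; norm_num at this; exact this
  have hρ : 0 < q.rho0 := hP.rho0
  have hGR : 0 ≤ q.GR := le_trans zero_le_one hP.GR
  have hN : 0 < q.N := lt_of_lt_of_le one_pos hP.N
  have hη : 0 < q.eta := by unfold Par.eta; positivity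
  have hs0 : 0 < se := lt_trans (by norm_num) se_gt
  unfold Par.RB
  have h1 : q.eta * (1 + t) ≤ 2 * q.eta := by nlinarith only [ht, hη, ht.2]
  -- the second part
  have hb : tau t ≤ tau t + r ^ 2 / 100 := le_add_of_nonneg_right (by positivity)
  have hγ : 0 < gam := by
    unfold gam aa; rw [lam3]; linarith only [kap_lt]
  have h2 : (tau t + r ^ 2 / 100) ^ (-gam) ≤ (tau t) ^ (-gam) :=
    Real.rpow_le_rpow_of_nonpos hτ hb (by linarith only [hγ])
  have hcosh : 0 ≤ Real.cosh u - 1 := by linarith only [Real.one_le_cosh u]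
  have hε2 : 0 < q.eps ^ (-(2 * aa)) := Real.rpow_pos_of_pos hε _
  have h3 : q.GR * r ^ 2 * (Real.cosh u - 1) * q.eps ^ (-(2 * aa)) * (tau t + r ^ 2 / 100) ^ (-gam)
      ≤ q.GR * (2 * q.rho0 ^ 2 * tau t * (6 / 5 * q.T0 t) ^ se) * q.eps ^ (-(2 * aa))
        * (tau t) ^ (-gam) := by
    have e1 : q.GR * r ^ 2 * (Real.cosh u - 1) ≤
        q.GR * (2 * q.rho0 ^ 2 * tau t * (6 / 5 * q.T0 t) ^ se) := by
      rw [mul_assoc]; exact mul_le_mul_of_nonneg_left hQ hGR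
    have e2 : 0 ≤ q.GR * r ^ 2 * (Real.cosh u - 1) := by positivity
    exact mul_le_mul (mul_le_mul_of_nonneg_right e1 hε2.le) h2
      (Real.rpow_nonneg (by positivity) _) (mul_nonneg (e2.trans e1) hε2.le)
  -- rewrite in powers
  have h4 : (6 / 5 * q.T0 t) ^ se =
      (6 / 5 : ℝ) ^ se * (q.eps ^ se * (tau t) ^ (lam 3 * se) * q.rho0 ^ (-(kap * se))) := by
    unfold Par.T0 Par.A
    rw [Real.mul_rpow (by norm_num) (by positivity), Real.mul_rpow (by positivity) (by positivity),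
      Real.mul_rpow hε.le (by positivity), ← Real.rpow_mul hτ.le, ← Real.rpow_mul hρ.le]
    congr 3; ring
  have h5 : q.GR * (2 * q.rho0 ^ 2 * tau t * (6 / 5 * q.T0 t) ^ se) * q.eps ^ (-(2 * aa))
        * (tau t) ^ (-gam) = cI q * (q.eps ^ (se - 2 * aa) * (tau t) ^ (1 + lam 3 * se - gam)) := by
    rw [h4]
    unfold cI
    rw [abs_of_nonneg hGR]
    have e1 : q.eps ^ (se - 2 * aa) = q.eps ^ se * q.eps ^ (-(2 * aa)) := by
      rw [← Real.rpow_add hε]; ring_nf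
    have e2 : (tau t) ^ (1 + lam 3 * se - gam) = tau t * (tau t) ^ (lam 3 * se) * (tau t) ^ (-gam) := by
      rw [sub_eq_add_neg, Real.rpow_add hτ, Real.rpow_add hτ, Real.rpow_one]
    rw [e1, e2]; ring
  have h6 : (tau t) ^ (1 + lam 3 * se - gam) ≤ 1 := Real.rpow_le_one hτ.le hτ1 exp_tau
  have h7 : q.eps ^ (se - 2 * aa) ≤ q.eps ^ (1 / 2 : ℝ) :=
    Real.rpow_le_rpow_of_exponent_ge hε hε1 (by unfold aa; linarith only [hs0, se_gt])
  have hc : 0 ≤ cI q := by unfold cI; (clear * - hρ; positivity)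
  have h8 : q.eps ^ (1 / 2 : ℝ) ≤ q.eta / (cI q + 1) := by
    rw [← Real.sqrt_eq_rpow]
    rw [Real.sqrt_le_left (by positivity)]
    exact hq
  have h9 : cI q * (q.eps ^ (se - 2 * aa) * (tau t) ^ (1 + lam 3 * se - gam)) ≤ q.eta := by
    have e1 : q.eps ^ (se - 2 * aa) * (tau t) ^ (1 + lam 3 * se - gam) ≤ q.eta / (cI q + 1) := by
      calc _ ≤ q.eps ^ (se - 2 * aa) * 1 :=
            mul_le_mul_of_nonneg_left h6 (Real.rpow_nonneg hε.le _)
        _ ≤ _ := by rw [mul_one]; exact h7.trans h8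
    calc _ ≤ cI q * (q.eta / (cI q + 1)) := mul_le_mul_of_nonneg_left e1 hc
      _ ≤ q.eta := by
        rw [mul_div_assoc', div_le_iff₀ (by linarith only [hc])]
        nlinarith only [hη]
  linarith only [h3.trans (h5.le.trans h9), h1]

/-- input of `rb_I` where `sinh u ≤ 1` -/
theorem QI_small {q : Par} {t r u : ℝ} (hT : 0 < q.T0 t) (hτ : 0 < tau t) (hρ : 0 < q.rho0)
    (hr : 0 < r) (hu : 0 < u) (h1 : Real.sinh u ≤ 1)
    (h : Real.sinh u ≤ 6 / 5 * q.T0 t *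
      (q.rho0 * Real.sqrt (tau t) / r) ^ (kap * (1 + 1 / 10000))) :
    r ^ 2 * (Real.cosh u - 1) ≤ 2 * q.rho0 ^ 2 * tau t * (6 / 5 * q.T0 t) ^ se := by
  have hs : 0 < Real.sinh u := Real.sinh_pos_iff.2 hu
  have hsτ : 0 < Real.sqrt (tau t) := Real.sqrt_pos.2 hτ
  have hk : 0 < kap * (1 + 1 / 10000) := by linarith only [kap_gt]
  have hse : 0 < se := by linarith only [se_gt]
  have e1 : Real.cosh u - 1 ≤ Real.sinh u ^ 2 / 2 := by
    have h2 := Real.cosh_sq u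
    have h3 := Real.one_le_cosh u
    nlinarith only [h2, h3]
  have e2 : Real.sinh u ^ 2 ≤ Real.sinh u ^ se := by
    have := Real.rpow_le_rpow_of_exponent_ge hs h1 (show se ≤ 2 by linarith only [se_lt])
    rwa [Real.rpow_two] at this
  have e3 : Real.sinh u ^ se ≤ (6 / 5 * q.T0 t) ^ se * ((q.rho0 * Real.sqrt (tau t) / r) ^ 2) := by
    have h2 := Real.rpow_le_rpow hs.le h hse.le
    rw [Real.mul_rpow (by positivity) (Real.rpow_nonneg (by positivity) _),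
      ← Real.rpow_mul (by positivity : 0 ≤ q.rho0 * Real.sqrt (tau t) / r)] at h2
    have h3 : kap * (1 + 1 / 10000) * se = 2 := by
      unfold se
      exact mul_div_cancel₀ 2 hk.ne'
    rw [h3, Real.rpow_two] at h2
    exact h2
  have e4 : r ^ 2 * (q.rho0 * Real.sqrt (tau t) / r) ^ 2 = q.rho0 ^ 2 * tau t := by
    rw [div_pow, mul_pow, Real.sq_sqrt hτ.le]
    field_simp
  have hB : 0 ≤ (6 / 5 * q.T0 t) ^ se := Real.rpow_nonneg (by positivity) _
  calc r ^ 2 * (Real.cosh u - 1) ≤ r ^ 2 * ((6 / 5 * q.T0 t) ^ se *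
        ((q.rho0 * Real.sqrt (tau t) / r) ^ 2) / 2) :=
        mul_le_mul_of_nonneg_left (by linarith only [e3, e2, e1]) (sq_nonneg r)
    _ = (r ^ 2 * (q.rho0 * Real.sqrt (tau t) / r) ^ 2) * (6 / 5 * q.T0 t) ^ se / 2 := by ring
    _ = q.rho0 ^ 2 * tau t * (6 / 5 * q.T0 t) ^ se / 2 := by rw [e4]
    _ ≤ 2 * q.rho0 ^ 2 * tau t * (6 / 5 * q.T0 t) ^ se := by
      have : 0 ≤ q.rho0 ^ 2 * tau t * (6 / 5 * q.T0 t) ^ se := by positivity
      linarith only [this]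

end Vale.Agent.P244.ST.RBL
end

section

/-!
# P244-ST, block M2 : region I, the fields of `FI` from `FT`
-/

open Set Filter Topology
open scoped ContDiff

namespace Vale.Agent.P244.ST.RegI

noncomputable section

variable {q : Par} {g : ℝ → ℝ} {w f : Fn} {T t : ℝ}

theorem Hyp.ofFT (hg : IsBub g) (hq : SmallI q) (h : M.FT q g w f T t) : Hyp q g w f t where
  bub := hg
  sl := M2.slice_of_confSol h.sol h.mem
  t0 := h.mem.1
  t1 := lt_of_lt_of_le h.mem.2 h.T_le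
  rs_pos := h.qual.rs_pos t h.mem
  G_le := h.qual.G_le t h.mem
  b1 := fun x hx hy => (h.boot x ⟨hx.1.le, hx.2⟩).b1 hx.1 hy
  eqr := h.eq_ge
  bd := h.bd
  small := hq

/-- the sinh bound of `FI` -/
theorem Hyp.sinh_bd (h : Hyp q g w f t) {x : ℝ} (hx : x ∈ Ioo (0 : ℝ) 1)
    (hy : yv w f t x ≤ q.rho0) :
    Real.sinh (uu w f t x) ≤ 6 / 5 * q.T0 t * (q.rho0 / yv w f t x) ^ (kap * (1 + 1 / 10000)) := by
  obtain ⟨x0, hx0, hy0, hiff⟩ := h.exists_x0
  have hle := (hiff x hx).mp hy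
  have h1 := (h.D2pow hx0 hx hy0.le hle).1
  have hr := M2.rr_pos (w := w) (f := f) (t := t) x
  have e : rr w f t x0 / rr w f t x = q.rho0 / yv w f t x := by
    rw [h.rr_x0 hy0]
    unfold yv
    have := h.sq_pos
    field_simp
  rw [e] at h1
  have h2 : 0 ≤ (q.rho0 / yv w f t x) ^ (kap * (1 + 1 / 10000)) := by
    refine Real.rpow_nonneg ?_ _
    rw [← e]
    have := M2.rr_pos (w := w) (f := f) (t := t) x0
    positivity
  exact h1.trans (mul_le_mul_of_nonneg_right (h.u_x0 hx0 hy0).2.2 h2)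

/-- input of the bound of `RB` in region I -/
theorem Hyp.QI (h : Hyp q g w f t) {x : ℝ} (hx : x ∈ Ioo (0 : ℝ) 1)
    (hy : yv w f t x ≤ q.rho0) :
    rr w f t x ^ 2 * (Real.cosh (uu w f t x) - 1) ≤
      2 * q.rho0 ^ 2 * tau t * (6 / 5 * q.T0 t) ^ RBL.se := by
  have hT0 := T0_pos h.small h.t1
  have hu := (h.b1 x hx hy).1
  rcases le_or_gt (Real.sinh (uu w f t x)) 1 with hs | hs
  · refine RBL.QI_small hT0 h.tau_pos h.small.r0 (M2.rr_pos x) hu hs ?_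
    have h1 := h.sinh_bd hx hy
    have e : q.rho0 / yv w f t x = q.rho0 * Real.sqrt (tau t) / rr w f t x := by
      unfold yv
      have := h.sq_pos
      field_simp
    rwa [e] at h1
  · have h1 := h.D4 hx hy hs.le
    have h2 : Real.sqrt 2 ≤ 2 := by
      rw [Real.sqrt_le_left (by norm_num)]; norm_num
    have h3 : rr w f t x ^ 2 * (Real.cosh (uu w f t x) - 1) ≤
        rr w f t x ^ 2 * Real.cosh (uu w f t x) :=
      mul_le_mul_of_nonneg_left (by linarith only []) (sq_nonneg _)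
    have h4 : 0 ≤ (6 / 5 * q.T0 t) ^ RBL.se := Real.rpow_nonneg (by positivity) _
    have h5 : Real.sqrt 2 * q.rho0 ^ 2 * tau t * (6 / 5 * q.T0 t) ^ RBL.se ≤
        2 * q.rho0 ^ 2 * tau t * (6 / 5 * q.T0 t) ^ RBL.se := by
      refine mul_le_mul_of_nonneg_right ?_ h4
      refine mul_le_mul_of_nonneg_right ?_ h.tau_pos.le
      exact mul_le_mul_of_nonneg_right h2 (sq_nonneg _)
    exact (h3.trans h1).trans h5

/-- the facts of region I, the first half of `FI` -/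
structure FI1 (q : Par) (g : ℝ → ℝ) (w f : Fn) (t x : ℝ) : Prop where
  u_pos : 0 < uu w f t x
  rs_pos : 0 < rs w f t x
  T_ge : 9 / 10 * q.T0 t ≤ Real.tanh (uu w f t x)
  sinh_le : Real.sinh (uu w f t x) ≤ 6 / 5 * q.T0 t * (q.rho0 / yv w f t x) ^ M.kapp
  e_le : |ee g w f t x| ≤ M.eb q w f t x
  e_small : |ee g w f t x| ≤ 1 / 10000
  eb_le : M.eb q w f t x * Real.cosh (uu w f t x) ≤ 1 / 10 ^ 4
  r2cosh : (rr w f t x) ^ 2 * Real.cosh (uu w f t x) ≤ 11 / 10 * q.rho0 ^ 2 * tau t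
  G_ge : 2 * (1 - 1 / 10000) * Real.tanh (uu w f t x) ≤ GG w f t x
  G_le : GG w f t x ≤ M.kapp * Real.tanh (uu w f t x)
  RB_le : q.RB t (rr w f t x) (uu w f t x) ≤ 3 * q.eta
  R_nonneg : 0 ≤ RR w f t x
  R_le : RR w f t x ≤ 3 * q.eta

theorem kapp_eq : M.kapp = kap * (1 + 1 / 10000) := by unfold M.kapp; norm_num

/-- (D1)-(D4) and `RB ≤ 3 η` in region I -/
theorem regI1 : ∀ g : ℝ → ℝ, IsBub g → Ev fun q => ∀ w f : Fn, ∀ T t : ℝ, M.FT q g w f T t →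
    ∀ x ∈ Ioo (0 : ℝ) 1, yv w f t x ≤ q.rho0 → FI1 q g w f t x := by
  intro g hg
  refine (ev_smallI.and RBL.rb_I).mono ?_
  rintro q ⟨hq, hRB⟩ w f T t hFT x hx hy
  have h := Hyp.ofFT hg hq hFT
  obtain ⟨d1, d2⟩ := h.D1 hx hy
  have hR := hRB t ⟨h.t0, h.t1⟩ (rr w f t x) (uu w f t x) (M2.rr_pos x) (h.QI hx hy)
  have hx' : x ∈ Ico (0 : ℝ) 1 := ⟨hx.1.le, hx.2⟩
  refine ⟨(h.b1 x hx hy).1, h.rs_pos x hx, h.D1T hx hy, ?_, d1, h.e_small hx hy, ?_, ?_,
    (h.D2 hx hy).1, ?_, hR, hFT.qual.R_nonneg t hFT.mem x hx', ((hFT.boot x hx').b3).trans hR⟩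
  · rw [kapp_eq]; exact h.sinh_bd hx hy
  · have h1 := h.D4e hx hy
    have h2 := hq.Br
    unfold M.eb
    norm_num at h2 ⊢
    linarith only [h1, h2]
  · have h1 := h.D3 hx hy
    have h2 : 0 ≤ q.rho0 ^ 2 * tau t := mul_nonneg (sq_nonneg _) h.tau_pos.le
    linarith only [h2, h1]
  · rw [kapp_eq]; exact (h.D2 hx hy).2

end

end Vale.Agent.P244.ST.RegI
end

section

/-!
# P244-ST : the bubble elements over the algebra of smooth functions (Geo.lean functions)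

`IsGeo A w f` : the frame `A` on `sO Ω` consists of the functions of Geo.lean.
`bub` : the instance of `Bub`; dictionary between elements and the functions of Geo.lean.
-/

open Set Filter TopologicalSpace
open scoped ContDiff Topology

namespace Vale.Agent.P244.ST

noncomputable section

variable {Ω : Opens (ℝ × ℝ)} {w f : Fn} {g : ℝ → ℝ}

/-! ### locality and chain rules -/

lemma Ds_congr (Ω : Opens (ℝ × ℝ)) {H K : Fn} (he : ∀ z ∈ Ω, H z.1 z.2 = K z.1 z.2)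
    {t x : ℝ} (hz : (t, x) ∈ Ω) : Ds w H t x = Ds w K t x := by
  rw [Ds, Ds, Dx_congr Ω.isOpen he hz]

lemma DT_congr (Ω : Opens (ℝ × ℝ)) {H K : Fn} (he : ∀ z ∈ Ω, H z.1 z.2 = K z.1 z.2)
    {t x : ℝ} (hz : (t, x) ∈ Ω) : DT w f H t x = DT w f K t x := by
  rw [DT, DT, Dx_congr Ω.isOpen he hz, Dt_congr Ω.isOpen he hz]

lemma Dx_comp {U : Fn} (hU : Sm (Ω : Set (ℝ × ℝ)) U) {k : ℝ → ℝ} {k' t x : ℝ}
    (hz : (t, x) ∈ Ω) (hk : HasDerivAt k k' (U t x)) :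
    Dx (fun t x => k (U t x)) t x = k' * Dx U t x :=
  (HasDerivAt.comp x hk (hU.hasDeriv_x Ω.isOpen hz)).deriv

lemma Dt_comp {U : Fn} (hU : Sm (Ω : Set (ℝ × ℝ)) U) {k : ℝ → ℝ} {k' t x : ℝ}
    (hz : (t, x) ∈ Ω) (hk : HasDerivAt k k' (U t x)) :
    Dt (fun t x => k (U t x)) t x = k' * Dt U t x :=
  (HasDerivAt.comp t (h := fun s => U s x) hk (hU.hasDeriv_t Ω.isOpen hz)).deriv

lemma Ds_comp {U : Fn} (hU : Sm (Ω : Set (ℝ × ℝ)) U) {k : ℝ → ℝ} {k' t x : ℝ}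
    (hz : (t, x) ∈ Ω) (hk : HasDerivAt k k' (U t x)) :
    Ds w (fun t x => k (U t x)) t x = k' * Ds w U t x := by
  rw [Ds, Ds, Dx_comp hU hz hk]; ring

lemma DT_comp {U : Fn} (hU : Sm (Ω : Set (ℝ × ℝ)) U) {k : ℝ → ℝ} {k' t x : ℝ}
    (hz : (t, x) ∈ Ω) (hk : HasDerivAt k k' (U t x)) :
    DT w f (fun t x => k (U t x)) t x = k' * DT w f U t x := by
  rw [DT, DT, Dx_comp hU hz hk, Dt_comp hU hz hk]; ring

/-! ### frames made of the functions of Geo.lean -/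

/-- The frame consists of the functions of Geo.lean. -/
structure IsGeo (A : Frame (sO Ω)) (w f : Fn) : Prop where
  intro ::
  u_sm : Sm (Ω : Set (ℝ × ℝ)) (uu w f)
  rho_sm : Sm (Ω : Set (ℝ × ℝ)) (rho w f)
  u_eq : ∀ {t x : ℝ}, (t, x) ∈ Ω → toFn A.u t x = uu w f t x
  rho_eq : ∀ {t x : ℝ}, (t, x) ∈ Ω → toFn A.ρ t x = rho w f t x
  sh_eq : ∀ {t x : ℝ}, (t, x) ∈ Ω → toFn A.sh t x = Real.sinh (uu w f t x)
  ch_eq : ∀ {t x : ℝ}, (t, x) ∈ Ω → toFn A.ch t x = Real.cosh (uu w f t x)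
  r2_eq : ∀ {t x : ℝ}, (t, x) ∈ Ω → toFn A.r2 t x = (rr w f t x) ^ 2
  Ds_eq : ∀ (h : sO Ω) {t x : ℝ}, (t, x) ∈ Ω → toFn (A.Ds h) t x = Ds w (toFn h) t x
  Dt_eq : ∀ (h : sO Ω) {t x : ℝ}, (t, x) ∈ Ω → toFn (A.Dt h) t x = DT w f (toFn h) t x

namespace IsGeo

variable {A : Frame (sO Ω)} (hA : IsGeo A w f)

include hA

lemma P_eq {t x : ℝ} (hz : (t, x) ∈ Ω) : toFn A.P t x = PP w f t x := by
  rw [Frame.P, hA.Ds_eq _ hz]
  exact Ds_congr Ω (fun z hz' => hA.u_eq (t := z.1) (x := z.2) hz') hz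

lemma rs_eq {t x : ℝ} (hz : (t, x) ∈ Ω) : toFn A.ρs t x = rs w f t x := by
  rw [Frame.ρs, hA.Ds_eq _ hz]
  exact Ds_congr Ω (fun z hz' => hA.rho_eq (t := z.1) (x := z.2) hz') hz

lemma P_sm : Sm (Ω : Set (ℝ × ℝ)) (PP w f) :=
  (toFn_sm A.P).congr fun z hz => (hA.P_eq (t := z.1) (x := z.2) hz).symm

lemma rs_sm : Sm (Ω : Set (ℝ × ℝ)) (rs w f) :=
  (toFn_sm A.ρs).congr fun z hz => (hA.rs_eq (t := z.1) (x := z.2) hz).symm

lemma ir_eq {t x : ℝ} (hz : (t, x) ∈ Ω) : toFn A.ir t x = 1 / (rr w f t x) ^ 2 := by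
  have h1 := congrArg (fun h => toFn h t x) A.r2_ir
  simp only [toFn_mul, hA.r2_eq hz, toFn_one hz] at h1
  have h2 : 0 < rr w f t x := Real.exp_pos _
  field_simp
  linarith only [h1]

/-- elements which are functions of `U` -/
lemma Ds_mk {U : Fn} (hU : Sm (Ω : Set (ℝ × ℝ)) U) {k k1 : ℝ → ℝ}
    (hk : Sm (Ω : Set (ℝ × ℝ)) (fun t x => k (U t x)))
    (hk1 : Sm (Ω : Set (ℝ × ℝ)) (fun t x => k1 (U t x)))
    (hd : ∀ t x, (t, x) ∈ Ω → HasDerivAt k (k1 (U t x)) (U t x)) :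
    A.Ds (mk _ hk) = mk _ hk1 * A.Ds (mk U hU) := by
  refine sO_ext fun t x hz => ?_
  rw [toFn_mul, toFn_mk _ hz, hA.Ds_eq _ hz, hA.Ds_eq _ hz,
    Ds_congr Ω (K := fun t x => k (U t x)) (fun z hz' => toFn_mk hk (t := z.1) (x := z.2) hz') hz,
    Ds_congr Ω (fun z hz' => toFn_mk hU (t := z.1) (x := z.2) hz') hz]
  exact Ds_comp hU hz (hd t x hz)

lemma Dt_mk {U : Fn} (hU : Sm (Ω : Set (ℝ × ℝ)) U) {k k1 : ℝ → ℝ}
    (hk : Sm (Ω : Set (ℝ × ℝ)) (fun t x => k (U t x)))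
    (hk1 : Sm (Ω : Set (ℝ × ℝ)) (fun t x => k1 (U t x)))
    (hd : ∀ t x, (t, x) ∈ Ω → HasDerivAt k (k1 (U t x)) (U t x)) :
    A.Dt (mk _ hk) = mk _ hk1 * A.Dt (mk U hU) := by
  refine sO_ext fun t x hz => ?_
  rw [toFn_mul, toFn_mk _ hz, hA.Dt_eq _ hz, hA.Dt_eq _ hz,
    DT_congr Ω (K := fun t x => k (U t x)) (fun z hz' => toFn_mk hk (t := z.1) (x := z.2) hz') hz,
    DT_congr Ω (fun z hz' => toFn_mk hU (t := z.1) (x := z.2) hz') hz]
  exact DT_comp hU hz (hd t x hz)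

lemma u_mk : A.u = mk (uu w f) hA.u_sm :=
  sO_ext fun t x hz => by rw [hA.u_eq hz, toFn_mk _ hz]

lemma Ds_u {k k1 : ℝ → ℝ}
    (hk : Sm (Ω : Set (ℝ × ℝ)) (fun t x => k (uu w f t x)))
    (hk1 : Sm (Ω : Set (ℝ × ℝ)) (fun t x => k1 (uu w f t x)))
    (hd : ∀ t x, (t, x) ∈ Ω → HasDerivAt k (k1 (uu w f t x)) (uu w f t x)) :
    A.Ds (mk _ hk) = mk _ hk1 * A.P := by
  rw [Frame.P, hA.u_mk]
  exact hA.Ds_mk hA.u_sm hk hk1 hd

lemma Dt_u {k k1 : ℝ → ℝ}
    (hk : Sm (Ω : Set (ℝ × ℝ)) (fun t x => k (uu w f t x)))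
    (hk1 : Sm (Ω : Set (ℝ × ℝ)) (fun t x => k1 (uu w f t x)))
    (hd : ∀ t x, (t, x) ∈ Ω → HasDerivAt k (k1 (uu w f t x)) (uu w f t x)) :
    A.Dt (mk _ hk) = mk _ hk1 * A.V := by
  rw [Frame.V, hA.u_mk]
  exact hA.Dt_mk hA.u_sm hk hk1 hd

/-! ### dictionary -/

lemma yt_eq {t x : ℝ} (hz : (t, x) ∈ Ω) : toFn A.yt t x = yy w f t x := by
  have h1 : toFn (A.Ds A.ρs) t x = Ds w (rs w f) t x := by
    rw [hA.Ds_eq _ hz]
    exact Ds_congr Ω (fun z hz' => hA.rs_eq (t := z.1) (x := z.2) hz') hz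
  rw [A.yt_eq, toFn_sub _ _ hz, toFn_add, toFn_mul, toFn_mul, toFn_mul, toFn_ofNat _ hz,
    toFn_ofNat _ hz, toFn_pow _ _ hz, h1, hA.rs_eq hz, hA.ch_eq hz, hA.ir_eq hz]
  show _ = Ds w (Ds w (rho w f)) t x + 40 * Ds w (rho w f) t x * Ds w (rho w f) t x -
    39 * Real.cosh (uu w f t x) / (rr w f t x) ^ 2
  rw [rs]
  ring

lemma E0_eq {t x : ℝ} (hz : (t, x) ∈ Ω) : toFn A.E0 t x = E0 w f t x := by
  have h1 : toFn (A.Ds A.ρs) t x = Ds w (rs w f) t x := by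
    rw [hA.Ds_eq _ hz]
    exact Ds_congr Ω (fun z hz' => hA.rs_eq (t := z.1) (x := z.2) hz') hz
  rw [A.E0_eq, toFn_sub _ _ hz, toFn_sub _ _ hz, toFn_mul, toFn_mul, toFn_mul, toFn_neg _ hz,
    toFn_ofNat _ hz, toFn_ofNat _ hz, toFn_pow _ _ hz, toFn_pow _ _ hz, h1, hA.rs_eq hz,
    hA.P_eq hz, E0]
  ring

lemma Rs_eq {t x : ℝ} (hz : (t, x) ∈ Ω) : toFn A.Rs t x = RR w f t x := by
  rw [Frame.Rs, toFn_sub _ _ hz, toFn_mul, toFn_ofNat _ hz, hA.E0_eq hz, hA.yt_eq hz, RR]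

end IsGeo

/-! ### the `r`-gauge -/

section gauge

variable {A : Frame (sO Ω)} (hA : IsGeo A w f) (hrs : ∀ z ∈ Ω, rs w f z.1 z.2 ≠ 0)

/-- `κ = 1/ρ_s` -/
def kapG (hA : IsGeo A w f) (hrs : ∀ z ∈ Ω, rs w f z.1 z.2 ≠ 0) : sO Ω :=
  mk (fun t x => (rs w f t x)⁻¹) (hA.rs_sm.inv hrs)

lemma kapG_mul : kapG hA hrs * A.ρs = 1 := by
  refine sO_ext fun t x hz => ?_
  rw [toFn_mul, kapG, toFn_mk _ hz, hA.rs_eq hz, toFn_one hz]
  exact inv_mul_cancel₀ (hrs _ hz)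

lemma G_eq {t x : ℝ} (hz : (t, x) ∈ Ω) : toFn (A.G (kapG hA hrs)) t x = GG w f t x := by
  rw [Frame.G, toFn_neg _ hz, toFn_mul, kapG, toFn_mk _ hz, hA.P_eq hz, GG]
  ring

end gauge

/-! ### the bubble elements -/

section bubble

/-- `g' = (39 - g²/4)(g - 2 tanh)/g` -/
def g1f (g : ℝ → ℝ) (u : ℝ) : ℝ := (39 - g u ^ 2 / 4) * (g u - 2 * Real.tanh u) / g u

lemma IsBub.pos (hg : IsBub g) {u : ℝ} (hu : 0 < u) : 0 < g u := by
  have h1 := hg.lower u hu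
  have h2 : 0 < Real.tanh u := by
    rw [Real.tanh_eq_sinh_div_cosh]
    exact div_pos (Real.sinh_pos_iff.2 hu) (Real.cosh_pos u)
  linarith only [h1, h2]

lemma IsBub.q_pos (hg : IsBub g) {u : ℝ} (hu : 0 < u) : 0 < 39 - g u ^ 2 / 4 := by
  have h1 := hg.lt_two u hu
  have h2 := hg.pos hu
  nlinarith only [h1, h2]

lemma IsBub.hasDeriv (hg : IsBub g) {u : ℝ} (hu : 0 < u) : HasDerivAt g (g1f g u) u :=
  hg.ode u hu

lemma IsBub.g1_smooth (hg : IsBub g) : ContDiffOn ℝ ∞ (g1f g) (Ioi 0) := by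
  have h1 : ContDiffOn ℝ ∞ (fun u => Real.tanh u) (Ioi 0) := by
    have : (fun u => Real.tanh u) = fun u => Real.sinh u / Real.cosh u := by
      funext u; exact Real.tanh_eq_sinh_div_cosh u
    rw [this]
    exact (Real.contDiff_sinh.div Real.contDiff_cosh fun u => (Real.cosh_pos u).ne').contDiffOn
  exact ((contDiffOn_const.sub ((hg.smooth.pow 2).div_const 4)).mul
    (hg.smooth.sub (contDiffOn_const.mul h1))).div hg.smooth fun u hu => (hg.pos hu).ne'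

variable {A : Frame (sO Ω)} (hA : IsGeo A w f) (hrs : ∀ z ∈ Ω, rs w f z.1 z.2 ≠ 0)
  (hg : IsBub g) (hu : ∀ z ∈ Ω, 0 < uu w f z.1 z.2)

include hA hg hu

lemma gu_sm : Sm (Ω : Set (ℝ × ℝ)) (fun t x => g (uu w f t x)) :=
  Sm.comp hg.smooth hA.u_sm hu

lemma g1u_sm : Sm (Ω : Set (ℝ × ℝ)) (fun t x => g1f g (uu w f t x)) :=
  Sm.comp hg.g1_smooth hA.u_sm hu

include hrs in
omit hg hu in
lemma G_sm : Sm (Ω : Set (ℝ × ℝ)) (GG w f) :=
  (hA.P_sm.div hA.rs_sm hrs).neg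

include hrs in
lemma ee_sm : Sm (Ω : Set (ℝ × ℝ)) (ee g w f) :=
  (Sm.const 1).sub ((G_sm hA hrs).div (gu_sm hA hg hu) fun z hz => (hg.pos (hu z hz)).ne')

/-- **the bubble elements** -/
def bub : Bub A (kapG hA hrs) where
  h := mk (fun t x => g (uu w f t x) / 2)
    ((gu_sm hA hg hu).div (Sm.const 2) fun _ _ => by norm_num)
  h1 := mk (fun t x => g1f g (uu w f t x) / 2)
    ((g1u_sm hA hg hu).div (Sm.const 2) fun _ _ => by norm_num)
  ih := mk (fun t x => 2 / g (uu w f t x))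
    ((Sm.const 2).div (gu_sm hA hg hu) fun z hz => (hg.pos (hu z hz)).ne')
  iq := mk (fun t x => 1 / (39 - g (uu w f t x) ^ 2 / 4))
    ((Sm.const 1).div ((Sm.const 39).sub (((gu_sm hA hg hu).pow 2).div (Sm.const 4)
      fun _ _ => by norm_num)) fun z hz => (hg.q_pos (hu z hz)).ne')
  ich := mk (fun t x => 1 / Real.cosh (uu w f t x))
    ((Sm.const 1).div hA.u_sm.cosh fun z _ => (Real.cosh_pos _).ne')
  e := mk (ee g w f) (ee_sm hA hrs hg hu)
  hk := kapG_mul hA hrs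
  h_ih := by
    refine sO_ext fun t x hz => ?_
    have := (hg.pos (hu _ hz)).ne'
    rw [toFn_mul, toFn_mk _ hz, toFn_mk _ hz, toFn_one hz]
    field_simp
  q_iq := by
    refine sO_ext fun t x hz => ?_
    have := (hg.q_pos (hu _ hz)).ne'
    rw [toFn_mul, toFn_sub _ _ hz, toFn_pow _ _ hz, toFn_mk _ hz, toFn_mk _ hz, toFn_one hz,
      toFn_ofNat _ hz, show (g (uu w f t x) / 2) ^ 2 = g (uu w f t x) ^ 2 / 4 by ring]
    exact mul_one_div_cancel this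
  ch_ich := by
    refine sO_ext fun t x hz => ?_
    rw [toFn_mul, toFn_mk _ hz, hA.ch_eq hz, toFn_one hz]
    exact mul_one_div_cancel (Real.cosh_pos _).ne'
  Ds_h := hA.Ds_u (k := fun u => g u / 2) (k1 := fun u => g1f g u / 2) _ _
    fun t x hz => (hg.hasDeriv (hu _ hz)).div_const 2
  Dt_h := hA.Dt_u (k := fun u => g u / 2) (k1 := fun u => g1f g u / 2) _ _
    fun t x hz => (hg.hasDeriv (hu _ hz)).div_const 2
  ode := by
    refine sO_ext fun t x hz => ?_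
    have h1 := (hg.pos (hu _ hz)).ne'
    have h2 := (Real.cosh_pos (uu w f t x)).ne'
    simp only [toFn_mul, toFn_sub _ _ hz, toFn_pow _ _ hz, toFn_mk _ hz, toFn_ofNat _ hz,
      hA.ch_eq hz, hA.sh_eq hz, g1f, Real.tanh_eq_sinh_div_cosh]
    simp only at h1
    field_simp
    ring
  G_eq := by
    refine sO_ext fun t x hz => ?_
    have h1 := (hg.pos (hu _ hz)).ne'
    simp only [toFn_mul, toFn_sub _ _ hz, toFn_mk _ hz, toFn_ofNat _ hz, toFn_one hz,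
      G_eq hA hrs hz, ee]
    simp only at h1
    field_simp
    ring

/-! ### values of the bubble elements -/

lemma bub_h {t x : ℝ} (hz : (t, x) ∈ Ω) :
    toFn (bub hA hrs hg hu).h t x = g (uu w f t x) / 2 := toFn_mk _ hz

lemma bub_e {t x : ℝ} (hz : (t, x) ∈ Ω) :
    toFn (bub hA hrs hg hu).e t x = ee g w f t x := toFn_mk (ee_sm hA hrs hg hu) hz

/-! ### pointwise identities -/

/-! ### smoothness and operators -/

end bubble

end

end Vale.Agent.P244.ST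
end
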