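import Mathlib
import Vale.Agent.P244.Bd3.B9
import Vale.Agent.P244.Bd3.B1
import Vale.Agent.P244.Bd3.B5
import Vale.Agent.P244.Bd3.B8
import Vale.Agent.P244.Bd3.B7
import Vale.Agent.P244.Bd3.B3
import Vale.Agent.P244.Bd3.B2
import Vale.Agent.P244.Bd3.B4

set_option linter.all false

section

/-!
# P244-L block C4 : the implicit scheme, uniform bounds of all orders
-/

open Set Filter Topology
open scoped ContDiff

namespace Vale.Agent.P244.LW
open Vale.Agent.P244.ST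

/-- a self-improving bound gives an absolute bound -/
theorem growth {j : ℕ} {h C N : ℝ} (hh : 0 ≤ h) (hC : 0 ≤ C) (hhC : h * C ≤ 1 / 2) {W F : ℝ → ℝ}
    (sW : Sm W) (sF : Sm F) (hN : 0 ≤ N)
    (himp : ∀ M : ℝ, Bd j M W → Bd j M F →
      Bd j (N + h * C * (1 + N + M)) W ∧ Bd j (N + h * C * (1 + N + M)) F) :
    Bd j ((N + 1) * Real.exp (3 * C * h) - 1) W ∧
      Bd j ((N + 1) * Real.exp (3 * C * h) - 1) F := by
  obtain ⟨K1, _, hK1⟩ := sW.exists_Bd j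
  obtain ⟨K2, _, hK2⟩ := sF.exists_Bd j
  set S : Set ℝ := {M | Bd j M W ∧ Bd j M F} with hS
  have hne : S.Nonempty := ⟨max K1 K2, hK1.mono (le_max_left _ _), hK2.mono (le_max_right _ _)⟩
  have hbdd : BddBelow S := ⟨0, fun M hM => hM.1.nonneg⟩
  have hmem : sInf S ∈ S := by
    constructor
    · intro i hi x hx
      exact le_csInf hne (fun M hM => hM.1 i hi x hx)
    · intro i hi x hx
      exact le_csInf hne (fun M hM => hM.2 i hi x hx)
  set M := sInf S with hM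
  have h1 := himp M hmem.1 hmem.2
  have h2 : M ≤ N + h * C * (1 + N + M) := csInf_le hbdd h1
  have hM0 : 0 ≤ M := hmem.1.nonneg
  set y := h * C with hy
  have hy0 : 0 ≤ y := mul_nonneg hh hC
  -- M + 1 ≤ (N+1)(1+y)/(1-y) ≤ (N+1) e^{3y}
  have h3 : (M + 1) * (1 - y) ≤ (N + 1) * (1 + y) := by linarith only [hy0, h2]
  have h4 : (1 + y) ≤ (1 - y) * Real.exp (3 * y) := by
    have h5 : 1 + 3 * y + (3 * y) ^ 2 / 2 ≤ Real.exp (3 * y) :=
      Real.quadratic_le_exp_of_nonneg (by (clear * - hh hC; positivity))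
    have h6 : 0 ≤ 1 - y := by linarith only [hhC]
    linarith only [mul_nonneg (sub_nonneg.2 h6) (sub_nonneg.2 (mul_nonneg hy0 hy0)), mul_nonneg (sub_nonneg.2 h5) (sub_nonneg.2 h6), mul_nonneg (sub_nonneg.2 hy0) (sub_nonneg.2 h6), mul_nonneg (sub_nonneg.2 hhC) (sub_nonneg.2 (mul_nonneg hy0 hy0))]
  have h5 : M + 1 ≤ (N + 1) * Real.exp (3 * y) := by
    have h6 : (0 : ℝ) < 1 - y := by linarith
    have h7 : (M + 1) * (1 - y) ≤ ((N + 1) * Real.exp (3 * y)) * (1 - y) := by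
      linarith only [mul_le_mul_of_nonneg_left h4 (by linarith : (0:ℝ) ≤ N + 1), h3]
    exact le_of_mul_le_mul_right h7 h6
  have h6 : 3 * y = 3 * C * h := by rw [hy]; ring
  rw [h6] at h5
  exact ⟨hmem.1.mono (by linarith only [h5]), hmem.2.mono (by linarith only [h5])⟩

theorem finite_bd {P : ℕ → ℝ → Prop} (hmono : ∀ k a b, a ≤ b → P k a → P k b)
    (h : ∀ k, ∃ M, P k M) (m : ℕ) : ∃ M, ∀ k < m, P k M := by
  induction m with
  | zero => exact ⟨0, fun k hk => absurd hk (Nat.not_lt_zero _)⟩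
  | succ m ih =>
    obtain ⟨M, hM⟩ := ih
    obtain ⟨M', hM'⟩ := h m
    refine ⟨max M M', fun k hk => ?_⟩
    rcases Nat.lt_succ_iff_lt_or_eq.1 hk with h1 | h1
    · exact hmono _ _ _ (le_max_left _ _) (hM k h1)
    · rw [h1]; exact hmono _ _ _ (le_max_right _ _) hM'

theorem C4 (hC1 : C1Stmt) (hC2 : C2Stmt) (hC3 : C3Stmt) : C4Stmt := by
  intro p hp K₀
  by_cases hK₀ : K₀ < 0
  · exact ⟨1, ⟨one_pos, le_rfl⟩, fun w₀ f₀ _ hw _ => absurd hw.nonneg (not_le.2 hK₀)⟩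
  push Not at hK₀
  set K : ℝ := 2 * (K₀ + 1) with hK
  obtain ⟨h₀, h₀pos, hstep⟩ := hC1 p hp K
  obtain ⟨C, hC, hest⟩ := hC2 p hp K
  set T₀ : ℝ := min 1 (Real.log 2 / (3 * C + 1)) with hT₀
  have hlog : 0 < Real.log 2 := Real.log_pos (by norm_num)
  have hT₀pos : 0 < T₀ := lt_min one_pos (div_pos hlog (by linarith only [hC]))
  have hT₀1 : T₀ ≤ 1 := min_le_left _ _
  have hexp : ∀ s ≤ T₀, Real.exp (3 * C * s) ≤ 2 := by
    intro s hs
    have h1 : s ≤ Real.log 2 / (3 * C + 1) := hs.trans (min_le_right _ _)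
    have h2 : 3 * C * s ≤ Real.log 2 := by
      rcases le_total s 0 with h | h
      · have : 3 * C * s ≤ 0 := mul_nonpos_of_nonneg_of_nonpos (by linarith only [hC]) h
        linarith only [hlog, this]
      · have h3 : (3 * C + 1) * s ≤ Real.log 2 := by
          rw [le_div_iff₀ (by linarith only [hC])] at h1; linarith only [h1]
        linarith only [h, h3]
    calc Real.exp (3 * C * s) ≤ Real.exp (Real.log 2) := Real.exp_le_exp.2 h2
      _ = 2 := Real.exp_log (by norm_num)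
  refine ⟨T₀, ⟨hT₀pos, hT₀1⟩, fun w₀ f₀ hD bw bf => ?_⟩
  -- the smallest number of steps
  obtain ⟨Nm, hNm⟩ := exists_nat_gt (T₀ / min (h₀) (1 / (2 * C + 1)))
  have hmin : 0 < min h₀ (1 / (2 * C + 1)) := lt_min h₀pos (by positivity)
  set N : ℕ → ℕ := fun m => m + (Nm + 1) with hN
  have hNpos : ∀ m, 0 < N m := fun m => Nat.succ_pos _
  have hNtend : Tendsto N atTop atTop := tendsto_atTop_mono (fun m => Nat.le_add_right _ _) tendsto_id
  set hs : ℕ → ℝ := fun m => T₀ / (N m : ℝ) with hhs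
  have hNr : ∀ m, (0 : ℝ) < (N m : ℝ) := fun m => by exact_mod_cast hNpos m
  have hspos : ∀ m, 0 < hs m := fun m => div_pos hT₀pos (hNr m)
  have hsmall : ∀ m, hs m < min h₀ (1 / (2 * C + 1)) := by
    intro m
    rw [hhs]
    simp only
    rw [div_lt_iff₀ (hNr m)]
    rw [div_lt_iff₀ hmin] at hNm
    have : (Nm : ℝ) ≤ (N m : ℝ) := by
      rw [hN]; push_cast; linarith only [(Nat.cast_nonneg m : (0:ℝ) ≤ m)]
    linarith only [mul_nonneg (le_of_lt (sub_pos.2 hmin)) (sub_nonneg.2 this), hNm]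
  have hs1 : ∀ m, hs m ≤ 1 := by
    intro m
    rw [hhs]; simp only
    rw [div_le_iff₀ (hNr m)]
    have : (1 : ℝ) ≤ (N m : ℝ) := by exact_mod_cast hNpos m
    linarith only [hT₀1, this]
  have hsC : ∀ m, hs m * C ≤ 1 / 2 := by
    intro m
    have h1 := (hsmall m).trans_le (min_le_right _ _)
    rw [lt_div_iff₀ (by linarith only [hC])] at h1
    linarith only [hspos m, h1]
  -- the step function
  classical
  set nx : ℝ → ((ℝ → ℝ) × (ℝ → ℝ)) → ((ℝ → ℝ) × (ℝ → ℝ)) := fun h u =>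
    if hc : ∃ v : (ℝ → ℝ) × (ℝ → ℝ), Step p h u.1 u.2 v.1 v.2 ∧ ConfData v.1 v.2 then hc.choose else u
    with hnx
  set sq : ℕ → ℕ → ((ℝ → ℝ) × (ℝ → ℝ)) := fun m n => (nx (hs m))^[n] (w₀, f₀) with hsq
  have sq0 : ∀ m, sq m 0 = (w₀, f₀) := fun m => rfl
  have sqS : ∀ m n, sq m (n + 1) = nx (hs m) (sq m n) := fun m n =>
    Function.iterate_succ_apply' _ _ _
  have hnxs : ∀ m (u : (ℝ → ℝ) × (ℝ → ℝ)), ConfData u.1 u.2 → Bd 2 K u.1 → Bd 2 K u.2 →
      Step p (hs m) u.1 u.2 (nx (hs m) u).1 (nx (hs m) u).2 ∧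
        ConfData (nx (hs m) u).1 (nx (hs m) u).2 := by
    intro m u hu b1 b2
    obtain ⟨W, F, h1, h2⟩ := hstep u.1 u.2 hu b1 b2 (hs m)
      ⟨hspos m, (hsmall m).trans_le (min_le_left _ _)⟩
    have hc : ∃ v : (ℝ → ℝ) × (ℝ → ℝ), Step p (hs m) u.1 u.2 v.1 v.2 ∧ ConfData v.1 v.2 :=
      ⟨(W, F), h1, h2⟩
    have : nx (hs m) u = hc.choose := by rw [hnx]; simp only; rw [dif_pos hc]
    rw [this]
    exact hc.choose_spec
  have hnh : ∀ m, ∀ n ≤ N m, (n : ℝ) * hs m ≤ T₀ := by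
    intro m n hn
    rw [hhs]; simp only
    rw [mul_div_assoc', div_le_iff₀ (hNr m)]
    have : (n : ℝ) ≤ (N m : ℝ) := by exact_mod_cast hn
    linarith only [mul_nonneg (le_of_lt (sub_pos.2 hT₀pos)) (sub_nonneg.2 this)]
  -- level 2
  have lev2 : ∀ m n, n ≤ N m → ConfData (sq m n).1 (sq m n).2 ∧
      Bd 2 ((K₀ + 1) * Real.exp (3 * C * ((n : ℝ) * hs m)) - 1) (sq m n).1 ∧
      Bd 2 ((K₀ + 1) * Real.exp (3 * C * ((n : ℝ) * hs m)) - 1) (sq m n).2 := by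
    intro m n
    induction n with
    | zero =>
      intro _
      rw [sq0]
      refine ⟨hD, ?_, ?_⟩ <;> simp <;> assumption
    | succ n ih =>
      intro hn
      obtain ⟨d, b1, b2⟩ := ih (by omega)
      have hle : (K₀ + 1) * Real.exp (3 * C * ((n : ℝ) * hs m)) - 1 ≤ K := by
        have := hexp _ (hnh m n (by omega))
        rw [hK]; linarith only [mul_nonneg (sub_nonneg.2 hK₀) (sub_nonneg.2 this), this]
      have hN0 : 0 ≤ (K₀ + 1) * Real.exp (3 * C * ((n : ℝ) * hs m)) - 1 := b1.nonneg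
      obtain ⟨st, cd⟩ := hnxs m (sq m n) d (b1.mono hle) (b2.mono hle)
      rw [← sqS] at st cd
      have g := growth (j := 2) (hspos m).le hC (hsC m) st.sW st.sF hN0
        (fun M hM1 hM2 => hest (hs m) ⟨hspos m, hs1 m⟩ _ _ _ _ d.smooth_w d.smooth_f
          (b1.mono hle) (b2.mono hle) st _ M b1 b2 hM1 hM2)
      have e : ((K₀ + 1) * Real.exp (3 * C * ((n : ℝ) * hs m)) - 1 + 1) * Real.exp (3 * C * hs m) - 1
          = (K₀ + 1) * Real.exp (3 * C * (((n + 1 : ℕ) : ℝ) * hs m)) - 1 := by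
        rw [sub_add_cancel, mul_assoc, ← Real.exp_add]
        congr 3; push_cast; ring
      rw [e] at g
      exact ⟨cd, g.1, g.2⟩
  have lev2K : ∀ m n, n ≤ N m → Bd 2 K (sq m n).1 ∧ Bd 2 K (sq m n).2 := by
    intro m n hn
    obtain ⟨d, b1, b2⟩ := lev2 m n hn
    have hle : (K₀ + 1) * Real.exp (3 * C * ((n : ℝ) * hs m)) - 1 ≤ K := by
      have := hexp _ (hnh m n hn)
      rw [hK]; linarith only [mul_nonneg (sub_nonneg.2 hK₀) (sub_nonneg.2 this), this]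
    exact ⟨b1.mono hle, b2.mono hle⟩
  have hst : ∀ m, ∀ n < N m, Step p (hs m) (sq m n).1 (sq m n).2 (sq m (n + 1)).1
      (sq m (n + 1)).2 := by
    intro m n hn
    rw [sqS]
    exact (hnxs m (sq m n) (lev2 m n hn.le).1 (lev2K m n hn.le).1 (lev2K m n hn.le).2).1
  -- all levels
  have lev : ∀ j, ∃ A : ℝ, ∀ m, ∀ n ≤ N m, Bd (j + 2) A (sq m n).1 ∧ Bd (j + 2) A (sq m n).2 := by
    intro j
    induction j with
    | zero => exact ⟨K, lev2K⟩
    | succ j ih =>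
      obtain ⟨A, hA⟩ := ih
      obtain ⟨C', hC', hest'⟩ := hC3 p hp (j + 3) (by omega) A
      -- initial bound
      obtain ⟨A1, hA1n, hA1⟩ := Sm.exists_Bd hD.smooth_w (j + 3)
      obtain ⟨A2, hA2n, hA2⟩ := Sm.exists_Bd hD.smooth_f (j + 3)
      set A0 := max A1 A2 with hA0
      have hA00 : 0 ≤ A0 := le_max_of_le_left hA1n
      -- large m
      obtain ⟨m1, hm1⟩ := exists_nat_gt (2 * C' + 1)
      have hlarge : ∀ m, m1 ≤ m → hs m * C' ≤ 1 / 2 := by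
        intro m hm
        have h1 : (m : ℝ) ≤ (N m : ℝ) := by
          rw [hN]; push_cast; linarith only [(Nat.cast_nonneg Nm : (0:ℝ) ≤ Nm)]
        have h2 : (m1 : ℝ) ≤ (m : ℝ) := by exact_mod_cast hm
        rw [hhs]; simp only
        rw [div_mul_eq_mul_div, div_le_iff₀ (hNr m)]
        nlinarith only [hT₀pos, hT₀1, hm1, h1, h2]
      have hbig : ∀ m, m1 ≤ m → ∀ n, n ≤ N m →
          Bd (j + 3) ((A0 + 1) * Real.exp (3 * C' * ((n : ℝ) * hs m)) - 1) (sq m n).1 ∧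
          Bd (j + 3) ((A0 + 1) * Real.exp (3 * C' * ((n : ℝ) * hs m)) - 1) (sq m n).2 := by
        intro m hm n
        induction n with
        | zero =>
          intro _
          rw [sq0]
          constructor
          · exact hA1.mono (by simp; exact le_max_left _ _)
          · exact hA2.mono (by simp; exact le_max_right _ _)
        | succ n ihn =>
          intro hn
          obtain ⟨b1, b2⟩ := ihn (by omega)
          have st := hst m n (by omega)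
          have hN0 : 0 ≤ (A0 + 1) * Real.exp (3 * C' * ((n : ℝ) * hs m)) - 1 := b1.nonneg
          have d := (lev2 m n (by omega)).1
          have g := growth (j := j + 3) (hspos m).le hC' (hlarge m hm) st.sW st.sF hN0
            (fun M hM1 hM2 => hest' (hs m) ⟨hspos m, hs1 m⟩ _ _ _ _ d.smooth_w d.smooth_f
              (hA m n (by omega)).1 (hA m n (by omega)).2 (hA m (n + 1) hn).1 (hA m (n + 1) hn).2
              st _ M b1 b2 hM1 hM2)
          have e : ((A0 + 1) * Real.exp (3 * C' * ((n : ℝ) * hs m)) - 1 + 1) *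
              Real.exp (3 * C' * hs m) - 1
              = (A0 + 1) * Real.exp (3 * C' * (((n + 1 : ℕ) : ℝ) * hs m)) - 1 := by
            rw [sub_add_cancel, mul_assoc, ← Real.exp_add]
            congr 3; push_cast; ring
          rw [e] at g
          exact g
      -- small m
      obtain ⟨A3, hA3⟩ := finite_bd (P := fun m A => ∀ n ≤ N m,
          Bd (j + 3) A (sq m n).1 ∧ Bd (j + 3) A (sq m n).2)
        (fun k a b hab h n hn => ⟨(h n hn).1.mono hab, (h n hn).2.mono hab⟩)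
        (fun m => by
          obtain ⟨B, hB⟩ := finite_bd (P := fun n A => n ≤ N m →
              Bd (j + 3) A (sq m n).1 ∧ Bd (j + 3) A (sq m n).2)
            (fun k a b hab h hn => ⟨(h hn).1.mono hab, (h hn).2.mono hab⟩)
            (fun n => by
              by_cases hn : n ≤ N m
              · have d := (lev2 m n hn).1
                obtain ⟨B1, _, hB1⟩ := Sm.exists_Bd d.smooth_w (j + 3)
                obtain ⟨B2, _, hB2⟩ := Sm.exists_Bd d.smooth_f (j + 3)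
                exact ⟨max B1 B2, fun _ => ⟨hB1.mono (le_max_left _ _), hB2.mono (le_max_right _ _)⟩⟩
              · exact ⟨0, fun h => absurd h hn⟩) (N m + 1)
          exact ⟨B, fun n hn => hB n (by omega) hn⟩) m1
      refine ⟨max A3 ((A0 + 1) * Real.exp (3 * C') - 1), fun m n hn => ?_⟩
      rcases Nat.lt_or_ge m m1 with h | h
      · exact ⟨(hA3 m h n hn).1.mono (le_max_left _ _), (hA3 m h n hn).2.mono (le_max_left _ _)⟩
      · have hb := hbig m h n hn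
        have hle : (A0 + 1) * Real.exp (3 * C' * ((n : ℝ) * hs m)) - 1
            ≤ (A0 + 1) * Real.exp (3 * C') - 1 := by
          have h1 : Real.exp (3 * C' * ((n : ℝ) * hs m)) ≤ Real.exp (3 * C') := by
            apply Real.exp_le_exp.2
            have h2 : (n : ℝ) * hs m ≤ 1 := (hnh m n hn).trans hT₀1
            linarith only [mul_nonneg (sub_nonneg.2 hC') (sub_nonneg.2 h2)]
          nlinarith only [hA00, h1]
        exact ⟨hb.1.mono (hle.trans (le_max_right _ _)), hb.2.mono (hle.trans (le_max_right _ _))⟩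
  have levall : ∀ j, ∃ A : ℝ, ∀ m, ∀ n ≤ N m, Bd j A (sq m n).1 ∧ Bd j A (sq m n).2 := by
    intro j
    obtain ⟨A, hA⟩ := lev j
    exact ⟨A, fun m n hn => ⟨(hA m n hn).1.le_idx (by omega), (hA m n hn).2.le_idx (by omega)⟩⟩
  choose KK hKK using levall
  refine ⟨N, fun m n => (sq m n).1, fun m n => (sq m n).2, KK, hNtend, fun m => ?_⟩
  refine ⟨hNpos m, rfl, rfl, fun n hn => ⟨(lev2 m n hn).1, fun j => hKK j m n hn⟩, fun n hn => ?_⟩
  exact hst m n hn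

end Vale.Agent.P244.LW
end

section

/-!
# P244-ST, block M1 : `QStatement` of `Iface.lean`
-/

open Set Topology Filter
open scoped ContDiff

namespace Vale.Agent.P244.ST

open Vale.Agent.P244.BB

variable {T : ℝ} {p : ℕ}

namespace Sys

variable {M : Sys p T}

lemma IsEven.E (h : M.IsEven) : EvS M.E := by
  intro t ht x hx
  rw [Sys.E, ext_expS _ (mem_dom hx ht), ext_expS _ (mem_dom (neg_mem_I hx) ht), ext_sub,
    ext_sub, ext_neg, ext_neg, h.W t ht x hx]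

lemma IsEven.H (h : M.IsEven) : EvS M.H := by
  intro t ht x hx
  rw [Sys.H, ext_expS _ (mem_dom hx ht), ext_expS _ (mem_dom (neg_mem_I hx) ht), ext_sub,
    ext_sub, ext_neg, ext_neg, h.F t ht x hx]

lemma IsEven.R (h : M.IsEven) : EvS M.R := by
  intro t ht x hx
  have hd := mem_dom hx ht
  have hd' := mem_dom (neg_mem_I hx) ht
  simp only [Sys.R, Sys.ric0, Sys.ric1, Sys.ric2, Sys.a, lapS, ext_add, ext_sub, ext_mul, ext_neg,
    ext_natCast p hd, ext_one hd, ext_Xs hd, ext_Ss hd, ext_ofNat _ hd, ext_pow _ _ hd,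
    ext_natCast p hd', ext_one hd', ext_Xs hd', ext_Ss hd', ext_ofNat _ hd', ext_pow _ _ hd',
    h.E t ht x hx, h.H t ht x hx, h.W.dz t ht x hx, h.F.dz t ht x hx, h.W.dz.dz t ht x hx,
    h.F.dz.dz t ht x hx]
  ring

/-- `N = B - (1-x²) F_x`, equal to `2 ψ ρ_s`. -/
noncomputable def Nn (M : Sys p T) : smoothAlg T := M.B - Ss * dz M.F

lemma dz_Nn : dz M.Nn = dz M.B + 2 * Xs * dz M.F - Ss * dz (dz M.F) := by
  simp only [Nn, dz_sub, dz_mul, dz_Ss]
  ring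

lemma dzz_Nn : dz (dz M.Nn) = dz (dz M.B) + 2 * dz M.F + 4 * Xs * dz (dz M.F)
    - Ss * dz (dz (dz M.F)) := by
  have h2 : dz (2 : smoothAlg T) = 0 := dz_ofNat 2
  rw [dz_Nn]
  simp only [dz_add, dz_sub, dz_mul, dz_Ss, dz_Xs, h2]
  ring

lemma dt_Nn : dt M.Nn = M.E * Ss * dz (dz M.Nn)
    - (2 * (Xs - M.B) * M.E + ((p : smoothAlg T) - 1) * Xs * M.E + Ss * M.J) * dz M.Nn
    + (((p : smoothAlg T) - 1) * M.E * (1 + 2 * Xs * dz M.W) - Ss * dz M.J) * M.Nn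
    + 2 * ((p : smoothAlg T) - 1) * (M.E - Ss * M.H) * dz M.F := by
  have h1 : dt M.Nn = dt M.B - Ss * dt (dz M.F) := by
    rw [Nn, dt_sub, dt_mul, dt_Ss]; ring
  have hB : M.B = Xs - Ss * dz M.W := rfl
  have hS : (Ss : smoothAlg T) = 1 - Xs * Xs := rfl
  rw [h1, M.dt_B, M.dt_q, dzz_Nn, dz_Nn, Nn, hB, hS]
  ring

lemma IsEven.Nn (h : M.IsEven) : OdS M.Nn := h.B.sub (ev_Ss.mul_od h.F.dz)

lemma Nn_ge_aux {S E eb ek ek2 k k' k2 δ x G N N1 N2 q K : ℝ} (hδ : 0 < δ) (hk2 : 0 ≤ k2)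
    (hx : 0 < x) (hG : 0 < G) (hK : K = k + k' + k2 / δ) (hpos : 0 < G * x - N)
    (hek : -k ≤ ek ∧ ek ≤ k) (hek2 : ek2 ≤ k2) (heb : eb ≤ k' * x) (hq : q ≤ 0)
    (hqδ : -q ≤ N / δ) :
    -K * (G * x) - (E * S * N2 - eb * N1 + ek * N + ek2 * q) ≤
      E * S * (0 - N2) + (-eb) * (G - N1) + k * (G * x - N) := by
  have h2 : ek * (G * x - N) ≤ k * (G * x - N) := mul_le_mul_of_nonneg_right hek.2 hpos.le
  have h3 : eb * G ≤ k' * x * G := mul_le_mul_of_nonneg_right heb hG.le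
  have h4 : -ek * (G * x) ≤ k * (G * x) :=
    mul_le_mul_of_nonneg_right (by linarith only [hek, hek.1]) (mul_pos hG hx).le
  have h6 : ek2 * (-q) ≤ k2 * (-q) := mul_le_mul_of_nonneg_right hek2 (neg_nonneg.2 hq)
  have h7 : k2 * (-q) ≤ k2 * (N / δ) := mul_le_mul_of_nonneg_left hqδ hk2
  have h8 : k2 * (N / δ) ≤ k2 / δ * (G * x) := by
    have : k2 * (N / δ) = k2 / δ * N := by ring
    rw [this]
    exact mul_le_mul_of_nonneg_left (by linarith only [hpos]) (by positivity)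
  have h9 : -(-K * (G * x)) = k * (G * x) + k' * x * G + k2 / δ * (G * x) := by
    rw [hK]; ring
  linarith only [h9, h8, h7, h6, h4, h3, h2]

/-- the comparison function `c e^{-Kt} x` -/
noncomputable def cmp (c K : ℝ) : smoothAlg T := cst c * (expS (cst (-K) * Ts) * Xs)

lemma dz_cmp (c K : ℝ) : dz (cmp c K : smoothAlg T) = cst c * expS (cst (-K) * Ts) := by
  simp only [cmp, dz_mul, dz_cst, dz_expS, dz_Ts, dz_Xs]; ring

lemma dzz_cmp (c K : ℝ) : dz (dz (cmp c K : smoothAlg T)) = 0 := by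
  rw [dz_cmp]
  simp only [dz_mul, dz_cst, dz_expS, dz_Ts]; ring

lemma dt_cmp (c K : ℝ) : dt (cmp c K : smoothAlg T) = cst (-K) * cmp c K := by
  simp only [cmp, dt_mul, dt_cst, dt_expS, dt_Ts, dt_Xs]; ring

lemma ext_cmp (c K : ℝ) {x t : ℝ} (hd : (x, t) ∈ dom T) :
    ext (cmp c K : smoothAlg T) (x, t) = c * (Real.exp (-K * t) * x) := by
  simp only [cmp, ext_mul, ext_cst _ hd, ext_expS _ hd, ext_Ts hd, ext_Xs hd]

lemma ext_dz_cmp (c K : ℝ) {x t : ℝ} (hd : (x, t) ∈ dom T) :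
    ext (dz (cmp c K : smoothAlg T)) (x, t) = c * Real.exp (-K * t) := by
  rw [dz_cmp, ext_mul, ext_cst _ hd, ext_expS _ hd, ext_mul, ext_cst _ hd, ext_Ts hd]

/-- near the pole `B ≥ 1/2` -/
lemma B_pole {T' : ℝ} (hT' : T' < T) : ∃ δ : ℝ, 0 < δ ∧ δ ≤ 1 / 2 ∧
    ∀ x ∈ Icc (0 : ℝ) 1, ∀ t ∈ Icc 0 T', 1 - δ ≤ x → 1 / 2 ≤ ext M.B (x, t) := by
  obtain ⟨L, hL0, hL⟩ := ext_bound (dz M.B) hT'
  have hBpole : ∀ x ∈ Icc (0 : ℝ) 1, ∀ t ∈ Icc 0 T', 1 - L * (1 - x) ≤ ext M.B (x, t) := by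
    intro x hx t ht
    have htT : t ∈ Ico 0 T := ⟨ht.1, lt_of_le_of_lt ht.2 hT'⟩
    have hd : ∀ y ∈ Icc (0 : ℝ) 1, HasDerivWithinAt (fun z => ext M.B (z, t))
        (ext (dz M.B) (y, t)) (Icc 0 1) y := fun y hy =>
      (hasDerivWithinAt_z M.B ⟨by linarith only [hy, hy.1], hy.2⟩ htT).mono
        (Icc_subset_Icc (by norm_num) le_rfl)
    have := (convex_Icc (0 : ℝ) 1).norm_image_sub_le_of_norm_hasDerivWithin_le hd
      (C := L) (fun y hy => by
        rw [Real.norm_eq_abs]; exact hL y ⟨by linarith only [hy, hy.1], hy.2⟩ t ht)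
      hx (right_mem_Icc.2 zero_le_one)
    rw [Real.norm_eq_abs, Real.norm_eq_abs, M.B_one htT, abs_of_nonneg (by linarith only [hx, hx.2] :
      (0:ℝ) ≤ 1 - x)] at this
    linarith only [this, (abs_le.1 this).2]
  have hLp : 0 < L + 1 := by linarith
  refine ⟨1 / (2 * (L + 1)), by positivity, ?_, ?_⟩
  · rw [div_le_div_iff₀ (by positivity) (by norm_num)]
    linarith only [hL0]
  · intro x hx t ht hxd
    have h1 := hBpole x hx t ht
    have h2 : L * (1 - x) ≤ L * (1 / (2 * (L + 1))) :=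
      mul_le_mul_of_nonneg_left (by linarith only [hxd]) hL0
    have h3 : L * (1 / (2 * (L + 1))) ≤ 1 / 2 := by
      rw [mul_one_div, div_le_div_iff₀ (by positivity) (by norm_num)]
      linarith only []
    linarith only [h1, h2, h3]

/-- the total `N = B - S F_x` has a positive lower bound `c' x` -/
theorem Nn_ge (hM : M.IsEven)
    (hB : ∀ t ∈ Ico 0 T, ∀ x ∈ Icc (0 : ℝ) 1, 0 ≤ ext M.B (x, t))
    (hq : ∀ t ∈ Ico 0 T, ∀ x ∈ Icc (0 : ℝ) 1, ext (dz M.F) (x, t) ≤ 0)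
    {c : ℝ} (hc : 0 < c) (h0 : ∀ x ∈ Icc (0 : ℝ) 1, 0 < T → c * x ≤ ext M.Nn (x, 0))
    {T' : ℝ} (hT' : T' < T) :
    ∃ c' > 0, ∀ t ∈ Icc 0 T', ∀ x ∈ Icc (0 : ℝ) 1, c' * x ≤ ext M.Nn (x, t) := by
  rcases lt_or_ge T' 0 with hneg | hT0
  · exact ⟨1, one_pos, fun t ht => absurd (ht.1.trans ht.2) (not_le.2 hneg)⟩
  have hT : 0 < T := lt_of_le_of_lt hT0 hT'
  obtain ⟨δ, hδ0, hδ1, hBpole⟩ := M.B_pole hT'
  obtain ⟨k, hk0, hk⟩ := ext_bound (((p : smoothAlg T) - 1) * M.E * (1 + 2 * Xs * dz M.W) -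
      Ss * dz M.J) hT'
  obtain ⟨k2, hk20, hk2⟩ := ext_bound (2 * ((p : smoothAlg T) - 1) * (M.E - Ss * M.H)) hT'
  obtain ⟨k', hk0', hk'⟩ := ext_bound_x (2 * (Xs - M.B) * M.E +
    ((p : smoothAlg T) - 1) * Xs * M.E + Ss * M.J) (fun t ht => by
      have hd : ((0 : ℝ), t) ∈ dom T := mem_dom (by norm_num) ht
      simp only [ext_add, ext_sub, ext_mul, ext_Xs hd, ext_Ss hd, hM.B.zero ht, M.J_zero ht]
      ring) hT'
  set K := k + k' + k2 / δ with hK
  have hKk : 0 ≤ K := by rw [hK]; (clear * - hk0 hk0' hk20 hδ0; positivity)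
  set c₀ := min c (1 / 2) with hc₀
  have hc₀p : 0 < c₀ := lt_min hc (by norm_num)
  have hc₀1 : c₀ ≤ 1 / 2 := min_le_right _ _
  have hc₀c : c₀ ≤ c := min_le_left _ _
  clear_value c₀
  have key : ∀ t ∈ Icc 0 T', ∀ x ∈ Icc (0 : ℝ) 1, ext (cmp c₀ K - M.Nn) (x, t) ≤ 0 := by
    refine weak_max01_loc (cmp c₀ K - M.Nn) hT' (k := k) (fun x hx => ?_) (fun t ht => ?_) ?_
    · have hd : (x, (0 : ℝ)) ∈ dom T := mem_dom ⟨by linarith only [hδ0, hδ1, hx, hx.1], hx.2⟩ ⟨le_rfl, hT⟩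
      rw [ext_sub, ext_cmp _ _ hd, mul_zero, Real.exp_zero, one_mul]
      have : c₀ * x ≤ c * x := mul_le_mul_of_nonneg_right hc₀c hx.1
      linarith only [h0, hT, hx, this, h0 x hx hT]
    · have htT : t ∈ Ico 0 T := ⟨ht.1, lt_of_le_of_lt ht.2 hT'⟩
      have hd : ((0 : ℝ), t) ∈ dom T := mem_dom (by norm_num) htT
      rw [ext_sub, ext_cmp _ _ hd, hM.Nn.zero htT, mul_zero, mul_zero, sub_zero]
    intro x hx t ht hpos
    have hx' : x ∈ Icc (-1 : ℝ) 1 := ⟨by linarith only [hδ0, hδ1, hx, hx.1], hx.2⟩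
    have hx01 : x ∈ Icc (0 : ℝ) 1 := ⟨hx.1.le, hx.2⟩
    have htI : t ∈ Icc 0 T' := ⟨ht.1.le, ht.2⟩
    have htT : t ∈ Ico 0 T := ⟨ht.1.le, lt_of_le_of_lt ht.2 hT'⟩
    have hd : (x, t) ∈ dom T := mem_dom hx' htT
    have hE := M.E_pos hd
    have hNv : ext M.Nn (x, t) = ext M.B (x, t) - (1 - x ^ 2) * ext (dz M.F) (x, t) := by
      rw [Nn, ext_sub, ext_mul, ext_Ss hd]
    have hqn := hq t htT x hx01
    have hS0 : 0 ≤ 1 - x ^ 2 := by nlinarith only [hδ0, hδ1, hx', hx'.1, hx'.2]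
    have hgx : ext (cmp c₀ K : smoothAlg T) (x, t) = ext (dz (cmp c₀ K : smoothAlg T)) (x, t) * x := by
      rw [ext_cmp _ _ hd, ext_dz_cmp _ _ hd]; ring
    have hgp : 0 < ext (dz (cmp c₀ K : smoothAlg T)) (x, t) := by
      rw [ext_dz_cmp _ _ hd]
      exact mul_pos hc₀p (Real.exp_pos _)
    have hgp1 : ext (dz (cmp c₀ K : smoothAlg T)) (x, t) ≤ 1 / 2 := by
      rw [ext_dz_cmp _ _ hd]
      have h1 : Real.exp (-K * t) ≤ 1 := by
        rw [Real.exp_le_one_iff]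
        (by_contra nlg; linarith only [nlg, mul_nonneg (sub_nonneg.2 hKk) (le_of_lt (sub_pos.2 ht.1)), mul_nonneg (le_of_lt (sub_pos.2 (not_le.1 nlg))) (sub_nonneg.2 hδ1), mul_pos (sub_pos.2 (not_le.1 nlg)) (sub_pos.2 hδ0)])
      calc c₀ * Real.exp (-K * t) ≤ 1 / 2 * 1 :=
            mul_le_mul hc₀1 h1 (Real.exp_pos _).le (by norm_num)
        _ = 1 / 2 := by norm_num
    have hpos' : 0 < ext (dz (cmp c₀ K : smoothAlg T)) (x, t) * x - ext M.Nn (x, t) := by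
      rw [← hgx, ← ext_sub]; exact hpos
    -- the point is away from the pole
    have hSq : 0 ≤ -((1 - x ^ 2) * ext (dz M.F) (x, t)) := by
      have := mul_nonneg hS0 (neg_nonneg.2 hqn)
      linarith only [this]
    have hxδ : x < 1 - δ := by
      by_contra hcon
      push Not at hcon
      have h1 := hBpole x hx01 t htI hcon
      have h3 : ext (dz (cmp c₀ K : smoothAlg T)) (x, t) * x ≤ 1 / 2 := by
        calc ext (dz (cmp c₀ K : smoothAlg T)) (x, t) * x ≤ 1 / 2 * 1 :=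
              mul_le_mul hgp1 hx.2 hx.1.le (by norm_num)
          _ = 1 / 2 := by norm_num
      linarith only [hNv, hpos', hSq, h1, h3]
    have hSδ : δ ≤ 1 - x ^ 2 := by (by_contra nlg; linarith only [nlg, mul_pos (sub_pos.2 hxδ) (sub_pos.2 hx.1), mul_pos (sub_pos.2 hxδ) (sub_pos.2 hxδ), mul_pos (sub_pos.2 hδ0) (sub_pos.2 hx.1), mul_pos (sub_pos.2 hδ0) (sub_pos.2 hxδ), mul_pos (sub_pos.2 (not_le.1 nlg)) (sub_pos.2 hx.1), mul_pos (sub_pos.2 (not_le.1 nlg)) (sub_pos.2 hxδ), mul_pos (sub_pos.2 (not_le.1 nlg)) (sub_pos.2 hδ0)])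
    have hqδ : -ext (dz M.F) (x, t) ≤ ext M.Nn (x, t) / δ := by
      rw [le_div_iff₀ hδ0]
      have : -ext (dz M.F) (x, t) * δ ≤ -ext (dz M.F) (x, t) * (1 - x ^ 2) :=
        mul_le_mul_of_nonneg_left hSδ (neg_nonneg.2 hqn)
      have hBn := hB t htT x hx01
      linarith only [hNv, this, hBn]
    refine ⟨ext M.E (x, t) * (1 - x ^ 2), -ext (2 * (Xs - M.B) * M.E +
      ((p : smoothAlg T) - 1) * Xs * M.E + Ss * M.J) (x, t), ?_, ?_, ?_, ?_⟩
    · (clear * - hE hS0; positivity)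
    · rintro rfl
      exact absurd hxδ (by linarith only [hδ0, hxδ])
    · rintro rfl
      exact absurd hx.1 (by norm_num)
    · rw [dt_sub, dz_sub, dz_sub, ext_sub, ext_sub, ext_sub, dzz_cmp, dt_cmp, ext_sub, ext_zero,
        ext_mul, ext_cst _ hd, hgx]
      have h1 : ext (dt M.Nn) (x, t) = ext M.E (x, t) * (1 - x ^ 2) * ext (dz (dz M.Nn)) (x, t)
          - ext (2 * (Xs - M.B) * M.E + ((p : smoothAlg T) - 1) * Xs * M.E + Ss * M.J) (x, t) *
            ext (dz M.Nn) (x, t)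
          + ext (((p : smoothAlg T) - 1) * M.E * (1 + 2 * Xs * dz M.W) -
        Ss * dz M.J) (x, t) * ext M.Nn (x, t)
          + ext (2 * ((p : smoothAlg T) - 1) * (M.E - Ss * M.H)) (x, t) *
            ext (dz M.F) (x, t) := by
        rw [dt_Nn]
        simp only [ext_add, ext_sub, ext_mul, ext_Ss hd]
      rw [h1]
      exact Nn_ge_aux hδ0 hk20 hx.1 hgp hK hpos' (abs_le.1 (hk x hx' t htI))
        (abs_le.1 (hk2 x hx' t htI)).2 (abs_le.1 (hk' x hx01 t htI)).2 hqn hqδ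
  refine ⟨c₀ * Real.exp (-K * T'), mul_pos hc₀p (Real.exp_pos _), fun t ht x hx => ?_⟩
  have htT : t ∈ Ico 0 T := ⟨ht.1, lt_of_le_of_lt ht.2 hT'⟩
  have hd : (x, t) ∈ dom T := mem_dom ⟨by linarith only [hδ0, hδ1, hx, hx.1], hx.2⟩ htT
  have h1 := key t ht x hx
  rw [ext_sub, ext_cmp _ _ hd] at h1
  have h2 : Real.exp (-K * T') ≤ Real.exp (-K * t) := by
    apply Real.exp_le_exp.2
    nlinarith only [hδ0, hδ1, hKk, ht, ht.2]
  have h3 : c₀ * Real.exp (-K * T') * x ≤ c₀ * (Real.exp (-K * t) * x) := by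
    rw [mul_assoc]
    exact mul_le_mul_of_nonneg_left (mul_le_mul_of_nonneg_right h2 hx.1) hc₀p.le
  linarith only [h1, h3]

end Sys

/-- a continuous function on `[0,1]`, `≤ 0` inside, is `≤ 0` -/
lemma nonpos_closure {φ : ℝ → ℝ} (hc : ContinuousOn φ (Icc 0 1))
    (h : ∀ x ∈ Ioo (0 : ℝ) 1, φ x ≤ 0) : ∀ x ∈ Icc (0 : ℝ) 1, φ x ≤ 0 := by
  have hcl : closure (Ioo (0 : ℝ) 1) = Icc 0 1 := closure_Ioo (by norm_num)
  have h1 : MapsTo φ (Ioo 0 1) (Iic 0) := fun x hx => h x hx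
  have h2 := h1.closure_of_continuousOn (by rw [hcl]; exact hc)
  rw [hcl, closure_Iic] at h2
  exact fun x hx => h2 hx

section geo

variable {w f : Fn} (h : ConfSol p w f T) {x t : ℝ}

include h

lemma ConfSol.ext_B (hx : x ∈ Icc (-1 : ℝ) 1) (ht : t ∈ Ico 0 T) :
    ext h.sys.B (x, t) = x - (1 - x ^ 2) * dx (w t) x := by
  have hd := mem_dom hx ht
  rw [Sys.B, ext_sub, ext_mul, ext_Xs hd, ext_Ss hd, h.ext_dzW hx ht]

lemma ConfSol.ext_Nn (hx : x ∈ Icc (-1 : ℝ) 1) (ht : t ∈ Ico 0 T) :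
    ext h.sys.Nn (x, t) = ext h.sys.B (x, t) - (1 - x ^ 2) * dx (f t) x := by
  have hd := mem_dom hx ht
  rw [Sys.Nn, ext_sub, ext_mul, ext_Ss hd, h.ext_dzF hx ht]

/-- `ρ_s = e^{-w} N / (2 √(1-x²))` -/
lemma ConfSol.rs_N (hx : x ∈ Ioo (-1 : ℝ) 1) (ht : t ∈ Ico 0 T) :
    rs w f t x = Real.exp (-w t x) * ext h.sys.Nn (x, t) / (2 * sx x) := by
  have hs := sx_posQ hx
  have hx' := Ioo_subset_Icc_self hx
  rw [h.rs_eq hx ht, h.ext_Nn hx' ht, h.ext_B hx' ht, rhox, ← sx_sqQ hx]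
  field_simp
  ring

/-- `P = e^{-w} (-(1-x²)F_x - B) / √(1-x²)` -/
lemma ConfSol.PP_B (hx : x ∈ Ioo (-1 : ℝ) 1) (ht : t ∈ Ico 0 T) :
    PP w f t x = -(Real.exp (-w t x) * (ext h.sys.B (x, t) + (1 - x ^ 2) * dx (f t) x) / sx x) := by
  have hs := sx_posQ hx
  have hx' := Ioo_subset_Icc_self hx
  rw [h.PP_eq hx ht, h.ext_B hx' ht, ux, ← sx_sqQ hx]
  field_simp
  ring

/-- `G = 2 (B + (1-x²) F_x) / N` -/
lemma ConfSol.GG_B (hx : x ∈ Ioo (-1 : ℝ) 1) (ht : t ∈ Ico 0 T)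
    (hN : 0 < ext h.sys.Nn (x, t)) :
    GG w f t x = 2 * (ext h.sys.B (x, t) + (1 - x ^ 2) * dx (f t) x) / ext h.sys.Nn (x, t) := by
  have hs := sx_posQ hx
  have he := Real.exp_pos (-w t x)
  rw [GG, h.rs_N hx ht, h.PP_B hx ht]
  field_simp

end geo

/-- Block M1. -/
theorem qStatement : QStatement := by
  intro g _ q b w f T hT h hI
  have h00 : (0 : ℝ) ∈ Ico 0 T := ⟨le_rfl, hT⟩
  have hev := h.isEven
  have hin : ∀ {x : ℝ}, x ∈ Ioo (0 : ℝ) 1 → x ∈ Ioo (-1 : ℝ) 1 := fun hx =>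
    ⟨by linarith only [hx, hx.1], hx.2⟩
  have hin' : ∀ {x : ℝ}, x ∈ Icc (0 : ℝ) 1 → x ∈ Icc (-1 : ℝ) 1 := fun hx =>
    ⟨by linarith only [hx, hx.1], hx.2⟩
  have hcont : ∀ F : smoothAlg T, ContinuousOn (fun x => ext F (x, 0)) (Icc 0 1) := fun F =>
    (slice_continuousOn F h00).mono (Icc_subset_Icc (by norm_num) le_rfl)
  obtain ⟨δ, hδ, hrs⟩ := hI.rs_lower
  -- signs at time `0`
  have hN0 : ∀ x ∈ Ioo (0 : ℝ) 1, 0 < ext h.sys.Nn (x, 0) := by
    intro x hx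
    have h1 := hrs x hx
    rw [h.rs_N (hin hx) h00] at h1
    have h2 : 0 < Real.exp (-w 0 x) * ext h.sys.Nn (x, 0) / (2 * sx x) :=
      lt_of_lt_of_le (mul_pos hδ hx.1) h1
    have h3 := sx_posQ (hin hx)
    have h4 : 0 < Real.exp (-w 0 x) * ext h.sys.Nn (x, 0) := by
      by_contra hcon
      push Not at hcon
      exact absurd h2 (not_lt.2 (div_nonpos_of_nonpos_of_nonneg hcon (by positivity)))
    exact (mul_pos_iff_of_pos_left (Real.exp_pos _)).1 h4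
  have hsig : ∀ x ∈ Ioo (0 : ℝ) 1, 0 < ext h.sys.B (x, 0) ∧ dx (f 0) x ≤ 0 := by
    intro x hx
    have hN := hN0 x hx
    have h1 := hI.G_lt x hx
    rw [h.GG_B (hin hx) h00 hN, abs_lt, lt_div_iff₀ hN, div_lt_iff₀ hN] at h1
    have h2 := h.ext_Nn (Ioo_subset_Icc_self (hin hx)) h00
    have hS := one_sub_sq_pos (hin hx)
    rw [h2] at h1
    have h3 : (1 - x ^ 2) * dx (f 0) x < 0 := by linarith only [h, h1, h1.2]
    refine ⟨by linarith only [h, h1, h1.1], ?_⟩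
    by_contra hcon
    push Not at hcon
    exact absurd h3 (not_lt.2 (mul_pos hS hcon).le)
  have hB0 : ∀ x ∈ Icc (0 : ℝ) 1, 0 < T → 0 ≤ ext h.sys.B (x, 0) := by
    intro x hx _
    have := nonpos_closure (φ := fun x => -ext h.sys.B (x, 0)) (hcont h.sys.B).neg
      (fun y hy => by have := (hsig y hy).1; linarith) x hx
    linarith
  have hq0 : ∀ x ∈ Icc (0 : ℝ) 1, 0 < T → ext (dz h.sys.F) (x, 0) ≤ 0 := by
    intro x hx _
    exact nonpos_closure (φ := fun x => ext (dz h.sys.F) (x, 0)) (hcont (dz h.sys.F))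
      (fun y hy => by
        rw [h.ext_dzF (Ioo_subset_Icc_self (hin hy)) h00]
        exact (hsig y hy).2) x hx
  have hB := h.sys.B_nonneg hev (by norm_num) hB0
  have hq := h.sys.dzF_nonpos hev hq0
  -- lower bound of `N` at time `0`
  obtain ⟨δ', hδ'0, hδ'1, hpole⟩ := h.sys.B_pole hT
  obtain ⟨C, hC0, hC⟩ := ext_bound h.sys.W hT
  have hNlow : ∃ c > 0, ∀ x ∈ Icc (0 : ℝ) 1, 0 < T → c * x ≤ ext h.sys.Nn (x, 0) := by
    refine ⟨min (1 / 2) (2 * δ * Real.sqrt δ' * Real.exp (-C)), by positivity, ?_⟩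
    intro x hx _
    have hxI := hin' hx
    have hNB : ext h.sys.B (x, 0) ≤ ext h.sys.Nn (x, 0) := by
      rw [h.ext_Nn hxI h00]
      have h1 := hq0 x hx hT
      rw [h.ext_dzF hxI h00] at h1
      have h2 : 0 ≤ 1 - x ^ 2 := by nlinarith only [hδ'0, hδ'1, hxI, hxI.1, hxI.2]
      linarith only [mul_nonneg h2 (neg_nonneg.2 h1)]
    rcases le_or_gt (1 - δ') x with hx1 | hx1
    · have h1 := hpole x hx 0 ⟨le_rfl, le_rfl⟩ hx1
      have h2 : min (1 / 2) (2 * δ * Real.sqrt δ' * Real.exp (-C)) * x ≤ 1 / 2 * 1 :=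
        mul_le_mul (min_le_left _ _) hx.2 hx.1 (by norm_num)
      linarith only [h, hNB, h1, h2]
    · rcases hx.1.eq_or_lt with h0 | h0
      · rw [← h0, mul_zero, hev.Nn.zero h00]
      · have hxo : x ∈ Ioo (0 : ℝ) 1 := ⟨h0, by linarith only [hδ'0, hx1]⟩
        have h1 := hrs x hxo
        rw [h.rs_N (hin hxo) h00, le_div_iff₀ (by have := sx_posQ (hin hxo); positivity)] at h1
        have h2 : Real.sqrt δ' ≤ sx x := Real.sqrt_le_sqrt (by nlinarith only [hδ'0, hδ'1, hx1, h0])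
        have h3 : Real.exp (-w 0 x) ≤ Real.exp C := by
          apply Real.exp_le_exp.2
          have := hC x hxI 0 ⟨le_rfl, le_rfl⟩
          rw [h.ext_W hxI h00] at this
          linarith only [this, (abs_le.1 this).1]
        have hN := hN0 x hxo
        have h4 : δ * x * (2 * Real.sqrt δ') ≤ Real.exp C * ext h.sys.Nn (x, 0) := by
          calc δ * x * (2 * Real.sqrt δ') ≤ δ * x * (2 * sx x) := by gcongr
            _ ≤ Real.exp (-w 0 x) * ext h.sys.Nn (x, 0) := h1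
            _ ≤ Real.exp C * ext h.sys.Nn (x, 0) := by gcongr
        have h5 : 2 * δ * Real.sqrt δ' * Real.exp (-C) * x ≤ ext h.sys.Nn (x, 0) := by
          have h6 : Real.exp (-C) * Real.exp C = 1 := by rw [← Real.exp_add]; simp
          calc 2 * δ * Real.sqrt δ' * Real.exp (-C) * x
              = Real.exp (-C) * (δ * x * (2 * Real.sqrt δ')) := by ring
            _ ≤ Real.exp (-C) * (Real.exp C * ext h.sys.Nn (x, 0)) := by gcongr
            _ = ext h.sys.Nn (x, 0) := by rw [← mul_assoc, h6, one_mul]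
        exact (mul_le_mul_of_nonneg_right (min_le_right _ _) hx.1).trans h5
  obtain ⟨c, hc, hcN⟩ := hNlow
  have hNpos : ∀ t ∈ Ico 0 T, ∀ x ∈ Ioc (0 : ℝ) 1, 0 < ext h.sys.Nn (x, t) := by
    intro t ht x hx
    obtain ⟨c', hc', hcc⟩ := Sys.Nn_ge hev hB hq hc hcN ht.2
    exact lt_of_lt_of_le (mul_pos hc' hx.1) (hcc t ⟨ht.1, le_rfl⟩ x ⟨hx.1.le, hx.2⟩)
  have hrspos : ∀ t ∈ Ico 0 T, ∀ x ∈ Ioo (0 : ℝ) 1, 0 < rs w f t x := by
    intro t ht x hx
    rw [h.rs_N (hin hx) ht]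
    have h1 := hNpos t ht x ⟨hx.1, hx.2.le⟩
    have h2 := sx_posQ (hin hx)
    have h3 := Real.exp_pos (-w t x)
    positivity
  have hR0 : ∀ x ∈ Icc (-1 : ℝ) 1, 0 < T → 0 ≤ ext h.sys.R (x, 0) := by
    have h1 : ∀ x ∈ Icc (0 : ℝ) 1, -ext h.sys.R (x, 0) ≤ 0 :=
      nonpos_closure (φ := fun x => -ext h.sys.R (x, 0)) (hcont h.sys.R).neg (fun y hy => by
        have h2 := hI.R_nonneg y ⟨hy.1.le, hy.2⟩
        rw [h.RR_eq (hin hy) h00] at h2
        rw [h.ext_R (Ioo_subset_Icc_self (hin hy)) h00]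
        linarith only [h2])
    intro x hx _
    rcases le_total 0 x with h2 | h2
    · have := h1 x ⟨h2, hx.2⟩
      linarith only [h, this]
    · have h3 := h1 (-x) ⟨by linarith only [h2], by linarith only [hx, hx.1]⟩
      rw [hev.R 0 h00 x hx] at h3
      linarith only [h, h3]
  refine ⟨?_, hrspos, ?_, rr_le_equator h hrspos⟩
  · intro t ht x hx
    have hx' : x ∈ Ioo (-1 : ℝ) 1 := ⟨by linarith only [hδ'0, hδ'1, hx, hx.1], hx.2⟩
    rw [h.RR_eq hx' ht, ← h.ext_R (Ioo_subset_Icc_self hx') ht]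
    exact h.sys.R_nonneg hR0 t ht x (Ioo_subset_Icc_self hx')
  · intro t ht x hx
    have hN := hNpos t ht x ⟨hx.1, hx.2.le⟩
    have hx' := Ioo_subset_Icc_self (hin hx)
    rw [h.GG_B (hin hx) ht hN, abs_le, le_div_iff₀ hN, div_le_iff₀ hN]
    have h1 := hB t ht x ⟨hx.1.le, hx.2.le⟩
    have h2 := hq t ht x ⟨hx.1.le, hx.2.le⟩
    rw [h.ext_dzF hx' ht] at h2
    have hS := one_sub_sq_pos (hin hx)
    have h3 : (1 - x ^ 2) * dx (f t) x ≤ 0 := mul_nonpos_of_nonneg_of_nonpos hS.le h2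
    rw [h.ext_Nn hx' ht]
    constructor <;> linarith only [h, h1, h3]

end Vale.Agent.P244.ST
end

section

/-!
# P244-ST / block M3 : the bubble function gives an admissible point (helper288)
-/

open Set Filter Topology

namespace Vale.Agent.P244.ST.ClF

variable {g : ℝ → ℝ}

/-- the point belonging to `u` -/
noncomputable def ptOf (g : ℝ → ℝ) (u : ℝ) : Pt := ⟨Real.tanh u, Real.cosh u, g u / Real.tanh u⟩

theorem ptOf_g {u : ℝ} (hu : 0 < u) : (ptOf g u).g = g u := by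
  have h := (PureF.tanh_pos hu).ne'
  simp only [Pt.g, ptOf]
  field_simp

theorem ptOf_q {u : ℝ} (hu : 0 < u) : (ptOf g u).q = qb g u := by
  rw [Pt.q, ptOf_g hu, qb]

/-- `g₁ = g'` -/
theorem ptOf_g1 (hg : IsBub g) {u : ℝ} (hu : 0 < u) : (ptOf g u).g1 = deriv g u := by
  have h1 := PureF.g_ode hg hu
  have h2 := (PureF.g_pos hg hu).ne'
  have h3 := (PureF.tanh_pos hu).ne'
  rw [Pt.g1, ptOf_q hu, Pt.ka]
  simp only [ptOf]
  have : g u * (qb g u * (1 - 2 / (g u / Real.tanh u))) = g u * deriv g u := by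
    rw [h1]; field_simp
  exact mul_left_cancel₀ h2 this

theorem ptOf_z {u : ℝ} (hu : 0 < u) : (ptOf g u).z * Real.cosh u = Zs g u := by
  rw [Pt.z, ptOf_q hu, Zs]; ring

theorem ok_of (hg : IsBub g) {u : ℝ} (hu : 0 < u) : (ptOf g u).Ok where
  T0 := PureF.tanh_pos hu
  T1 := Real.tanh_lt_one u
  c0 := Real.cosh_pos u
  c2 := by
    have h := Real.cosh_sq u
    have h2 := PureF.tanh_mul_cosh u
    simp only [ptOf]
    have : Real.cosh u ^ 2 * (1 - Real.tanh u ^ 2) =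
        Real.cosh u ^ 2 - (Real.tanh u * Real.cosh u) ^ 2 := by ring
    rw [this, h2, h]; ring
  k2 := PureF.quot_gt hg hu
  kk := (PureF.quot_lt hg hu).trans PureF.kap_lt
  g2 := by
    have := ptOf_g (g := g) hu
    simp only [Pt.g] at this
    rw [this]; exact hg.lt_two u hu
  mono := by
    rw [ptOf_g1 hg hu]
    have h1 := hg.ratio u hu
    have h3 := PureF.tanh_pos hu
    simp only [ptOf]
    have e : g u / Real.tanh u * (1 - Real.tanh u ^ 2) =
        g u * (1 - Real.tanh u ^ 2) / Real.tanh u := by ring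
    rw [e, le_div_iff₀ h3]
    exact h1

end Vale.Agent.P244.ST.ClF
end

section

/-!
# P244-ST / block M3 : smallness at a touching point from the facts FI (helper288)
-/

open Set

namespace Vale.Agent.P244.ST.ClF

open Vale.Agent.P244.ST.M

/-- the parameter conditions used in M3 -/
structure QOk (q : Par) : Prop where
  B : 1 ≤ q.B
  rho0 : 0 < q.rho0
  N : 100 ≤ q.N
  eps : 0 < q.eps

theorem ev_QOk : Ev QOk := by
  refine ⟨1, fun B hB => ⟨1, one_pos, fun rho0 hr => ⟨0, fun BV _ => ⟨0, fun MU _ => ⟨0, fun MP _ =>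
    ⟨0, fun MV _ => ⟨0, fun CU _ => ⟨0, fun CP _ => ⟨0, fun CV _ => ⟨0, fun GR _ =>
    ⟨1, one_pos, fun sg _ => ⟨1, one_pos, fun d0 _ => ⟨1, one_pos, fun rb _ =>
    ⟨100, fun N hN => ⟨1, one_pos, fun eps he => ?_⟩⟩⟩⟩⟩⟩⟩⟩⟩⟩⟩⟩⟩⟩⟩
  exact ⟨hB, hr.1, hN, he.1⟩

namespace QOk

variable {q : Par} (h : QOk q)
include h

theorem T0_pos {t : ℝ} (ht : t < 1) : 0 < q.T0 t := by
  have : 0 < tau t := by rw [tau]; linarith only [ht]
  have h1 := Real.rpow_pos_of_pos this (lam 3)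
  have h2 := Real.rpow_pos_of_pos h.rho0 (-kap)
  exact mul_pos (mul_pos h.eps h1) h2

theorem fb_pos {t u : ℝ} (ht : t < 1) (hu : 0 < u) : 0 < q.fb t u := by
  have h1 : 0 < tau t := by rw [tau]; linarith only [ht]
  have h2 := h.T0_pos ht
  have h3 := PureF.tanh_pos hu
  have h4 := Real.rpow_pos_of_pos (div_pos h3 h2) aa
  have h5 := Real.rpow_pos_of_pos (Real.cosh_pos u) (-(1 - aa))
  have h6 : 0 < q.B := by linarith only [h, h.B]
  rw [Par.fb]
  positivity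

theorem fb_ge {t u : ℝ} (ht0 : 0 ≤ t) (ht : t < 1) (hT : 9 / 10 * q.T0 t ≤ Real.tanh u) :
    9 / 10 ≤ q.fb t u * Real.cosh u := by
  have h1 : 0 < tau t := by rw [tau]; linarith only [ht]
  have h1' : tau t ≤ 1 := by rw [tau]; linarith only [ht0]
  have h2 := h.T0_pos ht
  have h3 : (9 / 10 : ℝ) ≤ Real.tanh u / q.T0 t := by
    rw [le_div_iff₀ h2]; exact hT
  have h4 : (9 / 10 : ℝ) ≤ (Real.tanh u / q.T0 t) ^ aa := by
    have e1 : (9 / 10 : ℝ) ^ (1 : ℝ) ≤ (9 / 10 : ℝ) ^ aa :=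
      Real.rpow_le_rpow_of_exponent_ge (by norm_num) (by norm_num) (by rw [aa]; norm_num)
    rw [Real.rpow_one] at e1
    exact e1.trans (Real.rpow_le_rpow (by norm_num) h3 (by rw [aa]; norm_num))
  have hc := Real.one_le_cosh u
  have h5 : 1 ≤ Real.cosh u ^ (-(1 - aa)) * Real.cosh u := by
    have e : Real.cosh u ^ (-(1 - aa)) * Real.cosh u = Real.cosh u ^ aa := by
      conv_lhs => rw [← Real.rpow_one (Real.cosh u), ← Real.rpow_mul (by positivity),
        ← Real.rpow_add (Real.cosh_pos u)]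
      congr 1; ring
    rw [e]
    exact Real.one_le_rpow hc (by rw [aa]; norm_num)
  have h6 : 1 ≤ q.B / tau t := by
    rw [le_div_iff₀ h1]; linarith only [h, h1', h.B]
  have h7 : q.fb t u * Real.cosh u = (q.B / tau t) * (Real.tanh u / q.T0 t) ^ aa *
      (Real.cosh u ^ (-(1 - aa)) * Real.cosh u) := by rw [Par.fb]; ring
  rw [h7]
  have h8 : (9 / 10 : ℝ) ≤ (q.B / tau t) * (Real.tanh u / q.T0 t) ^ aa := by
    calc (9 / 10 : ℝ) = 1 * (9 / 10) := by ring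
      _ ≤ _ := mul_le_mul h6 h4 (by norm_num) (by linarith only [h6])
  calc (9 / 10 : ℝ) = 9 / 10 * 1 := by ring
    _ ≤ _ := mul_le_mul h8 h5 (by norm_num) (by linarith only [h8])

end QOk

variable {q : Par} {g : ℝ → ℝ} {w f : Fn} {t x : ℝ}

theorem eta_le (h : QOk q) : 0 < q.eta ∧ q.eta ≤ 1 := by
  have hN := h.N
  have : 0 < q.N := by linarith only [hN]
  rw [Par.eta]
  constructor
  · positivity
  · rw [div_le_one (by positivity)]; (by_contra nlg; linarith [mul_nonneg (sub_nonneg.2 hN) (sub_nonneg.2 hN), mul_nonneg (le_of_lt (sub_pos.2 (not_le.1 nlg))) (sub_nonneg.2 hN), mul_pos (sub_pos.2 (not_le.1 nlg)) (sub_pos.2 (not_le.1 nlg)), mul_nonneg (sq_nonneg (q.N : ℝ)) (sub_nonneg.2 hN), mul_nonneg (sq_nonneg (q.N : ℝ)) (le_of_lt (sub_pos.2 (not_le.1 nlg)))])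

theorem Zs_ge (hg : IsBub g) {u : ℝ} (hu : 0 < u) : Real.cosh u ≤ Zs g u := by
  have h1 := (ok_of hg hu).z_bd
  rw [← ptOf_z hu]
  have := Real.cosh_pos u
  linarith only [mul_pos (sub_pos.2 this) (sub_pos.2 h1.1)]

/-- **smallness at a touching point** -/
theorem smOk_of (hg : IsBub g) (hq : QOk q) (ht0 : 0 ≤ t) (ht : t < 1) (h : FI q g w f t x)
    (heq : |ff g w f t x| = q.fb t (uu w f t x)) {Dth : ℝ}
    (hD : 40 * Dth = -(40 * th g w f t x * (39 - (g (uu w f t x) / 2) ^ 2 +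
      (g (uu w f t x) / 2) ^ 2 * ee g w f t x ^ 2)) -
      40 * (g (uu w f t x) / 2) ^ 2 * ee g w f t x ^ 2 -
      (rr w f t x) ^ 2 * RR w f t x * (1 / Zs g (uu w f t x))) :
    (ptOf g (uu w f t x)).SmOk ⟨ee g w f t x, th g w f t x, Dth⟩ := by
  set u := uu w f t x with hu
  set e := ee g w f t x with he
  set θ := th g w f t x with hθ
  set r := rr w f t x with hr
  have hu0 : 0 < u := h.u_pos
  have hr0 : 0 < r := Real.exp_pos _
  have hr2 : 0 < r ^ 2 := by positivity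
  have hfb := hq.fb_pos ht hu0
  have hebd : eb q w f t x = r ^ 2 * q.fb t u := rfl
  have heb : |e| = eb q w f t x := by
    rw [hebd, ← heq, ff, abs_div, abs_of_pos hr2]
    change |e| = r ^ 2 * (|e| / r ^ 2)
    field_simp
  have heb0 : 0 < eb q w f t x := by rw [hebd]; positivity
  have hc := Real.one_le_cosh u
  have heb1 : eb q w f t x ≤ 1 / 10 ^ 4 := (le_mul_of_one_le_right heb0.le hc).trans h.eb_le
  have hZs := Zs_ge hg hu0
  have hZs0 : 0 < Zs g u := by linarith only [heb0, hc, heb1, hZs]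
  have hok := ok_of hg hu0
  have hgg : g u ^ 2 < 4 := by
    have := hok.gsq.2
    rwa [ptOf_g hu0] at this
  have hg2 : 0 ≤ g u ^ 2 := sq_nonneg _
  have hη := eta_le hq
  -- `r² η / Zs ≤ (10/9) eb η`
  have hkey : r ^ 2 / Zs g u ≤ 10 / 9 * eb q w f t x := by
    rw [div_le_iff₀ hZs0, hebd]
    have h1 := hq.fb_ge ht0 ht h.T_ge
    have h2 : 9 / 10 ≤ q.fb t u * Zs g u :=
      h1.trans (mul_le_mul_of_nonneg_left hZs hfb.le)
    have h3 : r ^ 2 * (9 / 10) ≤ r ^ 2 * (q.fb t u * Zs g u) :=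
      mul_le_mul_of_nonneg_left h2 hr2.le
    linarith only [h3]
  have hθ0 : θ ≤ 0 := h.th_le
  have hθ1 : -θ ≤ 0.0021 * eb q w f t x := by
    have h1 := h.th_ge
    have h2 : g u ^ 2 * eb q w f t x ^ 2 / 148 ≤ 4 * (1 / 10 ^ 4 * eb q w f t x) / 148 := by
      have : g u ^ 2 * eb q w f t x ^ 2 ≤ 4 * (1 / 10 ^ 4 * eb q w f t x) := by
        apply mul_le_mul hgg.le _ (sq_nonneg _) (by norm_num)
        rw [pow_two]
        exact mul_le_mul_of_nonneg_right heb1 heb0.le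
      linarith only [this]
    have h3 : r ^ 2 * (3 * q.eta) / (1640 * Zs g u) = (r ^ 2 / Zs g u) * (3 * q.eta / 1640) := by
      field_simp
    have h4 : (r ^ 2 / Zs g u) * (3 * q.eta / 1640) ≤ (10 / 9 * eb q w f t x) * (3 / 1640) := by
      apply mul_le_mul hkey (by linarith only [hη, hη.2]) (by linarith only [hη, hη.1]) (by positivity)
    rw [← hr, h3] at h1
    linarith only [heb0, h1, h2, h4]
  have hθabs : |θ| ≤ 0.0021 * eb q w f t x := by rw [abs_of_nonpos hθ0]; exact hθ1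
  -- `D_r θ`
  have hDabs : |Dth| ≤ 0.2 * eb q w f t x := by
    have hR0 := h.R_nonneg
    have hR1 : RR w f t x ≤ 3 := h.R_le.trans (by linarith only [hη, hη.2])
    have h5 : r ^ 2 * RR w f t x * (1 / Zs g u) ≤ (10 / 9 * eb q w f t x) * 3 := by
      have : r ^ 2 * RR w f t x * (1 / Zs g u) = (r ^ 2 / Zs g u) * RR w f t x := by ring
      rw [this]
      exact mul_le_mul hkey hR1 hR0 (by positivity)
    have h6 : 0 ≤ r ^ 2 * RR w f t x * (1 / Zs g u) := by (clear * - hr0 hR0 hZs0; positivity)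
    have hee : e ^ 2 = eb q w f t x ^ 2 := by rw [← heb, sq_abs]
    have hee1 : e ^ 2 ≤ 1 / 10 ^ 4 * eb q w f t x := by
      rw [hee, pow_two]
      exact mul_le_mul_of_nonneg_right heb1 heb0.le
    have hee0 : 0 ≤ e ^ 2 := sq_nonneg e
    have h7 : (g u / 2) ^ 2 ≤ 1 := by rw [div_pow]; linarith only [hgg]
    have h7' : 0 ≤ (g u / 2) ^ 2 := sq_nonneg _
    have h8 : (g u / 2) ^ 2 * e ^ 2 ≤ 1 / 10 ^ 4 * eb q w f t x := by
      calc (g u / 2) ^ 2 * e ^ 2 ≤ 1 * e ^ 2 := mul_le_mul_of_nonneg_right h7 hee0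
        _ ≤ _ := by linarith only [hee1]
    have h8' : 0 ≤ (g u / 2) ^ 2 * e ^ 2 := by (clear * -; positivity)
    have h9 : 0 ≤ 39 - (g u / 2) ^ 2 + (g u / 2) ^ 2 * e ^ 2 := by linarith only [h8', hgg, heb1, heb0]
    have h10 : 39 - (g u / 2) ^ 2 + (g u / 2) ^ 2 * e ^ 2 ≤ 40 := by linarith only [h8, hg2, heb1, heb0]
    have h11 : -θ * (39 - (g u / 2) ^ 2 + (g u / 2) ^ 2 * e ^ 2) ≤
        0.0021 * eb q w f t x * 40 := mul_le_mul hθ1 h10 h9 (by positivity)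
    have h12 : 0 ≤ -θ * (39 - (g u / 2) ^ 2 + (g u / 2) ^ 2 * e ^ 2) :=
      mul_nonneg (by linarith only [hθ0]) h9
    have h13 : 40 * Dth = 40 * (-θ * (39 - (g u / 2) ^ 2 + (g u / 2) ^ 2 * e ^ 2)) -
        40 * ((g u / 2) ^ 2 * e ^ 2) - r ^ 2 * RR w f t x * (1 / Zs g u) := by
      rw [hD]; ring
    clear hD hkey
    rw [abs_le]
    constructor <;> linarith only [heb0, h5, h8, h12, h13, h6, h8', h11]
  have hc2 : 1 ≤ Real.cosh u ^ 2 := one_le_pow₀ hc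
  have he0 : e ≠ 0 := by
    intro h0; rw [h0, abs_zero] at heb; linarith only [heb, heb0]
  refine ⟨he0, ?_, ?_, ?_, ?_, ?_⟩
  · change |e| ≤ _
    rw [heb]; linarith only [heb0, heb1]
  · change |θ| ≤ _
    linarith only [heb0, heb1, hθabs]
  · change |Dth| ≤ _
    linarith only [heb0, heb1, hDabs]
  · change |θ / e| ≤ 1 / 100 * Real.cosh u ^ 2
    rw [abs_div, heb]
    have : |θ| / eb q w f t x ≤ 1 / 100 := by
      rw [div_le_iff₀ heb0]; linarith only [hθabs, heb0]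
    linarith only [hc2, this]
  · change |Dth / e| ≤ 1 / 2 * Real.cosh u ^ 2
    rw [abs_div, heb]
    have : |Dth| / eb q w f t x ≤ 1 / 2 := by
      rw [div_le_iff₀ heb0]; linarith only [heb0, hDabs]
    linarith only [this, hc2]

end Vale.Agent.P244.ST.ClF
end

section

/-!
# P244-ST / block M3 : calculus of the barrier `fb` (helper288)
-/

open Set Filter
open scoped Topology ContDiff

namespace Vale.Agent.P244.ST.ClF

variable {q : Par}

/-- exponent of `fb` -/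
noncomputable def fbL (q : Par) (t u : ℝ) : ℝ :=
  Real.log q.B - (1 + aa * lam 3) * Real.log (tau t) + aa * Real.log (Real.tanh u) -
    aa * (Real.log q.eps - kap * Real.log q.rho0) - (1 - aa) * Real.log (Real.cosh u)

theorem fb_eq (hq : QOk q) {t u : ℝ} (ht : t < 1) (hu : 0 < u) :
    q.fb t u = Real.exp (fbL q t u) := by
  have h1 : 0 < tau t := by rw [tau]; linarith only [ht]
  have hT := PureF.tanh_pos hu
  have hc := Real.cosh_pos u
  have hB : 0 < q.B := by linarith only [hq, hq.B]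
  have hT0 := hq.T0_pos ht
  have e1 : Real.log (q.T0 t) = Real.log q.eps + lam 3 * Real.log (tau t) -
      kap * Real.log q.rho0 := by
    rw [Par.T0, Par.A, Real.log_mul (mul_pos hq.eps (Real.rpow_pos_of_pos h1 _)).ne'
      (Real.rpow_pos_of_pos hq.rho0 _).ne', Real.log_mul hq.eps.ne'
      (Real.rpow_pos_of_pos h1 _).ne', Real.log_rpow h1, Real.log_rpow hq.rho0]
    ring
  have hpos : 0 < q.fb t u := hq.fb_pos ht hu
  rw [← Real.exp_log hpos]
  congr 1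
  rw [Par.fb, Real.log_mul (by positivity) (Real.rpow_pos_of_pos hc _).ne',
    Real.log_mul (by positivity) (Real.rpow_pos_of_pos (div_pos hT hT0) _).ne',
    Real.log_div hB.ne' h1.ne', Real.log_rpow (div_pos hT hT0), Real.log_rpow hc,
    Real.log_div hT.ne' hT0.ne', e1, fbL]
  ring

theorem hasDerivAt_fbL {tf uf : ℝ → ℝ} {s t' u' : ℝ} (h1 : HasDerivAt tf t' s)
    (h2 : HasDerivAt uf u' s) (ht : tf s < 1) (hu : 0 < uf s) :
    HasDerivAt (fun s => fbL q (tf s) (uf s))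
      ((1 + aa * lam 3) / tau (tf s) * t' +
        (aa / Real.tanh (uf s) - Real.tanh (uf s)) * u') s := by
  have h3 : 0 < tau (tf s) := by rw [tau]; linarith only [ht]
  have hT := PureF.tanh_pos hu
  have hc := Real.cosh_pos (uf s)
  have a1 : HasDerivAt (fun s => Real.log (tau (tf s))) (-t' / tau (tf s)) s := by
    have : HasDerivAt (fun s => tau (tf s)) (-t') s := by
      have := h1.const_sub 1
      exact this
    exact this.log h3.ne'
  have a2 : HasDerivAt (fun s => Real.log (Real.tanh (uf s)))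
      ((1 - Real.tanh (uf s) ^ 2) * u' / Real.tanh (uf s)) s :=
    ((PureF.hasDerivAt_tanh (uf s)).comp s h2).log hT.ne'
  have a3 : HasDerivAt (fun s => Real.log (Real.cosh (uf s)))
      (Real.sinh (uf s) * u' / Real.cosh (uf s)) s :=
    ((Real.hasDerivAt_cosh (uf s)).comp s h2).log hc.ne'
  have h := ((((a1.const_mul (1 + aa * lam 3)).const_sub (Real.log q.B)).add
    (a2.const_mul aa)).sub_const (aa * (Real.log q.eps - kap * Real.log q.rho0))).sub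
    (a3.const_mul (1 - aa))
  refine h.congr_deriv ?_
  rw [← PureF.tanh_mul_cosh (uf s)]
  field_simp
  ring

theorem hasDerivAt_fb (hq : QOk q) {tf uf : ℝ → ℝ} {s t' u' : ℝ} (h1 : HasDerivAt tf t' s)
    (h2 : HasDerivAt uf u' s) (ht : tf s < 1) (hu : 0 < uf s) :
    HasDerivAt (fun s => q.fb (tf s) (uf s))
      (q.fb (tf s) (uf s) * ((1 + aa * lam 3) / tau (tf s) * t' +
        (aa / Real.tanh (uf s) - Real.tanh (uf s)) * u')) s := by
  have h := (hasDerivAt_fbL (q := q) h1 h2 ht hu).exp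
  rw [← fb_eq hq ht hu] at h
  refine h.congr_of_eventuallyEq ?_
  filter_upwards [h1.continuousAt.eventually (gt_mem_nhds ht),
    h2.continuousAt.eventually (lt_mem_nhds hu)] with s' hs1 hs2
  exact fb_eq hq hs1 hs2

/-- smoothness of the barrier on open sets -/
theorem sm_fb (hq : QOk q) {Ω : Set (ℝ × ℝ)} {U : Fn} (hU : Sm Ω U)
    (ht : ∀ z ∈ Ω, z.1 < 1) (hu : ∀ z ∈ Ω, 0 < U z.1 z.2) :
    Sm Ω (fun t x => q.fb t (U t x)) := by
  have hL : Sm Ω (fun t x => fbL q t (U t x)) := by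
    have s1 : Sm Ω (fun t _ => Real.log (tau t)) := by
      refine Sm.log ((Sm.const 1).sub Sm.tvar) ?_
      intro z hz
      have := ht z hz
      have : 0 < 1 - z.1 := by linarith only [this]
      exact this.ne'
    have s2 : Sm Ω (fun t x => Real.tanh (U t x)) := by
      have : Sm Ω (fun t x => Real.sinh (U t x) / Real.cosh (U t x)) :=
        Sm.div hU.sinh hU.cosh (fun z _ => (Real.cosh_pos _).ne')
      refine this.congr ?_
      intro z _
      exact Real.tanh_eq_sinh_div_cosh _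
    have s3 : Sm Ω (fun t x => Real.log (Real.tanh (U t x))) :=
      Sm.log s2 (fun z hz => (PureF.tanh_pos (hu z hz)).ne')
    have s4 : Sm Ω (fun t x => Real.log (Real.cosh (U t x))) :=
      Sm.log hU.cosh (fun z _ => (Real.cosh_pos _).ne')
    exact ((((Sm.const _).sub ((Sm.const _).mul s1)).add ((Sm.const _).mul s3)).sub
      (Sm.const _)).sub ((Sm.const _).mul s4)
  refine hL.exp.congr ?_
  intro z hz
  exact fb_eq hq (ht z hz) (hu z hz)

end Vale.Agent.P244.ST.ClF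
end

section

/-!
# P244-ST / block M3 : the touching argument for `f` over a bridge (helper288)
-/

open Set Filter TopologicalSpace
open scoped Topology ContDiff

namespace Vale.Agent.P244.ST.ClF

variable {Ω : Opens (ℝ × ℝ)}

/-- what is needed from the instance of the frame and of the bubble elements on `Ω` -/
structure Brg (g : ℝ → ℝ) (w f : Fn) (A : Frame (sO Ω)) {κ : sO Ω} (b : Bub A κ) : Prop where
  aDs : ∀ h : sO Ω, ∀ t x, (t, x) ∈ Ω → toFn (A.Ds h) t x = Ds w (toFn h) t x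
  aDt : ∀ h : sO Ω, ∀ t x, (t, x) ∈ Ω → toFn (A.Dt h) t x = DT w f (toFn h) t x
  au : ∀ t x, (t, x) ∈ Ω → toFn A.u t x = uu w f t x
  aρ : ∀ t x, (t, x) ∈ Ω → toFn A.ρ t x = rho w f t x
  ash : ∀ t x, (t, x) ∈ Ω → toFn A.sh t x = Real.sinh (uu w f t x)
  ach : ∀ t x, (t, x) ∈ Ω → toFn A.ch t x = Real.cosh (uu w f t x)
  ar2 : ∀ t x, (t, x) ∈ Ω → toFn A.r2 t x = rr w f t x ^ 2
  aRs : ∀ t x, (t, x) ∈ Ω → toFn A.Rs t x = RR w f t x
  ae : ∀ t x, (t, x) ∈ Ω → toFn b.e t x = ee g w f t x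
  ah : ∀ t x, (t, x) ∈ Ω → toFn b.h t x = g (uu w f t x) / 2

namespace Brg

variable {g : ℝ → ℝ} {w f : Fn} {A : Frame (sO Ω)} {κ : sO Ω} {b : Bub A κ}
  (B : Brg g w f A b) {t x : ℝ} (hz : (t, x) ∈ Ω)
include B hz

theorem vir : toFn A.ir t x = 1 / rr w f t x ^ 2 := by
  have h := congrArg (evO hz) A.r2_ir
  rw [map_mul, map_one, evO_eq, evO_eq, B.ar2 t x hz] at h
  have : rr w f t x ^ 2 ≠ 0 := by
    intro h0; rw [h0, zero_mul] at h; exact zero_ne_one h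
  rw [eq_div_iff this]
  linarith only [h]

theorem vf : toFn b.f t x = ff g w f t x := by
  rw [Bub.f, toFn_mul, B.ae t x hz, B.vir hz, ff]; ring

theorem vρs : toFn A.ρs t x = rs w f t x := by
  have h1 : toFn A.ρs t x = Ds w (toFn A.ρ) t x := B.aDs A.ρ t x hz
  rw [h1]
  have h2 : Dx (toFn A.ρ) t x = Dx (rho w f) t x :=
    Dx_congr Ω.isOpen (fun z hz' => B.aρ z.1 z.2 hz') hz
  simp only [rs, Ds, h2]

theorem vZ : toFn A.Z t x = ZZ w f t x := by
  rw [Frame.Z, toFn_mul, toFn_pow _ _ hz, B.vρs hz, B.ar2 t x hz, ZZ]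

theorem vZs (hg : IsBub g) (hu : 0 < uu w f t x) :
    toFn b.Zs t x = Zs g (uu w f t x) ∧ toFn b.iZs t x = 1 / Zs g (uu w f t x) := by
  have h0 : toFn b.Zs t x * (39 - (g (uu w f t x) / 2) ^ 2) = 39 * Real.cosh (uu w f t x) := by
    have h := congrArg (evO hz) b.Zs_q
    have e39 : evO hz (39 : sO Ω) = 39 := map_ofNat _ 39
    rw [map_mul, Bub.q, map_sub, map_pow, map_mul, e39, evO_eq, evO_eq, evO_eq, B.ah t x hz,
      B.ach t x hz] at h
    exact h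
  have hq : qb g (uu w f t x) = 39 - (g (uu w f t x) / 2) ^ 2 := by rw [qb]; ring
  have hq0 : 0 < qb g (uu w f t x) := by
    have := (ok_of hg hu).q_bd.1
    rw [ptOf_q hu] at this
    linarith only [this]
  have h1 : toFn b.Zs t x = Zs g (uu w f t x) := by
    rw [Zs, eq_div_iff hq0.ne', hq]; exact h0
  refine ⟨h1, ?_⟩
  have h := congrArg (evO hz) b.Zs_iZs
  rw [map_mul, map_one, evO_eq, evO_eq, h1] at h
  have h2 : Zs g (uu w f t x) ≠ 0 := by
    have := Zs_ge hg hu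
    have := Real.cosh_pos (uu w f t x)
    linarith
  rw [eq_div_iff h2]; linarith only [h]

theorem vth (hg : IsBub g) (hu : 0 < uu w f t x) : toFn b.th t x = th g w f t x := by
  rw [Bub.th, toFn_sub _ _ hz, toFn_mul, B.vZ hz, (B.vZs hz hg hu).2, toFn_one hz, th]; ring

/-- (TH) at the point -/
theorem vDth (hg : IsBub g) (hu : 0 < uu w f t x) : 40 * toFn (A.Dr κ b.th) t x =
    -(40 * th g w f t x * (39 - (g (uu w f t x) / 2) ^ 2 +
      (g (uu w f t x) / 2) ^ 2 * ee g w f t x ^ 2)) -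
      40 * (g (uu w f t x) / 2) ^ 2 * ee g w f t x ^ 2 -
      (rr w f t x) ^ 2 * RR w f t x * (1 / Zs g (uu w f t x)) := by
  have h := congrArg (evO hz) b.TH
  have e39 : evO hz (39 : sO Ω) = 39 := map_ofNat _ 39
  have e40 : evO hz (40 : sO Ω) = 40 := map_ofNat _ 40
  simp only [map_mul, map_sub, map_add, map_neg, map_pow, e39, e40] at h
  simp only [evO_eq hz, B.ah t x hz,
    B.ae t x hz, B.vth hz hg hu, B.ar2 t x hz, B.aRs t x hz, (B.vZs hz hg hu).2] at h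
  exact h

end Brg

/-- the barrier as an element -/
noncomputable def mkBar {g : ℝ → ℝ} {w f : Fn} {A : Frame (sO Ω)} {κ : sO Ω} {b : Bub A κ}
    (B : Brg g w f A b) {q : Par} (hq : QOk q) (hU : Sm (Ω : Set (ℝ × ℝ)) (uu w f))
    (h1 : ∀ z ∈ Ω, z.1 < 1) (hu : ∀ z ∈ Ω, 0 < uu w f z.1 z.2) : BarF b := by
  have s2 : Sm (Ω : Set (ℝ × ℝ)) (fun t x => Real.tanh (uu w f t x)) := by
    have : Sm (Ω : Set (ℝ × ℝ)) (fun t x => Real.sinh (uu w f t x) / Real.cosh (uu w f t x)) :=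
      Sm.div hU.sinh hU.cosh (fun z _ => (Real.cosh_pos _).ne')
    refine this.congr ?_
    intro z _
    exact Real.tanh_eq_sinh_div_cosh _
  have s3 : Sm (Ω : Set (ℝ × ℝ)) (fun t x => (Real.tanh (uu w f t x))⁻¹) :=
    s2.inv (fun z hz => (PureF.tanh_pos (hu z hz)).ne')
  have s4 : Sm (Ω : Set (ℝ × ℝ)) (fun t x => q.fb t (uu w f t x)) := sm_fb hq hU h1 hu
  have s5 : Sm (Ω : Set (ℝ × ℝ)) (fun t _ => (1 + aa * lam 3) / tau t) := by
    refine (Sm.const (1 + aa * lam 3)).div ((Sm.const 1).sub Sm.tvar) ?_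
    intro z hz
    have := h1 z hz
    have : 0 < 1 - z.1 := by linarith only [this]
    exact this.ne'
  have hUd : ∀ t x, (t, x) ∈ Ω → HasDerivAt (uu w f t) (Dx (uu w f) t x) x :=
    fun t x hz => hU.hasDeriv_x Ω.isOpen hz
  have hUt : ∀ t x, (t, x) ∈ Ω → HasDerivAt (fun s => uu w f s x) (Dt (uu w f) t x) t :=
    fun t x hz => hU.hasDeriv_t Ω.isOpen hz
  have hPx : ∀ t x, (t, x) ∈ Ω → toFn A.P t x = Ds w (uu w f) t x := by
    intro t x hz
    have h1 : toFn A.P t x = Ds w (toFn A.u) t x := B.aDs A.u t x hz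
    rw [h1]
    have h2 : Dx (toFn A.u) t x = Dx (uu w f) t x :=
      Dx_congr Ω.isOpen (fun z hz' => B.au z.1 z.2 hz') hz
    simp only [Ds, h2]
  have hVx : ∀ t x, (t, x) ∈ Ω → toFn A.V t x = DT w f (uu w f) t x := by
    intro t x hz
    have h1 : toFn A.V t x = DT w f (toFn A.u) t x := B.aDt A.u t x hz
    rw [h1]
    have h2 : Dx (toFn A.u) t x = Dx (uu w f) t x :=
      Dx_congr Ω.isOpen (fun z hz' => B.au z.1 z.2 hz') hz
    have h3 : Dt (toFn A.u) t x = Dt (uu w f) t x :=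
      Dt_congr Ω.isOpen (fun z hz' => B.au z.1 z.2 hz') hz
    simp only [DT, h2, h3]
  exact {
    T := mk _ s2
    iT := mk _ s3
    K := mk _ s4
    om := mk _ s5
    T_ch := by
      refine sO_ext fun t x hz => ?_
      rw [toFn_mul, toFn_mk s2 hz, B.ach t x hz, B.ash t x hz, PureF.tanh_mul_cosh]
    T_iT := by
      refine sO_ext fun t x hz => ?_
      rw [toFn_mul, toFn_mk s2 hz, toFn_mk s3 hz, toFn_one hz,
        mul_inv_cancel₀ (PureF.tanh_pos (hu _ hz)).ne']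
    Ds_K := by
      refine sO_ext fun t x hz => ?_
      have hK : HasDerivAt (fun y => q.fb t (uu w f t y)) (q.fb t (uu w f t x) *
          ((1 + aa * lam 3) / tau t * 0 + (aa / Real.tanh (uu w f t x) -
            Real.tanh (uu w f t x)) * Dx (uu w f) t x)) x :=
        hasDerivAt_fb hq (hasDerivAt_const x t) (hUd t x hz) (h1 _ hz) (hu _ hz)
      have h2 : Dx (toFn (mk _ s4)) t x = _ :=
        (Dx_congr (K := fun t x => q.fb t (uu w f t x)) Ω.isOpen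
          (fun z hz' => toFn_mk (t := z.1) (x := z.2) s4 hz') hz).trans hK.deriv
      have h3 : toFn (A.Ds (mk _ s4)) t x = _ := B.aDs (mk _ s4) t x hz
      rw [h3, Ds, h2]
      rw [toFn_mul, toFn_mul, toFn_sub _ _ hz, toFn_mul, toFn_algebraMap _ hz, toFn_mk s2 hz,
        toFn_mk s3 hz, toFn_mk s4 hz, hPx t x hz, Ds, aa]
      ring
    Dt_K := by
      refine sO_ext fun t x hz => ?_
      have hK : HasDerivAt (fun y => q.fb t (uu w f t y)) (q.fb t (uu w f t x) *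
          ((1 + aa * lam 3) / tau t * 0 + (aa / Real.tanh (uu w f t x) -
            Real.tanh (uu w f t x)) * Dx (uu w f) t x)) x :=
        hasDerivAt_fb hq (hasDerivAt_const x t) (hUd t x hz) (h1 _ hz) (hu _ hz)
      have hKt : HasDerivAt (fun s => q.fb s (uu w f s x)) (q.fb t (uu w f t x) *
          ((1 + aa * lam 3) / tau t * 1 + (aa / Real.tanh (uu w f t x) -
            Real.tanh (uu w f t x)) * Dt (uu w f) t x)) t :=
        hasDerivAt_fb hq (hasDerivAt_id t) (hUt t x hz) (h1 _ hz) (hu _ hz)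
      have h2 : Dx (toFn (mk _ s4)) t x = _ :=
        (Dx_congr (K := fun t x => q.fb t (uu w f t x)) Ω.isOpen
          (fun z hz' => toFn_mk (t := z.1) (x := z.2) s4 hz') hz).trans hK.deriv
      have h2' : Dt (toFn (mk _ s4)) t x = _ :=
        (Dt_congr (K := fun t x => q.fb t (uu w f t x)) Ω.isOpen
          (fun z hz' => toFn_mk (t := z.1) (x := z.2) s4 hz') hz).trans hKt.deriv
      have h3 : toFn (A.Dt (mk _ s4)) t x = _ := B.aDt (mk _ s4) t x hz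
      rw [h3, DT, h2, h2']
      rw [toFn_mul, toFn_add, toFn_mul, toFn_sub _ _ hz, toFn_mul, toFn_algebraMap _ hz,
        toFn_mk s2 hz, toFn_mk s3 hz, toFn_mk s4 hz, toFn_mk s5 hz, hVx t x hz, DT, aa]
      ring }

section

variable {g : ℝ → ℝ} {w f : Fn} {A : Frame (sO Ω)} {κ : sO Ω} {b : Bub A κ} {q : Par}

/-- **closure of `f` over a bridge** -/
theorem no_touch_brg (hg : IsBub g) (hq : QOk q) (B : Brg g w f A b) {T t x : ℝ}
    (hz : (t, x) ∈ Ω) (hU : Sm (Ω : Set (ℝ × ℝ)) (uu w f))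
    (h1 : ∀ z ∈ Ω, z.1 < 1) (hu : ∀ z ∈ Ω, 0 < uu w f z.1 z.2)
    (hs : ConfSol 20 w f T) (ht : t ∈ Ioo 0 T) (hx : x ∈ Ioo (-1 : ℝ) 1)
    (hFI : M.FI q g w f t x) (heq : |ff g w f t x| = q.fb t (uu w f t x))
    (hle : ∀ᶠ z : ℝ × ℝ in 𝓝 (t, x), z.1 ≤ t →
      |ff g w f z.1 z.2| ≤ q.fb z.1 (uu w f z.1 z.2)) : False := by
  obtain ⟨σ, hσ2, hσ, hσle⟩ : ∃ σ : ℝ, σ * σ = 1 ∧ σ * ff g w f t x = |ff g w f t x| ∧
      ∀ a : ℝ, σ * a ≤ |a| := by
    rcases le_total 0 (ff g w f t x) with h0 | h0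
    · exact ⟨1, by norm_num, by rw [abs_of_nonneg h0, one_mul], fun a => by
        rw [one_mul]; exact le_abs_self a⟩
    · exact ⟨-1, by norm_num, by rw [abs_of_nonpos h0]; ring, fun a => by
        rw [neg_one_mul]; exact neg_le_abs a⟩
  set c := mkBar B hq hU h1 hu with hc
  have hK : ∀ t x, (t, x) ∈ Ω → toFn c.K t x = q.fb t (uu w f t x) := by
    intro t x hz
    exact toFn_mk (sm_fb hq hU h1 hu) hz
  set d : sO Ω := algebraMap ℝ (sO Ω) σ * b.f - c.K with hd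
  have hdv : ∀ t x, (t, x) ∈ Ω → toFn d t x = σ * ff g w f t x - q.fb t (uu w f t x) := by
    intro t x hz
    rw [hd, toFn_sub _ _ hz, toFn_mul, toFn_algebraMap _ hz, B.vf hz, hK t x hz]
  have hd0 : toFn d t x = 0 := by rw [hdv t x hz, hσ, heq, sub_self]
  have hdle : ∀ᶠ z : ℝ × ℝ in 𝓝 (t, x), z.1 ≤ t → toFn d z.1 z.2 ≤ 0 := by
    filter_upwards [hle, Ω.isOpen.mem_nhds hz] with z hz1 hz2 hz3
    rw [hdv z.1 z.2 hz2]
    have h1 := hz1 hz3
    have h2 := hσle (ff g w f z.1 z.2)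
    linarith only [h1, h2]
  have hdC : ContDiffAt ℝ 2 (fun z : ℝ × ℝ => toFn d z.1 z.2) (t, x) :=
    ((toFn_sm d).at Ω.isOpen hz).of_le (by norm_cast)
  obtain ⟨-, m1, m2, -, -, m3, -⟩ := M.touch hs ht hx hdC hd0 hdle
  -- transfer to the algebra
  have k1 : evO hz (A.Ds d) = 0 := by
    rw [evO_eq, B.aDs d t x hz]; exact m1
  have k2 : evO hz (A.Ds (A.Ds d)) ≤ 0 := by
    rw [evO_eq, B.aDs _ t x hz]
    have : Dx (toFn (A.Ds d)) t x = Dx (Ds w (toFn d)) t x :=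
      Dx_congr Ω.isOpen (fun z hz' => B.aDs d z.1 z.2 hz') hz
    have e : Ds w (toFn (A.Ds d)) t x = Ds w (Ds w (toFn d)) t x := by
      simp only [Ds] at this ⊢
      rw [this]
    rw [e]; exact m2
  have k3 : 0 ≤ evO hz (A.Dt d) := by
    rw [evO_eq, B.aDt d t x hz]; exact m3
  have k4 : evO hz (A.Dr κ d) = 0 := by
    rw [Frame.Dr, map_mul, k1, mul_zero]
  have k5 : evO hz (A.Dr κ (A.Dr κ d)) ≤ 0 := by
    have e : A.Dr κ (A.Dr κ d) = κ * (κ * A.Ds (A.Ds d) + A.Ds d * A.Ds κ) := by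
      simp only [Frame.Dr, Frame.Ds_mul]
    rw [e, map_mul, map_add, map_mul, map_mul, k1, zero_mul, add_zero, ← mul_assoc]
    exact mul_nonpos_of_nonneg_of_nonpos (mul_self_nonneg _) k2
  have k6 : 0 ≤ evO hz (A.Tr κ d) := by
    rw [Frame.Tr, map_sub, map_mul, map_mul, k1, mul_zero, mul_zero, sub_zero]; exact k3
  -- linearity
  have hal : A.Ds (algebraMap ℝ (sO Ω) σ) = 0 := A.Ds_alg σ
  have hal' : A.Dt (algebraMap ℝ (sO Ω) σ) = 0 := A.Dt.map_algebraMap σ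
  have l1 : ∀ h : sO Ω, A.Dr κ (algebraMap ℝ (sO Ω) σ * h) =
      algebraMap ℝ (sO Ω) σ * A.Dr κ h := by
    intro h
    rw [Frame.Dr, Frame.Ds_mul, hal, Frame.Dr]; ring
  have l2 : A.Tr κ (algebraMap ℝ (sO Ω) σ * b.f) = algebraMap ℝ (sO Ω) σ * A.Tr κ b.f := by
    rw [Frame.Tr, Frame.Dt_mul, Frame.Ds_mul, hal, hal', Frame.Tr]; ring
  have hev : evO hz (algebraMap ℝ (sO Ω) σ) = σ := AlgHom.commutes _ σ
  have n1 : σ * evO hz (A.Dr κ b.f) = evO hz (A.Dr κ c.K) := by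
    rw [hd, Frame.Dr_sub, l1, map_sub, map_mul, hev] at k4
    linarith only [hz, k4]
  have n2 : σ * evO hz (A.Dr κ (A.Dr κ b.f)) ≤ evO hz (A.Dr κ (A.Dr κ c.K)) := by
    rw [hd, Frame.Dr_sub, l1, Frame.Dr_sub, l1, map_sub, map_mul, hev] at k5
    linarith only [hz, k5]
  have n3 : evO hz (A.Tr κ c.K) ≤ σ * evO hz (A.Tr κ b.f) := by
    rw [hd, Frame.Tr_sub, l2, map_sub, map_mul, hev] at k6
    linarith only [hz, k6]
  have hu0 := hu (t, x) hz
  have ht1 : t < 1 := h1 (t, x) hz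
  have hP := ok_of hg hu0
  refine no_touch_frame (b := b) c (evO hz : sO Ω →+* ℝ) hP ?_ ?_ ?_ ?_ ?_ ?_ ?_ hσ2 ?_ n1 n2 n3
    ?_ ?_
  · exact (evO_eq hz _).trans (toFn_mk _ hz)
  · exact (evO_eq hz _).trans (B.ach t x hz)
  · have : evO hz b.h = g (uu w f t x) / 2 := (evO_eq hz _).trans (B.ah t x hz)
    rw [ptOf_g hu0]
    change 2 * evO hz b.h = _
    rw [this]; ring
  · have e1 : evO hz b.e = ee g w f t x := (evO_eq hz _).trans (B.ae t x hz)
    have e2 : evO hz b.th = th g w f t x := (evO_eq hz _).trans (B.vth hz hg hu0)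
    change (ptOf g (uu w f t x)).SmOk ⟨evO hz b.e, evO hz b.th, evO hz (A.Dr κ b.th)⟩
    rw [e1, e2, evO_eq]
    exact smOk_of hg hq ht.1.le ht1 hFI heq (B.vDth hz hg hu0)
  · change 0 < evO hz A.r2
    rw [evO_eq, B.ar2 t x hz]
    have : 0 < rr w f t x := Real.exp_pos _
    positivity
  · change 0 < evO hz c.K
    rw [evO_eq, hK t x hz]
    exact hq.fb_pos ht1 hu0
  · change 0 ≤ evO hz c.om
    have : evO hz c.om = (1 + aa * lam 3) / tau t := (evO_eq hz _).trans (toFn_mk _ hz)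
    rw [this]
    have h2 : 0 < tau t := by rw [tau]; linarith only [ht1]
    have h3 : 0 ≤ lam 3 := by
      have := PureF.kap_lt
      rw [lam]; norm_num; linarith only [this]
    have h4 : 0 < aa := by rw [aa]; norm_num
    (clear * - h4 h3 h2; positivity)
  · change σ * evO hz b.f = evO hz c.K
    rw [evO_eq, evO_eq, B.vf hz, hK t x hz, hσ, heq]
  · exact AlgHom.commutes (evO hz) (1 / 20 : ℝ)
  · change 0 ≤ evO hz A.Z
    rw [evO_eq, B.vZ hz, ZZ]
    (clear * -; positivity)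

end

end Vale.Agent.P244.ST.ClF
end

section

/-!
# P244-ST / block M3 : `M3Statement` from the bridge (helper288)
-/

open Set Filter TopologicalSpace
open scoped Topology ContDiff

namespace Vale.Agent.P244.ST.ClF

/-- existence of the bridge on open subsets of `{u > 0}` -/
def BrgStatement : Prop := ∀ (g : ℝ → ℝ) (w f : Fn) (T : ℝ), IsBub g → ConfSol 20 w f T →
  ∀ Ω : Opens (ℝ × ℝ), (∀ z ∈ Ω, z.1 ∈ Ioo 0 T ∧ z.2 ∈ Ioo (0 : ℝ) 1) →
  (∀ z ∈ Ω, 0 < uu w f z.1 z.2) → (∀ z ∈ Ω, 0 < rs w f z.1 z.2) →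
  ∃ (A : Frame (sO Ω)) (κ : sO Ω) (b : Bub A κ), Brg g w f A b

theorem m3_of (hB : BrgStatement) : M.M3Statement := by
  intro g hg
  refine Ev.mono ev_QOk fun q hq w f T t₁ H t ht x hx hy => ?_
  have htT : t ∈ Ioo 0 T := ⟨ht.1, lt_of_le_of_lt ht.2 H.mem.2⟩
  have htc : t ∈ Icc 0 t₁ := ⟨ht.1.le, ht.2⟩
  have hFI := H.fI t htc x hx hy.le
  have hb : ∀ s ∈ Icc 0 t₁, ∀ y ∈ Ioo (0 : ℝ) 1, yv w f s y ≤ q.rho0 →
      0 < uu w f s y ∧ |ff g w f s y| ≤ q.fb s (uu w f s y) := by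
    intro s hs y hy' hyv
    exact (H.boot.b5 s hs y ⟨hy'.1.le, hy'.2⟩).b1 hy'.1 hyv
  obtain ⟨-, hle⟩ := hb t htc x hx hy.le
  rcases lt_or_eq_of_le hle with h | heq
  · exact h
  exfalso
  -- the open set
  have smU := M6.sm_uu H.sol
  have hS : IsOpen {z : ℝ × ℝ | z ∈ M6.Om T ∧ 0 < z.2 ∧ 0 < uu w f z.1 z.2} := by
    have h1 : IsOpen (M6.Om T ∩ {z : ℝ × ℝ | 0 < z.2}) :=
      (M6.isOpen_Om T).inter (isOpen_lt continuous_const continuous_snd)
    have h2 : ContinuousOn (fun z : ℝ × ℝ => uu w f z.1 z.2) (M6.Om T ∩ {z : ℝ × ℝ | 0 < z.2}) :=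
      (ContDiffOn.continuousOn smU).mono inter_subset_left
    have h3 := h2.isOpen_inter_preimage h1 isOpen_Ioi (t := Ioi (0 : ℝ))
    convert h3 using 1
    ext z
    simp only [mem_ofPred_eq, mem_inter_iff, mem_preimage, mem_Ioi, and_assoc]
  set Ω : Opens (ℝ × ℝ) := ⟨_, hS⟩ with hΩ
  have hmem : ∀ z : ℝ × ℝ, z ∈ Ω → z ∈ M6.Om T ∧ 0 < z.2 ∧ 0 < uu w f z.1 z.2 := fun z hz => hz
  have hz : (t, x) ∈ Ω := ⟨⟨htT, by linarith only [hx, hx.1], hx.2⟩, hx.1, hFI.u_pos⟩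
  obtain ⟨A, κ, b, B⟩ := hB g w f T hg H.sol Ω
    (fun z hz => ⟨(hmem z hz).1.1, (hmem z hz).2.1, (hmem z hz).1.2.2⟩)
    (fun z hz => (hmem z hz).2.2)
    (fun z hz => H.qual.rs_pos z.1 ⟨(hmem z hz).1.1.1.le, (hmem z hz).1.1.2⟩ z.2
      ⟨(hmem z hz).2.1, (hmem z hz).1.2.2⟩)
  refine no_touch_brg hg hq B hz (smU.mono fun z hz => (hmem z hz).1)
    (fun z hz => (hmem z hz).1.1.2.trans_le H.T_le) (fun z hz => (hmem z hz).2.2) H.sol htT
    ⟨by linarith only [hx, hx.1], hx.2⟩ hFI heq ?_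
  -- the bootstrap near the point
  have hzO : (t, x) ∈ M6.Om T := hz.1
  have hyc : ContinuousAt (fun z : ℝ × ℝ => yv w f z.1 z.2) (t, x) := by
    have h1 : ContinuousAt (fun z : ℝ × ℝ => rr w f z.1 z.2) (t, x) :=
      ((M6.sm_rr H.sol).at (M6.isOpen_Om T) hzO).continuousAt
    have hτ : 0 < 1 - t := by
      have h1 := htT.2
      have h2 := H.T_le
      linarith
    have h2 : ContinuousAt (fun z : ℝ × ℝ => Real.sqrt (1 - z.1)) (t, x) := by fun_prop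
    exact h1.div h2 (Real.sqrt_pos.2 hτ).ne'
  filter_upwards [hyc.eventually (gt_mem_nhds hy), Ω.isOpen.mem_nhds hz] with z hz1 hz2 hz3
  have hz2' := hmem z hz2
  exact (hb z.1 ⟨hz2'.1.1.1.le, hz3.trans ht.2⟩ z.2 ⟨hz2'.2.1, hz2'.1.2.2⟩ hz1.le).2

end Vale.Agent.P244.ST.ClF
end

section

/-!
# P244-ST, block B : derived facts on the bubble functions `g, Zs, c0, As` (`u > 0`)

`Wb g u = g (1 - T²) - T g' ≥ 0` (`T = tanh u`) measures the decrease of `g / tanh`.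
-/

open Set Filter Topology Real
open scoped ContDiff

namespace Vale.Agent.P244.ST.BDer

open Vale.Agent.P244.ST.BD.BT Vale.Agent.P244.ST.BD.BA Vale.Agent.P244.ST.M

section

variable {g : ℝ → ℝ} (hg : IsBub g)

include hg

theorem g_lt_kap_mul {u : ℝ} (hu : 0 < u) : g u < kap * u := by
  have h1 := hg.upper u hu
  have h2 := ba_tanh_le hu.le
  have h3 := kap_pos
  linarith only [mul_nonneg (sub_nonneg.2 h2) (le_of_lt (sub_pos.2 h3)), h1]

/-- `0 < κ u - g ≤ C u³` -/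
theorem kap_mul_sub_g : ∃ C, 0 ≤ C ∧ ∀ u > 0, 0 < kap * u - g u ∧ kap * u - g u ≤ C * u ^ 3 := by
  obtain ⟨C, hC⟩ := hg.at_zero
  have hk := kap_pos
  refine ⟨|C| + kap / 3, by positivity, fun u hu => ⟨by linarith only [hg, hu, g_lt_kap_mul hg hu], ?_⟩⟩
  have hT := tanh_pos' hu
  have h2 := hC u hu
  have h3 : C * tanh u ^ 3 ≤ |C| * u ^ 3 := by
    have h4 : tanh u ^ 3 ≤ u ^ 3 := pow_le_pow_left₀ hT.le (ba_tanh_le hu.le) 3
    calc C * tanh u ^ 3 ≤ |C| * tanh u ^ 3 :=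
          mul_le_mul_of_nonneg_right (le_abs_self C) (by positivity)
      _ ≤ |C| * u ^ 3 := mul_le_mul_of_nonneg_left h4 (abs_nonneg _)
  have h5 := mul_le_mul_of_nonneg_left (ba_tanh_ge hu.le) hk.le
  linarith only [h5, h3, h2]

end

end Vale.Agent.P244.ST.BDer
end

section

/-!
# P244-ST, block M7 : the boundary `y = ρ₀` of the closure M3, from Bernstein 1 and closeness
-/

set_option linter.all false

open Set Filter Topology

namespace Vale.Agent.P244.ST.M3B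

open Vale.Agent.P244.ST

noncomputable section

/-- `l₃(z)` -/
def S0 (z : ℝ) : ℝ := ∑ k ∈ Finset.range 4, Lag.cf aL 3 k * z ^ k

/-- `2 z l₃'(z)` -/
def D1 (z : ℝ) : ℝ := ∑ k ∈ Finset.range 4, (2 * (k : ℝ)) * Lag.cf aL 3 k * z ^ k

lemma cf0 : Lag.cf aL 3 0 = 1 := by
  unfold Lag.cf; simp

lemma aL_ge : 17 ≤ aL := by
  have := kap_lt'
  rw [aL_eq]; linarith only [this]

lemma cf1 : |Lag.cf aL 3 1| ≤ 0.17 := by
  have h := Lag.cf_succ aL_gt 3 0
  have ha := aL_ge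
  rw [cf0] at h
  norm_num at h
  have hp : 0 < aL + 1 := by linarith only [ha]
  have e : Lag.cf aL 3 1 = -(3 / (aL + 1)) := by
    field_simp
    linarith only [h]
  rw [e, abs_neg, abs_of_pos (by positivity), div_le_iff₀ hp]
  linarith only [ha]

lemma cf2 : |Lag.cf aL 3 2| ≤ 0.01 := by
  have h := Lag.cf_succ aL_gt 3 1
  have ha := aL_ge
  norm_num at h
  have hp : 0 < aL + 1 + 1 := by linarith only [ha]
  have e : Lag.cf aL 3 2 = -(Lag.cf aL 3 1 / (aL + 1 + 1)) := by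
    field_simp
    linarith only [h]
  rw [e, abs_neg, abs_div, abs_of_pos hp, div_le_iff₀ hp]
  have := cf1
  linarith only [this, ha]

lemma cf3 : |Lag.cf aL 3 3| ≤ 0.001 := by
  have h := Lag.cf_succ aL_gt 3 2
  have ha := aL_ge
  norm_num at h
  have hp : 0 < aL + 2 + 1 := by linarith only [ha]
  have e : Lag.cf aL 3 3 = -(Lag.cf aL 3 2 / (3 * (aL + 2 + 1))) := by
    field_simp
    linarith only [h]
  rw [e, abs_neg, abs_div, abs_of_pos (by positivity : 0 < 3 * (aL + 2 + 1)),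
    div_le_iff₀ (by positivity)]
  have := cf2
  linarith only [this, ha]

lemma mono_bd {c z b : ℝ} {k : ℕ} (hz : 0 ≤ z) (hz1 : z ≤ 1) (hc : |c| ≤ b) (hk : 1 ≤ k) :
    |c * z ^ k| ≤ b * z := by
  rw [abs_mul, abs_of_nonneg (pow_nonneg hz k)]
  have h1 : z ^ k ≤ z := by
    calc z ^ k ≤ z ^ 1 := pow_le_pow_of_le_one hz hz1 hk
      _ = z := pow_one z
  exact mul_le_mul hc h1 (pow_nonneg hz k) ((abs_nonneg c).trans hc)

lemma S0_bd {z : ℝ} (hz : 0 ≤ z) (hz1 : z ≤ 1) : |S0 z - 1| ≤ 0.2 * z := by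
  unfold S0
  simp only [Finset.sum_range_succ, Finset.sum_range_zero]
  rw [cf0]
  have h1 := abs_le.1 (mono_bd hz hz1 cf1 (le_refl 1))
  have h2 := abs_le.1 (mono_bd hz hz1 cf2 (by norm_num : 1 ≤ 2))
  have h3 := abs_le.1 (mono_bd hz hz1 cf3 (by norm_num : 1 ≤ 3))
  rw [abs_le]
  simp only [pow_zero]
  constructor <;> linarith only [hz, h1, h2, h3]

lemma D1_bd {z : ℝ} (hz : 0 ≤ z) (hz1 : z ≤ 1) : |D1 z| ≤ 0.4 * z := by
  unfold D1
  simp only [Finset.sum_range_succ, Finset.sum_range_zero]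
  have h1 := abs_le.1 (mono_bd hz hz1 cf1 (le_refl 1))
  have h2 := abs_le.1 (mono_bd hz hz1 cf2 (by norm_num : 1 ≤ 2))
  have h3 := abs_le.1 (mono_bd hz hz1 cf3 (by norm_num : 1 ≤ 3))
  rw [abs_le]
  push_cast
  constructor <;> linarith only [hz, h1, h2, h3]

lemma ph3_eq (y : ℝ) : ph 3 y = y ^ (-kap) * S0 (y ^ 2 / 4) := by
  unfold ph S0
  rw [ll_eq]

lemma Fj_one_eq {eps t ρ y : ℝ} (ht : t < 1) (hy : 0 < y)
    (h : Real.exp ρ = y * Real.sqrt (tau t)) :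
    Fj eps 1 t ρ = eps * (tau t) ^ (lam 3) * y ^ (-kap) *
      (D1 (y ^ 2 / 4) - kap * S0 (y ^ 2 / 4)) := by
  have hτ : 0 < tau t := by unfold tau; linarith only [ht]
  have hs : 0 < Real.sqrt (tau t) := Real.sqrt_pos.2 hτ
  unfold Fj BD.PhiD
  rw [h, Real.mul_rpow hy.le hs.le]
  have h1 : Real.sqrt (tau t) ^ (-kap) = (tau t) ^ (-kap / 2) := by
    rw [Real.sqrt_eq_rpow, ← Real.rpow_mul hτ.le]; congr 1; ring
  have h2 : (tau t) ^ (lam 3) = (tau t) ^ (3 : ℕ) * (tau t) ^ (-kap / 2) := by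
    rw [lam3_eq, ← Real.rpow_natCast, ← Real.rpow_add hτ]; congr 1; push_cast; ring
  rw [h1, h2]
  have h5 : ∑ k ∈ Finset.range (3 + 1), (2 * (k : ℝ) - kap) ^ 1 * Lag.cf aL 3 k *
      ((y * Real.sqrt (tau t)) ^ 2 / 4) ^ k * (1 - t) ^ (3 - k) =
      (tau t) ^ 3 * (D1 (y ^ 2 / 4) - kap * S0 (y ^ 2 / 4)) := by
    unfold D1 S0
    rw [Finset.mul_sum, ← Finset.sum_sub_distrib, Finset.mul_sum]
    refine Finset.sum_congr rfl fun k hk => ?_
    have hk' : k ≤ 3 := Nat.lt_succ_iff.1 (Finset.mem_range.1 hk)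
    have h6 : (tau t) ^ 3 = (tau t) ^ (3 - k) * (tau t) ^ k := by
      rw [← pow_add, Nat.sub_add_cancel hk']
    have h7 : ((y * Real.sqrt (tau t)) ^ 2 / 4) ^ k = (y ^ 2 / 4) ^ k * (tau t) ^ k := by
      rw [← mul_pow, mul_pow y, Real.sq_sqrt hτ.le]; congr 1; ring
    rw [h6, h7]
    unfold tau
    ring
  rw [h5]
  ring

/-- the pointwise estimate of `e = 1 - G/g(u)` -/
lemma e_bd {g : ℝ → ℝ} {Cg : ℝ} (hC0 : 0 ≤ Cg)
    (hCg : ∀ u > 0, 0 < kap * u - g u ∧ kap * u - g u ≤ Cg * u ^ 3) {u G T s0 d1 ρ : ℝ}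
    (hT : 0 < T) (hCT : Cg * T ^ 2 ≤ ρ ^ 2 / 20) (hρ : 0 < ρ) (hρ1 : ρ ≤ 1 / 100)
    (hs0 : |s0 - 1| ≤ 0.01) (hd1 : |d1| ≤ 0.1 * ρ ^ 2)
    (hu : |u - T * s0| ≤ T * (ρ ^ 2 / 30)) (hG : |G + T * (d1 - kap * s0)| ≤ T * (ρ ^ 2 / 30)) :
    0.9 * T ≤ u ∧ u ≤ 1.1 * T ∧ |1 - G / g u| ≤ 0.2 * ρ ^ 2 := by
  have hk1 := kap_lt'
  have hk2 := kap_gt'
  have hρ2 : ρ ^ 2 ≤ 0.0001 := by nlinarith only [hρ, hρ1]
  have hρ0 : 0 < ρ ^ 2 := by positivity
  obtain ⟨s1, s2⟩ := abs_le.1 hs0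
  obtain ⟨u1, u2⟩ := abs_le.1 hu
  obtain ⟨G1, G2⟩ := abs_le.1 hG
  obtain ⟨d2, d3⟩ := abs_le.1 hd1
  have hTρ : T * (ρ ^ 2 / 30) ≤ T * 0.0001 := mul_le_mul_of_nonneg_left (by linarith only [hρ0, hρ2]) hT.le
  have hTs1 : T * 0.99 ≤ T * s0 := mul_le_mul_of_nonneg_left (by linarith only [s1]) hT.le
  have hTs2 : T * s0 ≤ T * 1.01 := mul_le_mul_of_nonneg_left (by linarith only [s2]) hT.le
  have hlo : 0.9 * T ≤ u := by linarith only [hT, u1, hTρ, hTs1]
  have hhi : u ≤ 1.1 * T := by linarith only [hT, u2, hTρ, hTs2]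
  refine ⟨hlo, hhi, ?_⟩
  have hu0 : 0 < u := by linarith only [hT, u1, hTρ, hTs1]
  obtain ⟨g1, g2⟩ := hCg u hu0
  -- Cg u^3 ≤ 0.0605 ρ² u
  have hc3 : Cg * u ^ 3 ≤ 0.0605 * ρ ^ 2 * u := by
    have e1 : u ^ 2 ≤ 1.21 * T ^ 2 := by nlinarith only [hT, hρ2, hρ0, s2, u1, u2, hTρ, hTs1, hTs2]
    have e2 : Cg * u ^ 2 ≤ Cg * (1.21 * T ^ 2) := mul_le_mul_of_nonneg_left e1 hC0
    have e3 : Cg * u ^ 2 ≤ 0.0605 * ρ ^ 2 := by linarith only [hCT, e2]
    have e4 := mul_le_mul_of_nonneg_right e3 hu0.le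
    linarith only [e4]
  have hgl : 2 * u ≤ g u := by
    have : 0.0605 * ρ ^ 2 * u ≤ 0.0605 * 0.0001 * u :=
      mul_le_mul_of_nonneg_right (by linarith only [hρ2]) hu0.le
    nlinarith only [hT, hρ, hρ1, hk1, hk2, u1, u2, hTρ, hTs1, hTs2, g1, g2, hc3, this]
  have hg0 : 0 < g u := by linarith only [hu0, hgl]
  -- |κ u - G|
  have hkuG : |kap * u - G| ≤ 0.21 * ρ ^ 2 * T := by
    have e1 : kap * u - G = kap * (u - T * s0) - (G + T * (d1 - kap * s0)) + T * d1 := by ring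
    have e2 : |kap * (u - T * s0)| ≤ 2.1147 * (T * (ρ ^ 2 / 30)) := by
      rw [abs_mul, abs_of_pos (by linarith only [hk2, hρ2, hρ0] : 0 < kap)]
      exact mul_le_mul hk1.le hu (abs_nonneg _) (by norm_num)
    have e3 : |T * d1| ≤ T * (0.1 * ρ ^ 2) := by
      rw [abs_mul, abs_of_pos hT]
      exact mul_le_mul_of_nonneg_left hd1 hT.le
    have e4 := abs_le.1 e2
    have e5 := abs_le.1 e3
    have e6 : 0 < T * ρ ^ 2 := by positivity
    rw [e1, abs_le]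
    constructor <;> linarith only [G2, e4, e5, e6, G1]
  have hgG : |g u - G| ≤ 0.0605 * ρ ^ 2 * u + 0.21 * ρ ^ 2 * T := by
    obtain ⟨k1, k2⟩ := abs_le.1 hkuG
    have : 0 < ρ ^ 2 * u := by positivity
    rw [abs_le]
    constructor <;> linarith only [g2, hc3, k1, g1, k2]
  have he : 1 - G / g u = (g u - G) / g u := by field_simp
  rw [he, abs_div, abs_of_pos hg0, div_le_iff₀ hg0]
  have e7 : 0.2 * ρ ^ 2 * (2 * u) ≤ 0.2 * ρ ^ 2 * g u :=
    mul_le_mul_of_nonneg_left hgl (by positivity)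
  have e8 : ρ ^ 2 * (0.9 * T) ≤ ρ ^ 2 * u := mul_le_mul_of_nonneg_left hlo hρ0.le
  linarith only [e8, e7, hgG, hc3, g2, g1]

lemma fb_ge {q : Par} {t u : ℝ} (hB : 1 ≤ q.B) (hτ : 0 < tau t) (hT0 : 0 < q.T0 t)
    (hT1 : q.T0 t ≤ 1 / 4) (hu1 : 0.9 * q.T0 t ≤ u) (hu2 : u ≤ 1.1 * q.T0 t) :
    0.5 / tau t ≤ q.fb t u := by
  have hu0 : 0 < u := by linarith only [hu1, hT0]
  have hu3 : u ≤ 0.275 := by linarith only [hT1, hu2]
  have htg := Vale.Agent.P244.ST.BD.BA.ba_tanh_ge hu0.le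
  have htl : 0.97 * u ≤ Real.tanh u := by
    have : u ^ 3 ≤ 0.09 * u := by nlinarith only [hT0, hT1, hu1, hu2, hu0, mul_pos hu0 hu0]
    linarith only [htg, this]
  have hq : 0.8 ≤ Real.tanh u / q.T0 t := by
    rw [le_div_iff₀ hT0]; linarith only [hu1, hu0, htl]
  have h1 : (0.8 : ℝ) ≤ (Real.tanh u / q.T0 t) ^ aa := by
    have e1 : (0.8 : ℝ) ^ (1 : ℝ) ≤ (0.8 : ℝ) ^ aa :=
      Real.rpow_le_rpow_of_exponent_ge (by norm_num) (by norm_num) (by unfold aa; norm_num)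
    rw [Real.rpow_one] at e1
    exact e1.trans (Real.rpow_le_rpow (by norm_num) hq (by unfold aa; norm_num))
  have hch : Real.cosh u ≤ 1.2 := by
    have e1 := Real.cosh_le_exp_half_sq u
    have e2 : Real.exp (u ^ 2 / 2) ≤ Real.exp 0.04 := Real.exp_le_exp.2 (by nlinarith only [hT0, hT1, hu1, hu2])
    have e3 : Real.exp 0.04 ≤ 1.2 := by
      have := Real.exp_bound_div_one_sub_of_interval' (x := 0.04) (by norm_num) (by norm_num)
      linarith only [this]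
    linarith only [e1, e2, e3]
  have hch1 := Real.one_le_cosh u
  have h2 : (0.8 : ℝ) ≤ Real.cosh u ^ (-(1 - aa)) := by
    have e1 : Real.cosh u ^ (-1 : ℝ) ≤ Real.cosh u ^ (-(1 - aa)) :=
      Real.rpow_le_rpow_of_exponent_le hch1 (by unfold aa; norm_num)
    refine le_trans ?_ e1
    rw [Real.rpow_neg_one, le_inv_comm₀ (by norm_num) (by linarith only [hT0, hT1, hch1])]
    refine hch.trans (by norm_num)
  unfold Par.fb
  have h3 : 1 / tau t ≤ q.B / tau t := div_le_div_of_nonneg_right hB hτ.le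
  have h4 : (1 / tau t) * 0.8 ≤ q.B / tau t * (Real.tanh u / q.T0 t) ^ aa :=
    mul_le_mul h3 h1 (by norm_num) (by positivity)
  have h5 : (1 / tau t) * 0.8 * 0.8 ≤ q.B / tau t * (Real.tanh u / q.T0 t) ^ aa *
      Real.cosh u ^ (-(1 - aa)) :=
    mul_le_mul h4 h2 (by norm_num) (le_trans (by positivity) h4)
  refine le_trans ?_ h5
  rw [div_eq_mul_one_div]
  have : 0 < 1 / tau t := by positivity
  linarith only [this]

/-- facts on the parameters -/
structure PF (C : ℝ → ℝ) (Cg : ℝ) (q : Par) : Prop where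
  B : 1 ≤ q.B
  rho0 : 0 < q.rho0
  rho1 : q.rho0 ≤ 1 / 100
  sg : 0 < q.sg
  sg1 : Real.sqrt q.sg * (1 + C q.rho0) * q.rho0 ^ kap ≤ q.rho0 ^ 2 / 30
  eps : 0 < q.eps
  eps1 : q.eps * q.rho0 ^ (-kap) ≤ q.rho0 / (20 * (1 + Cg))

lemma ev_PF {C : ℝ → ℝ} {Cg : ℝ} (hC : ∀ ρ > 0, 0 < C ρ) (hCg : 0 ≤ Cg) : Ev (PF C Cg) := by
  refine ⟨1, fun B hB => ⟨1 / 100, by norm_num, fun rho0 hr => ?_⟩⟩
  have hr0 : 0 < rho0 := hr.1
  have hc := hC rho0 hr0
  have hk : 0 < rho0 ^ kap := Real.rpow_pos_of_pos hr0 _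
  have hk' : 0 < rho0 ^ (-kap) := Real.rpow_pos_of_pos hr0 _
  have hx : 0 < rho0 ^ 2 / 30 / ((1 + C rho0) * rho0 ^ kap) := by positivity
  have hy : 0 < rho0 / (20 * (1 + Cg)) / rho0 ^ (-kap) := by positivity
  refine ⟨0, fun BV _ => ⟨0, fun MU _ => ⟨0, fun MP _ => ⟨0, fun MV _ => ⟨0, fun CU _ =>
    ⟨0, fun CP _ => ⟨0, fun CV _ => ⟨0, fun GR _ =>
    ⟨(rho0 ^ 2 / 30 / ((1 + C rho0) * rho0 ^ kap)) ^ 2, by positivity, fun sg hsg =>
    ⟨1, one_pos, fun d0 _ => ⟨1, one_pos, fun rb _ => ⟨0, fun N _ =>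
    ⟨rho0 / (20 * (1 + Cg)) / rho0 ^ (-kap), hy, fun eps heps => ?_⟩⟩⟩⟩⟩⟩⟩⟩⟩⟩⟩⟩⟩
  refine ⟨hB, hr0, hr.2, hsg.1, ?_, heps.1, ?_⟩
  · have h1 : Real.sqrt sg ≤ rho0 ^ 2 / 30 / ((1 + C rho0) * rho0 ^ kap) := by
      rw [Real.sqrt_le_left hx.le]; exact hsg.2
    have h2 := (le_div_iff₀ (by positivity : 0 < (1 + C rho0) * rho0 ^ kap)).1 h1
    show Real.sqrt sg * (1 + C rho0) * rho0 ^ kap ≤ rho0 ^ 2 / 30
    linarith only [h2]
  · exact (le_div_iff₀ hk').1 heps.2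

end

end Vale.Agent.P244.ST.M3B

namespace Vale.Agent.P244.ST.M7

/-- The boundary `y = ρ₀` of the closure of (b1). -/
theorem m3bd (h : B1Out) : M3Bd := by
  obtain ⟨C, hC, hB1⟩ := h
  intro g hg
  obtain ⟨Cg, hCg0, hCg⟩ := BDer.kap_mul_sub_g hg
  refine ((hB1 g hg).and (M3B.ev_PF hC hCg0)).mono fun q hq b w f T t₁ hM hI t ht x hx hy => ?_
  obtain ⟨hb1, hP⟩ := hq
  have hb := hb1 b w f T t₁ hM hI t ht x hx
  have hcl := hM.close t ht x ⟨hx.1.le, hx.2⟩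
  have hr0 := hP.rho0
  rw [hy] at hb hcl
  have hB := hb (by linarith only [hr0]) (by linarith only [hP, hP.rho1])
  have hcl := hcl (by linarith only [hr0]) (by linarith only [hP, hP.rho1])
  have ht1 : t < 1 := lt_of_le_of_lt ht.2 (lt_of_lt_of_le hM.mem.2 hM.T_le)
  have hτ : 0 < tau t := by unfold tau; linarith only [ht1]
  have hτ1 : tau t ≤ 1 := by unfold tau; linarith only [ht, ht.1]
  have hs : 0 < Real.sqrt (tau t) := Real.sqrt_pos.2 hτ
  have hrr : rr w f t x = q.rho0 * Real.sqrt (tau t) := by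
    have : rr w f t x / Real.sqrt (tau t) = q.rho0 := hy
    rw [div_eq_iff hs.ne'] at this
    exact this
  have hz0 : 0 ≤ q.rho0 ^ 2 / 4 := by positivity
  have hz2 : q.rho0 ^ 2 ≤ 0.0001 := by nlinarith only [hP, hr0, hP.rho1]
  have hS0 := M3B.S0_bd hz0 (by linarith only [hz2])
  have hD1 := M3B.D1_bd hz0 (by linarith only [hz2])
  rw [M3B.Fj_one_eq (y := q.rho0) ht1 hr0 (by rw [← hrr]; rfl)] at hB
  rw [M3B.ph3_eq] at hcl
  have hk : 0 < q.rho0 ^ kap := Real.rpow_pos_of_pos hr0 _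
  have hk' : 0 < q.rho0 ^ (-kap) := Real.rpow_pos_of_pos hr0 _
  have hkk : q.rho0 ^ (-kap) * q.rho0 ^ kap = 1 := by
    rw [← Real.rpow_add hr0]; simp
  have hA : 0 < q.A t := mul_pos hP.eps (Real.rpow_pos_of_pos hτ _)
  have hT0 : 0 < q.T0 t := mul_pos hA hk'
  have hAT : q.A t = q.T0 t * q.rho0 ^ kap := by
    unfold Par.T0
    rw [mul_assoc, hkk, mul_one]
  have hAe : q.A t ≤ q.eps := by
    have : (tau t) ^ (lam 3) ≤ 1 := by
      refine Real.rpow_le_one hτ.le hτ1 ?_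
      rw [lam3_eq]; linarith only [kap_lt']
    unfold Par.A
    nlinarith only [hP, this, hP.eps]
  have hTb : q.T0 t ≤ q.rho0 / (20 * (1 + Cg)) := by
    refine le_trans ?_ hP.eps1
    exact mul_le_mul_of_nonneg_right hAe hk'.le
  have hCg1 : 0 < 1 + Cg := by linarith only [hCg0]
  have hT1 : q.T0 t ≤ q.rho0 / 20 := by
    refine hTb.trans ?_
    exact div_le_div_of_nonneg_left hr0.le (by norm_num) (by linarith only [hCg0])
  have hCT : Cg * q.T0 t ^ 2 ≤ q.rho0 ^ 2 / 20 := by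
    have e1 : (1 + Cg) * q.T0 t ≤ q.rho0 / 20 := by
      have := mul_le_mul_of_nonneg_left hTb hCg1.le
      refine this.trans (le_of_eq ?_)
      field_simp
    have e2 : Cg * q.T0 t ≤ q.rho0 / 20 := by nlinarith only [hT0, e1]
    calc Cg * q.T0 t ^ 2 = (Cg * q.T0 t) * q.T0 t := by ring
      _ ≤ (q.rho0 / 20) * (q.rho0 / 20) :=
        mul_le_mul e2 hT1 hT0.le (by positivity)
      _ ≤ q.rho0 ^ 2 / 20 := by nlinarith only [sq_nonneg q.rho0]
  have hsq : 0 ≤ Real.sqrt q.sg := Real.sqrt_nonneg _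
  have hcC := hC q.rho0 hr0
  have hsa : Real.sqrt q.sg * q.rho0 ^ kap ≤ q.rho0 ^ 2 / 30 := by
    refine le_trans ?_ hP.sg1
    have : 0 ≤ Real.sqrt q.sg * C q.rho0 * q.rho0 ^ kap := by positivity
    nlinarith only [this]
  have hsb : C q.rho0 * Real.sqrt q.sg * q.rho0 ^ kap ≤ q.rho0 ^ 2 / 30 := by
    refine le_trans ?_ hP.sg1
    have : 0 ≤ Real.sqrt q.sg * q.rho0 ^ kap := by positivity
    nlinarith only [this]
  have hu : |uu w f t x - q.T0 t * M3B.S0 (q.rho0 ^ 2 / 4)| ≤ q.T0 t * (q.rho0 ^ 2 / 30) := by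
    have e1 : q.T0 t * M3B.S0 (q.rho0 ^ 2 / 4) =
        q.A t * (q.rho0 ^ (-kap) * M3B.S0 (q.rho0 ^ 2 / 4)) := by unfold Par.T0; ring
    rw [e1]
    refine hcl.trans ?_
    have e2 := mul_le_mul_of_nonneg_left hsa hT0.le
    calc Real.sqrt q.sg * q.A t = q.T0 t * (Real.sqrt q.sg * q.rho0 ^ kap) := by rw [hAT]; ring
      _ ≤ _ := e2
  have hG : |GG w f t x + q.T0 t * (M3B.D1 (q.rho0 ^ 2 / 4) - kap * M3B.S0 (q.rho0 ^ 2 / 4))| ≤
      q.T0 t * (q.rho0 ^ 2 / 30) := by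
    have e1 : q.T0 t * (M3B.D1 (q.rho0 ^ 2 / 4) - kap * M3B.S0 (q.rho0 ^ 2 / 4)) =
        q.eps * (tau t) ^ (lam 3) * q.rho0 ^ (-kap) *
          (M3B.D1 (q.rho0 ^ 2 / 4) - kap * M3B.S0 (q.rho0 ^ 2 / 4)) := by
      unfold Par.T0 Par.A; ring
    rw [e1]
    refine hB.trans ?_
    have e2 := mul_le_mul_of_nonneg_left hsb hT0.le
    calc C q.rho0 * Real.sqrt q.sg * q.A t =
        q.T0 t * (C q.rho0 * Real.sqrt q.sg * q.rho0 ^ kap) := by rw [hAT]; ring
      _ ≤ _ := e2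
  obtain ⟨k1, k2, k3⟩ := M3B.e_bd hCg0 hCg hT0 hCT hr0 hP.rho1 (hS0.trans (by linarith only [hz2]))
    (hD1.trans (by linarith only [])) hu hG
  have hfb := M3B.fb_ge hP.B hτ hT0 (by linarith only [hP, hT0, hT1, hP.rho1]) k1 k2
  refine lt_of_lt_of_le ?_ hfb
  unfold ff ee
  rw [hrr, mul_pow, Real.sq_sqrt hτ.le, abs_div,
    abs_of_pos (by positivity : 0 < q.rho0 ^ 2 * tau t), div_lt_div_iff₀ (by positivity) hτ]
  have e9 := mul_le_mul_of_nonneg_right k3 hτ.le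
  have e10 : 0 < q.rho0 ^ 2 * tau t := by positivity
  linarith only [e10, e9]

end Vale.Agent.P244.ST.M7
end
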