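import Mathlib
import Vale.Agent.P244.Bd3.B9
import Vale.Agent.P244.Bd3.B2
import Vale.Agent.P244.Bd3.B1
import Vale.Agent.P244.Bd3.B7
import Vale.Agent.P244.Bd3.B8
import Vale.Agent.P244.Bd3.B3

set_option linter.all false

section

/-!
# P244-L, block D, part 1: families bounded in all orders, pointwise Lipschitz calculus
-/

open Set Filter Topology
open scoped ContDiff

namespace Vale.Agent.P244.LW.DL
open Vale.Agent.P244.ST Vale.Agent.P244.LW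

variable {ι : Type*}

/-! ### families bounded in all orders -/

/-- A family of smooth functions, uniformly bounded in all orders. -/
def UB (u : ι → ℝ → ℝ) : Prop :=
  (∀ i, Sm (u i)) ∧ ∀ j, ∃ K : ℝ, ∀ i, ∀ x ∈ Icc (-1 : ℝ) 1, |dn j (u i) x| ≤ K

theorem UB.fix {u : ℝ → ℝ} (hu : Sm u) : UB (fun _ : ι => u) := by
  refine ⟨fun _ => hu, fun j => ?_⟩
  obtain ⟨K, -, hK⟩ := (hu.dn j).exists_bd
  exact ⟨K, fun _ => hK⟩

theorem UB.congr {u v : ι → ℝ → ℝ} (hu : UB u)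
    (h : ∀ i, ∀ x ∈ Icc (-1 : ℝ) 1, v i x = u i x) : UB v := by
  refine ⟨fun i => (hu.1 i).congr (h i), fun j => ?_⟩
  obtain ⟨K, hK⟩ := hu.2 j
  exact ⟨K, fun i x hx => by rw [dn_congr (h i) j x hx]; exact hK i x hx⟩

theorem UB.comp {κ : Type*} {u : ι → ℝ → ℝ} (hu : UB u) (g : κ → ι) :
    UB (fun k => u (g k)) :=
  ⟨fun k => hu.1 (g k), fun j => (hu.2 j).imp fun _ hK k => hK (g k)⟩

theorem UB.dx {u : ι → ℝ → ℝ} (hu : UB u) : UB (fun i => ST.dx (u i)) :=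
  ⟨fun i => (hu.1 i).dx, fun j => hu.2 (j + 1)⟩

theorem UB.add {u v : ι → ℝ → ℝ} (hu : UB u) (hv : UB v) : UB (fun i x => u i x + v i x) := by
  refine ⟨fun i => (hu.1 i).add (hv.1 i), fun j => ?_⟩
  obtain ⟨K, hK⟩ := hu.2 j
  obtain ⟨L, hL⟩ := hv.2 j
  refine ⟨K + L, fun i x hx => ?_⟩
  rw [dn_add (hu.1 i) (hv.1 i) j x hx]
  exact (abs_add_le _ _).trans (add_le_add (hK i x hx) (hL i x hx))

theorem UB.mul {u v : ι → ℝ → ℝ} (hu : UB u) (hv : UB v) : UB (fun i x => u i x * v i x) := by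
  refine ⟨fun i => (hu.1 i).mul (hv.1 i), fun j => ?_⟩
  choose K hK using hu.2
  choose L hL using hv.2
  refine ⟨∑ i ∈ Finset.range (j + 1), (j.choose i : ℝ) * K i * L (j - i), fun i x hx => ?_⟩
  rw [dn_mul (hu.1 i) (hv.1 i) j x hx]
  refine (Finset.abs_sum_le_sum_abs _ _).trans (Finset.sum_le_sum fun k _ => ?_)
  rw [abs_mul, abs_mul, Nat.abs_cast]
  have h1 := hK k i x hx
  have h2 := hL (j - k) i x hx
  have h3 : 0 ≤ K k := (abs_nonneg _).trans h1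
  gcongr

theorem UB.cmul {u : ι → ℝ → ℝ} (hu : UB u) (c : ℝ) : UB (fun i x => c * u i x) :=
  (UB.fix (Sm.const c)).mul hu

theorem UB.neg {u : ι → ℝ → ℝ} (hu : UB u) : UB (fun i x => -u i x) :=
  (hu.cmul (-1)).congr fun i x _ => by ring

theorem UB.sub {u v : ι → ℝ → ℝ} (hu : UB u) (hv : UB v) : UB (fun i x => u i x - v i x) :=
  (hu.add hv.neg).congr fun i x _ => by ring

theorem UB.sq {u : ι → ℝ → ℝ} (hu : UB u) : UB (fun i x => u i x ^ 2) :=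
  (hu.mul hu).congr fun i x _ => by ring

theorem UB.exp {u : ι → ℝ → ℝ} (hu : UB u) : UB (fun i x => Real.exp (u i x)) := by
  refine ⟨fun i => (hu.1 i).exp, fun j => ?_⟩
  choose L hL using hu.dx.2
  induction j using Nat.strong_induction_on with
  | _ j ih =>
    rcases j with _ | j
    · obtain ⟨K, hK⟩ := hu.2 0
      refine ⟨Real.exp K, fun i x hx => ?_⟩
      rw [dn_zero, Real.abs_exp]
      exact Real.exp_le_exp.2 ((le_abs_self _).trans (hK i x hx))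
    · have ih' : ∀ k, ∃ K : ℝ, k ≤ j → ∀ i, ∀ x ∈ Icc (-1 : ℝ) 1,
          |dn k (fun x => Real.exp (u i x)) x| ≤ K := by
        intro k
        by_cases hk : k ≤ j
        · obtain ⟨K, hK⟩ := ih k (Nat.lt_succ_of_le hk)
          exact ⟨K, fun _ => hK⟩
        · exact ⟨0, fun h => absurd h hk⟩
      choose K hK using ih'
      refine ⟨∑ k ∈ Finset.range (j + 1), (j.choose k : ℝ) * K k * L (j - k), fun i x hx => ?_⟩
      rw [dn_succ, dn_congr (fun y hy => dx_exp (hu.1 i) hy) j x hx,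
        dn_mul (hu.1 i).exp (hu.1 i).dx j x hx]
      refine (Finset.abs_sum_le_sum_abs _ _).trans (Finset.sum_le_sum fun k hk => ?_)
      rw [abs_mul, abs_mul, Nat.abs_cast]
      have h1 := hK k (Nat.lt_succ_iff.1 (Finset.mem_range.1 hk)) i x hx
      have h2 := hL (j - k) i x hx
      have h3 : 0 ≤ K k := (abs_nonneg _).trans h1
      gcongr

theorem int_bd {v : ℝ → ℝ} {K : ℝ} (hK : ∀ x ∈ Icc (-1 : ℝ) 1, |v x| ≤ K) {x : ℝ}
    (hx : x ∈ Icc (-1 : ℝ) 1) : |∫ y in (0 : ℝ)..x, v y| ≤ K := by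
  have hK0 : 0 ≤ K := (abs_nonneg _).trans (hK x hx)
  have h := intervalIntegral.norm_integral_le_of_norm_le_const (a := 0) (b := x) (C := K)
    (f := v) (fun y hy => by
      rw [Real.norm_eq_abs]
      refine hK y ?_
      rcases le_total 0 x with h | h
      · rw [uIoc_of_le h] at hy
        exact ⟨by linarith only [hy.1], hy.2.trans hx.2⟩
      · rw [uIoc_of_ge h] at hy
        exact ⟨hx.1.trans hy.1.le, by linarith only [hy.2]⟩)
  rw [Real.norm_eq_abs, sub_zero] at h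
  refine h.trans ?_
  have hx1 : |x| ≤ 1 := abs_le.2 hx
  linarith only [mul_nonneg (sub_nonneg.2 hx1) (sub_nonneg.2 hK0)]

theorem UB.integral {v : ι → ℝ → ℝ} (hv : UB v) :
    UB (fun i x => ∫ y in (0 : ℝ)..x, v i y) := by
  refine ⟨fun i => (hv.1 i).integral, fun j => ?_⟩
  rcases j with _ | j
  · obtain ⟨K, hK⟩ := hv.2 0
    exact ⟨K, fun i x hx => int_bd (hK i) hx⟩
  · obtain ⟨K, hK⟩ := hv.2 j
    refine ⟨K, fun i x hx => ?_⟩
    rw [dn_succ, dn_congr (fun y hy => dx_integral (hv.1 i) hy) j x hx]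
    exact hK i x hx

theorem UB.Jd {w f : ι → ℝ → ℝ} (p : ℕ) (hw : UB w) (hf : UB f) :
    UB (fun i => ST.Jd p (w i) (f i)) :=
  ((hw.cmul (-2)).exp).mul ((hw.dx.sq.cmul ((p : ℝ) - 1)).add (hf.dx.sq.cmul (p : ℝ)))

theorem UB.Jf {w f : ι → ℝ → ℝ} (p : ℕ) (hw : UB w) (hf : UB f) :
    UB (fun i => ST.Jf p (w i) (f i)) := (hw.Jd p hf).integral

theorem UB.sxx : UB (fun (_ : ι) (x : ℝ) => 1 - x ^ 2) := UB.fix Sm.sxx

theorem UB.xx : UB (fun (_ : ι) (x : ℝ) => x) := UB.fix Sm.id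

theorem UB.lap {u : ι → ℝ → ℝ} (p : ℕ) (hu : UB u) : UB (fun i => ST.lap p (u i)) :=
  (UB.sxx.mul hu.dx.dx).sub ((UB.xx.cmul ((p : ℝ) + 1)).mul hu.dx)

/-! ### the right-hand sides of the implicit step -/

/-- Right-hand side of the implicit step for `w`. -/
noncomputable def rW (p : ℕ) (w f W : ℝ → ℝ) (x : ℝ) : ℝ :=
  Real.exp (-2 * w x) * (lap p W x - p) + (x - (1 - x ^ 2) * ST.dx W x) * Jf p w f x

/-- Right-hand side of the implicit step for `f`. -/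
noncomputable def rF (p : ℕ) (w f F : ℝ → ℝ) (x : ℝ) : ℝ :=
  Real.exp (-2 * w x) * lap p F x - ((p : ℝ) - 1) * Real.exp (-2 * f x)
    - (1 - x ^ 2) * ST.dx F x * Jf p w f x

theorem step_W {p : ℕ} {h : ℝ} {w f W F : ℝ → ℝ} (hs : Step p h w f W F) {x : ℝ}
    (hx : x ∈ Icc (-1 : ℝ) 1) : W x = w x + h * rW p w f W x := by
  have h1 := hs.eW x hx
  simp only [rW, lap_eq]
  linear_combination h1

theorem step_F {p : ℕ} {h : ℝ} {w f W F : ℝ → ℝ} (hs : Step p h w f W F) {x : ℝ}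
    (hx : x ∈ Icc (-1 : ℝ) 1) : F x = f x + h * rF p w f F x := by
  have h1 := hs.eF x hx
  simp only [rF, lap_eq]
  linear_combination h1

theorem UB.rW {w f W : ι → ℝ → ℝ} (p : ℕ) (hw : UB w) (hf : UB f) (hW : UB W) :
    UB (fun i => DL.rW p (w i) (f i) (W i)) :=
  (((hw.cmul (-2)).exp).mul ((hW.lap p).sub (UB.fix (Sm.const (p : ℝ))))).add
    ((UB.xx.sub (UB.sxx.mul hW.dx)).mul (hw.Jf p hf))

theorem UB.rF {w f F : ι → ℝ → ℝ} (p : ℕ) (hw : UB w) (hf : UB f) (hF : UB F) :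
    UB (fun i => DL.rF p (w i) (f i) (F i)) :=
  ((((hw.cmul (-2)).exp).mul (hF.lap p)).sub (((hf.cmul (-2)).exp).cmul ((p : ℝ) - 1))).sub
    ((UB.sxx.mul hF.dx).mul (hw.Jf p hf))

/-! ### pointwise Lipschitz calculus -/

/-- Two families, bounded and `O(h)`-close. -/
def Cl (h : ι → ℝ) (u v : ι → ℝ → ℝ) : Prop :=
  ∃ C : ℝ, 0 ≤ C ∧ ∀ i, ∀ x ∈ Icc (-1 : ℝ) 1, |u i x| ≤ C ∧ |v i x| ≤ C ∧
    |u i x - v i x| ≤ C * h i

theorem Cl.refl {h : ι → ℝ} (hh : ∀ i, 0 ≤ h i) {u : ι → ℝ → ℝ} (hu : UB u) : Cl h u u := by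
  obtain ⟨K, hK⟩ := hu.2 0
  refine ⟨|K|, abs_nonneg _, fun i x hx => ?_⟩
  have h1 := (hK i x hx).trans (le_abs_self K)
  refine ⟨h1, h1, ?_⟩
  rw [sub_self, abs_zero]
  exact mul_nonneg (abs_nonneg _) (hh i)

theorem Cl.add {h : ι → ℝ} (_hh : ∀ i, 0 ≤ h i) {u v u' v' : ι → ℝ → ℝ} (hu : Cl h u v)
    (hu' : Cl h u' v') : Cl h (fun i x => u i x + u' i x) (fun i x => v i x + v' i x) := by
  obtain ⟨C, hC, H⟩ := hu
  obtain ⟨C', hC', H'⟩ := hu'
  refine ⟨C + C', by positivity, fun i x hx => ?_⟩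
  obtain ⟨a, b, c⟩ := H i x hx
  obtain ⟨a', b', c'⟩ := H' i x hx
  refine ⟨(abs_add_le _ _).trans (add_le_add a a'), (abs_add_le _ _).trans (add_le_add b b'), ?_⟩
  rw [show u i x + u' i x - (v i x + v' i x) = (u i x - v i x) + (u' i x - v' i x) by ring]
  refine (abs_add_le _ _).trans ?_
  rw [add_mul]
  exact add_le_add c c'

theorem Cl.mul {h : ι → ℝ} (hh : ∀ i, 0 ≤ h i) {u v u' v' : ι → ℝ → ℝ} (hu : Cl h u v)
    (hu' : Cl h u' v') : Cl h (fun i x => u i x * u' i x) (fun i x => v i x * v' i x) := by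
  obtain ⟨C, hC, H⟩ := hu
  obtain ⟨C', hC', H'⟩ := hu'
  refine ⟨2 * (C * C'), by positivity, fun i x hx => ?_⟩
  obtain ⟨a, b, c⟩ := H i x hx
  obtain ⟨a', b', c'⟩ := H' i x hx
  have hi := hh i
  have hCC : 0 ≤ C * C' := by positivity
  refine ⟨?_, ?_, ?_⟩
  · rw [abs_mul]
    have : |u i x| * |u' i x| ≤ C * C' := by gcongr
    linarith only [this, hCC]
  · rw [abs_mul]
    have : |v i x| * |v' i x| ≤ C * C' := by gcongr
    linarith only [this, hCC]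
  · rw [show u i x * u' i x - v i x * v' i x = (u i x - v i x) * u' i x
      + v i x * (u' i x - v' i x) by ring]
    refine (abs_add_le _ _).trans ?_
    rw [abs_mul, abs_mul]
    have h1 : |u i x - v i x| * |u' i x| ≤ C * h i * C' := by gcongr
    have h2 : |v i x| * |u' i x - v' i x| ≤ C * (C' * h i) := by gcongr
    linarith only [h1, h2]

theorem Cl.fix {h : ι → ℝ} (hh : ∀ i, 0 ≤ h i) {u : ℝ → ℝ} (hu : Sm u) :
    Cl h (fun _ => u) (fun _ => u) := Cl.refl hh (UB.fix hu)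

theorem Cl.cmul {h : ι → ℝ} (hh : ∀ i, 0 ≤ h i) {u v : ι → ℝ → ℝ} (hu : Cl h u v) (c : ℝ) :
    Cl h (fun i x => c * u i x) (fun i x => c * v i x) :=
  Cl.mul hh (Cl.fix hh (Sm.const c)) hu

theorem Cl.sub {h : ι → ℝ} (hh : ∀ i, 0 ≤ h i) {u v u' v' : ι → ℝ → ℝ} (hu : Cl h u v)
    (hu' : Cl h u' v') : Cl h (fun i x => u i x - u' i x) (fun i x => v i x - v' i x) := by
  have := Cl.add hh hu (Cl.cmul hh hu' (-1))
  simpa only [neg_one_mul, ← sub_eq_add_neg] using this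

theorem Cl.exp {h : ι → ℝ} (hh : ∀ i, 0 ≤ h i) {u v : ι → ℝ → ℝ} (hu : Cl h u v) :
    Cl h (fun i x => Real.exp (u i x)) (fun i x => Real.exp (v i x)) := by
  obtain ⟨C, hC, H⟩ := hu
  have hlip : ∀ a b : ℝ, |a| ≤ C → |b| ≤ C →
      |Real.exp a - Real.exp b| ≤ Real.exp C * |a - b| := by
    intro a b ha hb
    have hc : Convex ℝ (Icc (-C) C) := convex_Icc _ _
    have := hc.norm_image_sub_le_of_norm_hasDerivWithin_le (f := Real.exp) (f' := Real.exp)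
      (C := Real.exp C) (fun z _ => (Real.hasDerivAt_exp z).hasDerivWithinAt)
      (fun z hz => by
        rw [Real.norm_eq_abs, Real.abs_exp]
        exact Real.exp_le_exp.2 hz.2) (abs_le.1 hb) (abs_le.1 ha)
    simpa only [Real.norm_eq_abs] using this
  refine ⟨Real.exp C * (1 + C), by positivity, fun i x hx => ?_⟩
  obtain ⟨a, b, c⟩ := H i x hx
  have hi := hh i
  have e1 : Real.exp C ≤ Real.exp C * (1 + C) := by
    have := Real.exp_pos C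
    linarith only [mul_nonneg (le_of_lt (sub_pos.2 this)) (sub_nonneg.2 hC)]
  refine ⟨?_, ?_, ?_⟩
  · rw [Real.abs_exp]
    exact (Real.exp_le_exp.2 ((le_abs_self _).trans a)).trans e1
  · rw [Real.abs_exp]
    exact (Real.exp_le_exp.2 ((le_abs_self _).trans b)).trans e1
  · refine (hlip _ _ a b).trans ?_
    have h1 : Real.exp C * |u i x - v i x| ≤ Real.exp C * (C * h i) := by gcongr
    refine h1.trans ?_
    have h2 : C * h i ≤ (1 + C) * h i := by linarith only [hi]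
    calc Real.exp C * (C * h i) ≤ Real.exp C * ((1 + C) * h i) := by gcongr
      _ = Real.exp C * (1 + C) * h i := by ring

theorem Cl.integral {h : ι → ℝ} {u v : ι → ℝ → ℝ} (hu : Cl h u v)
    (su : ∀ i, Sm (u i)) (sv : ∀ i, Sm (v i)) :
    Cl h (fun i x => ∫ y in (0 : ℝ)..x, u i y) (fun i x => ∫ y in (0 : ℝ)..x, v i y) := by
  obtain ⟨C, hC, H⟩ := hu
  refine ⟨C, hC, fun i x hx => ⟨int_bd (fun y hy => (H i y hy).1) hx,
    int_bd (fun y hy => (H i y hy).2.1) hx, ?_⟩⟩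
  rw [← intervalIntegral.integral_sub (intOn (su i).cont zero_mem_I hx)
    (intOn (sv i).cont zero_mem_I hx)]
  exact int_bd (fun y hy => (H i y hy).2.2) hx

end Vale.Agent.P244.LW.DL
end

section

/-!
# P244-L, block D: the limit `h → 0` of the implicit scheme
-/

open Set Filter Topology
open scoped ContDiff

namespace Vale.Agent.P244.LW.DL
open Vale.Agent.P244.ST Vale.Agent.P244.LW

variable {ι : Type*}

/-! ### closeness of the right-hand sides -/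

theorem Cl.Jf {h : ι → ℝ} (hh : ∀ i, 0 ≤ h i) {w f w' f' : ι → ℝ → ℝ} (p : ℕ)
    (sw : ∀ i, Sm (w i)) (sf : ∀ i, Sm (f i)) (sw' : ∀ i, Sm (w' i)) (sf' : ∀ i, Sm (f' i))
    (c0 : Cl h w w') (c1 : Cl h (fun i => dx (w i)) (fun i => dx (w' i)))
    (d1 : Cl h (fun i => dx (f i)) (fun i => dx (f' i))) :
    Cl h (fun i => ST.Jf p (w i) (f i)) (fun i => ST.Jf p (w' i) (f' i)) := by
  have e1 := Cl.exp hh (Cl.cmul hh c0 (-2))
  have e2 := Cl.cmul hh (Cl.mul hh c1 c1) ((p : ℝ) - 1)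
  have e3 := Cl.cmul hh (Cl.mul hh d1 d1) (p : ℝ)
  have e4 := Cl.mul hh e1 (Cl.add hh e2 e3)
  have e5 : Cl h (fun i => ST.Jd p (w i) (f i)) (fun i => ST.Jd p (w' i) (f' i)) := by
    unfold ST.Jd
    simpa only [sq] using e4
  exact Cl.integral e5 (fun i => (sw i).Jd p (sf i)) (fun i => (sw' i).Jd p (sf' i))

theorem Cl.lap {h : ι → ℝ} (hh : ∀ i, 0 ≤ h i) {W W' : ι → ℝ → ℝ} (p : ℕ)
    (c1 : Cl h (fun i => dx (W i)) (fun i => dx (W' i)))
    (c2 : Cl h (fun i => dx (dx (W i))) (fun i => dx (dx (W' i)))) :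
    Cl h (fun i => ST.lap p (W i)) (fun i => ST.lap p (W' i)) := by
  have e1 := Cl.mul hh (Cl.fix hh Sm.sxx) c2
  have e2 := Cl.mul hh (Cl.fix hh (Sm.id.cmul ((p : ℝ) + 1))) c1
  exact Cl.sub hh e1 e2

theorem Cl.rW {h : ι → ℝ} (hh : ∀ i, 0 ≤ h i) {w f w' f' W W' : ι → ℝ → ℝ} (p : ℕ)
    (sw : ∀ i, Sm (w i)) (sf : ∀ i, Sm (f i)) (sw' : ∀ i, Sm (w' i)) (sf' : ∀ i, Sm (f' i))
    (c0 : Cl h w w') (c1 : Cl h (fun i => dx (w i)) (fun i => dx (w' i)))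
    (d1 : Cl h (fun i => dx (f i)) (fun i => dx (f' i)))
    (C1 : Cl h (fun i => dx (W i)) (fun i => dx (W' i)))
    (C2 : Cl h (fun i => dx (dx (W i))) (fun i => dx (dx (W' i)))) :
    Cl h (fun i => DL.rW p (w i) (f i) (W i)) (fun i => DL.rW p (w' i) (f' i) (W' i)) := by
  have e1 := Cl.exp hh (Cl.cmul hh c0 (-2))
  have e2 := Cl.mul hh e1 (Cl.sub hh (Cl.lap hh p C1 C2) (Cl.fix hh (Sm.const (p : ℝ))))
  have e3 := Cl.sub hh (Cl.fix hh Sm.id) (Cl.mul hh (Cl.fix hh Sm.sxx) C1)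
  exact Cl.add hh e2 (Cl.mul hh e3 (Cl.Jf hh p sw sf sw' sf' c0 c1 d1))

theorem Cl.rF {h : ι → ℝ} (hh : ∀ i, 0 ≤ h i) {w f w' f' F F' : ι → ℝ → ℝ} (p : ℕ)
    (sw : ∀ i, Sm (w i)) (sf : ∀ i, Sm (f i)) (sw' : ∀ i, Sm (w' i)) (sf' : ∀ i, Sm (f' i))
    (c0 : Cl h w w') (d0 : Cl h f f') (c1 : Cl h (fun i => dx (w i)) (fun i => dx (w' i)))
    (d1 : Cl h (fun i => dx (f i)) (fun i => dx (f' i)))
    (C1 : Cl h (fun i => dx (F i)) (fun i => dx (F' i)))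
    (C2 : Cl h (fun i => dx (dx (F i))) (fun i => dx (dx (F' i)))) :
    Cl h (fun i => DL.rF p (w i) (f i) (F i)) (fun i => DL.rF p (w' i) (f' i) (F' i)) := by
  have e1 := Cl.exp hh (Cl.cmul hh c0 (-2))
  have e1' := Cl.exp hh (Cl.cmul hh d0 (-2))
  have e2 := Cl.mul hh e1 (Cl.lap hh p C1 C2)
  have e3 := Cl.sub hh e2 (Cl.cmul hh e1' ((p : ℝ) - 1))
  exact Cl.sub hh e3 (Cl.mul hh (Cl.mul hh (Cl.fix hh Sm.sxx) C1)
    (Cl.Jf hh p sw sf sw' sf' c0 c1 d1))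

/-! ### consequences for a family of steps -/

theorem dn_step {h : ι → ℝ} (hh : ∀ i, 0 ≤ h i) {u U r : ι → ℝ → ℝ} (hu : UB u) (hU : UB U)
    (hr : UB r) (hs : ∀ i, ∀ x ∈ Icc (-1 : ℝ) 1, U i x = u i x + h i * r i x) (j : ℕ) :
    ∃ C : ℝ, 0 ≤ C ∧ ∀ i, ∀ x ∈ Icc (-1 : ℝ) 1, |dn j (U i) x| ≤ C ∧ |dn j (u i) x| ≤ C ∧
      |dn j (U i) x - dn j (u i) x| ≤ C * h i := by
  obtain ⟨K1, h1⟩ := hu.2 j
  obtain ⟨K2, h2⟩ := hU.2 j
  obtain ⟨K3, h3⟩ := hr.2 j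
  refine ⟨|K1| + |K2| + |K3|, by (clear * -; positivity), fun i x hx => ⟨?_, ?_, ?_⟩⟩
  · have := h2 i x hx
    have := le_abs_self K2
    have := abs_nonneg K1
    have := abs_nonneg K3
    linarith
  · have := h1 i x hx
    have := le_abs_self K1
    have := abs_nonneg K2
    have := abs_nonneg K3
    linarith
  · rw [dn_congr (hs i) j x hx, dn_add (hu.1 i) ((hr.1 i).cmul (h i)) j x hx,
      dn_cmul (h i) (hr.1 i) j x hx, add_sub_cancel_left, abs_mul, abs_of_nonneg (hh i), mul_comm]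
    refine mul_le_mul_of_nonneg_right ?_ (hh i)
    have := h3 i x hx
    have := le_abs_self K3
    have := abs_nonneg K1
    have := abs_nonneg K2
    linarith

/-! ### sequences of real numbers -/

theorem seq_lip {r : ℕ → ℝ} {C h : ℝ} {M : ℕ} (hr : ∀ n < M, |r (n + 1) - r n| ≤ C * h)
    {n k : ℕ} (hnk : n ≤ k) (hk : k ≤ M) : |r k - r n| ≤ C * (((k : ℝ) - n) * h) := by
  induction k, hnk using Nat.le_induction with
  | base => simp
  | succ k hnk ih =>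
    have h1 := ih (Nat.le_of_succ_le hk)
    have h2 := hr k hk
    have h3 : |r (k + 1) - r n| ≤ |r (k + 1) - r k| + |r k - r n| := abs_sub_le _ _ _
    push_cast
    linarith only [h3, h2, h1]

theorem seq_quad {g r R : ℕ → ℝ} {C h : ℝ} {M : ℕ} (hC : 0 ≤ C) (hh : 0 ≤ h)
    (hg : ∀ n < M, g (n + 1) = g n + h * R n) (hR : ∀ n < M, |R n - r n| ≤ C * h)
    (hr : ∀ n < M, |r (n + 1) - r n| ≤ C * h) {n k : ℕ} (hnk : n ≤ k) (hk : k ≤ M) :
    |g k - g n - ((k : ℝ) - n) * h * r n|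
      ≤ C * h * (((k : ℝ) - n) * h) + C * (((k : ℝ) - n) * h) ^ 2 := by
  induction k, hnk using Nat.le_induction with
  | base => simp
  | succ k hnk ih =>
    have h1 := ih (Nat.le_of_succ_le hk)
    have h2 := hR k hk
    have h3 := seq_lip hr hnk (Nat.le_of_succ_le hk)
    have hkn : (0 : ℝ) ≤ (k : ℝ) - n := sub_nonneg.2 (by exact_mod_cast hnk)
    have e : g (k + 1) - g n - (((k + 1 : ℕ) : ℝ) - n) * h * r n
        = (g k - g n - ((k : ℝ) - n) * h * r n) + (h * (R k - r k) + h * (r k - r n)) := by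
      rw [hg k hk]; push_cast; ring
    rw [e]
    refine (abs_add_le _ _).trans ?_
    have h4 : |h * (R k - r k) + h * (r k - r n)| ≤ h * (C * h) + h * (C * (((k : ℝ) - n) * h)) := by
      refine (abs_add_le _ _).trans ?_
      rw [abs_mul, abs_mul, abs_of_nonneg hh]
      gcongr
    have h5 : 0 ≤ C * h ^ 2 * (((k : ℝ) - n) + 1) := by positivity
    push_cast
    linarith only [h5, h4, h1]

/-! ### discrete times -/

/-- The number of steps of size `T₀/N m` before time `t`. -/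
noncomputable def nn (N : ℕ → ℕ) (T₀ : ℝ) (m : ℕ) (t : ℝ) : ℕ := ⌊t * N m / T₀⌋₊

theorem nn_le {N : ℕ → ℕ} {T₀ : ℝ} (hT : 0 < T₀) {t : ℝ} (ht : t ∈ Icc 0 T₀) (m : ℕ) :
    nn N T₀ m t ≤ N m := by
  rw [nn]
  refine Nat.floor_le_of_le ?_
  rw [div_le_iff₀ hT, mul_comm]
  exact mul_le_mul_of_nonneg_left ht.2 (Nat.cast_nonneg _)

theorem nn_zero {N : ℕ → ℕ} {T₀ : ℝ} (m : ℕ) : nn N T₀ m 0 = 0 := by
  rw [nn, zero_mul, zero_div, Nat.floor_zero]

theorem nn_mono {N : ℕ → ℕ} {T₀ : ℝ} (hT : 0 < T₀) {s t : ℝ} (hst : s ≤ t) (m : ℕ) :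
    nn N T₀ m s ≤ nn N T₀ m t := by
  rw [nn, nn]
  refine Nat.floor_le_floor ?_
  gcongr

theorem tendsto_hh {N : ℕ → ℕ} {T₀ : ℝ} (hN : Tendsto N atTop atTop) :
    Tendsto (fun m => T₀ / (N m : ℝ)) atTop (𝓝 0) :=
  tendsto_const_nhds.div_atTop (tendsto_natCast_atTop_atTop.comp hN)

theorem tendsto_nn {N : ℕ → ℕ} {T₀ : ℝ} (hT : 0 < T₀) (hN : Tendsto N atTop atTop)
    (hN0 : ∀ m, 0 < N m) {t : ℝ} (ht : 0 ≤ t) :
    Tendsto (fun m => (nn N T₀ m t : ℝ) * (T₀ / (N m : ℝ))) atTop (𝓝 t) := by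
  have h1 : ∀ m, t - T₀ / (N m : ℝ) ≤ (nn N T₀ m t : ℝ) * (T₀ / (N m : ℝ)) := by
    intro m
    have hNm : (0 : ℝ) < N m := by exact_mod_cast hN0 m
    have h := (Nat.lt_floor_add_one (t * N m / T₀)).le
    have h' : t * N m / T₀ - 1 ≤ (nn N T₀ m t : ℝ) := by
      rw [nn]; linarith only [h]
    have h2 := mul_le_mul_of_nonneg_right h' (show 0 ≤ T₀ / (N m : ℝ) by positivity)
    have e : (t * N m / T₀ - 1) * (T₀ / (N m : ℝ)) = t - T₀ / (N m : ℝ) := by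
      field_simp
    linarith only [e, h2]
  have h2 : ∀ m, (nn N T₀ m t : ℝ) * (T₀ / (N m : ℝ)) ≤ t := by
    intro m
    have hNm : (0 : ℝ) < N m := by exact_mod_cast hN0 m
    have h : (nn N T₀ m t : ℝ) ≤ t * N m / T₀ := Nat.floor_le (by positivity)
    have h2 := mul_le_mul_of_nonneg_right h (show 0 ≤ T₀ / (N m : ℝ) by positivity)
    have e : (t * N m / T₀) * (T₀ / (N m : ℝ)) = t := by
      field_simp
    linarith only [h2, e]
  have h3 : Tendsto (fun m => t - T₀ / (N m : ℝ)) atTop (𝓝 t) := by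
    simpa only [sub_zero] using (tendsto_hh hN).const_sub t
  exact tendsto_of_tendsto_of_tendsto_of_le_of_le h3 tendsto_const_nhds h1 h2

/-- Bounded sequences converge along ultrafilters. -/
theorem exists_ulim (l : Ultrafilter ℕ) {a : ℕ → ℝ} {K : ℝ} (h : ∀ n, |a n| ≤ K) :
    ∃ L : ℝ, Tendsto a l (𝓝 L) := by
  have hc : IsCompact (Icc (-K) K) := isCompact_Icc
  obtain ⟨L, -, hL⟩ := hc.ultrafilter_le_nhds (l.map a) (by
    rw [Ultrafilter.coe_map, le_principal_iff, mem_map]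
    exact Filter.univ_mem' fun n => abs_le.1 (h n))
  exact ⟨L, hL⟩

end Vale.Agent.P244.LW.DL
end

section

/-!
# P244-L, block D: `theorem D : C4Stmt → DStmt`
-/

open Set Filter Topology
open scoped ContDiff

namespace Vale.Agent.P244.LW.DL
open Vale.Agent.P244.ST Vale.Agent.P244.LW

/-! ### limits along an ultrafilter -/

theorem ulim_UB (l : Ultrafilter ℕ) {v : ℕ → ℝ → ℝ} (hv : UB v) :
    ∃ V : ℝ → ℝ, Sm V ∧ ∀ j, ∀ x ∈ Icc (-1 : ℝ) 1,
      Tendsto (fun m => dn j (v m) x) l (𝓝 (dn j V x)) := by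
  choose K hK using hv.2
  have hex : ∀ (j : ℕ) (x : ℝ), ∃ L : ℝ, x ∈ Icc (-1 : ℝ) 1 →
      Tendsto (fun m => dn j (v m) x) l (𝓝 L) := by
    intro j x
    by_cases hx : x ∈ Icc (-1 : ℝ) 1
    · obtain ⟨L, hL⟩ := exists_ulim l (fun m => hK j m x hx)
      exact ⟨L, fun _ => hL⟩
    · exact ⟨0, fun h => absurd h hx⟩
  choose U hU using hex
  obtain ⟨h1, h2, -⟩ := lim_sm (l := (l : Filter ℕ)) (u := v) K (Eventually.of_forall hv.1)
    (fun j => Eventually.of_forall fun m => hK j m) U (fun j x hx => hU j x hx)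
  refine ⟨U 0, h1, fun j x hx => ?_⟩
  rw [h2 j x hx]
  exact hU j x hx

theorem tendsto_Jf (l : Ultrafilter ℕ) (p : ℕ) {w f : ℕ → ℝ → ℝ} (hw : UB w) (hf : UB f)
    {W F : ℝ → ℝ} (sW : Sm W) (sF : Sm F)
    (tw : ∀ j, ∀ x ∈ Icc (-1 : ℝ) 1, Tendsto (fun m => dn j (w m) x) l (𝓝 (dn j W x)))
    (tf : ∀ j, ∀ x ∈ Icc (-1 : ℝ) 1, Tendsto (fun m => dn j (f m) x) l (𝓝 (dn j F x)))
    {x : ℝ} (hx : x ∈ Icc (-1 : ℝ) 1) :
    Tendsto (fun m => Jf p (w m) (f m) x) l (𝓝 (Jf p W F x)) := by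
  obtain ⟨V, sV, tV⟩ := ulim_UB l (hw.Jf p hf)
  have h0 : V 0 = 0 := by
    have h := tV 0 0 zero_mem_I
    have e : ∀ m, dn 0 (Jf p (w m) (f m)) 0 = 0 := fun m => by
      rw [dn_zero, Jf, intervalIntegral.integral_same]
    simp only [e] at h
    exact tendsto_nhds_unique h tendsto_const_nhds
  have h1 : ∀ x ∈ Icc (-1 : ℝ) 1, dx V x = dx (Jf p W F) x := by
    intro y hy
    have h := tV 1 y hy
    have e : ∀ m, dn 1 (Jf p (w m) (f m)) y = Jd p (w m) (f m) y := fun m => by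
      rw [dn_one, dx_Jf p (hw.1 m) (hf.1 m) hy]
    simp only [e] at h
    rw [dx_Jf p sW sF hy]
    refine tendsto_nhds_unique h ?_
    have a0 := tw 0 y hy
    have a1 := tw 1 y hy
    have b1 := tf 1 y hy
    simp only [dn_zero, dn_one] at a0 a1 b1
    exact ((Real.continuous_exp.tendsto _).comp (a0.const_mul (-2))).mul
      (((a1.pow 2).const_mul ((p : ℝ) - 1)).add ((b1.pow 2).const_mul (p : ℝ)))
  have h2 := eq_of_dx_eq sV (sW.Jf p sF) h1 (by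
    rw [h0, Jf, intervalIntegral.integral_same]) x hx
  have h3 := tV 0 x hx
  rw [dn_zero, h2] at h3
  exact h3

theorem tendsto_lap (l : Ultrafilter ℕ) (p : ℕ) {w : ℕ → ℝ → ℝ} {W : ℝ → ℝ}
    (tw : ∀ j, ∀ x ∈ Icc (-1 : ℝ) 1, Tendsto (fun m => dn j (w m) x) l (𝓝 (dn j W x)))
    {x : ℝ} (hx : x ∈ Icc (-1 : ℝ) 1) :
    Tendsto (fun m => lap p (w m) x) l (𝓝 (lap p W x)) :=
  ((tw 2 x hx).const_mul (1 - x ^ 2)).sub ((tw 1 x hx).const_mul (((p : ℝ) + 1) * x))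

theorem tendsto_rhsW (l : Ultrafilter ℕ) (p : ℕ) {w f : ℕ → ℝ → ℝ} (hw : UB w) (hf : UB f)
    {W F : ℝ → ℝ} (sW : Sm W) (sF : Sm F)
    (tw : ∀ j, ∀ x ∈ Icc (-1 : ℝ) 1, Tendsto (fun m => dn j (w m) x) l (𝓝 (dn j W x)))
    (tf : ∀ j, ∀ x ∈ Icc (-1 : ℝ) 1, Tendsto (fun m => dn j (f m) x) l (𝓝 (dn j F x)))
    {x : ℝ} (hx : x ∈ Icc (-1 : ℝ) 1) :
    Tendsto (fun m => rhsW p (w m) (f m) x) l (𝓝 (rhsW p W F x)) := by
  have a0 := tw 0 x hx
  have a1 := tw 1 x hx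
  simp only [dn_zero, dn_one] at a0 a1
  have e := (Real.continuous_exp.tendsto _).comp (a0.const_mul (-2))
  exact (e.mul ((tendsto_lap l p tw hx).sub_const (p : ℝ))).add
    (((a1.const_mul (1 - x ^ 2)).const_sub x).mul (tendsto_Jf l p hw hf sW sF tw tf hx))

theorem tendsto_rhsF (l : Ultrafilter ℕ) (p : ℕ) {w f : ℕ → ℝ → ℝ} (hw : UB w) (hf : UB f)
    {W F : ℝ → ℝ} (sW : Sm W) (sF : Sm F)
    (tw : ∀ j, ∀ x ∈ Icc (-1 : ℝ) 1, Tendsto (fun m => dn j (w m) x) l (𝓝 (dn j W x)))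
    (tf : ∀ j, ∀ x ∈ Icc (-1 : ℝ) 1, Tendsto (fun m => dn j (f m) x) l (𝓝 (dn j F x)))
    {x : ℝ} (hx : x ∈ Icc (-1 : ℝ) 1) :
    Tendsto (fun m => rhsF p (w m) (f m) x) l (𝓝 (rhsF p W F x)) := by
  have a0 := tw 0 x hx
  have b0 := tf 0 x hx
  have b1 := tf 1 x hx
  simp only [dn_zero, dn_one] at a0 b0 b1
  have e := (Real.continuous_exp.tendsto _).comp (a0.const_mul (-2))
  have e' := (Real.continuous_exp.tendsto _).comp (b0.const_mul (-2))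
  exact ((e.mul (tendsto_lap l p tf hx)).sub (e'.const_mul ((p : ℝ) - 1))).sub
    ((b1.const_mul (1 - x ^ 2)).mul (tendsto_Jf l p hw hf sW sF tw tf hx))

theorem hd_of_quad_on {u : ℝ → ℝ} {u' K x : ℝ} {S : Set ℝ}
    (h : ∀ y ∈ S, |u y - u x - (y - x) * u'| ≤ K * (y - x) ^ 2) :
    HasDerivWithinAt u u' S x := by
  rw [hasDerivWithinAt_iff_isLittleO]
  refine Asymptotics.IsBigO.trans_isLittleO (g := fun y => (y - x) ^ 2) ?_ ?_
  · refine Asymptotics.IsBigO.of_bound K ?_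
    filter_upwards [self_mem_nhdsWithin] with y hy
    rw [Real.norm_eq_abs, Real.norm_eq_abs, abs_of_nonneg (sq_nonneg (y - x)), smul_eq_mul]
    exact h y hy
  · have : (fun y : ℝ => (y - x) ^ 2) =o[𝓝 x] fun y => y - x := by
      have h1 : (fun y : ℝ => (y - x) ^ 2) = fun y => (y - x) * (y - x) := by
        ext y; ring
      rw [h1]
      have h2 : (fun y : ℝ => y - x) =o[𝓝 x] fun _ => (1 : ℝ) := by
        rw [Asymptotics.isLittleO_one_iff]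
        have : Tendsto (fun y : ℝ => y - x) (𝓝 x) (𝓝 (x - x)) :=
          (continuous_id.sub continuous_const).tendsto x
        simpa using this
      simpa using (Asymptotics.isBigO_refl (fun y : ℝ => y - x) (𝓝 x)).mul_isLittleO h2
    exact this.mono nhdsWithin_le_nhds

/-! ### time regularity of the limit -/

section time

variable {T₀ : ℝ} {N : ℕ → ℕ} (l : Ultrafilter ℕ) (hl : (l : Filter ℕ) ≤ atTop) (hT : 0 < T₀)
  (hN : Tendsto N atTop atTop) (hN0 : ∀ m, 0 < N m)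

include hl hT hN hN0

theorem tendsto_gap {s t : ℝ} (hs : 0 ≤ s) (ht : 0 ≤ t) :
    Tendsto (fun m => ((nn N T₀ m t : ℝ) - nn N T₀ m s) * (T₀ / (N m : ℝ))) l (𝓝 (t - s)) := by
  have h1 := ((tendsto_nn hT hN hN0 ht).mono_left hl).sub ((tendsto_nn hT hN hN0 hs).mono_left hl)
  simpa only [sub_mul] using h1

/-- A discrete time Lipschitz bound passes to the limit. -/
theorem lip_lim {r : ℕ → ℕ → ℝ} {C : ℝ}
    (hr : ∀ m, ∀ n < N m, |r m (n + 1) - r m n| ≤ C * (T₀ / (N m : ℝ))) {s t Rs Rt : ℝ}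
    (hs : s ∈ Icc 0 T₀) (ht : t ∈ Icc 0 T₀)
    (hRs : Tendsto (fun m => r m (nn N T₀ m s)) l (𝓝 Rs))
    (hRt : Tendsto (fun m => r m (nn N T₀ m t)) l (𝓝 Rt)) : |Rt - Rs| ≤ C * |t - s| := by
  have key : ∀ {s t Rs Rt : ℝ}, s ∈ Icc 0 T₀ → t ∈ Icc 0 T₀ → s ≤ t →
      Tendsto (fun m => r m (nn N T₀ m s)) l (𝓝 Rs) →
      Tendsto (fun m => r m (nn N T₀ m t)) l (𝓝 Rt) → |Rt - Rs| ≤ C * (t - s) := by
    intro s t Rs Rt hs ht hst hRs hRt
    refine le_of_tendsto_of_tendsto (hRt.sub hRs).abs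
      ((tendsto_gap l hl hT hN hN0 hs.1 ht.1).const_mul C) (Eventually.of_forall fun m => ?_)
    exact seq_lip (hr m) (nn_mono hT hst m) (nn_le hT ht m)
  rcases le_total s t with h | h
  · rw [abs_of_nonneg (sub_nonneg.2 h)]
    exact key hs ht h hRs hRt
  · rw [abs_sub_comm, abs_sub_comm t s, abs_of_nonneg (sub_nonneg.2 h)]
    exact key ht hs h hRt hRs

theorem hd_lim {g r R : ℕ → ℕ → ℝ} {C : ℝ} (hC : 0 ≤ C)
    (hg : ∀ m, ∀ n < N m, g m (n + 1) = g m n + T₀ / (N m : ℝ) * R m n)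
    (hR : ∀ m, ∀ n < N m, |R m n - r m n| ≤ C * (T₀ / (N m : ℝ)))
    (hr : ∀ m, ∀ n < N m, |r m (n + 1) - r m n| ≤ C * (T₀ / (N m : ℝ)))
    {G ρ : ℝ → ℝ}
    (tG : ∀ t ∈ Icc 0 T₀, Tendsto (fun m => g m (nn N T₀ m t)) l (𝓝 (G t)))
    (tρ : ∀ t ∈ Icc 0 T₀, Tendsto (fun m => r m (nn N T₀ m t)) l (𝓝 (ρ t))) :
    ∀ t ∈ Icc 0 T₀, HasDerivWithinAt G (ρ t) (Icc 0 T₀) t := by
  have key : ∀ {s t : ℝ}, s ∈ Icc 0 T₀ → t ∈ Icc 0 T₀ → s ≤ t →
      |G t - G s - (t - s) * ρ s| ≤ C * (t - s) ^ 2 := by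
    intro s t hs ht hst
    have hgap := tendsto_gap l hl hT hN hN0 hs.1 ht.1
    have hh := (tendsto_hh (T₀ := T₀) hN).mono_left hl
    have h1 := (((tG t ht).sub (tG s hs)).sub (hgap.mul (tρ s hs))).abs
    have h2 := ((hh.const_mul C).mul hgap).add ((hgap.pow 2).const_mul C)
    rw [mul_zero, zero_mul, zero_add] at h2
    refine le_of_tendsto_of_tendsto h1 h2 (Eventually.of_forall fun m => ?_)
    exact seq_quad hC (by positivity) (hg m) (hR m) (hr m) (nn_mono hT hst m) (nn_le hT ht m)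
  intro s hs
  refine hd_of_quad_on (K := 2 * C) fun t ht => ?_
  rcases le_total s t with h | h
  · have h1 := key hs ht h
    have h2 : 0 ≤ C * (t - s) ^ 2 := by positivity
    linarith only [h1, h2]
  · have h1 := key ht hs h
    have h2 := lip_lim l hl hT hN hN0 hr ht hs (tρ t ht) (tρ s hs)
    rw [abs_of_nonneg (sub_nonneg.2 h)] at h2
    have e : G t - G s - (t - s) * ρ s
        = -(G s - G t - (s - t) * ρ t) + (s - t) * (ρ s - ρ t) := by ring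
    rw [e]
    refine (abs_add_le _ _).trans ?_
    rw [abs_neg, abs_mul, abs_of_nonneg (sub_nonneg.2 h)]
    have h3 : (s - t) * |ρ s - ρ t| ≤ (s - t) * (C * (s - t)) :=
      mul_le_mul_of_nonneg_left h2 (sub_nonneg.2 h)
    linarith only [h3, h1]

end time

/-! ### the scheme -/

/-- The output of the scheme. -/
structure Sch (p : ℕ) (T₀ : ℝ) (N : ℕ → ℕ) (w f : ℕ → ℕ → ℝ → ℝ) (K : ℕ → ℝ) : Prop where
  T0 : 0 < T₀
  tN : Tendsto N atTop atTop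
  N0 : ∀ m, 0 < N m
  dat : ∀ m, ∀ n ≤ N m, ConfData (w m n) (f m n)
  bw : ∀ m, ∀ n ≤ N m, ∀ j, Bd j (K j) (w m n)
  bf : ∀ m, ∀ n ≤ N m, ∀ j, Bd j (K j) (f m n)
  st : ∀ m, ∀ n < N m,
    Step p (T₀ / (N m : ℝ)) (w m n) (f m n) (w m (n + 1)) (f m (n + 1))

/-- index of the states -/
abbrev SI (N : ℕ → ℕ) : Type := {q : ℕ × ℕ // q.2 ≤ N q.1}

/-- index of the steps -/
abbrev TI (N : ℕ → ℕ) : Type := {q : ℕ × ℕ // q.2 < N q.1}

def TI.s {N : ℕ → ℕ} (q : TI N) : SI N := ⟨q.1, q.2.le⟩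
def TI.e {N : ℕ → ℕ} (q : TI N) : SI N := ⟨(q.1.1, q.1.2 + 1), q.2⟩

section sch

variable {p : ℕ} {T₀ : ℝ} {N : ℕ → ℕ} {w f : ℕ → ℕ → ℝ → ℝ} {K : ℕ → ℝ}
  (H : Sch p T₀ N w f K)

include H

theorem Sch.uw : UB (fun q : SI N => w q.1.1 q.1.2) :=
  ⟨fun q => (H.dat _ _ q.2).smooth_w, fun j => ⟨K j, fun q x hx => H.bw _ _ q.2 j j le_rfl x hx⟩⟩

theorem Sch.uf : UB (fun q : SI N => f q.1.1 q.1.2) :=
  ⟨fun q => (H.dat _ _ q.2).smooth_f, fun j => ⟨K j, fun q x hx => H.bf _ _ q.2 j j le_rfl x hx⟩⟩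

theorem Sch.hpos (q : TI N) : 0 ≤ T₀ / (N q.1.1 : ℝ) :=
  div_nonneg H.T0.le (Nat.cast_nonneg _)

theorem Sch.stW (q : TI N) {x : ℝ} (hx : x ∈ Icc (-1 : ℝ) 1) :
    w q.1.1 (q.1.2 + 1) x = w q.1.1 q.1.2 x + T₀ / (N q.1.1 : ℝ) *
      rW p (w q.1.1 q.1.2) (f q.1.1 q.1.2) (w q.1.1 (q.1.2 + 1)) x :=
  step_W (H.st _ _ q.2) hx

theorem Sch.stF (q : TI N) {x : ℝ} (hx : x ∈ Icc (-1 : ℝ) 1) :
    f q.1.1 (q.1.2 + 1) x = f q.1.1 q.1.2 x + T₀ / (N q.1.1 : ℝ) *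
      rF p (w q.1.1 q.1.2) (f q.1.1 q.1.2) (f q.1.1 (q.1.2 + 1)) x :=
  step_F (H.st _ _ q.2) hx

theorem Sch.cw (j : ℕ) : Cl (fun q : TI N => T₀ / (N q.1.1 : ℝ))
    (fun q => dn j (w q.1.1 (q.1.2 + 1))) (fun q => dn j (w q.1.1 q.1.2)) :=
  dn_step H.hpos (H.uw.comp TI.s) (H.uw.comp TI.e)
    (UB.rW p (H.uw.comp TI.s) (H.uf.comp TI.s) (H.uw.comp TI.e)) (fun q _ hx => H.stW q hx) j

theorem Sch.cf (j : ℕ) : Cl (fun q : TI N => T₀ / (N q.1.1 : ℝ))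
    (fun q => dn j (f q.1.1 (q.1.2 + 1))) (fun q => dn j (f q.1.1 q.1.2)) :=
  dn_step H.hpos (H.uf.comp TI.s) (H.uf.comp TI.e)
    (UB.rF p (H.uw.comp TI.s) (H.uf.comp TI.s) (H.uf.comp TI.e)) (fun q _ hx => H.stF q hx) j

theorem Sch.smw (q : TI N) : Sm (w q.1.1 q.1.2) := (H.dat _ _ q.2.le).smooth_w
theorem Sch.smf (q : TI N) : Sm (f q.1.1 q.1.2) := (H.dat _ _ q.2.le).smooth_f
theorem Sch.smw' (q : TI N) : Sm (w q.1.1 (q.1.2 + 1)) := (H.dat _ _ q.2).smooth_w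
theorem Sch.smf' (q : TI N) : Sm (f q.1.1 (q.1.2 + 1)) := (H.dat _ _ q.2).smooth_f

/-- All constants of the time estimates at once. -/
theorem Sch.consts : ∃ C : ℝ, 0 ≤ C ∧ ∀ m, ∀ n < N m, ∀ x ∈ Icc (-1 : ℝ) 1,
    |rW p (w m n) (f m n) (w m (n + 1)) x - rhsW p (w m n) (f m n) x| ≤ C * (T₀ / (N m : ℝ)) ∧
    |rF p (w m n) (f m n) (f m (n + 1)) x - rhsF p (w m n) (f m n) x| ≤ C * (T₀ / (N m : ℝ)) ∧
    |rhsW p (w m (n + 1)) (f m (n + 1)) x - rhsW p (w m n) (f m n) x| ≤ C * (T₀ / (N m : ℝ)) ∧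
    |rhsF p (w m (n + 1)) (f m (n + 1)) x - rhsF p (w m n) (f m n) x|
      ≤ C * (T₀ / (N m : ℝ)) := by
  have hh := H.hpos
  have sw := H.smw
  have sf := H.smf
  have sw' := H.smw'
  have sf' := H.smf'
  have w0 := Cl.refl hh (H.uw.comp TI.s)
  have f0 := Cl.refl hh (H.uf.comp TI.s)
  have w1 := Cl.refl hh (H.uw.comp TI.s).dx
  have f1 := Cl.refl hh (H.uf.comp TI.s).dx
  obtain ⟨C1, hC1, h1⟩ := Cl.rW hh p sw sf sw sf w0 w1 f1 (H.cw 1) (H.cw 2)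
  obtain ⟨C2, hC2, h2⟩ := Cl.rF hh p sw sf sw sf w0 f0 w1 f1 (H.cf 1) (H.cf 2)
  obtain ⟨C3, hC3, h3⟩ := Cl.rW hh p sw' sf' sw sf (H.cw 0) (H.cw 1) (H.cf 1) (H.cw 1) (H.cw 2)
  obtain ⟨C4, hC4, h4⟩ := Cl.rF hh p sw' sf' sw sf (H.cw 0) (H.cf 0) (H.cw 1) (H.cf 1) (H.cf 1)
    (H.cf 2)
  refine ⟨C1 + C2 + C3 + C4, by (clear * - hC1 hC2 hC3 hC4; positivity), fun m n hn x hx => ?_⟩
  have e1 := (h1 ⟨(m, n), hn⟩ x hx).2.2
  have e2 := (h2 ⟨(m, n), hn⟩ x hx).2.2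
  have e3 := (h3 ⟨(m, n), hn⟩ x hx).2.2
  have e4 := (h4 ⟨(m, n), hn⟩ x hx).2.2
  have hm : 0 ≤ T₀ / (N m : ℝ) := hh ⟨(m, n), hn⟩
  have m1 : C1 * (T₀ / (N m : ℝ)) ≤ (C1 + C2 + C3 + C4) * (T₀ / (N m : ℝ)) :=
    mul_le_mul_of_nonneg_right (by linarith only [hC1, hC2, hC3, hC4]) hm
  have m2 : C2 * (T₀ / (N m : ℝ)) ≤ (C1 + C2 + C3 + C4) * (T₀ / (N m : ℝ)) :=
    mul_le_mul_of_nonneg_right (by linarith only [hC1, hC2, hC3, hC4]) hm
  have m3 : C3 * (T₀ / (N m : ℝ)) ≤ (C1 + C2 + C3 + C4) * (T₀ / (N m : ℝ)) :=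
    mul_le_mul_of_nonneg_right (by linarith only [hC1, hC2, hC3, hC4]) hm
  have m4 : C4 * (T₀ / (N m : ℝ)) ≤ (C1 + C2 + C3 + C4) * (T₀ / (N m : ℝ)) :=
    mul_le_mul_of_nonneg_right (by linarith only [hC1, hC2, hC3, hC4]) hm
  exact ⟨e1.trans m1, e2.trans m2, e3.trans m3, e4.trans m4⟩

/-- The limit exists and solves the system. -/
theorem Sch.lim : ∃ W F : ℝ → ℝ → ℝ, (∀ t ∈ Icc 0 T₀, ConfData (W t) (F t)) ∧
    (∀ x ∈ Icc (-1 : ℝ) 1, ∀ a b : ℝ, (∀ m, w m 0 x = a ∧ f m 0 x = b) → W 0 x = a ∧ F 0 x = b) ∧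
    (∀ j, ∃ C : ℝ, ∀ s ∈ Icc 0 T₀, ∀ t ∈ Icc 0 T₀, ∀ x ∈ Icc (-1 : ℝ) 1,
      |dn j (W t) x - dn j (W s) x| ≤ C * |t - s| ∧
      |dn j (F t) x - dn j (F s) x| ≤ C * |t - s|) ∧
    (∀ t ∈ Icc 0 T₀, ∀ x ∈ Icc (-1 : ℝ) 1,
      HasDerivWithinAt (fun s => W s x) (rhsW p (W t) (F t) x) (Icc 0 T₀) t) ∧
    (∀ t ∈ Icc 0 T₀, ∀ x ∈ Icc (-1 : ℝ) 1,
      HasDerivWithinAt (fun s => F s x) (rhsF p (W t) (F t) x) (Icc 0 T₀) t) := by
  set l : Ultrafilter ℕ := hyperfilter ℕ with hldef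
  have hl : (l : Filter ℕ) ≤ atTop := Nat.hyperfilter_le_atTop
  have hT := H.T0
  have hN := H.tN
  have hN0 := H.N0
  -- the families at time `t`
  let g : ∀ t : ℝ, t ∈ Icc 0 T₀ → ℕ → SI N := fun t ht m => ⟨(m, nn N T₀ m t), nn_le hT ht m⟩
  have uw : ∀ t (ht : t ∈ Icc 0 T₀), UB (fun m => w m (nn N T₀ m t)) :=
    fun t ht => H.uw.comp (g t ht)
  have uf : ∀ t (ht : t ∈ Icc 0 T₀), UB (fun m => f m (nn N T₀ m t)) :=
    fun t ht => H.uf.comp (g t ht)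
  have exW : ∀ t : ℝ, ∃ V : ℝ → ℝ, t ∈ Icc 0 T₀ → Sm V ∧ ∀ j, ∀ x ∈ Icc (-1 : ℝ) 1,
      Tendsto (fun m => dn j (w m (nn N T₀ m t)) x) l (𝓝 (dn j V x)) := by
    intro t
    by_cases ht : t ∈ Icc 0 T₀
    · obtain ⟨V, hV⟩ := ulim_UB l (uw t ht)
      exact ⟨V, fun _ => hV⟩
    · exact ⟨0, fun h => absurd h ht⟩
  have exF : ∀ t : ℝ, ∃ V : ℝ → ℝ, t ∈ Icc 0 T₀ → Sm V ∧ ∀ j, ∀ x ∈ Icc (-1 : ℝ) 1,
      Tendsto (fun m => dn j (f m (nn N T₀ m t)) x) l (𝓝 (dn j V x)) := by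
    intro t
    by_cases ht : t ∈ Icc 0 T₀
    · obtain ⟨V, hV⟩ := ulim_UB l (uf t ht)
      exact ⟨V, fun _ => hV⟩
    · exact ⟨0, fun h => absurd h ht⟩
  choose W hW using exW
  choose F hF using exF
  refine ⟨W, F, ?_, ?_, ?_, ?_, ?_⟩
  · intro t ht
    refine ⟨(hW t ht).1, (hF t ht).1, fun x hx => ?_, fun x hx => ?_⟩
    · have hx' : -x ∈ Icc (-1 : ℝ) 1 := ⟨by linarith only [hx.2], by linarith only [hx.1]⟩
      have h1 := (hW t ht).2 0 x hx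
      have h2 := (hW t ht).2 0 (-x) hx'
      simp only [dn_zero] at h1 h2
      refine tendsto_nhds_unique h2 (h1.congr fun m => ?_)
      exact ((H.dat m _ (nn_le hT ht m)).even_w x hx).symm
    · have hx' : -x ∈ Icc (-1 : ℝ) 1 := ⟨by linarith only [hx.2], by linarith only [hx.1]⟩
      have h1 := (hF t ht).2 0 x hx
      have h2 := (hF t ht).2 0 (-x) hx'
      simp only [dn_zero] at h1 h2
      refine tendsto_nhds_unique h2 (h1.congr fun m => ?_)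
      exact ((H.dat m _ (nn_le hT ht m)).even_f x hx).symm
  · intro x hx a b hab
    have h0 : (0 : ℝ) ∈ Icc 0 T₀ := ⟨le_rfl, hT.le⟩
    have h1 := (hW 0 h0).2 0 x hx
    have h2 := (hF 0 h0).2 0 x hx
    simp only [dn_zero, nn_zero] at h1 h2
    exact ⟨tendsto_nhds_unique h1 (tendsto_const_nhds.congr fun m => (hab m).1.symm),
      tendsto_nhds_unique h2 (tendsto_const_nhds.congr fun m => (hab m).2.symm)⟩
  · intro j
    obtain ⟨C1, hC1, h1⟩ := H.cw j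
    obtain ⟨C2, hC2, h2⟩ := H.cf j
    refine ⟨C1 + C2, fun s hs t ht x hx => ⟨?_, ?_⟩⟩
    · have h3 := lip_lim l hl hT hN hN0 (r := fun m n => dn j (w m n) x) (C := C1)
        (fun m n hn => (h1 ⟨(m, n), hn⟩ x hx).2.2) hs ht ((hW s hs).2 j x hx) ((hW t ht).2 j x hx)
      refine h3.trans (mul_le_mul_of_nonneg_right ?_ (abs_nonneg _))
      linarith only [hC2]
    · have h3 := lip_lim l hl hT hN hN0 (r := fun m n => dn j (f m n) x) (C := C2)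
        (fun m n hn => (h2 ⟨(m, n), hn⟩ x hx).2.2) hs ht ((hF s hs).2 j x hx) ((hF t ht).2 j x hx)
      refine h3.trans (mul_le_mul_of_nonneg_right ?_ (abs_nonneg _))
      linarith only [hC1]
  · obtain ⟨C, hC, hc⟩ := H.consts
    intro t ht x hx
    refine hd_lim l hl hT hN hN0 (g := fun m n => w m n x)
      (r := fun m n => rhsW p (w m n) (f m n) x)
      (R := fun m n => rW p (w m n) (f m n) (w m (n + 1)) x) (G := fun s => W s x)
      (ρ := fun s => rhsW p (W s) (F s) x) hC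
      (fun m n hn => H.stW ⟨(m, n), hn⟩ hx) (fun m n hn => (hc m n hn x hx).1)
      (fun m n hn => (hc m n hn x hx).2.2.1) (fun s hs => (hW s hs).2 0 x hx) (fun s hs => ?_) t ht
    exact tendsto_rhsW l p (uw s hs) (uf s hs) (hW s hs).1 (hF s hs).1 (hW s hs).2 (hF s hs).2 hx
  · obtain ⟨C, hC, hc⟩ := H.consts
    intro t ht x hx
    refine hd_lim l hl hT hN hN0 (g := fun m n => f m n x)
      (r := fun m n => rhsF p (w m n) (f m n) x)
      (R := fun m n => rF p (w m n) (f m n) (f m (n + 1)) x) (G := fun s => F s x)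
      (ρ := fun s => rhsF p (W s) (F s) x) hC
      (fun m n hn => H.stF ⟨(m, n), hn⟩ hx) (fun m n hn => (hc m n hn x hx).2.1)
      (fun m n hn => (hc m n hn x hx).2.2.2) (fun s hs => (hF s hs).2 0 x hx) (fun s hs => ?_) t ht
    exact tendsto_rhsF l p (uw s hs) (uf s hs) (hW s hs).1 (hF s hs).1 (hW s hs).2 (hF s hs).2 hx

end sch

end Vale.Agent.P244.LW.DL

namespace Vale.Agent.P244.LW
open Vale.Agent.P244.ST

/-- **Block D.** -/
theorem D : C4Stmt → DStmt := by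
  intro h4 p hp K₀
  obtain ⟨T₀, hT₀, H⟩ := h4 p hp K₀
  refine ⟨T₀, hT₀, fun w₀ f₀ hd hw hf => ?_⟩
  obtain ⟨N, w, f, K, hN, H⟩ := H w₀ f₀ hd hw hf
  have hS : DL.Sch p T₀ N w f K :=
    { T0 := hT₀.1
      tN := hN
      N0 := fun m => (H m).1
      dat := fun m n hn => ((H m).2.2.2.1 n hn).1
      bw := fun m n hn j => (((H m).2.2.2.1 n hn).2 j).1
      bf := fun m n hn j => (((H m).2.2.2.1 n hn).2 j).2
      st := fun m n hn => (H m).2.2.2.2 n hn }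
  obtain ⟨W, F, h1, h2, h3, h4, h5⟩ := hS.lim
  refine ⟨W, F, h1, fun x hx => h2 x hx _ _ fun m => ?_, h3, h4, h5⟩
  rw [(H m).2.1, (H m).2.2.1]
  exact ⟨rfl, rfl⟩

end Vale.Agent.P244.LW
end

section

/-!
# P244-L : uniqueness (`L2Statement`) and continuous dependence in `C¹` (`L3Statement`)
-/

open Set Filter Topology
open scoped ContDiff

namespace Vale.Agent.P244.LW
open Vale.Agent.P244.ST

/-- Uniform bounds of every order on compact time intervals. -/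
theorem js_Bd {T T₁ : ℝ} (hT : T₁ < T) {u : ℝ → ℝ → ℝ} (h : L.JS T u) (j : ℕ) :
    ∃ K : ℝ, 0 ≤ K ∧ ∀ t ∈ Icc 0 T₁, Bd j K (u t) := by
  have hc : IsCompact (Icc (0 : ℝ) T₁ ×ˢ Icc (-1 : ℝ) 1) := isCompact_Icc.prod isCompact_Icc
  have h1 : ∀ i, ∃ K : ℝ, ∀ z ∈ Icc (0 : ℝ) T₁ ×ˢ Icc (-1 : ℝ) 1, |dn i (u z.1) z.2| ≤ K := by
    intro i
    obtain ⟨K, hK⟩ := hc.exists_bound_of_continuousOn (js_cont hT (js_dn h i))
    exact ⟨K, fun z hz => by simpa using hK z hz⟩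
  choose K hK using h1
  refine ⟨∑ i ∈ Finset.range (j + 1), |K i|, Finset.sum_nonneg fun i _ => abs_nonneg _,
    fun t ht i hi x hx => ?_⟩
  calc |dn i (u t) x| ≤ K i := hK i (t, x) ⟨ht, hx⟩
    _ ≤ |K i| := le_abs_self _
    _ ≤ _ := Finset.single_le_sum (f := fun i => |K i|) (fun i _ => abs_nonneg _)
      (Finset.mem_range.2 (by omega))

/-- INTERFACE L2. -/
theorem L2 : L2Statement := by
  intro p _ T _ w f w' f' hS hS' h0 t ht x hx
  have jw : L.JS T w := hS.smooth_w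
  have jf : L.JS T f := hS.smooth_f
  have jw' : L.JS T w' := hS'.smooth_w
  have jf' : L.JS T f' := hS'.smooth_f
  obtain ⟨K1, hK1, b1⟩ := js_Bd ht.2 jw 3
  obtain ⟨K2, hK2, b2⟩ := js_Bd ht.2 jf 3
  obtain ⟨K3, hK3, b3⟩ := js_Bd ht.2 jw' 1
  obtain ⟨K4, hK4, b4⟩ := js_Bd ht.2 jf' 1
  obtain ⟨C, hC, key⟩ := diff_est p 1 le_rfl (K1 + K2 + K3 + K4)
  have h1 := key T T t w f w' f' hS hS' ht.2 ht.2
    (fun s hs => ⟨(b1 s hs).mono (by linarith only [hK2, hK3, hK4]), (b2 s hs).mono (by linarith only [hK1, hK3, hK4]),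
      (b3 s hs).mono (by linarith only [hK1, hK2, hK4]), (b4 s hs).mono (by linarith only [hK1, hK2, hK3])⟩) 0 le_rfl
    (fun i _ y hy => by
      rw [dn_congr (fun z hz => (h0 z hz).1) i y hy, dn_congr (fun z hz => (h0 z hz).2) i y hy]
      simp)
    t ⟨ht.1, le_rfl⟩ 0 (by omega) x hx
  simp only [dn_zero, zero_mul] at h1
  exact ⟨(sub_eq_zero.1 (abs_nonpos_iff.1 h1.1)).symm, (sub_eq_zero.1 (abs_nonpos_iff.1 h1.2)).symm⟩

/-! ### dependence on parameters -/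

section param

variable {E : Type*} [NormedAddCommGroup E] [NormedSpace ℝ E]

theorem param_dx {u : E → ℝ → ℝ}
    (h : ContDiffOn ℝ ∞ (fun z : E × ℝ => u z.1 z.2) (univ ×ˢ Icc (-1) 1)) :
    ContDiffOn ℝ ∞ (fun z : E × ℝ => dx (u z.1) z.2) (univ ×ˢ Icc (-1) 1) := by
  have hU : UniqueDiffOn ℝ ((univ : Set E) ×ˢ Icc (-1 : ℝ) 1) := uniqueDiffOn_univ.prod uI
  have h1 : ContDiffOn ℝ ∞ (fderivWithin ℝ (fun z : E × ℝ => u z.1 z.2) (univ ×ˢ Icc (-1) 1))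
      (univ ×ˢ Icc (-1) 1) := ContDiffOn.fderivWithin h hU (by simp)
  have h2 := h1.clm_apply (contDiffOn_const (c := ((0, 1) : E × ℝ)))
  refine ContDiffOn.congr h2 ?_
  rintro ⟨b, x⟩ ⟨hb, hx⟩
  refine dx_of_hd hx ?_
  have h3 : HasFDerivWithinAt (fun z : E × ℝ => u z.1 z.2) _ (univ ×ˢ Icc (-1) 1) (b, x) :=
    (h.differentiableOn (by simp) (b, x) ⟨hb, hx⟩).hasFDerivWithinAt
  have h4 : HasDerivWithinAt (fun y : ℝ => ((b, y) : E × ℝ)) ((0, 1) : E × ℝ) (Icc (-1) 1) x :=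
    (hasDerivWithinAt_const x _ b).prodMk (hasDerivWithinAt_id x _)
  exact h3.comp_hasDerivWithinAt x h4 (fun y hy => ⟨mem_univ _, hy⟩)

omit [NormedSpace ℝ E] in
theorem param_close_aux {u : E → ℝ → ℝ}
    (h : ContinuousOn (fun z : E × ℝ => u z.1 z.2) (univ ×ˢ Icc (-1) 1)) (b : E) {δ : ℝ}
    (hδ : 0 < δ) : ∀ᶠ b' in 𝓝 b, ∀ x ∈ Icc (-1 : ℝ) 1, |u b' x - u b x| ≤ δ := by
  have h1 := IsCompact.mem_uniformity_of_prod (f := u) (isCompact_Icc (a := (-1 : ℝ)) (b := 1)) h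
    (mem_univ b) (Metric.dist_mem_uniformity hδ)
  obtain ⟨v, hv, hv'⟩ := h1
  rw [nhdsWithin_univ] at hv
  filter_upwards [hv] with b' hb' x hx
  have h2 := hv' b' hb' x hx
  simp only [mem_ofPred_eq, Real.dist_eq] at h2
  exact h2.le

theorem param_close {u : E → ℝ → ℝ}
    (h : ContDiffOn ℝ ∞ (fun z : E × ℝ => u z.1 z.2) (univ ×ˢ Icc (-1) 1)) (b : E) {δ : ℝ}
    (hδ : 0 < δ) : ∀ᶠ b' in 𝓝 b, ∀ i ≤ 1, ∀ x ∈ Icc (-1 : ℝ) 1,
      |dn i (u b') x - dn i (u b) x| ≤ δ := by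
  filter_upwards [param_close_aux h.continuousOn b hδ,
    param_close_aux (u := fun b => dx (u b)) (param_dx h).continuousOn b hδ] with b' h1 h2 i hi x hx
  interval_cases i
  · exact h1 x hx
  · exact h2 x hx

end param

/-- Continuity argument: a continuous function on `[0,T] × [-1,1]` cannot cross the value `1` if
it improves. -/
theorem bootstrap {T : ℝ} {G : ℝ × ℝ → ℝ} (hG : ContinuousOn G (Icc 0 T ×ˢ Icc (-1) 1))
    (h0 : ∀ x ∈ Icc (-1 : ℝ) 1, G (0, x) < 1)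
    (himp : ∀ t ∈ Icc 0 T, (∀ s ∈ Icc 0 t, ∀ x ∈ Icc (-1 : ℝ) 1, G (s, x) ≤ 1) →
      ∀ x ∈ Icc (-1 : ℝ) 1, G (t, x) ≤ 1 / 2) :
    ∀ t ∈ Icc 0 T, ∀ x ∈ Icc (-1 : ℝ) 1, G (t, x) ≤ 1 := by
  by_contra hne
  push Not at hne
  obtain ⟨t₁, ht₁, x₁, hx₁, h1⟩ := hne
  have hcQ : IsCompact (Icc (0 : ℝ) T ×ˢ Icc (-1 : ℝ) 1) := isCompact_Icc.prod isCompact_Icc
  have hZ : IsCompact ((Icc (0 : ℝ) T ×ˢ Icc (-1 : ℝ) 1) ∩ G ⁻¹' (Ici 1)) :=
    hcQ.of_isClosed_subset (hG.preimage_isClosed_of_isClosed hcQ.isClosed isClosed_Ici)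
      inter_subset_left
  obtain ⟨z, hz, hmin⟩ := hZ.exists_isMinOn ⟨(t₁, x₁), ⟨ht₁, hx₁⟩, h1.le⟩
    (continuous_fst.continuousOn)
  obtain ⟨t, x⟩ := z
  obtain ⟨⟨ht, hx⟩, hz1⟩ := hz
  simp only at ht hx
  have hz1' : 1 ≤ G (t, x) := hz1
  have hlt : ∀ s ∈ Icc (0 : ℝ) T, s < t → ∀ y ∈ Icc (-1 : ℝ) 1, G (s, y) < 1 := by
    intro s hs hst y hy
    by_contra hge
    have := hmin (show (s, y) ∈ _ from ⟨⟨hs, hy⟩, (not_lt.1 hge : (1 : ℝ) ≤ G (s, y))⟩)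
    simp only [mem_ofPred_eq] at this
    linarith only [hst, this]
  have ht0 : 0 < t := by
    rcases ht.1.eq_or_lt with h | h
    · exact absurd (h0 x hx) (not_lt.2 (by rw [h]; exact hz1'))
    · exact h
  have hhalf : ∀ s ∈ Ico (0 : ℝ) t, G (s, x) ≤ 1 / 2 := by
    intro s hs
    have hsT : s ∈ Icc (0 : ℝ) T := ⟨hs.1, hs.2.le.trans ht.2⟩
    exact himp s hsT (fun r hr y hy => (hlt r ⟨hr.1, hr.2.trans hsT.2⟩
      (hr.2.trans_lt hs.2) y hy).le) x hx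
  have hcont : ContinuousOn (fun s => G (s, x)) (Icc 0 T) :=
    hG.comp (by fun_prop) (fun s hs => ⟨hs, hx⟩)
  have hle : G (t, x) ≤ 1 / 2 := by
    have h2 : Tendsto (fun s => G (s, x)) (𝓝[Ico 0 t] t) (𝓝 (G (t, x))) :=
      (hcont t ht).mono_left (nhdsWithin_mono _ fun s hs => ⟨hs.1, hs.2.le.trans ht.2⟩)
    have h3 : (𝓝[Ico 0 t] t).NeBot := by
      rw [← mem_closure_iff_nhdsWithin_neBot, closure_Ico ht0.ne]
      exact ⟨ht0.le, le_rfl⟩
    exact le_of_tendsto h2 (by filter_upwards [self_mem_nhdsWithin] with s hs using hhalf s hs)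
  linarith only [hz1', hle]

/-- INTERFACE L3. -/
theorem L3 : L3Statement := by
  intro p _ B _ w₀ f₀ sw₀ sf₀ Tm w f hall b hb T₁ hT₁ ε hε
  obtain ⟨hd, hTb, hS, hi, -⟩ := hall b hb
  have jw : L.JS (Tm b) (w b) := hS.smooth_w
  have jf : L.JS (Tm b) (f b) := hS.smooth_f
  obtain ⟨K1, hK1, b1⟩ := js_Bd hT₁.2 jw 3
  obtain ⟨K2, hK2, b2⟩ := js_Bd hT₁.2 jf 3
  set K := K1 + K2 + 1 with hK
  obtain ⟨C, hC, key⟩ := diff_est p 1 le_rfl K
  set η : ℝ := min ε (1 / 8) with hη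
  have hη0 : 0 < η := lt_min hε (by norm_num)
  have hη8 : η ≤ 1 / 8 := min_le_right _ _
  set δ : ℝ := η / Real.exp (C * T₁) with hδ
  have hδ0 : 0 < δ := div_pos hη0 (Real.exp_pos _)
  have hδη : ∀ t ∈ Icc 0 T₁, δ * Real.exp (C * t) ≤ η := by
    intro t ht
    have h1 : Real.exp (C * t) ≤ Real.exp (C * T₁) :=
      Real.exp_le_exp.2 (mul_le_mul_of_nonneg_left ht.2 hC)
    calc δ * Real.exp (C * t) ≤ δ * Real.exp (C * T₁) := mul_le_mul_of_nonneg_left h1 hδ0.le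
      _ = η := by rw [hδ]; field_simp
  have hδ1 : δ ≤ η := by
    have := hδη 0 ⟨le_rfl, hT₁.1⟩
    simpa using this
  have hev : ∀ᶠ b' in 𝓝[B] b, (∀ i ≤ 1, ∀ x ∈ Icc (-1 : ℝ) 1,
      |dn i (w₀ b') x - dn i (w₀ b) x| ≤ δ) ∧ ∀ i ≤ 1, ∀ x ∈ Icc (-1 : ℝ) 1,
      |dn i (f₀ b') x - dn i (f₀ b) x| ≤ δ :=
    ((param_close sw₀ b hδ0).and (param_close sf₀ b hδ0)).filter_mono nhdsWithin_le_nhds
  filter_upwards [hev, self_mem_nhdsWithin] with b' hb' hb'B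
  obtain ⟨-, hTb', hS', hi', halt'⟩ := hall b' hb'B
  have jw' : L.JS (Tm b') (w b') := hS'.smooth_w
  have jf' : L.JS (Tm b') (f b') := hS'.smooth_f
  -- initial closeness
  have hini : ∀ i ≤ 1, ∀ x ∈ Icc (-1 : ℝ) 1, |dn i (w b' 0) x - dn i (w b 0) x| ≤ δ ∧
      |dn i (f b' 0) x - dn i (f b 0) x| ≤ δ := by
    intro i h1 x hx
    rw [dn_congr (fun z hz => (hi' z hz).1) i x hx, dn_congr (fun z hz => (hi z hz).1) i x hx,
      dn_congr (fun z hz => (hi' z hz).2) i x hx, dn_congr (fun z hz => (hi z hz).2) i x hx]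
    exact ⟨hb'.1 i h1 x hx, hb'.2 i h1 x hx⟩
  -- estimate under a bound of the second solution
  have hest : ∀ T₂ ∈ Icc 0 T₁, T₂ < Tm b' →
      (∀ t ∈ Icc 0 T₂, Bd 1 K (w b' t) ∧ Bd 1 K (f b' t)) →
      ∀ t ∈ Icc 0 T₂, ∀ i ≤ 1, ∀ x ∈ Icc (-1 : ℝ) 1,
        |dn i (w b' t) x - dn i (w b t) x| ≤ η ∧ |dn i (f b' t) x - dn i (f b t) x| ≤ η := by
    intro T₂ hT₂ hlt hB t ht i h1 x hx
    have h2 := key (Tm b) (Tm b') T₂ (w b) (f b) (w b') (f b') hS hS' (hT₂.2.trans_lt hT₁.2) hlt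
      (fun s hs => ⟨(b1 s ⟨hs.1, hs.2.trans hT₂.2⟩).mono (by linarith only [hK2, hη0, hη8]),
        (b2 s ⟨hs.1, hs.2.trans hT₂.2⟩).mono (by linarith only [hK1, hη0, hη8]), hB s hs⟩) δ hδ0.le hini t ht i h1 x hx
    have h3 := hδη t ⟨ht.1, ht.2.trans hT₂.2⟩
    exact ⟨h2.1.trans h3, h2.2.trans h3⟩
  -- bootstrap
  have hboot : ∀ T₂ ∈ Icc 0 T₁, T₂ < Tm b' → ∀ t ∈ Icc 0 T₂, Bd 1 K (w b' t) ∧ Bd 1 K (f b' t) := by
    intro T₂ hT₂ hlt
    let G : ℝ × ℝ → ℝ := fun z =>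
      |dn 0 (w b' z.1) z.2 - dn 0 (w b z.1) z.2| + |dn 1 (w b' z.1) z.2 - dn 1 (w b z.1) z.2| +
      (|dn 0 (f b' z.1) z.2 - dn 0 (f b z.1) z.2| + |dn 1 (f b' z.1) z.2 - dn 1 (f b z.1) z.2|)
    have hGc : ContinuousOn G (Icc 0 T₂ ×ˢ Icc (-1) 1) := by
      have hc : ∀ (i : ℕ) (u v : ℝ → ℝ → ℝ), L.JS (Tm b') u → L.JS (Tm b) v →
          ContinuousOn (fun z : ℝ × ℝ => |dn i (u z.1) z.2 - dn i (v z.1) z.2|)
            (Icc 0 T₂ ×ˢ Icc (-1) 1) := fun i u v hu hv =>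
        ((js_cont hlt (js_dn hu i)).sub (js_cont (hT₂.2.trans_lt hT₁.2) (js_dn hv i))).abs
      exact ((hc 0 _ _ jw' jw).add (hc 1 _ _ jw' jw)).add ((hc 0 _ _ jf' jf).add (hc 1 _ _ jf' jf))
    have hBd : ∀ t ∈ Icc 0 T₂, (∀ x ∈ Icc (-1 : ℝ) 1, G (t, x) ≤ 1) →
        Bd 1 K (w b' t) ∧ Bd 1 K (f b' t) := by
      intro t ht hGt
      have ht1 : t ∈ Icc 0 T₁ := ⟨ht.1, ht.2.trans hT₂.2⟩
      constructor
      · intro i hi1 x hx
        have h1 := hGt x hx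
        have h2 : |dn i (w b' t) x - dn i (w b t) x| ≤ 1 := by
          simp only [G] at h1
          have a1 := abs_nonneg (dn 0 (w b' t) x - dn 0 (w b t) x)
          have a2 := abs_nonneg (dn 1 (w b' t) x - dn 1 (w b t) x)
          have a3 := abs_nonneg (dn 0 (f b' t) x - dn 0 (f b t) x)
          have a4 := abs_nonneg (dn 1 (f b' t) x - dn 1 (f b t) x)
          interval_cases i <;> linarith only [h1, a2, a3, a4, a1]
        have h3 : |dn i (w b t) x| ≤ K1 := b1 t ht1 i (by omega) x hx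
        calc |dn i (w b' t) x| = |(dn i (w b' t) x - dn i (w b t) x) + dn i (w b t) x| := by
              congr 1; ring
          _ ≤ 1 + K1 := (abs_add_le _ _).trans (add_le_add h2 h3)
          _ ≤ K := by rw [hK]; linarith only [hK2]
      · intro i hi1 x hx
        have h1 := hGt x hx
        have h2 : |dn i (f b' t) x - dn i (f b t) x| ≤ 1 := by
          simp only [G] at h1
          have a1 := abs_nonneg (dn 0 (w b' t) x - dn 0 (w b t) x)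
          have a2 := abs_nonneg (dn 1 (w b' t) x - dn 1 (w b t) x)
          have a3 := abs_nonneg (dn 0 (f b' t) x - dn 0 (f b t) x)
          have a4 := abs_nonneg (dn 1 (f b' t) x - dn 1 (f b t) x)
          interval_cases i <;> linarith only [h1, a1, a2, a4, a3]
        have h3 : |dn i (f b t) x| ≤ K2 := b2 t ht1 i (by omega) x hx
        calc |dn i (f b' t) x| = |(dn i (f b' t) x - dn i (f b t) x) + dn i (f b t) x| := by
              congr 1; ring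
          _ ≤ 1 + K2 := (abs_add_le _ _).trans (add_le_add h2 h3)
          _ ≤ K := by rw [hK]; linarith only [hK1]
    have hall := bootstrap hGc
      (fun x hx => by
        have a1 := hini 0 (by omega) x hx
        have a2 := hini 1 le_rfl x hx
        simp only [G]
        linarith only [a2.2, a2.1, a1.2, a1.1, hδ1, hη8, hη0])
      (fun t ht hle x hx => by
        have h1 := hest t ⟨ht.1, ht.2.trans hT₂.2⟩ (ht.2.trans_lt hlt)
          (fun s hs => hBd s ⟨hs.1, hs.2.trans ht.2⟩ (hle s hs)) t ⟨ht.1, le_rfl⟩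
        have a1 := h1 0 (by omega) x hx
        have a2 := h1 1 le_rfl x hx
        simp only [G]
        linarith only [hη8, a1.1, a1.2, a2.1, a2.2])
    exact fun t ht => hBd t ht (hall t ht)
  have hfin : ∀ t ∈ Icc 0 T₁, t < Tm b' → ∀ i ≤ 1, ∀ x ∈ Icc (-1 : ℝ) 1,
      |dn i (w b' t) x - dn i (w b t) x| ≤ η ∧ |dn i (f b' t) x - dn i (f b t) x| ≤ η :=
    fun t ht hlt => hest t ht hlt (hboot t ht hlt) t ⟨ht.1, le_rfl⟩
  have hlife : T₁ < Tm b' := by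
    by_contra hge
    rw [not_lt] at hge
    rcases halt' with h1 | h1
    · have := hT₁.2.trans_le hTb.2
      linarith only [hge, h1, this]
    · obtain ⟨t, ht, x, hx, hA⟩ := h1 (4 * K)
      obtain ⟨c1, c2⟩ := hboot t ⟨ht.1, ht.2.le.trans hge⟩ ht.2 t ⟨ht.1, le_rfl⟩
      have d1 := c1 0 (by omega) x hx
      have d2 := c1 1 le_rfl x hx
      have d3 := c2 0 (by omega) x hx
      have d4 := c2 1 le_rfl x hx
      simp only [dn_zero, dn_one] at d1 d2 d3 d4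
      unfold size1 at hA
      linarith only [hA, d1, d2, d3, d4]
  refine ⟨hlife, fun t ht x hx => ?_⟩
  have e0 := hfin t ht (ht.2.trans_lt hlife) 0 (by omega) x hx
  have e1 := hfin t ht (ht.2.trans_lt hlife) 1 le_rfl x hx
  have hηε : η ≤ ε := min_le_left _ _
  exact ⟨e0.1.trans hηε, e0.2.trans hηε, e1.1.trans hηε, e1.2.trans hηε⟩

end Vale.Agent.P244.LW
end

section

/-!
# P244-ST, block B : smoothness and asymptotics of the bubble profile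
-/

open Set Filter Topology Real MeasureTheory
open scoped ContDiff

namespace Vale.Agent.P244.ST.BD.BP

open Vale.Agent.P244.ST.BD Vale.Agent.P244.ST.BD.BT Vale.Agent.P244.ST.BD.BA

variable {g : ℝ → ℝ}

/-! ### classes of functions with a quadratic relative error at `0` -/

/-- bounded on `(0, M]` -/
def bp_Bd (M : ℝ) (φ : ℝ → ℝ) : Prop := ∃ C, ∀ u, 0 < u → u ≤ M → |φ u| ≤ C

/-- `f = (c + O(u²)) u^k` on `(0, M]` -/
def bp_A (M : ℝ) (k : ℕ) (c : ℝ) (f : ℝ → ℝ) : Prop :=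
  ∃ φ, bp_Bd M φ ∧ ∀ u, 0 < u → u ≤ M → f u = (c + φ u * u ^ 2) * u ^ k

variable {M : ℝ}

theorem bp_Bd.add {φ ψ : ℝ → ℝ} (h1 : bp_Bd M φ) (h2 : bp_Bd M ψ) :
    bp_Bd M (fun u => φ u + ψ u) := by
  obtain ⟨C, hC⟩ := h1
  obtain ⟨D, hD⟩ := h2
  exact ⟨C + D, fun u hu hM => (abs_add_le _ _).trans (add_le_add (hC u hu hM) (hD u hu hM))⟩

theorem bp_Bd.mul {φ ψ : ℝ → ℝ} (h1 : bp_Bd M φ) (h2 : bp_Bd M ψ) :
    bp_Bd M (fun u => φ u * ψ u) := by
  obtain ⟨C, hC⟩ := h1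
  obtain ⟨D, hD⟩ := h2
  refine ⟨C * D, fun u hu hM => ?_⟩
  rw [abs_mul]
  exact mul_le_mul (hC u hu hM) (hD u hu hM) (abs_nonneg _) ((abs_nonneg _).trans (hC u hu hM))

theorem bp_Bd.const (c : ℝ) : bp_Bd M (fun _ => c) := ⟨|c|, fun _ _ _ => le_rfl⟩

theorem bp_Bd.pow (k : ℕ) : bp_Bd M (fun u => u ^ k) := by
  refine ⟨M ^ k, fun u hu hM => ?_⟩
  rw [abs_of_pos (pow_pos hu k)]
  exact pow_le_pow_left₀ hu.le hM k

theorem bp_A.add {k : ℕ} {c d : ℝ} {f h : ℝ → ℝ} (h1 : bp_A M k c f) (h2 : bp_A M k d h) :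
    bp_A M k (c + d) (fun u => f u + h u) := by
  obtain ⟨φ, hφ, h1⟩ := h1
  obtain ⟨ψ, hψ, h2⟩ := h2
  refine ⟨_, hφ.add hψ, fun u hu hM => ?_⟩
  simp only
  rw [h1 u hu hM, h2 u hu hM]
  ring

theorem bp_A.mul {k j : ℕ} {c d : ℝ} {f h : ℝ → ℝ} (h1 : bp_A M k c f) (h2 : bp_A M j d h) :
    bp_A M (k + j) (c * d) (fun u => f u * h u) := by
  obtain ⟨φ, hφ, h1⟩ := h1
  obtain ⟨ψ, hψ, h2⟩ := h2
  refine ⟨_, (((bp_Bd.const c).mul hψ).add ((bp_Bd.const d).mul hφ)).add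
    ((hφ.mul hψ).mul (bp_Bd.pow 2)), fun u hu hM => ?_⟩
  simp only
  rw [h1 u hu hM, h2 u hu hM, pow_add]
  ring

theorem bp_A.const (c : ℝ) : bp_A M 0 c (fun _ => c) :=
  ⟨fun _ => 0, bp_Bd.const 0, fun u _ _ => by simp⟩

theorem bp_A.smul {k : ℕ} {c : ℝ} {f : ℝ → ℝ} (a : ℝ) (h1 : bp_A M k c f) :
    bp_A M k (a * c) (fun u => a * f u) := by
  obtain ⟨φ, hφ, h1⟩ := h1
  refine ⟨_, (bp_Bd.const a).mul hφ, fun u hu hM => ?_⟩
  simp only
  rw [h1 u hu hM]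
  ring

theorem bp_A.raise {k : ℕ} {c : ℝ} {f : ℝ → ℝ} (h1 : bp_A M (k + 2) c f) :
    bp_A M k 0 f := by
  obtain ⟨φ, hφ, h1⟩ := h1
  refine ⟨_, (bp_Bd.const c).add (hφ.mul (bp_Bd.pow 2)), fun u hu hM => ?_⟩
  rw [h1 u hu hM, pow_add]
  ring

theorem bp_A.congr {k : ℕ} {c d : ℝ} {f h : ℝ → ℝ} (h1 : bp_A M k c f) (hc : c = d)
    (hf : ∀ u, 0 < u → u ≤ M → f u = h u) : bp_A M k d h := by
  subst hc
  obtain ⟨φ, hφ, h1⟩ := h1
  exact ⟨φ, hφ, fun u hu hM => (hf u hu hM) ▸ h1 u hu hM⟩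

theorem bp_A.bound {c : ℝ} {f : ℝ → ℝ} (h1 : bp_A M 1 c f) :
    ∃ C, ∀ u, 0 < u → u ≤ M → |f u - c * u| ≤ C * u ^ 3 := by
  obtain ⟨φ, ⟨C, hC⟩, h1⟩ := h1
  refine ⟨C, fun u hu hM => ?_⟩
  have e : f u - c * u = φ u * u ^ 3 := by rw [h1 u hu hM]; ring
  rw [e, abs_mul, abs_of_pos (pow_pos hu 3)]
  exact mul_le_mul_of_nonneg_right (hC u hu hM) (pow_pos hu 3).le

theorem bp_A.of_bound {c C : ℝ} {f : ℝ → ℝ}
    (h : ∀ u, 0 < u → u ≤ M → |f u - c * u| ≤ C * u ^ 3) : bp_A M 1 c f := by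
  refine ⟨fun u => (f u - c * u) / u ^ 3, ⟨C, fun u hu hM => ?_⟩, fun u hu hM => ?_⟩
  · rw [abs_div, abs_of_pos (pow_pos hu 3), div_le_iff₀ (pow_pos hu 3)]
    exact h u hu hM
  · have := hu.ne'
    field_simp
    ring

theorem bp_A_g (hg : IsBub 40 g) : bp_A M 1 (kap 40) g := by
  obtain ⟨C, hC0, hC⟩ := ba_g_cubic hg
  refine bp_A.of_bound (C := C) fun u hu hM => ?_
  rw [abs_sub_comm, abs_of_pos (by linarith only [hg, hu, ba_g_lt hg hu])]
  exact hC u hu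

theorem bp_A_tanh : bp_A M 1 1 tanh := by
  refine bp_A.of_bound (C := 1 / 3) fun u hu hM => ?_
  rw [abs_sub_comm, abs_of_nonneg (by linarith only [hu, ba_tanh_le hu.le])]
  linarith only [ba_tanh_ge hu.le]

/-! ### the derivatives of the profile as polynomials in `(g, tanh)` -/

/-- `q` -/
noncomputable def bp_q (y : ℝ) : ℝ := 39 - y ^ 2 / 4

/-- `Y''` -/
noncomputable def bp_P2 (y t : ℝ) : ℝ := bp_q y * (y - 2 * t)

/-- `Y'''` -/
noncomputable def bp_P3 (y t : ℝ) : ℝ :=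
  y / 2 * (bp_q y * (y - 2 * t) ^ 2) - bp_q y * (bp_q y * (y - 2 * t) - 2 * y * (1 - t ^ 2))

/-- derivative of `P3` along the flow `D y = q d`, `D t = y e` -/
noncomputable def bp_DP3 (y t : ℝ) : ℝ :=
  (bp_q y * (y - 2 * t) / 2) * (bp_q y * (y - 2 * t) ^ 2) +
  y / 2 * ((-(y / 2) * (bp_q y * (y - 2 * t))) * (y - 2 * t) ^ 2 +
    bp_q y * (2 * (y - 2 * t) * (bp_q y * (y - 2 * t) - 2 * (y * (1 - t ^ 2))))) -
  ((-(y / 2) * (bp_q y * (y - 2 * t))) * (bp_q y * (y - 2 * t) - 2 * y * (1 - t ^ 2)) +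
    bp_q y * ((-(y / 2) * (bp_q y * (y - 2 * t))) * (y - 2 * t) +
      bp_q y * (bp_q y * (y - 2 * t) - 2 * (y * (1 - t ^ 2))) -
      (2 * (bp_q y * (y - 2 * t)) * (1 - t ^ 2) + 2 * y * (-(2 * t * (y * (1 - t ^ 2)))))))

section flow

variable {Y : ℝ → ℝ}

theorem bp_flow_t (hY : ∀ l, HasDerivAt Y (-(g (Y l))) l) (l : ℝ) :
    HasDerivAt (fun l => tanh (Y l)) (-(g (Y l) * (1 - tanh (Y l) ^ 2))) l := by
  have := (bt_tanh_deriv (Y l)).comp l (hY l)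
  refine this.congr_deriv ?_
  ring

theorem bp_flow_y (hg : IsBub 40 g) (hpos : ∀ l, 0 < Y l)
    (hY : ∀ l, HasDerivAt Y (-(g (Y l))) l) (l : ℝ) :
    HasDerivAt (fun l => g (Y l)) (-(bp_q (g (Y l)) * (g (Y l) - 2 * tanh (Y l)))) l := by
  have h1 := (hg.deriv (Y l) (hpos l)).comp l (hY l)
  refine h1.congr_deriv ?_
  have h2 := ba_gRhs hg (hpos l)
  have h3 : qf 40 (g (Y l)) = bp_q (g (Y l)) := by unfold qf bp_q; norm_num
  rw [h3] at h2
  linear_combination (-1) * h2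

theorem bp_flow_q (hg : IsBub 40 g) (hpos : ∀ l, 0 < Y l)
    (hY : ∀ l, HasDerivAt Y (-(g (Y l))) l) (l : ℝ) :
    HasDerivAt (fun l => bp_q (g (Y l)))
      (-(-(g (Y l) / 2) * (bp_q (g (Y l)) * (g (Y l) - 2 * tanh (Y l))))) l := by
  have h1 := (((bp_flow_y hg hpos hY l).pow 2).div_const 4).const_sub 39
  refine h1.congr_deriv ?_
  push_cast
  ring

theorem bp_flow_d (hg : IsBub 40 g) (hpos : ∀ l, 0 < Y l)
    (hY : ∀ l, HasDerivAt Y (-(g (Y l))) l) (l : ℝ) :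
    HasDerivAt (fun l => g (Y l) - 2 * tanh (Y l))
      (-(bp_q (g (Y l)) * (g (Y l) - 2 * tanh (Y l)) -
        2 * (g (Y l) * (1 - tanh (Y l) ^ 2)))) l := by
  have h1 := (bp_flow_y hg hpos hY l).sub ((bp_flow_t hY l).const_mul 2)
  refine h1.congr_deriv ?_
  ring

theorem bp_flow_e (hY : ∀ l, HasDerivAt Y (-(g (Y l))) l) (l : ℝ) :
    HasDerivAt (fun l => 1 - tanh (Y l) ^ 2)
      (-(-(2 * tanh (Y l) * (g (Y l) * (1 - tanh (Y l) ^ 2))))) l := by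
  have h1 := ((bp_flow_t hY l).pow 2).const_sub 1
  refine h1.congr_deriv ?_
  push_cast
  ring

theorem bp_flow_P2 (hg : IsBub 40 g) (hpos : ∀ l, 0 < Y l)
    (hY : ∀ l, HasDerivAt Y (-(g (Y l))) l) (l : ℝ) :
    HasDerivAt (fun l => bp_P2 (g (Y l)) (tanh (Y l))) (bp_P3 (g (Y l)) (tanh (Y l))) l := by
  have h1 := (bp_flow_q hg hpos hY l).mul (bp_flow_d hg hpos hY l)
  unfold bp_P2
  refine h1.congr_deriv ?_
  unfold bp_P3
  ring

theorem bp_flow_P3 (hg : IsBub 40 g) (hpos : ∀ l, 0 < Y l)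
    (hY : ∀ l, HasDerivAt Y (-(g (Y l))) l) (l : ℝ) :
    HasDerivAt (fun l => bp_P3 (g (Y l)) (tanh (Y l))) (-(bp_DP3 (g (Y l)) (tanh (Y l)))) l := by
  have hy := bp_flow_y hg hpos hY l
  have hq := bp_flow_q hg hpos hY l
  have hd := bp_flow_d hg hpos hY l
  have he := bp_flow_e hY l
  have h1 := ((hy.div_const 2).mul (hq.mul (hd.pow 2))).sub
    (hq.mul ((hq.mul hd).sub ((hy.const_mul 2).mul he)))
  unfold bp_P3
  refine h1.congr_deriv ?_
  unfold bp_DP3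
  simp only [Pi.mul_apply, Pi.sub_apply, Pi.pow_apply]
  push_cast
  ring

theorem bp_iter1 (hY : ∀ l, HasDerivAt Y (-(g (Y l))) l) :
    iteratedDeriv 1 Y = fun l => -(g (Y l)) := by
  rw [iteratedDeriv_one]
  funext l
  exact (hY l).deriv

theorem bp_iter2 (hg : IsBub 40 g) (hpos : ∀ l, 0 < Y l)
    (hY : ∀ l, HasDerivAt Y (-(g (Y l))) l) :
    iteratedDeriv 2 Y = fun l => bp_P2 (g (Y l)) (tanh (Y l)) := by
  rw [iteratedDeriv_succ, bp_iter1 hY]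
  funext l
  have := (bp_flow_y hg hpos hY l).neg
  refine this.deriv.trans ?_
  rw [neg_neg]
  rfl

theorem bp_iter3 (hg : IsBub 40 g) (hpos : ∀ l, 0 < Y l)
    (hY : ∀ l, HasDerivAt Y (-(g (Y l))) l) :
    iteratedDeriv 3 Y = fun l => bp_P3 (g (Y l)) (tanh (Y l)) := by
  rw [iteratedDeriv_succ, bp_iter2 hg hpos hY]
  funext l
  exact (bp_flow_P2 hg hpos hY l).deriv

theorem bp_iter4 (hg : IsBub 40 g) (hpos : ∀ l, 0 < Y l)
    (hY : ∀ l, HasDerivAt Y (-(g (Y l))) l) :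
    iteratedDeriv 4 Y = fun l => -(bp_DP3 (g (Y l)) (tanh (Y l))) := by
  rw [iteratedDeriv_succ, bp_iter3 hg hpos hY]
  funext l
  exact (bp_flow_P3 hg hpos hY l).deriv

/-- smoothness of the profile by bootstrapping the polynomial system -/
theorem bp_smooth (hg : IsBub 40 g) (hpos : ∀ l, 0 < Y l)
    (hY : ∀ l, HasDerivAt Y (-(g (Y l))) l) : ContDiff ℝ ∞ Y := by
  have key : ∀ N : ℕ, ContDiff ℝ (N : WithTop ℕ∞) Y ∧
      ContDiff ℝ (N : WithTop ℕ∞) (fun l => g (Y l)) ∧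
      ContDiff ℝ (N : WithTop ℕ∞) (fun l => tanh (Y l)) := by
    intro N
    induction N with
    | zero =>
      refine ⟨?_, ?_, ?_⟩
      · simpa using (contDiff_zero (𝕜 := ℝ)).2
          (continuous_iff_continuousAt.2 fun l => (hY l).continuousAt)
      · simpa using (contDiff_zero (𝕜 := ℝ)).2
          (continuous_iff_continuousAt.2 fun l => (bp_flow_y hg hpos hY l).continuousAt)
      · simpa using (contDiff_zero (𝕜 := ℝ)).2
          (continuous_iff_continuousAt.2 fun l => (bp_flow_t hY l).continuousAt)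
    | succ N ih =>
      obtain ⟨h1, h2, h3⟩ := ih
      have e : ((N + 1 : ℕ) : WithTop ℕ∞) = (N : WithTop ℕ∞) + 1 := by push_cast; rfl
      have up : ∀ f f' : ℝ → ℝ, (∀ l, HasDerivAt f (f' l) l) → ContDiff ℝ (N : WithTop ℕ∞) f' →
          ContDiff ℝ ((N + 1 : ℕ) : WithTop ℕ∞) f := by
        intro f f' hf hf'
        rw [e, contDiff_succ_iff_deriv]
        refine ⟨fun l => (hf l).differentiableAt, ?_, ?_⟩
        · intro h0
          exact absurd h0 (by exact_mod_cast (WithTop.coe_ne_top (a := (N : ℕ∞))))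
        · have : deriv f = f' := funext fun l => (hf l).deriv
          rw [this]; exact hf'
      refine ⟨up _ _ hY h2.neg, up _ _ (bp_flow_y hg hpos hY) ?_, up _ _ (bp_flow_t hY) ?_⟩
      · unfold bp_q
        exact ((contDiff_const.sub ((h2.pow 2).div_const 4)).mul
          (h2.sub (contDiff_const.mul h3))).neg
      · exact (h2.mul (contDiff_const.sub (h3.pow 2))).neg
  exact contDiff_infty.2 fun n => (key n).1

end flow

/-! ### cubic asymptotics of the derivatives as functions of `u = Y` -/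

theorem bp_A_q (hg : IsBub 40 g) : bp_A M 0 39 (fun u => bp_q (g u)) := by
  have h1 := (bp_A_g (M := M) hg).mul (bp_A_g hg)
  have h2 : bp_A M 0 0 (fun u => g u * g u) := bp_A.raise (k := 0) h1
  refine ((bp_A.const 39).add (h2.smul (-(1 / 4)))).congr (by norm_num) fun u _ _ => ?_
  unfold bp_q
  ring

theorem bp_A_d (hg : IsBub 40 g) : bp_A M 1 (kap 40 - 2) (fun u => g u - 2 * tanh u) := by
  refine ((bp_A_g (M := M) hg).add (bp_A_tanh.smul (-2))).congr (by ring) fun u _ _ => ?_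
  ring

theorem bp_A_e : bp_A M 0 1 (fun u => 1 - tanh u ^ 2) := by
  have h1 := (bp_A_tanh (M := M)).mul bp_A_tanh
  have h2 : bp_A M 0 0 (fun u => tanh u * tanh u) := bp_A.raise (k := 0) h1
  refine ((bp_A.const 1).add (h2.smul (-1))).congr (by norm_num) fun u _ _ => ?_
  ring

theorem bp_A_P2 (hg : IsBub 40 g) : bp_A M 1 (kap 40 ^ 2) (fun u => bp_P2 (g u) (tanh u)) := by
  refine ((bp_A_q (M := M) hg).mul (bp_A_d hg)).congr ?_ fun u _ _ => rfl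
  rw [ba_kap_sq]; ring

theorem bp_A_P3 (hg : IsBub 40 g) :
    bp_A M 1 (-(kap 40 ^ 3)) (fun u => bp_P3 (g u) (tanh u)) := by
  have q := bp_A_q (M := M) hg
  have d := bp_A_d (M := M) hg
  have y := bp_A_g (M := M) hg
  have e := bp_A_e (M := M)
  have h1 : bp_A M 1 0 (fun u => g u * (bp_q (g u) *
      ((g u - 2 * tanh u) * (g u - 2 * tanh u)))) :=
    bp_A.raise (k := 1) (y.mul (q.mul (d.mul d)))
  have h2 := q.mul (q.mul d)
  have h3 := y.mul (q.mul e)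
  refine ((h1.smul (1 / 2)).add ((h2.smul (-1)).add (h3.smul 2))).congr ?_ fun u _ _ => ?_
  · have h := ba_kap_sq
    have : kap 40 ^ 3 = kap 40 * (39 * kap 40 - 78) := by rw [← h]; ring
    rw [this]
    linear_combination (39 * 1) * h
  · unfold bp_P3
    ring

theorem bp_A_P4 (hg : IsBub 40 g) :
    bp_A M 1 (kap 40 ^ 4) (fun u => -(bp_DP3 (g u) (tanh u))) := by
  have q := bp_A_q (M := M) hg
  have d := bp_A_d (M := M) hg
  have y := bp_A_g (M := M) hg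
  have t := bp_A_tanh (M := M)
  have e := bp_A_e (M := M)
  have l1 := q.mul (q.mul (q.mul d))
  have l2 := q.mul (q.mul (y.mul e))
  have l3 := q.mul (q.mul (d.mul e))
  have c1 : bp_A M 1 0 _ := bp_A.raise (k := 1) (q.mul (q.mul (d.mul (d.mul d))))
  have c2 : bp_A M 1 0 _ := bp_A.raise (k := 1)
    (bp_A.raise (k := 3) (y.mul (y.mul (q.mul (d.mul (d.mul d))))))
  have c3 : bp_A M 1 0 _ := bp_A.raise (k := 1) (y.mul (q.mul (q.mul (d.mul d))))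
  have c4 : bp_A M 1 0 _ := bp_A.raise (k := 1) (y.mul (y.mul (q.mul (d.mul e))))
  have c5 : bp_A M 1 0 _ := bp_A.raise (k := 1) (q.mul (t.mul (y.mul (y.mul e))))
  refine ((l1.add ((l2.smul (-2)).add (l3.smul (-2)))).add
    ((c1.smul (-(1 / 2))).add ((c2.smul (1 / 4)).add ((c3.smul (-2)).add
      ((c4.smul 3).add (c5.smul 4)))))).congr ?_ fun u _ _ => ?_
  · have h := ba_kap_sq
    have e4 : kap 40 ^ 4 = (39 * kap 40 - 78) ^ 2 := by rw [← h]; ring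
    rw [e4]
    linear_combination (-(39 ^ 2 : ℝ)) * h
  · unfold bp_DP3
    ring

/-! ### asymptotics in `l` -/

theorem bp_log_Y (hg : IsBub 40 g) (l : ℝ) :
    bp_Y hg l = exp (-(kap 40) * l) * exp (kap 40 * bp_K g (bp_Y hg l)) := by
  have h1 := bp_L_Y hg l
  unfold bp_L at h1
  have hk := ba_kap_pos.ne'
  have h2 : log (bp_Y hg l) = -(kap 40) * l + kap 40 * bp_K g (bp_Y hg l) := by
    have h3 : kap 40 * (-(log (bp_Y hg l)) / kap 40 + bp_K g (bp_Y hg l)) = kap 40 * l := by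
      rw [h1]
    have h4 : kap 40 * (-(log (bp_Y hg l)) / kap 40) = -(log (bp_Y hg l)) := by
      field_simp
    rw [mul_add, h4] at h3
    linarith only [hg, h3]
  rw [← exp_add, ← h2, exp_log (bp_Y_pos hg l)]

/-- `|Y - e^{-κ l}| ≤ C e^{-3κ l}` and `Y ≤ C e^{-κ l}` for `l ≥ 0` -/
theorem bp_Y_asym (hg : IsBub 40 g) : ∃ C, 0 ≤ C ∧ ∀ l ≥ 0,
    bp_Y hg l ≤ C * exp (-(kap 40) * l) ∧
    |bp_Y hg l - exp (-(kap 40) * l)| ≤ C * exp (-(3 * kap 40) * l) := by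
  obtain ⟨C, hC0, hC⟩ := bp_K_bound hg
  have hk := ba_kap_pos
  set M := bp_Y hg 0 with hM
  have hMpos : 0 < M := bp_Y_pos hg 0
  set B := kap 40 * (C * M ^ 2 * (1 + M)) with hB
  have hB0 : 0 ≤ B := by positivity
  have hYM : ∀ l ≥ 0, bp_Y hg l ≤ M := fun l hl => (bp_Y_anti hg).antitone hl
  have hKB : ∀ l ≥ 0, |kap 40 * bp_K g (bp_Y hg l)| ≤ B := by
    intro l hl
    rw [abs_mul, abs_of_pos hk]
    have h1 := hC _ (bp_Y_pos hg l)
    have h2 := hYM l hl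
    have h3 := bp_Y_pos hg l
    rw [hB]
    refine mul_le_mul_of_nonneg_left (h1.trans ?_) hk.le
    gcongr
  have h1 : ∀ l ≥ 0, bp_Y hg l ≤ exp B * exp (-(kap 40) * l) := by
    intro l hl
    rw [bp_log_Y hg l, mul_comm]
    exact mul_le_mul_of_nonneg_right (exp_le_exp.2 ((le_abs_self _).trans (hKB l hl)))
      (exp_pos _).le
  refine ⟨exp B + kap 40 * (C * (1 + M)) * exp B * exp B ^ 2, by positivity, fun l hl => ⟨?_, ?_⟩⟩
  · refine (h1 l hl).trans (mul_le_mul_of_nonneg_right ?_ (exp_pos _).le)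
    have : 0 ≤ kap 40 * (C * (1 + M)) * exp B * exp B ^ 2 := by positivity
    linarith only [this]
  · set E := exp (-(kap 40) * l) with hE
    have hEpos : 0 < E := exp_pos _
    have hE3 : exp (-(3 * kap 40) * l) = E ^ 3 := by
      rw [hE, ← exp_nat_mul]; congr 1; push_cast; ring
    set x := kap 40 * bp_K g (bp_Y hg l) with hx
    have e1 : bp_Y hg l - E = E * (exp x - 1) := by
      rw [mul_sub, mul_one, hE, hx, ← bp_log_Y hg l]
    have h2 : |exp x - 1| ≤ |x| * exp |x| := by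
      have a1 := add_one_le_exp x
      have a2 := add_one_le_exp (-x)
      have a3 : exp x * exp (-x) = 1 := by rw [← exp_add]; simp
      have a4 : x ≤ |x| := le_abs_self x
      have a5 : -x ≤ |x| := neg_le_abs x
      have a6 : exp x ≤ exp |x| := exp_le_exp.2 a4
      have a7 : 1 ≤ exp |x| := one_le_exp (abs_nonneg x)
      have a8 : 0 < exp x := exp_pos x
      rw [abs_le]
      constructor
      · have : |x| * 1 ≤ |x| * exp |x| := mul_le_mul_of_nonneg_left a7 (abs_nonneg x)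
        linarith only [hg, a1, a5, this]
      · have b1 : exp x - 1 ≤ x * exp x := by
          have := mul_le_mul_of_nonneg_left a2 a8.le
          rw [a3] at this
          linarith only [hg, this]
        have b2 : x * exp x ≤ |x| * exp x := mul_le_mul_of_nonneg_right a4 a8.le
        have b3 : |x| * exp x ≤ |x| * exp |x| := mul_le_mul_of_nonneg_left a6 (abs_nonneg x)
        linarith only [hg, b1, b2, b3]
    have h3 : |x| ≤ kap 40 * (C * (1 + M)) * bp_Y hg l ^ 2 := by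
      rw [hx, abs_mul, abs_of_pos hk]
      have b1 := hC _ (bp_Y_pos hg l)
      have b2 := hYM l hl
      have b3 := bp_Y_pos hg l
      calc kap 40 * |bp_K g (bp_Y hg l)| ≤ kap 40 * (C * bp_Y hg l ^ 2 * (1 + bp_Y hg l)) :=
            mul_le_mul_of_nonneg_left b1 hk.le
        _ ≤ kap 40 * (C * bp_Y hg l ^ 2 * (1 + M)) := by gcongr
        _ = kap 40 * (C * (1 + M)) * bp_Y hg l ^ 2 := by ring
    have h4 : exp |x| ≤ exp B := exp_le_exp.2 (hKB l hl)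
    have h5 : bp_Y hg l ^ 2 ≤ (exp B * E) ^ 2 :=
      pow_le_pow_left₀ (bp_Y_pos hg l).le (h1 l hl) 2
    rw [e1, abs_mul, abs_of_pos hEpos, hE3]
    have h6 : |x| * exp |x| ≤ kap 40 * (C * (1 + M)) * (exp B * E) ^ 2 * exp B := by
      have h7 : |x| ≤ kap 40 * (C * (1 + M)) * (exp B * E) ^ 2 :=
        h3.trans (mul_le_mul_of_nonneg_left h5 (by positivity))
      exact mul_le_mul h7 h4 (exp_pos _).le (by positivity)
    calc E * |exp x - 1| ≤ E * (kap 40 * (C * (1 + M)) * (exp B * E) ^ 2 * exp B) :=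
          mul_le_mul_of_nonneg_left (h2.trans h6) hEpos.le
      _ = (kap 40 * (C * (1 + M)) * exp B * exp B ^ 2) * E ^ 3 := by ring
      _ ≤ _ := by
        refine mul_le_mul_of_nonneg_right ?_ (by positivity)
        linarith only [exp_pos B]

/-- from the class `bp_A` to exponential asymptotics -/
theorem bp_asym_of_A (hg : IsBub 40 g) {c : ℝ} {f : ℝ → ℝ} (hf : bp_A (bp_Y hg 0) 1 c f) :
    ∃ C, ∀ l ≥ 0, |f (bp_Y hg l) - c * exp (-(kap 40) * l)| ≤ C * exp (-(3 * kap 40) * l) := by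
  obtain ⟨C, hC⟩ := hf.bound
  obtain ⟨D, hD0, hD⟩ := bp_Y_asym hg
  refine ⟨|C| * D ^ 3 + |c| * D, fun l hl => ?_⟩
  obtain ⟨h1, h2⟩ := hD l hl
  have h3 := hC _ (bp_Y_pos hg l) ((bp_Y_anti hg).antitone hl)
  set E := exp (-(kap 40) * l) with hE
  have hEpos : 0 < E := exp_pos _
  have hE3 : exp (-(3 * kap 40) * l) = E ^ 3 := by
    rw [hE, ← exp_nat_mul]; congr 1; push_cast; ring
  rw [hE3] at h2 ⊢
  have h4 : bp_Y hg l ^ 3 ≤ (D * E) ^ 3 := pow_le_pow_left₀ (bp_Y_pos hg l).le h1 3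
  have h5 : C * bp_Y hg l ^ 3 ≤ |C| * (D * E) ^ 3 :=
    mul_le_mul (le_abs_self C) h4 (pow_pos (bp_Y_pos hg l) 3).le (abs_nonneg _)
  have h6 : |c * (bp_Y hg l - E)| ≤ |c| * (D * E ^ 3) := by
    rw [abs_mul]; exact mul_le_mul_of_nonneg_left h2 (abs_nonneg _)
  have e : f (bp_Y hg l) - c * E = (f (bp_Y hg l) - c * bp_Y hg l) + c * (bp_Y hg l - E) := by
    ring
  rw [e]
  refine (abs_add_le _ _).trans ?_
  calc _ ≤ |C| * (D * E) ^ 3 + |c| * (D * E ^ 3) := add_le_add (h3.trans h5) h6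
    _ = (|C| * D ^ 3 + |c| * D) * E ^ 3 := by ring

theorem bp_asym (hg : IsBub 40 g) : ∃ C, ∀ l ≥ 0, ∀ j ≤ 4,
    |iteratedDeriv j (bp_Y hg) l - (-(kap 40)) ^ j * exp (-(kap 40) * l)| ≤
      C * exp (-(3 * kap 40) * l) := by
  have hY := bp_Y_deriv hg
  have hpos := bp_Y_pos hg
  have h : ∀ j ≤ 4, ∃ C, ∀ l ≥ 0,
      |iteratedDeriv j (bp_Y hg) l - (-(kap 40)) ^ j * exp (-(kap 40) * l)| ≤
        C * exp (-(3 * kap 40) * l) := by
    intro j hj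
    interval_cases j
    · obtain ⟨C, _, hC⟩ := bp_Y_asym hg
      refine ⟨C, fun l hl => ?_⟩
      simpa using (hC l hl).2
    · obtain ⟨C, hC⟩ := bp_asym_of_A hg ((bp_A_g hg).smul (-1))
      refine ⟨C, fun l hl => ?_⟩
      rw [bp_iter1 hY]
      simpa using hC l hl
    · obtain ⟨C, hC⟩ := bp_asym_of_A hg (bp_A_P2 hg)
      refine ⟨C, fun l hl => ?_⟩
      rw [bp_iter2 hg hpos hY, neg_sq]
      exact hC l hl
    · obtain ⟨C, hC⟩ := bp_asym_of_A hg (bp_A_P3 hg)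
      refine ⟨C, fun l hl => ?_⟩
      rw [bp_iter3 hg hpos hY, Odd.neg_pow (by decide)]
      exact hC l hl
    · obtain ⟨C, hC⟩ := bp_asym_of_A hg (bp_A_P4 hg)
      refine ⟨C, fun l hl => ?_⟩
      rw [bp_iter4 hg hpos hY, Even.neg_pow (by decide)]
      exact hC l hl
  choose! C hC using h
  refine ⟨∑ j ∈ Finset.range 5, |C j|, fun l hl j hj => (hC j hj l hl).trans ?_⟩
  refine mul_le_mul_of_nonneg_right ((le_abs_self _).trans ?_) (exp_pos _).le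
  exact Finset.single_le_sum (f := fun j => |C j|) (fun _ _ => abs_nonneg _)
    (Finset.mem_range.2 (by omega))

end Vale.Agent.P244.ST.BD.BP
end

section

/-!
# P244-ST, block B : the profile at the tip, and `ProfStatement`
-/

open Set Filter Topology Real MeasureTheory
open scoped ContDiff

namespace Vale.Agent.P244.ST.BD.BP

open Vale.Agent.P244.ST.BD Vale.Agent.P244.ST.BD.BT Vale.Agent.P244.ST.BD.BA

variable {g : ℝ → ℝ}

/-- Smooth primitive of a smooth function on a symmetric interval. -/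
theorem bp_primitive {ε : ℝ} {H : ℝ → ℝ} (hε : 0 < ε) (hH : ContDiffOn ℝ ∞ H (Ioo (-ε) ε)) :
    (∀ x ∈ Ioo (-ε) ε, HasDerivAt (fun x => ∫ t in (0 : ℝ)..x, H t) (H x) x) ∧
      ContDiffOn ℝ ∞ (fun x => ∫ t in (0 : ℝ)..x, H t) (Ioo (-ε) ε) := by
  have hc : ContinuousOn H (Ioo (-ε) ε) := hH.continuousOn
  have h0 : (0 : ℝ) ∈ Ioo (-ε) ε := ⟨by linarith only [hε], hε⟩
  have hd : ∀ x ∈ Ioo (-ε) ε, HasDerivAt (fun x => ∫ t in (0 : ℝ)..x, H t) (H x) x := by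
    intro x hx
    refine intervalIntegral.integral_hasDerivAt_right ?_ ?_ (hc.continuousAt
      (isOpen_Ioo.mem_nhds hx))
    · exact (hc.mono ((ordConnected_Ioo).uIcc_subset h0 hx)).intervalIntegrable
    · exact hc.stronglyMeasurableAtFilter isOpen_Ioo x hx
  refine ⟨hd, ?_⟩
  rw [contDiffOn_infty_iff_deriv_of_isOpen isOpen_Ioo]
  exact ⟨fun x hx => (hd x hx).differentiableAt.differentiableWithinAt,
    hH.congr fun x hx => (hd x hx).deriv⟩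

theorem bp_tip (hg : IsBub 40 g) :
    ∃ S : ℝ → ℝ, ∃ ε > 0, ContDiffOn ℝ ∞ S (Ioo (-ε) ε) ∧ (∀ E ∈ Ioo (-ε) ε, 0 < S E) ∧
    ∀ l, exp (-2 * bp_Y hg l) < ε →
      exp (4 * l) = exp (-2 * bp_Y hg l) * S (exp (-2 * bp_Y hg l)) := by
  obtain ⟨h, ε0, hε0, hh, h2, hgh⟩ := hg.tip
  have hc0 : ContinuousAt h 0 := (hh.continuousOn).continuousAt
    (isOpen_Ioo.mem_nhds ⟨by linarith only [hε0], hε0⟩)
  obtain ⟨ε1, hε1, hε1'⟩ : ∃ ε1 > 0, ∀ x, |x| < ε1 → 1 < h x := by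
    have : ∀ᶠ x in 𝓝 (0 : ℝ), 1 < h x := by
      apply hc0.eventually
      rw [h2]
      exact lt_mem_nhds (by norm_num)
    obtain ⟨ε1, hε1, hb⟩ := Metric.eventually_nhds_iff.1 this
    refine ⟨ε1, hε1, fun x hx => hb ?_⟩
    rwa [Real.dist_eq, sub_zero]
  set ε := min ε0 ε1 with hεdef
  have hε : 0 < ε := lt_min hε0 hε1
  have hsub : Ioo (-ε) ε ⊆ Ioo (-ε0) ε0 := fun x hx =>
    ⟨by linarith only [hx, hx.1, min_le_left ε0 ε1], hx.2.trans_le (min_le_left _ _)⟩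
  have hpos : ∀ x ∈ Ioo (-ε) ε, 1 < h x := fun x hx =>
    hε1' x ((abs_lt.2 hx).trans_le (min_le_right _ _))
  have hh' : ContDiffOn ℝ ∞ h (Ioo (-ε) ε) := hh.mono hsub
  obtain ⟨k, hk, hk'⟩ := bt_hadamard hh'
  have hH : ContDiffOn ℝ ∞ (fun x => -(k x) / h x) (Ioo (-ε) ε) :=
    hk.neg.div hh' fun x hx => (lt_trans zero_lt_one (hpos x hx)).ne'
  obtain ⟨hΛd, hΛ⟩ := bp_primitive hε hH
  set Λ : ℝ → ℝ := fun x => ∫ t in (0 : ℝ)..x, -(k t) / h t with hΛdef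
  set J : Set ℝ := {l | exp (-2 * bp_Y hg l) < ε} with hJ
  have hmem : ∀ l ∈ J, exp (-2 * bp_Y hg l) ∈ Ioo (-ε) ε := fun l hl =>
    ⟨by have := exp_pos (-2 * bp_Y hg l); linarith only [hg, hε, this], hl⟩
  have hYc : Continuous (bp_Y hg) :=
    continuous_iff_continuousAt.2 fun l => (bp_Y_deriv hg l).continuousAt
  have hJopen : IsOpen J := isOpen_lt (continuous_exp.comp (continuous_const.mul hYc))
    continuous_const
  have hJlow : IsLowerSet J := by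
    intro a b hba ha
    have h1 := (bp_Y_anti hg).antitone hba
    have h3 : exp (-2 * bp_Y hg b) ≤ exp (-2 * bp_Y hg a) := exp_le_exp.2 (by linarith only [hg, h1])
    exact lt_of_le_of_lt h3 ha
  have hJc : IsPreconnected J := hJlow.ordConnected.isPreconnected
  have hder : ∀ l ∈ J, HasDerivAt (fun l => 4 * l + 2 * bp_Y hg l - Λ (exp (-2 * bp_Y hg l)))
      0 l := by
    intro l hl
    have hE := hmem l hl
    have a1 := bp_Y_deriv hg l
    have a2 : HasDerivAt (fun l => exp (-2 * bp_Y hg l))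
        (exp (-2 * bp_Y hg l) * (-2 * (-(g (bp_Y hg l))))) l := (a1.const_mul (-2)).exp
    have a3 := (hΛd _ hE).comp l a2
    have a4 := (((hasDerivAt_id l).const_mul 4).add (a1.const_mul 2)).sub a3
    refine a4.congr_deriv ?_
    have a5 : g (bp_Y hg l) = h (exp (-2 * bp_Y hg l)) :=
      hgh _ (lt_of_lt_of_le hl (min_le_left _ _))
    have a6 := hk' _ hE
    have a7 := hpos _ hE
    rw [h2] at a6
    rw [a5]
    set E := exp (-2 * bp_Y hg l) with hEdef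
    have a8 : h E ≠ 0 := (lt_trans zero_lt_one a7).ne'
    have a9 : E * k E = h E - 2 := by linarith only [a6]
    have b1 : -(k E) / h E * (E * (-2 * -(h E))) = -2 * (E * k E) := by
      field_simp
    rw [b1, a9]
    ring
  obtain ⟨c, hc⟩ : ∃ c, ∀ l ∈ J, 4 * l + 2 * bp_Y hg l - Λ (exp (-2 * bp_Y hg l)) = c := by
    rcases J.eq_empty_or_nonempty with he | ⟨l0, hl0⟩
    · exact ⟨0, fun l hl => by rw [he] at hl; exact absurd hl (by simp)⟩
    · refine ⟨4 * l0 + 2 * bp_Y hg l0 - Λ (exp (-2 * bp_Y hg l0)), fun l hl => ?_⟩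
      exact hJopen.is_const_of_deriv_eq_zero hJc
        (fun x hx => (hder x hx).differentiableAt.differentiableWithinAt)
        (fun x hx => (hder x hx).deriv) hl hl0
  refine ⟨fun x => exp (c + Λ x), ε, hε, (contDiffOn_const.add hΛ).exp,
    fun E _ => exp_pos _, fun l hl => ?_⟩
  have h3 := hc l hl
  rw [← exp_add]
  congr 1
  linarith only [hg, h3]

/-- B1b : the bubble in the variable `l = log r`. -/
theorem bprof : ProfStatement := fun _ hg =>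
  ⟨bp_Y hg, { pos := bp_Y_pos hg
              deriv := bp_Y_deriv hg
              top := bp_Y_top hg
              smooth := bp_smooth hg (bp_Y_pos hg) (bp_Y_deriv hg)
              asym := bp_asym hg
              tip := bp_tip hg }⟩

end Vale.Agent.P244.ST.BD.BP
end

section

/-!
# P244-ST, block M4 : heat operator of `(t,x) ↦ K t (U t x)`
-/

open Set Filter
open scoped ContDiff Topology

namespace Vale.Agent.P244.ST.M4c

open Vale.Agent.P244.ST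

noncomputable section

lemma Dx_comp {U K K1 : Fn} {t x : ℝ} (hU : DifferentiableAt ℝ (U t) x)
    (hK : HasDerivAt (K t) (K1 t (U t x)) (U t x)) :
    Dx (fun t x => K t (U t x)) t x = K1 t (U t x) * Dx U t x := by
  have h := HasDerivAt.comp x (h₂ := K t) (h := U t) hK hU.hasDerivAt
  exact h.deriv

lemma Ds_comp {w U K K1 : Fn} {t x : ℝ} (hU : DifferentiableAt ℝ (U t) x)
    (hK : HasDerivAt (K t) (K1 t (U t x)) (U t x)) :
    Ds w (fun t x => K t (U t x)) t x = K1 t (U t x) * Ds w U t x := by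
  rw [Ds, Dx_comp hU hK, Ds]
  ring

lemma Dt_comp {U K K1 : Fn} {Kt t x : ℝ} (hU : DifferentiableAt ℝ (fun s => U s x) t)
    (hKd : DifferentiableAt ℝ (fun z : ℝ × ℝ => K z.1 z.2) (t, U t x))
    (hK : HasDerivAt (K t) (K1 t (U t x)) (U t x))
    (hKt : HasDerivAt (fun s => K s (U t x)) Kt t) :
    Dt (fun t x => K t (U t x)) t x = Kt + K1 t (U t x) * Dt U t x := by
  have hF := hKd.hasFDerivAt
  set L := fderiv ℝ (fun z : ℝ × ℝ => K z.1 z.2) (t, U t x) with hL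
  have h1 : L (0, 1) = K1 t (U t x) := by
    have h2 : HasDerivAt (fun y : ℝ => ((t, y) : ℝ × ℝ)) (0, 1) (U t x) :=
      (hasDerivAt_const _ t).prodMk (hasDerivAt_id _)
    have h3 := HasFDerivAt.comp_hasDerivAt (U t x) (f := fun y : ℝ => ((t, y) : ℝ × ℝ)) hF h2
    exact h3.unique hK
  have h2 : L (1, 0) = Kt := by
    have h2 : HasDerivAt (fun s : ℝ => ((s, U t x) : ℝ × ℝ)) (1, 0) t :=
      (hasDerivAt_id _).prodMk (hasDerivAt_const _ _)
    have h3 := HasFDerivAt.comp_hasDerivAt t (f := fun s : ℝ => ((s, U t x) : ℝ × ℝ)) hF h2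
    exact h3.unique hKt
  have h3 : HasDerivAt (fun s : ℝ => ((s, U s x) : ℝ × ℝ)) (1, Dt U t x) t :=
    (hasDerivAt_id _).prodMk hU.hasDerivAt
  have h4 := HasFDerivAt.comp_hasDerivAt t (f := fun s : ℝ => ((s, U s x) : ℝ × ℝ)) hF h3
  have h5 : L (1, Dt U t x) = Kt + K1 t (U t x) * Dt U t x := by
    have : ((1, Dt U t x) : ℝ × ℝ) = (1, 0) + Dt U t x • ((0, 1) : ℝ × ℝ) := by
      ext <;> simp
    rw [this, map_add, map_smul, h1, h2, smul_eq_mul]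
    ring
  rw [h5] at h4
  exact h4.deriv

/-- second arclength derivative of a composition -/
lemma DsDs_comp {w U K K1 K2 : Fn} {t x : ℝ} (hU : ∀ᶠ y in 𝓝 x, DifferentiableAt ℝ (U t) y)
    (hU2 : DifferentiableAt ℝ (Ds w U t) x)
    (hK : ∀ᶠ v in 𝓝 (U t x), HasDerivAt (K t) (K1 t v) v)
    (hK1 : HasDerivAt (K1 t) (K2 t (U t x)) (U t x)) :
    Ds w (Ds w (fun t x => K t (U t x))) t x =
      K1 t (U t x) * Ds w (Ds w U) t x + K2 t (U t x) * (Ds w U t x) ^ 2 := by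
  have hUx : DifferentiableAt ℝ (U t) x := hU.self_of_nhds
  have e1 : Ds w (fun t x => K t (U t x)) t =ᶠ[𝓝 x] fun y => K1 t (U t y) * Ds w U t y := by
    filter_upwards [hU, hUx.continuousAt.eventually hK] with y hy1 hy2
    exact Ds_comp hy1 hy2
  have h1 := HasDerivAt.comp x (h₂ := K1 t) (h := U t) hK1 hUx.hasDerivAt
  have h2 : HasDerivAt (fun y => K1 t (U t y) * Ds w U t y)
      (K2 t (U t x) * deriv (U t) x * Ds w U t x + K1 t (U t x) * deriv (Ds w U t) x) x :=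
    h1.mul hU2.hasDerivAt
  have h3 : Dx (Ds w (fun t x => K t (U t x))) t x =
      K2 t (U t x) * deriv (U t) x * Ds w U t x + K1 t (U t x) * deriv (Ds w U t) x := by
    rw [Dx, e1.deriv_eq, h2.deriv]
  rw [Ds, h3]
  simp only [Ds, Dx]
  ring

/-- the heat operator on a composition -/
theorem heat_comp {w f U K K1 K2 : Fn} {Kt t x : ℝ}
    (hU : ContDiffAt ℝ 2 (fun z : ℝ × ℝ => U z.1 z.2) (t, x))
    (hU2 : DifferentiableAt ℝ (Ds w U t) x)
    (hKd : DifferentiableAt ℝ (fun z : ℝ × ℝ => K z.1 z.2) (t, U t x))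
    (hK : ∀ᶠ v in 𝓝 (U t x), HasDerivAt (K t) (K1 t v) v)
    (hK1 : HasDerivAt (K1 t) (K2 t (U t x)) (U t x))
    (hKt : HasDerivAt (fun s => K s (U t x)) Kt t) :
    DT w f (fun t x => K t (U t x)) t x - Lp w f (fun t x => K t (U t x)) t x =
      Kt + K1 t (U t x) * (DT w f U t x - Lp w f U t x) - K2 t (U t x) * (Ds w U t x) ^ 2 := by
  have hUx := M.sec_x hU
  have hUt := M.sec_t hU
  have hev : ∀ᶠ y in 𝓝 x, DifferentiableAt ℝ (U t) y := by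
    have : ∀ᶠ y in 𝓝 x, ContDiffAt ℝ 2 (U t) y := hUx.eventually (by simp)
    filter_upwards [this] with y hy using hy.differentiableAt (by norm_num)
  have hUx' := hUx.differentiableAt (by norm_num)
  rw [DT, Lp, DT, Lp, DsDs_comp hev hU2 hK hK1,
    Dt_comp (hUt.differentiableAt (by norm_num)) hKd hK.self_of_nhds hKt,
    Dx_comp hUx' hK.self_of_nhds, Ds_comp hUx' hK.self_of_nhds]
  ring

end

end Vale.Agent.P244.ST.M4c
end

section

/-!
# P244-ST, block M4 : closure of (b2) in the interior of region I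
-/

open Set Filter
open scoped ContDiff Topology

namespace Vale.Agent.P244.ST.M4c

open Vale.Agent.P244.ST

noncomputable section

/-! ### linearity of the heat operator -/

lemma diff_Dx {A : Fn} {t x : ℝ} (hA : ContDiffAt ℝ 2 (fun z : ℝ × ℝ => A z.1 z.2) (t, x)) :
    DifferentiableAt ℝ (Dx A t) x := by
  have hsec := M.sec_x hA
  have h1 : ContDiffAt ℝ 1 (deriv (A t)) x := by
    have h2 : ContDiffAt ℝ 1 (fun y => fderiv ℝ (A t) y 1) x := by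
      have h3 : ContDiffAt ℝ 1 (fderiv ℝ (A t)) x :=
        hsec.fderiv_right (m := 1) (by norm_num)
      exact h3.clm_apply contDiffAt_const
    exact h2
  exact h1.differentiableAt (by norm_num)

lemma diff_kk {w : Fn} {t x : ℝ} (hw : DifferentiableAt ℝ (w t) x) (hx : x ∈ Ioo (-1 : ℝ) 1) :
    DifferentiableAt ℝ (fun y => -(sx y * Real.exp (-w t y))) x := by
  have hsx : DifferentiableAt ℝ sx x := by
    unfold sx
    exact DifferentiableAt.sqrt (by fun_prop) (M.one_sub_sq_pos hx).ne'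
  exact (hsx.mul hw.neg.exp).neg

lemma diff_Ds {w A : Fn} {t x : ℝ} (hw : DifferentiableAt ℝ (w t) x) (hx : x ∈ Ioo (-1 : ℝ) 1)
    (hA : ContDiffAt ℝ 2 (fun z : ℝ × ℝ => A z.1 z.2) (t, x)) :
    DifferentiableAt ℝ (Ds w A t) x := (diff_kk hw hx).mul (diff_Dx hA)

lemma ev_diff {A : Fn} {t x : ℝ} (hA : ContDiffAt ℝ 2 (fun z : ℝ × ℝ => A z.1 z.2) (t, x)) :
    ∀ᶠ y in 𝓝 x, DifferentiableAt ℝ (A t) y := by
  have : ∀ᶠ y in 𝓝 x, ContDiffAt ℝ 2 (A t) y := (M.sec_x hA).eventually (by simp)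
  filter_upwards [this] with y hy using hy.differentiableAt (by norm_num)

lemma heat_sub {w f A B : Fn} {t x : ℝ} (c : ℝ) (hw : DifferentiableAt ℝ (w t) x)
    (hx : x ∈ Ioo (-1 : ℝ) 1)
    (hA : ContDiffAt ℝ 2 (fun z : ℝ × ℝ => A z.1 z.2) (t, x))
    (hB : ContDiffAt ℝ 2 (fun z : ℝ × ℝ => B z.1 z.2) (t, x)) :
    DT w f (fun t x => c * A t x - B t x) t x - Lp w f (fun t x => c * A t x - B t x) t x =
      c * (DT w f A t x - Lp w f A t x) - (DT w f B t x - Lp w f B t x) := by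
  have hDx : ∀ᶠ y in 𝓝 x, Dx (fun t x => c * A t x - B t x) t y = c * Dx A t y - Dx B t y := by
    filter_upwards [ev_diff hA, ev_diff hB] with y h1 h2
    have h3 : HasDerivAt (fun y => c * A t y - B t y) (c * deriv (A t) y - deriv (B t) y) y :=
      (h1.hasDerivAt.const_mul c).sub h2.hasDerivAt
    exact h3.deriv
  have hDs : ∀ᶠ y in 𝓝 x, Ds w (fun t x => c * A t x - B t x) t y =
      c * Ds w A t y - Ds w B t y := by
    filter_upwards [hDx] with y hy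
    rw [Ds, hy, Ds, Ds]; ring
  have hDsDs : Ds w (Ds w (fun t x => c * A t x - B t x)) t x =
      c * Ds w (Ds w A) t x - Ds w (Ds w B) t x := by
    have h1 := (diff_Ds hw hx hA).hasDerivAt
    have h2 := (diff_Ds hw hx hB).hasDerivAt
    have h3 : HasDerivAt (fun y => c * Ds w A t y - Ds w B t y)
        (c * deriv (Ds w A t) x - deriv (Ds w B t) x) x := (h1.const_mul c).sub h2
    have h4 : Dx (Ds w (fun t x => c * A t x - B t x)) t x =
        c * deriv (Ds w A t) x - deriv (Ds w B t) x := by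
      rw [Dx, Filter.EventuallyEq.deriv_eq hDs, h3.deriv]
    rw [Ds, h4, Ds, Ds, Dx, Dx]; ring
  have hDt : Dt (fun t x => c * A t x - B t x) t x = c * Dt A t x - Dt B t x := by
    have h1 := ((M.sec_t hA).differentiableAt (by norm_num)).hasDerivAt
    have h2 := ((M.sec_t hB).differentiableAt (by norm_num)).hasDerivAt
    have h3 : HasDerivAt (fun s => c * A s x - B s x)
        (c * deriv (fun s => A s x) t - deriv (fun s => B s x) t) t := (h1.const_mul c).sub h2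
    exact h3.deriv
  rw [DT, Lp, DT, Lp, DT, Lp, hDt, hDx.self_of_nhds, hDsDs, hDs.self_of_nhds]
  ring

/-! ### smoothness of the barrier -/

lemma smooth_Vb {q : Par} {t u : ℝ} (hr : 0 < q.rho0) (he : 0 < q.eps) (ht : t < 1)
    (hu : 0 < u) : ContDiffAt ℝ 2 (fun z : ℝ × ℝ => q.Vb z.1 z.2) (t, u) := by
  have htau : 0 < tau t := by unfold tau; linarith only [ht]
  have hT0 := T0_pos (q := q) hr he ht
  have h1 : ContDiffAt ℝ 2 (fun z : ℝ × ℝ => tau z.1) (t, u) := by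
    unfold tau; fun_prop
  have h2 : ContDiffAt ℝ 2 (fun z : ℝ × ℝ => q.T0 z.1) (t, u) := by
    unfold Par.T0 Par.A
    exact (contDiffAt_const.mul (h1.rpow_const_of_ne htau.ne')).mul contDiffAt_const
  have h3 : ContDiffAt ℝ 2 (fun z : ℝ × ℝ => Real.tanh z.2) (t, u) := by
    have : (fun z : ℝ × ℝ => Real.tanh z.2) = fun z : ℝ × ℝ => Real.sinh z.2 / Real.cosh z.2 := by
      funext z; rw [Real.tanh_eq_sinh_div_cosh]
    rw [this]
    refine ContDiffAt.div ?_ ?_ (Real.cosh_pos u).ne'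
    · exact Real.contDiff_sinh.contDiffAt.comp _ contDiffAt_snd
    · exact Real.contDiff_cosh.contDiffAt.comp _ contDiffAt_snd
  have h4 : ContDiffAt ℝ 2 (fun z : ℝ × ℝ => Real.cosh z.2) (t, u) :=
    Real.contDiff_cosh.contDiffAt.comp _ contDiffAt_snd
  unfold Par.Vb
  refine ((((contDiffAt_const.div h1 htau.ne').mul ?_).mul h3).mul ?_)
  · exact (h3.div h2 hT0.ne').rpow_const_of_ne (div_pos (tanh_pos hu) hT0).ne'
  · exact h4.rpow_const_of_ne (Real.cosh_pos u).ne'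

/-! ### the closure -/

/-- conditions on the parameters -/
structure ParV (q : Par) : Prop where
  B : 0 < q.B
  rho0 : 0 < q.rho0
  rho1 : q.rho0 ≤ 1
  BV : 1000 * q.B ≤ q.BV
  BV1 : 1 ≤ q.BV
  eps : 0 < q.eps
  N : 10 ^ 4 ≤ q.N

/-- The identities needed at the point. -/
structure IdV (w f : Fn) (t x : ℝ) : Prop where
  su : ContDiffAt ℝ 2 (fun z : ℝ × ℝ => uu w f z.1 z.2) (t, x)
  sV : ContDiffAt ℝ 2 (fun z : ℝ × ℝ => VV w f z.1 z.2) (t, x)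
  sy : ContinuousAt (fun z : ℝ × ℝ => yv w f z.1 z.2) (t, x)
  DTu : DT w f (uu w f) t x = VV w f t x
  F5 : DT w f (VV w f) t x - Lp w f (VV w f) t x =
    ((78 * Real.cosh (uu w f t x) - 20 * (ZZ w f t x * GG w f t x ^ 2)) / rr w f t x ^ 2
      + 2 * E0 w f t x) * VV w f t x
      + 2 * ((ZZ w f t x * GG w f t x - 39 / 20 * Real.sinh (uu w f t x)) / rr w f t x ^ 2)
        * (41 * E0 w f t x - RR w f t x)

lemma fb_pos {q : Par} (hq : ParV q) {t u : ℝ} (ht : t < 1) (hu : 0 < u) : 0 < q.fb t u := by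
  have htau : 0 < tau t := by unfold tau; linarith only [ht]
  have hT0 := T0_pos (q := q) hq.rho0 hq.eps ht
  have := hq.B
  have := tanh_pos hu
  have := Real.cosh_pos u
  unfold Par.fb
  positivity

lemma Vb_pos {q : Par} (hq : ParV q) {t u : ℝ} (ht : t < 1) (hu : 0 < u) : 0 < q.Vb t u := by
  have htau : 0 < tau t := by unfold tau; linarith only [ht]
  have hT0 := T0_pos (q := q) hq.rho0 hq.eps ht
  have : 0 < q.BV := by linarith only [hq, hq.BV1]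
  have := tanh_pos hu
  have := Real.cosh_pos u
  unfold Par.Vb
  positivity

lemma rel_fb_Vb {q : Par} {t u : ℝ} :
    Real.cosh u * q.fb t u * Real.tanh u * q.BV = q.B * q.Vb t u := by
  have hc := Real.cosh_pos u
  unfold Par.fb Par.Vb
  have h1 : Real.cosh u ^ (-(1 - aa)) = Real.cosh u ^ aa / Real.cosh u := by
    rw [show -(1 - aa) = aa - 1 by ring, Real.rpow_sub_one hc.ne']
  rw [h1]
  have := hc.ne'
  field_simp

lemma Vb_lower {q : Par} (hq : ParV q) {t u : ℝ} (ht0 : 0 ≤ t) (ht : t < 1) (hu : 0 < u)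
    (hT : 9 / 10 * q.T0 t ≤ Real.tanh u) : 9 / 10 * q.BV * Real.tanh u ≤ q.Vb t u := by
  have htau : 0 < tau t := by unfold tau; linarith only [ht]
  have htau1 : tau t ≤ 1 := by unfold tau; linarith only [ht0]
  have hT0 := T0_pos (q := q) hq.rho0 hq.eps ht
  have hBV : 0 < q.BV := by linarith only [hq, hq.BV1]
  have hTp := tanh_pos hu
  have hC := Real.one_le_cosh u
  have hx : 9 / 10 ≤ Real.tanh u / q.T0 t := by rw [le_div_iff₀ hT0]; exact hT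
  have hpow : (9 / 10 : ℝ) ≤ (Real.tanh u / q.T0 t) ^ aa := by
    have h1 : ((9 / 10 : ℝ)) ^ (1 : ℝ) ≤ (9 / 10 : ℝ) ^ aa :=
      Real.rpow_le_rpow_of_exponent_ge (by norm_num) (by norm_num) (by unfold aa; norm_num)
    rw [Real.rpow_one] at h1
    exact h1.trans (Real.rpow_le_rpow (by norm_num) hx (by unfold aa; norm_num))
  have hC1 : 1 ≤ Real.cosh u ^ aa := Real.one_le_rpow hC (by unfold aa; norm_num)
  have h1 : q.BV ≤ q.BV / tau t := by
    rw [le_div_iff₀ htau]; linarith only [mul_nonneg (sub_nonneg.2 htau1) (le_of_lt (sub_pos.2 hBV))]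
  unfold Par.Vb
  calc 9 / 10 * q.BV * Real.tanh u = q.BV * (9 / 10) * Real.tanh u * 1 := by ring
    _ ≤ q.BV / tau t * (Real.tanh u / q.T0 t) ^ aa * Real.tanh u * Real.cosh u ^ aa := by
      gcongr

lemma eta_small {q : Par} (hN : 10 ^ 4 ≤ q.N) : 3 * q.eta ≤ 1 / 10 ^ 3 := by
  unfold Par.eta
  have : (10 : ℝ) ^ 4 / q.N ^ 2 ≤ 1 / 10 ^ 4 := by
    rw [div_le_div_iff₀ (by positivity) (by norm_num)]
    nlinarith only [hN]
  linarith only [this]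

lemma r2_small {q : Par} {w f : Fn} {t x : ℝ} (hq : ParV q) (ht0 : 0 ≤ t) (ht1 : t < 1)
    (hy : yv w f t x ≤ q.rho0) : rr w f t x ^ 2 ≤ 1 := by
  have htau : 0 < tau t := by unfold tau; linarith only [ht1]
  have hr : 0 < rr w f t x := Real.exp_pos _
  have h1 : rr w f t x ≤ q.rho0 * Real.sqrt (tau t) := by
    have h2 : rr w f t x / Real.sqrt (tau t) ≤ q.rho0 := hy
    rwa [div_le_iff₀ (Real.sqrt_pos.2 htau)] at h2
  have h3 : Real.sqrt (tau t) ≤ 1 := Real.sqrt_le_one.2 (by unfold tau; linarith only [ht0])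
  have h4 : q.rho0 * Real.sqrt (tau t) ≤ 1 * 1 :=
    mul_le_mul hq.rho1 h3 (Real.sqrt_nonneg _) zero_le_one
  exact pow_le_one₀ hr.le (h1.trans (by linarith only [h4]))

lemma Zs_ge_one {g : ℝ → ℝ} (hg : IsBub g) {u : ℝ} (hu : 0 < u) :
    38 ≤ qb g u ∧ qb g u ≤ 39 ∧ 1 ≤ Zs g u := by
  have hTp := tanh_pos hu
  have hg2 := hg.lt_two u hu
  have hgpos : 0 < g u := by linarith only [hg, hu, hTp, hg.lower u hu]
  have hQ1 : 38 ≤ qb g u := by unfold qb; nlinarith only [hg2, hgpos]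
  have hQ2 : qb g u ≤ 39 := by unfold qb; linarith only [sq_nonneg (g u)]
  refine ⟨hQ1, hQ2, ?_⟩
  unfold Zs
  rw [le_div_iff₀ (by linarith only [hQ1])]
  linarith only [hQ2, Real.one_le_cosh u]

lemma th_small {q : Par} {g : ℝ → ℝ} {w f : Fn} {t x : ℝ} (hg : IsBub g) (hq : ParV q)
    (ht1 : t < 1) (hr1 : rr w f t x ^ 2 ≤ 1) (hFI : M.FI q g w f t x) :
    M.eb q w f t x ≤ 1 / 10 ^ 4 ∧ |th g w f t x| ≤ 1 / 10 ^ 3 := by
  have hu := hFI.u_pos
  have hφ := fb_pos hq ht1 hu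
  have heb0 : 0 ≤ M.eb q w f t x := by
    unfold M.eb; positivity
  have heb : M.eb q w f t x ≤ 1 / 10 ^ 4 := by
    have h2 : M.eb q w f t x ≤ M.eb q w f t x * Real.cosh (uu w f t x) :=
      le_mul_of_one_le_right heb0 (Real.one_le_cosh _)
    exact h2.trans hFI.eb_le
  refine ⟨heb, ?_⟩
  rw [abs_of_nonpos hFI.th_le]
  refine hFI.th_ge.trans ?_
  obtain ⟨-, -, hZ1⟩ := Zs_ge_one hg hu
  have hg2 := hg.lt_two _ hu
  have hgpos : 0 < g (uu w f t x) := by linarith only [hg, hu, hg.lower _ hu, tanh_pos hu]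
  have hη := eta_small hq.N
  have hη0 : 0 ≤ q.eta := by unfold Par.eta; positivity
  have h1 : g (uu w f t x) ^ 2 * M.eb q w f t x ^ 2 / 148 ≤ 1 / 10 ^ 4 := by
    have h3 : M.eb q w f t x ^ 2 ≤ (1 / 10 ^ 4) ^ 2 := pow_le_pow_left₀ heb0 heb 2
    have h4 : g (uu w f t x) ^ 2 ≤ 4 := by nlinarith only [hg2, hgpos]
    have h5 : g (uu w f t x) ^ 2 * M.eb q w f t x ^ 2 ≤ 4 * (1 / 10 ^ 4) ^ 2 :=
      mul_le_mul h4 h3 (sq_nonneg _) (by norm_num)
    linarith only [h5]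
  have h6 : rr w f t x ^ 2 * (3 * q.eta) / (1640 * Zs g (uu w f t x)) ≤ 1 / 10 ^ 4 := by
    have h7 : rr w f t x ^ 2 * (3 * q.eta) ≤ 1 * (1 / 10 ^ 3) :=
      mul_le_mul hr1 hη (by positivity) (by norm_num)
    rw [div_le_iff₀ (by linarith only [hZ1])]
    linarith only [hZ1, h7]
  linarith only [h6, h1]

/-- the numerical inequality in terms of the geometric quantities -/
lemma closV_num {q : Par} {g : ℝ → ℝ} {w f : Fn} {t x : ℝ} (hg : IsBub g) (hq : ParV q)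
    (ht0 : 0 ≤ t) (ht1 : t < 1) (hy : yv w f t x ≤ q.rho0) (hFI : M.FI q g w f t x) :
    ((78 * Real.cosh (uu w f t x) - 20 * (ZZ w f t x * GG w f t x ^ 2)) / rr w f t x ^ 2
      + 2 * E0 w f t x) * q.Vb t (uu w f t x)
      + |2 * ((ZZ w f t x * GG w f t x - 39 / 20 * Real.sinh (uu w f t x)) / rr w f t x ^ 2)
        * (41 * E0 w f t x - RR w f t x)| <
    q.Vb t (uu w f t x) * ((1 + aa * lam 3) / tau t)
      + q.Vb t (uu w f t x) * l1 (uu w f t x) * (78 * Real.sinh (uu w f t x) / rr w f t x ^ 2)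
      - q.Vb t (uu w f t x) * l2 (uu w f t x) *
        (ZZ w f t x * GG w f t x ^ 2 / rr w f t x ^ 2) := by
  have htau : 0 < tau t := by unfold tau; linarith only [ht1]
  have hu := hFI.u_pos
  have hT0 := T0_pos (q := q) hq.rho0 hq.eps ht1
  have hr : 0 < rr w f t x := Real.exp_pos _
  have hr1 := r2_small hq ht0 ht1 hy
  obtain ⟨heb, hth⟩ := th_small hg hq ht1 hr1 hFI
  obtain ⟨hQ1, hQ2, hZ1⟩ := Zs_ge_one hg hu
  have hη := eta_small hq.N
  have hη0 : 0 ≤ q.eta := by unfold Par.eta; positivity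
  have hTp := tanh_pos hu
  have hT1 : Real.tanh (uu w f t x) < 1 := Real.tanh_lt_one _
  have hC := Real.one_le_cosh (uu w f t x)
  have hgl := hg.lower _ hu
  have hgu' := hg.upper _ hu
  have hgpos : 0 < g (uu w f t x) := by linarith only [hTp, hgl]
  have hE0 := hFI.E0_le
  have hφ := fb_pos hq ht1 hu
  have hv := Vb_pos hq ht1 hu
  have hVl := Vb_lower hq ht0 ht1 hu hFI.T_ge
  have hrel := rel_fb_Vb (q := q) (t := t) (u := uu w f t x)
  have hth' : ZZ w f t x / Zs g (uu w f t x) = 1 + th g w f t x := by rw [th]; ring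
  have hee' : GG w f t x / g (uu w f t x) = 1 - ee g w f t x := by rw [ee]; ring
  have hel := hFI.e_le
  have hR0 := hFI.R_nonneg
  have hRl := hFI.R_le
  have hsinh := sinh_eq (uu w f t x)
  unfold M.eb at heb hel
  generalize uu w f t x = u at *
  generalize rr w f t x = r at *
  have hgu : g u = g u / Real.tanh u * Real.tanh u := by field_simp
  have hG1 : 2 ≤ g u / Real.tanh u := by rw [le_div_iff₀ hTp]; exact hgl.le
  have hG2 : g u / Real.tanh u ≤ 2.1147 := by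
    rw [div_le_iff₀ hTp]
    have := mul_le_mul_of_nonneg_right kap_bounds.2.le hTp.le
    linarith only [hgu', this]
  have hZ : ZZ w f t x = 39 * Real.cosh u / qb g u * (1 + th g w f t x) := by
    rw [← hth', Zs]
    have : qb g u ≠ 0 := by intro h; rw [h] at hQ1; norm_num at hQ1
    have := (Real.cosh_pos u).ne'
    field_simp
  have hG : GG w f t x = g u / Real.tanh u * Real.tanh u * (1 - ee g w f t x) := by
    rw [← hgu, ← hee']; field_simp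
  have hE : |E0 w f t x| ≤ 1.1 * (3 * q.eta) +
      11 * (39 * Real.cosh u / qb g u * (g u / Real.tanh u * Real.tanh u) ^ 2) * q.fb t u := by
    refine hE0.trans (le_of_eq ?_)
    rw [← hgu, Zs]
    ring
  have hlam : 0 ≤ (1 + aa * lam 3) / tau t := by
    have h1 : 0 ≤ lam 3 := by
      unfold lam
      have := kap_bounds.2
      push_cast
      linarith only [this, hT1, hTp]
    have h2 : 0 ≤ aa := by unfold aa; norm_num
    (clear * - h2 h1 htau; positivity)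
  have h7 : r ^ 2 * (3 * q.eta) ≤ 1 / 10 ^ 3 := by
    have h7 : r ^ 2 * (3 * q.eta) ≤ 1 * (1 / 10 ^ 3) :=
      mul_le_mul hr1 hη (by positivity) (by norm_num)
    linarith only [h7]
  have hcore := num_core (T := Real.tanh u) (C := Real.cosh u) (G1 := g u / Real.tanh u)
    (Q := qb g u) (e := ee g w f t x) (θ := th g w f t x) (r := r) (E := E0 w f t x)
    (R := RR w f t x) (Rs := 3 * q.eta) (φ := q.fb t u) (v := q.Vb t u) (B := q.B) (BV := q.BV)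
    (M := (1 + aa * lam 3) / tau t)
    hTp hT1 hC hG1 hG2 hQ1 hQ2 hel heb hth hr hφ hv hq.BV hrel hVl hq.BV1 hR0 hRl (by linarith only [hη, hTp, hT1])
    h7 hE hlam
  rw [← hZ, ← hG, ← hsinh] at hcore
  have hl1 : l1 u = (1 + 1 / 20) * (1 - Real.tanh u ^ 2) / Real.tanh u + 1 / 20 * Real.tanh u := by
    unfold l1 aa; ring
  have hl2 : l2 u = ((1 + 1 / 20) * (1 - Real.tanh u ^ 2) / Real.tanh u
      + 1 / 20 * Real.tanh u) ^ 2
      + (-((1 + 1 / 20) * (1 - Real.tanh u ^ 2) * (1 + Real.tanh u ^ 2) / Real.tanh u ^ 2)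
        + 1 / 20 * (1 - Real.tanh u ^ 2)) := by
    unfold l2 l1'
    rw [hl1]
    unfold aa; ring
  rw [← hl2, ← hl1] at hcore
  exact hcore

theorem closV {q : Par} {g : ℝ → ℝ} {w f : Fn} {T t₁ t x : ℝ} (hg : IsBub g) (hq : ParV q)
    (H : M.Hist q g w f T t₁) (ht : t ∈ Ioc 0 t₁) (hx : x ∈ Ioo (0 : ℝ) 1)
    (hy : yv w f t x < q.rho0) (hid : IdV w f t x) : |VV w f t x| < q.Vb t (uu w f t x) := by
  have htT : t ∈ Ioo 0 T := ⟨ht.1, lt_of_le_of_lt ht.2 H.mem.2⟩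
  have ht1 : t < 1 := lt_of_lt_of_le htT.2 H.T_le
  have hxx : x ∈ Ioo (-1 : ℝ) 1 := ⟨by linarith only [hx, hx.1], hx.2⟩
  have hFI := H.fI t ⟨ht.1.le, ht.2⟩ x hx hy.le
  have hu := hFI.u_pos
  have hT0 := T0_pos (q := q) hq.rho0 hq.eps ht1
  have hboot := (H.boot.b5 t ⟨ht.1.le, ht.2⟩ x ⟨hx.1.le, hx.2⟩).b2 hx.1 hy.le
  refine lt_of_le_of_ne hboot fun heq => ?_
  -- the sign
  obtain ⟨σ, hσ, hσV⟩ : ∃ σ : ℝ, |σ| = 1 ∧ σ * VV w f t x = q.Vb t (uu w f t x) := by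
    rcases le_total 0 (VV w f t x) with h | h
    · exact ⟨1, by simp, by rw [one_mul, ← heq, abs_of_nonneg h]⟩
    · exact ⟨-1, by simp, by rw [← heq, abs_of_nonpos h]; ring⟩
  have hw : DifferentiableAt ℝ (w t) x :=
    (M.smooth_wx_at H.sol ⟨htT.1.le, htT.2⟩ hxx).differentiableAt (by norm_num)
  have hsB : ContDiffAt ℝ 2 (fun z : ℝ × ℝ => q.Vb z.1 (uu w f z.1 z.2)) (t, x) := by
    have h1 : ContDiffAt ℝ 2 (fun z : ℝ × ℝ => ((z.1, uu w f z.1 z.2) : ℝ × ℝ)) (t, x) :=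
      contDiffAt_fst.prodMk hid.su
    exact ContDiffAt.comp (t, x) (g := fun z : ℝ × ℝ => q.Vb z.1 z.2)
      (f := fun z : ℝ × ℝ => ((z.1, uu w f z.1 z.2) : ℝ × ℝ))
      (smooth_Vb hq.rho0 hq.eps ht1 hu) h1
  have hsH : ContDiffAt ℝ 2
      (fun z : ℝ × ℝ => σ * VV w f z.1 z.2 - q.Vb z.1 (uu w f z.1 z.2)) (t, x) :=
    (contDiffAt_const.mul hid.sV).sub hsB
  -- touching
  have hle : ∀ᶠ z : ℝ × ℝ in 𝓝 (t, x), z.1 ≤ t →
      σ * VV w f z.1 z.2 - q.Vb z.1 (uu w f z.1 z.2) ≤ 0 := by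
    have e1 : ∀ᶠ z : ℝ × ℝ in 𝓝 (t, x), yv w f z.1 z.2 < q.rho0 :=
      hid.sy.eventually_lt continuousAt_const hy
    have e2 : ∀ᶠ z : ℝ × ℝ in 𝓝 (t, x), 0 < z.1 :=
      continuousAt_const.eventually_lt continuousAt_fst ht.1
    have e3 : ∀ᶠ z : ℝ × ℝ in 𝓝 (t, x), 0 < z.2 :=
      continuousAt_const.eventually_lt continuousAt_snd hx.1
    have e4 : ∀ᶠ z : ℝ × ℝ in 𝓝 (t, x), z.2 < 1 :=
      continuousAt_snd.eventually_lt continuousAt_const hx.2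
    filter_upwards [e1, e2, e3, e4] with z h1 h2 h3 h4 h5
    have hb := (H.boot.b5 z.1 ⟨h2.le, h5.trans ht.2⟩ z.2 ⟨h3.le, h4⟩).b2 h3 h1.le
    have h6 : σ * VV w f z.1 z.2 ≤ |VV w f z.1 z.2| := by
      refine (le_abs_self _).trans ?_
      rw [abs_mul, hσ, one_mul]
    linarith only [hb, h6]
  obtain ⟨-, -, -, -, -, -, htouch⟩ := M.touch (f := f)
    (H := fun t x => σ * VV w f t x - q.Vb t (uu w f t x)) H.sol htT hxx hsH
    (by show σ * VV w f t x - q.Vb t (uu w f t x) = 0; rw [hσV, sub_self]) hle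
  -- the heat operator
  rw [heat_sub σ hw hxx hid.sV hsB] at htouch
  have hKd : DifferentiableAt ℝ (fun z : ℝ × ℝ => q.Vb z.1 z.2) (t, uu w f t x) :=
    (smooth_Vb hq.rho0 hq.eps ht1 hu).differentiableAt (by norm_num)
  have hcomp := heat_comp (w := w) (f := f) (K := fun t u => q.Vb t u)
    (K1 := fun t u => q.Vb t u * l1 u) (K2 := fun t u => q.Vb t u * l2 u)
    hid.su (diff_Ds hw hxx hid.su) hKd
    (by
      filter_upwards [lt_mem_nhds hu] with v hv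
      exact hasDerivAt_Vb hv hT0)
    (hasDerivAt_Vb1 hu hT0) (hasDerivAt_Vb_t hu hT0 ht1)
  rw [hcomp] at htouch
  have hDTLp : DT w f (uu w f) t x - Lp w f (uu w f) t x =
      78 * Real.sinh (uu w f t x) / rr w f t x ^ 2 := by
    rw [hid.DTu, VV]; ring
  have hrs := hFI.rs_pos
  have hr : 0 < rr w f t x := Real.exp_pos _
  have hP : (Ds w (uu w f) t x) ^ 2 = ZZ w f t x * GG w f t x ^ 2 / rr w f t x ^ 2 := by
    rw [ZZ, GG, PP]
    have := hrs.ne'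
    have := hr.ne'
    field_simp
  rw [hDTLp, hP, hid.F5] at htouch
  have hcore := closV_num hg hq ht.1.le ht1 hy.le hFI
  have h1 : ∀ a b : ℝ, σ * (a * VV w f t x + b) ≤ a * q.Vb t (uu w f t x) + |b| := by
    intro a b
    have h2 : σ * b ≤ |b| := by
      refine (le_abs_self _).trans ?_
      rw [abs_mul, hσ, one_mul]
    have h3 : σ * (a * VV w f t x + b) = a * (σ * VV w f t x) + σ * b := by ring
    rw [h3, hσV]
    linarith only [h2]
  have hs1 := h1 ((78 * Real.cosh (uu w f t x) - 20 * (ZZ w f t x * GG w f t x ^ 2)) /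
      rr w f t x ^ 2 + 2 * E0 w f t x)
    (2 * ((ZZ w f t x * GG w f t x - 39 / 20 * Real.sinh (uu w f t x)) / rr w f t x ^ 2)
        * (41 * E0 w f t x - RR w f t x))
  linarith only [htouch, hcore, hs1]

theorem ev_parV : Ev ParV := by
  have h1 : Ev fun q => 1000 * q.B ≤ q.BV := by
    refine ⟨0, fun B _ => ⟨1, one_pos, fun rho0 _ => ⟨1000 * B, fun BV hBV => ?_⟩⟩⟩
    refine ⟨0, fun MU _ => ⟨0, fun MP _ => ⟨0, fun MV _ => ⟨0, fun CU _ => ⟨0, fun CP _ =>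
      ⟨0, fun CV _ => ⟨0, fun GR _ => ⟨1, one_pos, fun sg _ => ⟨1, one_pos, fun d0 _ =>
      ⟨1, one_pos, fun rb _ => ⟨0, fun N _ => ⟨1, one_pos, fun eps _ => ?_⟩⟩⟩⟩⟩⟩⟩⟩⟩⟩⟩⟩
    exact hBV
  refine (h1.and (ev_pos (K := 10 ^ 4) (by norm_num))).mono ?_
  rintro q ⟨h1, h2⟩
  exact
    { B := lt_of_lt_of_le (by norm_num) h2.B
      rho0 := h2.rho0
      rho1 := h2.rho0'.trans (by norm_num)
      BV := h1
      BV1 := le_trans (by norm_num) h2.BV
      eps := h2.eps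
      N := h2.N }

end

end Vale.Agent.P244.ST.M4c
end

section

/-!
# P244-ST, closure of (b3) (module M5): the touching argument
-/

open Set Filter
open scoped ContDiff Topology

namespace Vale.Agent.P244.ST.M5F

open Vale.Agent.P244.ST

noncomputable section

/-- the open space-time domain -/
def Om (T : ℝ) : Set (ℝ × ℝ) := Ioo 0 T ×ˢ Ioo (-1) 1

lemma isOpen_Om (T : ℝ) : IsOpen (Om T) := isOpen_Ioo.prod isOpen_Ioo

lemma mem_Om {T t x : ℝ} (ht : t ∈ Ioo 0 T) (hx : x ∈ Ioo (-1 : ℝ) 1) : (t, x) ∈ Om T := ⟨ht, hx⟩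

variable {w f : Fn} {T : ℝ}

lemma sm_w (hs : ConfSol 20 w f T) : Sm (Om T) w := fun z hz =>
  (M.smooth_w_at hs hz.1 hz.2).contDiffWithinAt

lemma sm_f (hs : ConfSol 20 w f T) : Sm (Om T) f := fun z hz =>
  (M.smooth_f_at hs hz.1 hz.2).contDiffWithinAt

lemma sm_one_sub : Sm (Om T) (fun _ x => 1 - x ^ 2) := (Sm.const 1).sub (Sm.xvar.pow 2)

lemma one_sub_ne {z : ℝ × ℝ} (hz : z ∈ Om T) : 1 - z.2 ^ 2 ≠ 0 := by
  have := M.one_sub_sq_pos hz.2
  exact this.ne'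

lemma sm_sx : Sm (Om T) (fun _ x => sx x) := Sm.sqrt sm_one_sub fun _ hz => one_sub_ne hz

lemma sm_log : Sm (Om T) (fun _ x => Real.log (1 - x ^ 2)) := sm_one_sub.log fun _ hz => one_sub_ne hz

lemma sm_uu (hs : ConfSol 20 w f T) : Sm (Om T) (uu w f) := by
  unfold uu
  exact ((sm_f hs).sub (sm_w hs)).sub (sm_log.div (Sm.const 2) fun _ _ => by norm_num)

lemma sm_rho (hs : ConfSol 20 w f T) : Sm (Om T) (rho w f) := by
  unfold rho
  exact ((((sm_f hs).add (sm_w hs)).add (sm_log.div (Sm.const 2) fun _ _ => by norm_num)).sub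
    (Sm.const _)).div (Sm.const 2) fun _ _ => by norm_num

lemma sm_rr (hs : ConfSol 20 w f T) : Sm (Om T) (rr w f) := (sm_rho hs).exp

lemma sm_Ds (hs : ConfSol 20 w f T) {H : Fn} (hH : Sm (Om T) H) : Sm (Om T) (Ds w H) := by
  unfold Ds
  exact ((sm_sx.mul (sm_w hs).neg.exp).neg).mul (hH.dx (isOpen_Om T))

lemma sm_Lp (hs : ConfSol 20 w f T) {H : Fn} (hH : Sm (Om T) H) : Sm (Om T) (Lp w f H) := by
  unfold Lp
  exact (sm_Ds hs (sm_Ds hs hH)).add (((Sm.const 40).mul (sm_Ds hs (sm_rho hs))).mul (sm_Ds hs hH))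

lemma rr_ne (w f : Fn) (t x : ℝ) : rr w f t x ^ 2 ≠ 0 := by unfold rr; positivity

lemma sm_yy (hs : ConfSol 20 w f T) : Sm (Om T) (yy w f) := by
  unfold yy
  exact (sm_Lp hs (sm_rho hs)).sub (((Sm.const 39).mul (sm_uu hs).cosh).div ((sm_rr hs).pow 2)
    fun z _ => rr_ne w f z.1 z.2)

lemma sm_E0 (hs : ConfSol 20 w f T) : Sm (Om T) (E0 w f) := by
  unfold E0 rs PP
  exact (((Sm.const 40).mul (sm_Ds hs (sm_Ds hs (sm_rho hs)))).neg.sub ((Sm.const 40).mul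
    ((sm_Ds hs (sm_rho hs)).pow 2))).sub ((Sm.const 10).mul ((sm_Ds hs (sm_uu hs)).pow 2))

lemma sm_RR (hs : ConfSol 20 w f T) : Sm (Om T) (RR w f) := by
  unfold RR
  exact (sm_E0 hs).sub ((Sm.const 40).mul (sm_yy hs))

/-! ### linearity -/

lemma Dx_sub {H K : Fn} (hH : Sm (Om T) H) (hK : Sm (Om T) K) {t x : ℝ} (hz : (t, x) ∈ Om T) :
    Dx (fun t x => H t x - K t x) t x = Dx H t x - Dx K t x :=
  ((hH.hasDeriv_x (isOpen_Om T) hz).sub (hK.hasDeriv_x (isOpen_Om T) hz)).deriv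

lemma Dt_sub {H K : Fn} (hH : Sm (Om T) H) (hK : Sm (Om T) K) {t x : ℝ} (hz : (t, x) ∈ Om T) :
    Dt (fun t x => H t x - K t x) t x = Dt H t x - Dt K t x :=
  ((hH.hasDeriv_t (isOpen_Om T) hz).sub (hK.hasDeriv_t (isOpen_Om T) hz)).deriv

lemma Ds_sub {H K : Fn} (hH : Sm (Om T) H) (hK : Sm (Om T) K) {t x : ℝ} (hz : (t, x) ∈ Om T) :
    Ds w (fun t x => H t x - K t x) t x = Ds w H t x - Ds w K t x := by
  unfold Ds
  rw [Dx_sub hH hK hz]
  ring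

lemma Ds_congr {H K : Fn} (he : ∀ z ∈ Om T, H z.1 z.2 = K z.1 z.2) {t x : ℝ}
    (hz : (t, x) ∈ Om T) : Ds w H t x = Ds w K t x := by
  unfold Ds
  rw [Dx_congr (isOpen_Om T) he hz]

lemma Lp_sub (hs : ConfSol 20 w f T) {H K : Fn} (hH : Sm (Om T) H) (hK : Sm (Om T) K) {t x : ℝ}
    (hz : (t, x) ∈ Om T) :
    Lp w f (fun t x => H t x - K t x) t x = Lp w f H t x - Lp w f K t x := by
  unfold Lp
  rw [Ds_sub hH hK hz]
  have e : Ds w (Ds w fun t x => H t x - K t x) t x =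
      Ds w (fun t x => Ds w H t x - Ds w K t x) t x :=
    Ds_congr (T := T) (fun z hz' => Ds_sub (t := z.1) (x := z.2) hH hK hz') hz
  rw [e, Ds_sub (sm_Ds hs hH) (sm_Ds hs hK) hz]
  ring

lemma DT_sub {H K : Fn} (hH : Sm (Om T) H) (hK : Sm (Om T) K) {t x : ℝ}
    (hz : (t, x) ∈ Om T) :
    DT w f (fun t x => H t x - K t x) t x = DT w f H t x - DT w f K t x := by
  unfold DT
  rw [Dx_sub hH hK hz, Dt_sub hH hK hz]
  ring

/-- the touching lemma for a difference -/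
theorem touch_sub (hs : ConfSol 20 w f T) {H K : Fn} (hH : Sm (Om T) H) (hK : Sm (Om T) K)
    {t x : ℝ} (ht : t ∈ Ioo 0 T) (hx : x ∈ Ioo (-1 : ℝ) 1) (h0 : H t x = K t x)
    (hle : ∀ᶠ z : ℝ × ℝ in 𝓝 (t, x), z.1 ≤ t → H z.1 z.2 ≤ K z.1 z.2) :
    DT w f K t x - Lp w f K t x ≤ DT w f H t x - Lp w f H t x := by
  have hz := mem_Om ht hx
  have h1 := M.touch (H := fun t x => H t x - K t x) hs ht hx
    (((hH.sub hK).at (isOpen_Om T) hz).of_le (by norm_cast)) (sub_eq_zero.2 h0)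
    (hle.mono fun z h hz' => sub_nonpos.2 (h hz'))
  have h2 := h1.2.2.2.2.2.2
  rw [DT_sub hH hK hz, Lp_sub hs hH hK hz] at h2
  linarith only [h2]

/-- the barrier `RB` as a function of `(t,x)` -/
def RBf (q : Par) (w f : Fn) : Fn := fun t x => q.RB t (rr w f t x) (uu w f t x)

/-- (F2) for the functions of Geo.lean -/
def F2Prop : Prop := ∀ (w f : Fn) (T : ℝ), ConfSol 20 w f T → ∀ t ∈ Ioo 0 T, ∀ x ∈ Ioo (-1 : ℝ) 1,
  DT w f (RR w f) t x - Lp w f (RR w f) t x =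
    2 * E0 w f t x ^ 2 + (RR w f t x - E0 w f t x) ^ 2 / 20 + 20 * VV w f t x ^ 2

/-- the identity for the barrier -/
def RBProp : Prop := ∀ (q : Par) (w f : Fn) (T : ℝ), ConfSol 20 w f T → T ≤ 1 →
  Sm (Om T) (RBf q w f) ∧ ∀ t ∈ Ioo 0 T, ∀ x ∈ Ioo (-1 : ℝ) 1,
  DT w f (RBf q w f) t x - Lp w f (RBf q w f) t x =
    ClR.LRB q.eta (q.GR * q.eps ^ (-(2 * aa))) (tau t) (rr w f t x ^ 2) (Real.cosh (uu w f t x))
      (Real.sinh (uu w f t x)) (ZZ w f t x) (rr w f t x ^ 2 * rs w f t x * PP w f t x)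
      (rr w f t x ^ 2 * PP w f t x ^ 2)

/-- parity -/
def EvenProp : Prop := ∀ (w f : Fn) (T : ℝ), ConfSol 20 w f T → ∀ t ∈ Ico 0 T,
  ∀ x ∈ Ioo (-1 : ℝ) 1, RR w f t (-x) = RR w f t x ∧ rr w f t (-x) = rr w f t x ∧
    uu w f t (-x) = uu w f t x

/-- the pure inequalities -/
def PureProp : Prop := ∀ g : ℝ → ℝ, IsBub g → Ev fun q => 4 * q.rho0 ≤ q.N ∧
  ∀ (w f : Fn) (t x : ℝ), t ∈ Ico (0 : ℝ) 1 →
  ((FI' q g w f t x ∨ (M.FO q w f t x ∧ q.rho0 ≤ yv w f t x ∧ rr w f t x ≤ q.N)) →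
    2 * E0 w f t x ^ 2 + (RR w f t x - E0 w f t x) ^ 2 / 20 + 20 * VV w f t x ^ 2 <
    ClR.LRB q.eta (q.GR * q.eps ^ (-(2 * aa))) (tau t) (rr w f t x ^ 2) (Real.cosh (uu w f t x))
      (Real.sinh (uu w f t x)) (ZZ w f t x) (rr w f t x ^ 2 * rs w f t x * PP w f t x)
      (rr w f t x ^ 2 * PP w f t x ^ 2))
where
  FI' (q : Par) (g : ℝ → ℝ) (w f : Fn) (t x : ℝ) : Prop :=
    M.FI q g w f t x ∧ |VV w f t x| ≤ q.Vb t (uu w f t x)

/-- **M5 from its four ingredients** -/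
theorem m5_of (hF2 : F2Prop) (hRB : RBProp) (hev : EvenProp) (hp : PureProp) :
    M.M5Statement := by
  intro g hg
  refine (hp g hg).mono fun q hq w f T t₁ H t ht x hx => ?_
  obtain ⟨hN, hq⟩ := hq
  have hT := H.T_le
  have hs := H.sol
  have htT : t ∈ Ioo 0 T := ⟨ht.1, ht.2.trans_lt H.mem.2⟩
  have hx1 : x ∈ Ioo (-1 : ℝ) 1 := ⟨by linarith only [hx, hx.1], hx.2⟩
  have htI : t ∈ Icc 0 t₁ := ⟨ht.1.le, ht.2⟩
  have ht1 : t ∈ Ico (0 : ℝ) 1 := ⟨ht.1.le, htT.2.trans_le hT⟩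
  have hboot : ∀ s ∈ Icc 0 t₁, ∀ y ∈ Ico (0 : ℝ) 1, RR w f s y ≤ RBf q w f s y :=
    fun s hs y hy => (H.boot.b5 s hs y hy).b3
  by_contra hlt
  push Not at hlt
  have heq : RR w f t x = RBf q w f t x := le_antisymm (hboot t htI x hx) hlt
  have hle : ∀ᶠ z : ℝ × ℝ in 𝓝 (t, x), z.1 ≤ t → RR w f z.1 z.2 ≤ RBf q w f z.1 z.2 := by
    filter_upwards [(isOpen_Om T).mem_nhds (mem_Om htT hx1)] with z hz hzt
    have hz1 : z.1 ∈ Icc 0 t₁ := ⟨hz.1.1.le, hzt.trans ht.2⟩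
    rcases le_or_gt 0 z.2 with h | h
    · exact hboot z.1 hz1 z.2 ⟨h, hz.2.2⟩
    · have h1 := hev w f T hs z.1 ⟨hz.1.1.le, hz.1.2⟩ z.2 hz.2
      have h2 := hboot z.1 hz1 (-z.2) ⟨by linarith only [h], by linarith only [hz, hz.2.1]⟩
      rw [RBf, h1.1, h1.2.1, h1.2.2] at h2
      exact h2
  obtain ⟨hsm, hid⟩ := hRB q w f T hs hT
  have h1 := touch_sub hs (sm_RR hs) hsm htT hx1 heq hle
  rw [hid t htT x hx1, hF2 w f T hs t htT x hx1] at h1
  refine absurd (hq w f t x ht1 ?_) (not_lt.2 h1)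
  rcases le_or_gt q.rho0 (yv w f t x) with h | h
  · exact Or.inr ⟨H.fO t htI x hx h, h, H.r_le t htI x hx⟩
  · left
    have hx0 : 0 < x := by
      rcases hx.1.lt_or_eq with h' | h'
      · exact h'
      · exfalso
        rw [← h'] at h
        have h2 := H.boot.b0 t htI
        have hτ0 : 0 < tau t := by unfold tau; linarith only [ht1, ht1.2]
        have hτ1 : tau t ≤ 1 := by unfold tau; linarith only [ht1, ht1.1]
        have h3 : Real.sqrt (tau t) ≤ 1 := Real.sqrt_le_one.2 hτ1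
        have h4 : 0 < Real.sqrt (tau t) := Real.sqrt_pos.2 hτ0
        have h5 : 0 < rr w f t 0 := Real.exp_pos _
        have h6 : rr w f t 0 ≤ yv w f t 0 := by
          unfold yv
          rw [le_div_iff₀ h4]
          linarith only [mul_nonneg (sub_nonneg.2 h3) (le_of_lt (sub_pos.2 h5))]
        linarith only [hN, h, h2, h6]
    exact ⟨H.fI t htI x ⟨hx0, hx.2⟩ h.le, (H.boot.b5 t htI x hx).b2 hx0 h.le⟩

end

end Vale.Agent.P244.ST.M5F
end

section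

/-!
# P244-ST, closure R : jet calculus and the value of `(D_t - Lap) RB`

`JetAt w f Ω H t x v s l` : `H` is smooth on the open set `Ω`, `H t x = v`, `H_s = s`,
`(D_t - Lap) H = l` at the point `(t,x) ∈ Ω`.
-/

open Set Filter
open scoped ContDiff Topology

namespace Vale.Agent.P244.ST.ClR

open Vale.Agent.P244.ST

noncomputable section

section jets

variable {w f : Fn} {Ω : Set (ℝ × ℝ)} {H K : Fn} {t x : ℝ}

lemma ds_add (hΩ : IsOpen Ω) (hH : Sm Ω H) (hK : Sm Ω K) (hz : (t, x) ∈ Ω) :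
    Ds w (fun t x => H t x + K t x) t x = Ds w H t x + Ds w K t x := by
  have h1 : Dx (fun t x => H t x + K t x) t x = Dx H t x + Dx K t x :=
    ((hH.hasDeriv_x hΩ hz).add (hK.hasDeriv_x hΩ hz)).deriv
  simp only [Ds, h1]
  ring

lemma ds_mul (hΩ : IsOpen Ω) (hH : Sm Ω H) (hK : Sm Ω K) (hz : (t, x) ∈ Ω) :
    Ds w (fun t x => H t x * K t x) t x = H t x * Ds w K t x + K t x * Ds w H t x := by
  have h1 : Dx (fun t x => H t x * K t x) t x = Dx H t x * K t x + H t x * Dx K t x :=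
    ((hH.hasDeriv_x hΩ hz).mul (hK.hasDeriv_x hΩ hz)).deriv
  simp only [Ds, h1]
  ring

lemma ds_comp (hΩ : IsOpen Ω) (hH : Sm Ω H) (hz : (t, x) ∈ Ω) {h : ℝ → ℝ} {h' : ℝ}
    (hh : HasDerivAt h h' (H t x)) :
    Ds w (fun t x => h (H t x)) t x = h' * Ds w H t x := by
  have h1 : Dx (fun t x => h (H t x)) t x = h' * Dx H t x :=
    (hh.comp x (hH.hasDeriv_x hΩ hz)).deriv
  simp only [Ds, h1]
  ring

lemma dt_add' (hΩ : IsOpen Ω) (hH : Sm Ω H) (hK : Sm Ω K) (hz : (t, x) ∈ Ω) :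
    DT w f (fun t x => H t x + K t x) t x = DT w f H t x + DT w f K t x := by
  have h1 : Dx (fun t x => H t x + K t x) t x = Dx H t x + Dx K t x :=
    ((hH.hasDeriv_x hΩ hz).add (hK.hasDeriv_x hΩ hz)).deriv
  have h2 : Dt (fun t x => H t x + K t x) t x = Dt H t x + Dt K t x :=
    ((hH.hasDeriv_t hΩ hz).add (hK.hasDeriv_t hΩ hz)).deriv
  simp only [DT, h1, h2]
  ring

lemma dt_mul' (hΩ : IsOpen Ω) (hH : Sm Ω H) (hK : Sm Ω K) (hz : (t, x) ∈ Ω) :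
    DT w f (fun t x => H t x * K t x) t x = H t x * DT w f K t x + K t x * DT w f H t x := by
  have h1 : Dx (fun t x => H t x * K t x) t x = Dx H t x * K t x + H t x * Dx K t x :=
    ((hH.hasDeriv_x hΩ hz).mul (hK.hasDeriv_x hΩ hz)).deriv
  have h2 : Dt (fun t x => H t x * K t x) t x = Dt H t x * K t x + H t x * Dt K t x :=
    ((hH.hasDeriv_t hΩ hz).mul (hK.hasDeriv_t hΩ hz)).deriv
  simp only [DT, h1, h2]
  ring

lemma dt_comp' (hΩ : IsOpen Ω) (hH : Sm Ω H) (hz : (t, x) ∈ Ω) {h : ℝ → ℝ} {h' : ℝ}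
    (hh : HasDerivAt h h' (H t x)) :
    DT w f (fun t x => h (H t x)) t x = h' * DT w f H t x := by
  have h1 : Dx (fun t x => h (H t x)) t x = h' * Dx H t x :=
    (hh.comp x (hH.hasDeriv_x hΩ hz)).deriv
  have h2 : Dt (fun t x => h (H t x)) t x = h' * Dt H t x :=
    (hh.comp t (hH.hasDeriv_t hΩ hz)).deriv
  simp only [DT, h1, h2]
  ring

lemma ds_congr (hΩ : IsOpen Ω) (he : ∀ z ∈ Ω, H z.1 z.2 = K z.1 z.2) (hz : (t, x) ∈ Ω) :
    Ds w H t x = Ds w K t x := by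
  simp only [Ds, Dx_congr hΩ he hz]

/-- smoothness of `H_s` -/
lemma sm_ds (hΩ : IsOpen Ω) (hΩx : ∀ z ∈ Ω, z.2 ∈ Ioo (-1 : ℝ) 1) (hw : Sm Ω w)
    (hH : Sm Ω H) : Sm Ω (Ds w H) := by
  have h1 : Sm Ω (fun _ x => sx x) := by
    unfold sx
    refine Sm.sqrt (K := fun _ x => 1 - x ^ 2) ((Sm.const 1).sub (Sm.xvar.pow 2)) ?_
    intro z hz
    have := hΩx z hz
    have h3 : 0 < (1 - z.2) * (1 + z.2) := mul_pos (by linarith only [this, this.2]) (by linarith only [this, this.1])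
    exact ne_of_gt (by linarith only [h3])
  exact ((h1.mul hw.neg.exp).neg).mul (hH.dx hΩ)

variable (w f Ω)

/-- jets: value, `∂_s`, `D_t - Lap` -/
structure JetAt (H : Fn) (t x v s l : ℝ) : Prop where
  sm : Sm Ω H
  val : H t x = v
  ds : Ds w H t x = s
  lo : DT w f H t x - Lp w f H t x = l

variable {w f Ω}

theorem JetAt.congr_val {v s l v' s' l' : ℝ} (h : JetAt w f Ω H t x v s l) (hv : v = v')
    (hs : s = s') (hl : l = l') : JetAt w f Ω H t x v' s' l' := by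
  subst hv; subst hs; subst hl; exact h

theorem JetAt.add (hΩ : IsOpen Ω) (hΩx : ∀ z ∈ Ω, z.2 ∈ Ioo (-1 : ℝ) 1) (hw : Sm Ω w)
    (hz : (t, x) ∈ Ω) {v s l v' s' l' : ℝ} (h : JetAt w f Ω H t x v s l)
    (k : JetAt w f Ω K t x v' s' l') :
    JetAt w f Ω (fun t x => H t x + K t x) t x (v + v') (s + s') (l + l') := by
  refine ⟨h.sm.add k.sm, by rw [h.val, k.val], ?_, ?_⟩
  · rw [ds_add hΩ h.sm k.sm hz, h.ds, k.ds]
  · have h1 : Ds w (Ds w (fun t x => H t x + K t x)) t x =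
        Ds w (Ds w H) t x + Ds w (Ds w K) t x := by
      rw [ds_congr hΩ (K := fun t x => Ds w H t x + Ds w K t x)
        (fun z hz' => ds_add hΩ h.sm k.sm (t := z.1) (x := z.2) hz') hz]
      exact ds_add hΩ (sm_ds hΩ hΩx hw h.sm) (sm_ds hΩ hΩx hw k.sm) hz
    have h2 := h.lo
    have h3 := k.lo
    unfold Lp at h2 h3 ⊢
    rw [h1, dt_add' hΩ h.sm k.sm hz, ds_add hΩ h.sm k.sm hz, ← h2, ← h3]
    ring

theorem JetAt.mul (hΩ : IsOpen Ω) (hΩx : ∀ z ∈ Ω, z.2 ∈ Ioo (-1 : ℝ) 1) (hw : Sm Ω w)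
    (hz : (t, x) ∈ Ω) {v s l v' s' l' : ℝ} (h : JetAt w f Ω H t x v s l)
    (k : JetAt w f Ω K t x v' s' l') :
    JetAt w f Ω (fun t x => H t x * K t x) t x (v * v') (v * s' + v' * s)
      (v * l' + v' * l - 2 * s * s') := by
  refine ⟨h.sm.mul k.sm, by rw [h.val, k.val], ?_, ?_⟩
  · rw [ds_mul hΩ h.sm k.sm hz, h.ds, k.ds, h.val, k.val]
  · have hsH := sm_ds hΩ hΩx hw h.sm
    have hsK := sm_ds hΩ hΩx hw k.sm
    have h1 : Ds w (Ds w (fun t x => H t x * K t x)) t x =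
        H t x * Ds w (Ds w K) t x + Ds w K t x * Ds w H t x +
          (K t x * Ds w (Ds w H) t x + Ds w H t x * Ds w K t x) := by
      rw [ds_congr hΩ (K := fun t x => H t x * Ds w K t x + K t x * Ds w H t x)
        (fun z hz' => ds_mul hΩ h.sm k.sm (t := z.1) (x := z.2) hz') hz]
      rw [ds_add hΩ (h.sm.mul hsK) (k.sm.mul hsH) hz, ds_mul hΩ h.sm hsK hz,
        ds_mul hΩ k.sm hsH hz]
    have h2 := h.lo
    have h3 := k.lo
    unfold Lp at h2 h3 ⊢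
    rw [h1, dt_mul' hΩ h.sm k.sm hz, ds_mul hΩ h.sm k.sm hz, ← h2, ← h3, ← h.val, ← k.val,
      ← h.ds, ← k.ds]
    ring

theorem JetAt.comp (hΩ : IsOpen Ω) (hΩx : ∀ z ∈ Ω, z.2 ∈ Ioo (-1 : ℝ) 1) (hw : Sm Ω w)
    (hz : (t, x) ∈ Ω) {v s l : ℝ} (h : JetAt w f Ω H t x v s l) {φ φ1 : ℝ → ℝ} {φ2 : ℝ}
    (hs0 : Sm Ω (fun t x => φ (H t x))) (hs1 : Sm Ω (fun t x => φ1 (H t x)))
    (hd : ∀ z ∈ Ω, HasDerivAt φ (φ1 (H z.1 z.2)) (H z.1 z.2)) (hd2 : HasDerivAt φ1 φ2 v) :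
    JetAt w f Ω (fun t x => φ (H t x)) t x (φ v) (φ1 v * s) (φ1 v * l - φ2 * s ^ 2) := by
  have hd0 : HasDerivAt φ (φ1 (H t x)) (H t x) := hd (t, x) hz
  have hd2' : HasDerivAt φ1 φ2 (H t x) := by rw [h.val]; exact hd2
  refine ⟨hs0, by rw [h.val], ?_, ?_⟩
  · rw [ds_comp hΩ h.sm hz hd0, h.ds, h.val]
  · have hsH := sm_ds hΩ hΩx hw h.sm
    have h1 : Ds w (Ds w (fun t x => φ (H t x))) t x =
        φ1 (H t x) * Ds w (Ds w H) t x + Ds w H t x * (φ2 * Ds w H t x) := by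
      rw [ds_congr hΩ (K := fun t x => φ1 (H t x) * Ds w H t x)
        (fun z hz' => ds_comp hΩ h.sm (t := z.1) (x := z.2) hz' (hd z hz')) hz]
      rw [ds_mul hΩ hs1 hsH hz, ds_comp hΩ h.sm hz hd2']
    have h2 := h.lo
    unfold Lp at h2 ⊢
    rw [h1, dt_comp' hΩ h.sm hz hd0, ds_comp hΩ h.sm hz hd0, ← h2, ← h.val, ← h.ds]
    ring

theorem JetAt.const (c : ℝ) : JetAt w f Ω (fun _ _ => c) t x c 0 0 := by
  have h1 : ∀ t x, Dx (fun _ _ => c) t x = 0 := fun t x => deriv_const x c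
  have h2 : Dt (fun _ _ => c) t x = 0 := deriv_const t c
  have h3 : ∀ t x, Ds w (fun _ _ => c) t x = 0 := fun t x => by
    unfold Ds; rw [h1]; ring
  refine ⟨Sm.const c, rfl, h3 t x, ?_⟩
  have h4 : Ds w (Ds w fun _ _ => c) t x = 0 := by
    have : Ds w (fun _ _ => c) = fun _ _ => 0 := by funext t x; exact h3 t x
    rw [this]
    have h5 : Dx (fun _ _ => (0:ℝ)) t x = 0 := deriv_const x 0
    unfold Ds; rw [h5]; ring
  unfold DT Lp
  rw [h4, h1, h2, h3]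
  ring

theorem JetAt.time : JetAt w f Ω (fun t _ => t) t x t 0 1 := by
  have h1 : ∀ t x, Dx (fun t _ => t) t x = 0 := fun t x => deriv_const x t
  have h2 : Dt (fun t _ => t) t x = 1 := deriv_id t
  have h3 : ∀ t x, Ds w (fun t _ => t) t x = 0 := fun t x => by
    unfold Ds; rw [h1]; ring
  refine ⟨Sm.tvar, rfl, h3 t x, ?_⟩
  have h4 : Ds w (Ds w fun t _ => t) t x = 0 := by
    have : Ds w (fun t _ => t) = fun _ _ => 0 := by funext t x; exact h3 t x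
    rw [this]
    have h5 : Dx (fun _ _ => (0:ℝ)) t x = 0 := deriv_const x 0
    unfold Ds; rw [h5]; ring
  unfold DT Lp
  rw [h4, h1, h2, h3]
  ring

end jets

/-- the open domain -/
abbrev Om (T : ℝ) : Set (ℝ × ℝ) := Ioo 0 T ×ˢ Ioo (-1 : ℝ) 1

lemma Om_open (T : ℝ) : IsOpen (Om T) := isOpen_Ioo.prod isOpen_Ioo

lemma Om_x (T : ℝ) : ∀ z ∈ Om T, z.2 ∈ Ioo (-1 : ℝ) 1 := fun _ hz => hz.2

section

variable {w f : Fn} {T : ℝ}

lemma sm_w (hs : ConfSol 20 w f T) : Sm (Om T) w :=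
  hs.smooth_w.mono (prod_mono Ioo_subset_Ico_self Ioo_subset_Icc_self)

lemma sm_f (hs : ConfSol 20 w f T) : Sm (Om T) f :=
  hs.smooth_f.mono (prod_mono Ioo_subset_Ico_self Ioo_subset_Icc_self)

lemma sm_log : Sm (Om T) (fun _ x => Real.log (1 - x ^ 2)) := by
  refine Sm.log (K := fun _ x => 1 - x ^ 2) ((Sm.const 1).sub (Sm.xvar.pow 2)) ?_
  intro z hz
  have := hz.2
  have h3 : 0 < (1 - z.2) * (1 + z.2) := mul_pos (by linarith only [this, this.2]) (by linarith only [this, this.1])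
  exact ne_of_gt (by linarith only [h3])

lemma sm_uu (hs : ConfSol 20 w f T) : Sm (Om T) (uu w f) := by
  have h1 := ((sm_f hs).sub (sm_w hs)).sub (sm_log.mul (Sm.const (1 / 2)))
  refine h1.congr fun z _ => ?_
  simp only [uu]
  ring

lemma sm_rho (hs : ConfSol 20 w f T) : Sm (Om T) (rho w f) := by
  have h1 := (((sm_f hs).add (sm_w hs)).add (sm_log.mul (Sm.const (1 / 2)))).sub
    (Sm.const (Real.log zeta0))
  have h2 := h1.mul (Sm.const (1 / 2))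
  refine h2.congr fun z _ => ?_
  simp only [rho]
  ring

/-- `RB` as a function of `(t,x)` -/
def RBf (q : Par) (w f : Fn) : Fn := fun t x => q.RB t (rr w f t x) (uu w f t x)

/-- **the value of `(D_t - Lap) RB`** -/
theorem jet_RB {q : Par} (hs : ConfSol 20 w f T) (hT1 : T ≤ 1) {t x : ℝ} (hz : (t, x) ∈ Om T)
    (hu : DT w f (uu w f) t x = VV w f t x) (hρ : DT w f (rho w f) t x = yy w f t x) :
    Sm (Om T) (RBf q w f) ∧ DT w f (RBf q w f) t x - Lp w f (RBf q w f) t x =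
      LRB q.eta (q.GR * q.eps ^ (-(2 * aa))) (tau t) (rr w f t x ^ 2)
        (Real.cosh (uu w f t x)) (Real.sinh (uu w f t x)) (ZZ w f t x)
        (rr w f t x ^ 2 * rs w f t x * PP w f t x) (rr w f t x ^ 2 * PP w f t x ^ 2) := by
  have hΩ := Om_open T
  have hΩx := Om_x T
  have hw := sm_w hs
  have hr0 : ∀ t x, 0 < rr w f t x := fun t x => Real.exp_pos _
  -- the basic jets
  have ju : JetAt w f (Om T) (uu w f) t x (uu w f t x) (PP w f t x)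
      (78 * Real.sinh (uu w f t x) / rr w f t x ^ 2) := by
    refine ⟨sm_uu hs, rfl, rfl, ?_⟩
    rw [hu, VV]; ring
  have jρ : JetAt w f (Om T) (rho w f) t x (rho w f t x) (rs w f t x)
      (-(39 * Real.cosh (uu w f t x) / rr w f t x ^ 2)) := by
    refine ⟨sm_rho hs, rfl, rfl, ?_⟩
    rw [hρ, yy]; ring
  -- `r²`
  have jr : JetAt w f (Om T) (fun t x => Real.exp (rho w f t x) ) t x (rr w f t x)
      (rr w f t x * rs w f t x)
      (rr w f t x * (-(39 * Real.cosh (uu w f t x) / rr w f t x ^ 2)) -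
        rr w f t x * rs w f t x ^ 2) :=
    jρ.comp hΩ hΩx hw hz (φ := Real.exp) (φ1 := Real.exp) (sm_rho hs).exp (sm_rho hs).exp
      (fun z _ => Real.hasDerivAt_exp _) (Real.hasDerivAt_exp _)
  have hr := hr0 t x
  have jr2 : JetAt w f (Om T) (fun t x => Real.exp (rho w f t x) * Real.exp (rho w f t x)) t x
      (rr w f t x ^ 2) (2 * rr w f t x ^ 2 * rs w f t x)
      (-(78 * Real.cosh (uu w f t x)) - 4 * ZZ w f t x) := by
    refine (jr.mul hΩ hΩx hw hz jr).congr_val (by ring) (by ring) ?_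
    unfold ZZ
    field_simp
    ring
  -- `cosh u - 1`
  have jc : JetAt w f (Om T) (fun t x => Real.cosh (uu w f t x) - 1) t x
      (Real.cosh (uu w f t x) - 1) (Real.sinh (uu w f t x) * PP w f t x)
      (Real.sinh (uu w f t x) * (78 * Real.sinh (uu w f t x) / rr w f t x ^ 2) -
        Real.cosh (uu w f t x) * PP w f t x ^ 2) :=
    ju.comp hΩ hΩx hw hz (φ := fun y => Real.cosh y - 1) (φ1 := Real.sinh)
      ((sm_uu hs).cosh.sub (Sm.const 1)) (sm_uu hs).sinh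
      (fun z _ => (Real.hasDerivAt_cosh _).sub_const 1) (Real.hasDerivAt_sinh _)
  have jA := jr2.mul hΩ hΩx hw hz jc
  -- `S`
  have jτ : JetAt w f (Om T) (fun t _ => 1 + -1 * t) t x (tau t) 0 (-1) :=
    ((JetAt.const 1).add hΩ hΩx hw hz ((JetAt.const (-1)).mul hΩ hΩx hw hz JetAt.time)).congr_val
      (by unfold tau; ring) (by ring) (by ring)
  have jS : JetAt w f (Om T)
      (fun t x => (1 + -1 * t) + (1 / 100) * (Real.exp (rho w f t x) * Real.exp (rho w f t x))) t x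
      (tau t + rr w f t x ^ 2 / 100) (2 * rr w f t x ^ 2 * rs w f t x / 100)
      (-1 + (-(78 * Real.cosh (uu w f t x)) - 4 * ZZ w f t x) / 100) :=
    (jτ.add hΩ hΩx hw hz ((JetAt.const (1 / 100)).mul hΩ hΩx hw hz jr2)).congr_val
      (by ring) (by ring) (by ring)
  have hSpos : ∀ z ∈ Om T, 0 < (1 + -1 * z.1) +
      (1 / 100) * (Real.exp (rho w f z.1 z.2) * Real.exp (rho w f z.1 z.2)) := by
    intro z hz'
    have h1 : z.1 < 1 := lt_of_lt_of_le hz'.1.2 hT1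
    have h2 := Real.exp_pos (rho w f z.1 z.2)
    have h3 : 0 < (1 / 100) * (Real.exp (rho w f z.1 z.2) * Real.exp (rho w f z.1 z.2)) := by
      positivity
    linarith only [h3, h1]
  have hS0 : 0 < tau t + rr w f t x ^ 2 / 100 := by
    have := hSpos (t, x) hz
    simp only at this
    unfold tau rr
    linarith only [this]
  have jB : JetAt w f (Om T) (fun t x => ((1 + -1 * t) +
      (1 / 100) * (Real.exp (rho w f t x) * Real.exp (rho w f t x))) ^ (-gam)) t x _ _ _ :=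
    jS.comp hΩ hΩx hw hz (φ := fun y => y ^ (-gam)) (φ1 := fun y => -gam * y ^ (-gam - 1))
      (φ2 := -gam * ((-gam - 1) * (tau t + rr w f t x ^ 2 / 100) ^ (-gam - 1 - 1)))
      (jS.sm.rpow_const _ (fun z hz' => (hSpos z hz').ne'))
      ((Sm.const _).mul (jS.sm.rpow_const _ (fun z hz' => (hSpos z hz').ne')))
      (fun z hz' => Real.hasDerivAt_rpow_const (Or.inl (hSpos z hz').ne'))
      ((Real.hasDerivAt_rpow_const (Or.inl hS0.ne')).const_mul (-gam))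
  have jAB := jA.mul hΩ hΩx hw hz jB
  have jfin := ((JetAt.const q.eta).mul hΩ hΩx hw hz
    ((JetAt.const 1).add hΩ hΩx hw hz JetAt.time)).add hΩ hΩx hw hz
    ((JetAt.const (q.GR * q.eps ^ (-(2 * aa)))).mul hΩ hΩx hw hz jAB)
  have hfun : (fun t x => q.eta * (1 + t) + q.GR * q.eps ^ (-(2 * aa)) *
      (Real.exp (rho w f t x) * Real.exp (rho w f t x) * (Real.cosh (uu w f t x) - 1) *
      ((1 + -1 * t) + (1 / 100) * (Real.exp (rho w f t x) * Real.exp (rho w f t x))) ^ (-gam))) =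
      RBf q w f := by
    funext t x
    unfold RBf Par.RB rr tau
    have e1 : (1 + -1 * t) + (1 / 100) * (Real.exp (rho w f t x) * Real.exp (rho w f t x)) =
        1 - t + Real.exp (rho w f t x) ^ 2 / 100 := by ring
    rw [e1]
    ring
  rw [hfun] at jfin
  refine ⟨jfin.sm, ?_⟩
  rw [jfin.lo]
  unfold LRB
  have e2 : (-gam - 1 - 1 : ℝ) = -gam - 2 := by ring
  rw [e2]
  set S1 := (tau t + rr w f t x ^ 2 / 100) ^ (-gam) with hS1
  set S2 := (tau t + rr w f t x ^ 2 / 100) ^ (-gam - 1) with hS2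
  set S3 := (tau t + rr w f t x ^ 2 / 100) ^ (-gam - 2) with hS3
  have hc2 := Real.cosh_sq (uu w f t x)
  set c := Real.cosh (uu w f t x) with hc
  set s := Real.sinh (uu w f t x) with hs'
  set r := rr w f t x with hrd
  have hZ : ZZ w f t x = r ^ 2 * rs w f t x ^ 2 := rfl
  rw [hZ]
  have hr' : r ≠ 0 := hr.ne'
  have e3 : s * (78 * s / r ^ 2) = 78 * (c ^ 2 - 1) / r ^ 2 := by
    rw [hc2]; ring
  rw [e3]
  field_simp
  ring

end

end

end Vale.Agent.P244.ST.ClR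
end

section

/-!
# P244-ST, closure R : `PureProp` and `RBProp` of M5Fin.lean
-/

open Set Filter
open scoped ContDiff Topology

namespace Vale.Agent.P244.ST.ClR

open Vale.Agent.P244.ST Vale.Agent.P244.ST.PureF

noncomputable section

theorem pure_I {g : ℝ → ℝ} (hg : IsBub g) {q : Par} (hq : CondR q) {w f : Fn} {t x : ℝ}
    (ht : t ∈ Ico (0 : ℝ) 1) (h : M.FI q g w f t x) (hV : |VV w f t x| ≤ q.Vb t (uu w f t x)) :
    2 * E0 w f t x ^ 2 + (RR w f t x - E0 w f t x) ^ 2 / 20 + 20 * VV w f t x ^ 2 <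
    LRB q.eta (q.GR * q.eps ^ (-(2 * aa))) (tau t) (rr w f t x ^ 2) (Real.cosh (uu w f t x))
      (Real.sinh (uu w f t x)) (ZZ w f t x) (rr w f t x ^ 2 * rs w f t x * PP w f t x)
      (rr w f t x ^ 2 * PP w f t x ^ 2) := by
  have hu := h.u_pos
  have hrs := h.rs_pos
  have hg0 := g_pos hg hu
  have hq0 := qb_gt hg hu
  have hc := Real.cosh_pos (uu w f t x)
  have hτ : 0 < tau t := by unfold tau; linarith only [ht, ht.2]
  have e1 : rr w f t x ^ 2 * rs w f t x * PP w f t x = -(ZZ w f t x * GG w f t x) := by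
    unfold ZZ GG
    field_simp
  have e2 : rr w f t x ^ 2 * PP w f t x ^ 2 = ZZ w f t x * GG w f t x ^ 2 := by
    unfold ZZ GG
    field_simp
  rw [e1, e2]
  have hZ0 : 0 ≤ ZZ w f t x := by unfold ZZ; positivity
  have hZs : 0 < Zs g (uu w f t x) := by unfold Zs; have := hq0; positivity
  have hZ : ZZ w f t x ≤ 39 / 38 * Real.cosh (uu w f t x) := by
    have h1 : ZZ w f t x ≤ Zs g (uu w f t x) := by
      have h2 := h.th_le
      unfold th at h2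
      have h3 : ZZ w f t x / Zs g (uu w f t x) ≤ 1 := by linarith only [h2]
      rwa [div_le_one hZs] at h3
    refine h1.trans ?_
    unfold Zs
    rw [div_le_iff₀ (by linarith only [hq0])]
    linarith only [mul_pos (sub_pos.2 hq0) (sub_pos.2 hc)]
  have hG : GG w f t x = g (uu w f t x) * (1 - ee g w f t x) := by
    unfold ee
    field_simp
    ring
  have he : |ee g w f t x| * Real.cosh (uu w f t x) ≤ 1 / 100 := by
    have h1 := mul_le_mul_of_nonneg_right h.e_le hc.le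
    have h2 := h.eb_le
    have h3 : (1:ℝ) / 10 ^ 4 ≤ 1 / 100 := by norm_num
    linarith only [h1, h2]
  have hD3 : rr w f t x ^ 2 * Real.cosh (uu w f t x) ≤ tau t / 10 := by
    refine h.r2cosh.trans ?_
    have h1 := hq.rho_pos
    have h2 := hq.rho_le
    have h3 : q.rho0 ^ 2 ≤ 1 / 16 := by nlinarith only [h1, h2]
    nlinarith only [hτ, h1, h2, h3]
  have hE : |E0 w f t x| ≤ 3.3 * q.eta + 11 * (Zs g (uu w f t x) * g (uu w f t x) ^ 2 *
      q.fb t (uu w f t x)) := by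
    refine h.E0_le.trans (le_of_eq ?_)
    ring
  have hr1 : q.rho0 ≤ 1 := hq.rho_le.trans (by norm_num)
  exact closeR_I hg ht.2 hu hq.rho_pos hr1 hq.eps_pos hq.B_nn hq.BV_nn hq.GR_ge hq.eta_pos
    hq.eta_lt hZ0 hZ hG he hD3 hE hV h.R_nonneg h.R_le

theorem pure_O {q : Par} (hq : CondR q) {w f : Fn} {t x : ℝ}
    (ht : t ∈ Ico (0 : ℝ) 1) (h : M.FO q w f t x) (hrN : rr w f t x ≤ q.N) :
    2 * E0 w f t x ^ 2 + (RR w f t x - E0 w f t x) ^ 2 / 20 + 20 * VV w f t x ^ 2 <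
    LRB q.eta (q.GR * q.eps ^ (-(2 * aa))) (tau t) (rr w f t x ^ 2) (Real.cosh (uu w f t x))
      (Real.sinh (uu w f t x)) (ZZ w f t x) (rr w f t x ^ 2 * rs w f t x * PP w f t x)
      (rr w f t x ^ 2 * PP w f t x ^ 2) := by
  have hτ : 0 < tau t := by unfold tau; linarith only [ht, ht.2]
  have hr : 0 < rr w f t x := Real.exp_pos _
  refine closeR_O hq hτ hr hrN h.xi_le h.u_le h.P_le h.V_le ?_ h.Z_le ?_ h.R_nonneg h.R_le h.E0_le
  · unfold ZZ; positivity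
  · unfold ZZ; ring

/-- the pure inequalities -/
theorem pureProp : M5F.PureProp := by
  intro g hg
  refine ev_condR.mono fun q hq => ⟨?_, fun w f t x ht h => ?_⟩
  · linarith only [hq, hq.rho_le, hq.N_ge]
  · rcases h with h | h
    · exact pure_I hg hq ht h.1 h.2
    · exact pure_O hq ht h.1 h.2.2

/-- the two basic evolution equations -/
def BasicProp : Prop := ∀ (w f : Fn) (T : ℝ), ConfSol 20 w f T → ∀ t ∈ Ioo 0 T,
  ∀ x ∈ Ioo (-1 : ℝ) 1, DT w f (uu w f) t x = VV w f t x ∧ DT w f (rho w f) t x = yy w f t x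

theorem rbProp_of (h : BasicProp) : M5F.RBProp := by
  intro q w f T hs hT
  have key : ∀ t ∈ Ioo 0 T, ∀ x ∈ Ioo (-1 : ℝ) 1, _ := fun t ht x hx =>
    jet_RB (q := q) hs hT (⟨ht, hx⟩ : (t, x) ∈ Om T) (h w f T hs t ht x hx).1
      (h w f T hs t ht x hx).2
  refine ⟨?_, fun t ht x hx => (key t ht x hx).2⟩
  by_cases hT0 : 0 < T
  · exact (key (T / 2) ⟨by linarith only [hT0], by linarith only [hT0]⟩ 0 ⟨by norm_num, by norm_num⟩).1
  · have : M5F.Om T = ∅ := by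
      unfold M5F.Om
      rw [Ioo_eq_empty (by linarith only [hT0]), empty_prod]
    rw [this]
    exact contDiffOn_empty

end

end Vale.Agent.P244.ST.ClR
end

section

/-!
# P244-ST, block M6 : parity and the touching principle for the barriers (helper568)
-/

open Set Filter
open scoped ContDiff Topology

namespace Vale.Agent.P244.ST.M6

open Vale.Agent.P244.ST

noncomputable section

variable {w f H K : Fn} {T t x : ℝ}

/-- `H(t,-x) = σ H(t,x)` -/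
def Par' (T σ : ℝ) (H : Fn) : Prop :=
  ∀ t ∈ Ico 0 T, ∀ x ∈ Ioo (-1 : ℝ) 1, H t (-x) = σ * H t x

lemma par_Ds (h : ConfSol 20 w f T) {σ : ℝ} (hH : Par' T σ H) : Par' T (-σ) (Ds w H) := by
  intro t ht x hx
  have h1 : (fun y => H t (-y)) =ᶠ[𝓝 x] fun y => σ * H t y := by
    filter_upwards [isOpen_Ioo.mem_nhds hx] with y hy using hH t ht y hy
  have h2 := h1.deriv_eq
  rw [deriv_comp_neg, deriv_const_mul_field] at h2
  have h3 : Dx H t (-x) = -σ * Dx H t x := by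
    have e1 : Dx H t (-x) = deriv (H t) (-x) := rfl
    have e2 : Dx H t x = deriv (H t) x := rfl
    rw [e1, e2]; linarith only [h2]
  have h4 : sx (-x) = sx x := by simp only [sx, neg_sq]
  simp only [Ds, h3, h4, h.even_w t ht x (Ioo_subset_Icc_self hx)]
  ring

lemma par_uu (h : ConfSol 20 w f T) : Par' T 1 (uu w f) := by
  intro t ht x hx
  simp only [uu, h.even_w t ht x (Ioo_subset_Icc_self hx), h.even_f t ht x (Ioo_subset_Icc_self hx),
    neg_sq, one_mul]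

lemma par_rho (h : ConfSol 20 w f T) : Par' T 1 (rho w f) := by
  intro t ht x hx
  simp only [rho, h.even_w t ht x (Ioo_subset_Icc_self hx), h.even_f t ht x (Ioo_subset_Icc_self hx),
    neg_sq, one_mul]

lemma par_rr (h : ConfSol 20 w f T) : Par' T 1 (rr w f) := by
  intro t ht x hx
  rw [rr, rr, par_rho h t ht x hx, one_mul, one_mul]

lemma par_PP (h : ConfSol 20 w f T) : Par' T (-1) (PP w f) := par_Ds h (par_uu h)

lemma par_VV (h : ConfSol 20 w f T) : Par' T 1 (VV w f) := by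
  intro t ht x hx
  have h1 : Ds w (Ds w (uu w f)) t (-x) = _ := par_Ds h (par_Ds h (par_uu h)) t ht x hx
  have h2 : Ds w (uu w f) t (-x) = _ := par_Ds h (par_uu h) t ht x hx
  have h3 : Ds w (rho w f) t (-x) = _ := par_Ds h (par_rho h) t ht x hx
  rw [VV, VV, Lp, Lp, h1, h2, h3, par_uu h t ht x hx, par_rr h t ht x hx]
  ring_nf

lemma par_yv (h : ConfSol 20 w f T) : Par' T 1 (yv w f) := by
  intro t ht x hx
  rw [yv, yv, par_rr h t ht x hx, one_mul, one_mul]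

lemma par_bar (h : ConfSol 20 w f T) (C c β : ℝ) : Par' T 1 (bar w f C c β) := by
  intro t ht x hx
  rw [bar_eq, bar_eq, par_rr h t ht x hx, one_mul, one_mul]

lemma ev_yv (h : ConfSol 20 w f T) (hT : T ≤ 1) (hz : (t, x) ∈ Om T) (hy : 25 < yv w f t x) :
    ∀ᶠ z : ℝ × ℝ in 𝓝 (t, x), z ∈ Om T ∧ 25 < yv w f z.1 z.2 := by
  have h1 : ContinuousAt (fun z : ℝ × ℝ => rr w f z.1 z.2) (t, x) :=
    ((sm_rr h).at (isOpen_Om T) hz).continuousAt
  have hτ : 0 < 1 - t := by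
    have : t < T := hz.1.2
    linarith only [hT, this]
  have h2 : ContinuousAt (fun z : ℝ × ℝ => Real.sqrt (1 - z.1)) (t, x) := by fun_prop
  have h3 : ContinuousAt (fun z : ℝ × ℝ => rr w f z.1 z.2 / Real.sqrt (1 - z.1)) (t, x) :=
    h1.div h2 (Real.sqrt_pos.2 hτ).ne'
  have h4 : ∀ᶠ z : ℝ × ℝ in 𝓝 (t, x), 25 < rr w f z.1 z.2 / Real.sqrt (1 - z.1) :=
    h3.eventually (lt_mem_nhds hy)
  filter_upwards [(isOpen_Om T).mem_nhds hz, h4] with z hz1 hz2 using ⟨hz1, hz2⟩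

/-- touching principle for the barrier `bar` in region III -/
theorem touch_bar (h : ConfSol 20 w f T) (hT : T ≤ 1) (hH : Sm (Om T) H)
    (heven : ∀ t ∈ Ioo 0 T, ∀ x ∈ Ioo (-1 : ℝ) 1, |H t (-x)| = |H t x|) {C c β t₁ : ℝ}
    (ht₁ : t₁ < T)
    (hb : ∀ t ∈ Icc 0 t₁, ∀ x ∈ Ico (0 : ℝ) 1, 25 ≤ yv w f t x → |H t x| ≤ bar w f C c β t x)
    (ht : t ∈ Ioc 0 t₁) (hx : x ∈ Ico (0 : ℝ) 1) (hy : 25 < yv w f t x)
    (hle : bar w f C c β t x ≤ |H t x|) :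
    ∃ σ : ℝ, (σ = 1 ∨ σ = -1) ∧ σ * H t x = bar w f C c β t x ∧
      DT w f (bar w f C c β) t x - Lp w f (bar w f C c β) t x ≤
        σ * (DT w f H t x - Lp w f H t x) := by
  have hx' : x ∈ Ioo (-1 : ℝ) 1 := ⟨by linarith only [hx, hx.1], hx.2⟩
  have htT : t ∈ Ioo 0 T := ⟨ht.1, lt_of_le_of_lt ht.2 ht₁⟩
  have hz : (t, x) ∈ Om T := ⟨htT, hx'⟩
  have heq : |H t x| = bar w f C c β t x := le_antisymm (hb t ⟨ht.1.le, ht.2⟩ x hx hy.le) hle
  obtain ⟨σ, hσ, hσH⟩ : ∃ σ : ℝ, (σ = 1 ∨ σ = -1) ∧ σ * H t x = |H t x| := by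
    rcases le_total 0 (H t x) with h0 | h0
    · exact ⟨1, Or.inl rfl, by rw [abs_of_nonneg h0, one_mul]⟩
    · exact ⟨-1, Or.inr rfl, by rw [abs_of_nonpos h0]; ring⟩
  have hσle : ∀ a : ℝ, σ * a ≤ |a| := by
    intro a
    rcases hσ with rfl | rfl
    · rw [one_mul]; exact le_abs_self a
    · rw [neg_one_mul]; exact neg_le_abs a
  refine ⟨σ, hσ, by rw [hσH, heq], ?_⟩
  have s1 : Sm (Om T) (fun t x => σ * H t x) := (Sm.const σ).mul hH
  have s2 := sm_bar h C c β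
  have s3 : Sm (Om T) (fun t x => σ * H t x - bar w f C c β t x) := s1.sub s2
  have hnear : ∀ᶠ z : ℝ × ℝ in 𝓝 (t, x), z.1 ≤ t → σ * H z.1 z.2 - bar w f C c β z.1 z.2 ≤ 0 := by
    filter_upwards [ev_yv h hT hz hy] with z hz1 hz2
    have hzt : z.1 ∈ Ioo 0 T := hz1.1.1
    have hzx : z.2 ∈ Ioo (-1 : ℝ) 1 := hz1.1.2
    have hzc : z.1 ∈ Icc 0 t₁ := ⟨hzt.1.le, hz2.trans ht.2⟩
    have key : |H z.1 z.2| ≤ bar w f C c β z.1 z.2 := by
      rcases le_or_gt 0 z.2 with h0 | h0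
      · exact hb z.1 hzc z.2 ⟨h0, hzx.2⟩ hz1.2.le
      · have hm : -z.2 ∈ Ico (0 : ℝ) 1 := ⟨by linarith only [h0], by linarith only [hzx, hzx.1]⟩
        have e1 := par_yv h z.1 (Ioo_subset_Ico_self hzt) z.2 hzx
        have e2 := par_bar h C c β z.1 (Ioo_subset_Ico_self hzt) z.2 hzx
        have e3 := hb z.1 hzc (-z.2) hm (by rw [e1, one_mul]; exact hz1.2.le)
        rw [heven z.1 hzt z.2 hzx, e2, one_mul] at e3
        exact e3
    linarith only [hσle, key, hσle (H z.1 z.2)]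
  have ht := M.touch h htT hx' (H := fun t x => σ * H t x - bar w f C c β t x)
    ((s3.at (isOpen_Om T) hz).of_le (by norm_cast))
    (by rw [hσH, heq]; ring) hnear
  have h1 := ht.2.2.2.2.2.2
  rw [DT_sub s1 s2 hz, Lp_sub h s1 s2 hz, DT_smul σ hH hz, Lp_smul h σ hH hz] at h1
  linarith only [h1]

end

end Vale.Agent.P244.ST.M6
end

section

/-!
# P244-ST, block M6 : closure of (b5) in region III (helper568)
-/

open Set Filter
open scoped ContDiff Topology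

namespace Vale.Agent.P244.ST.M6

open Vale.Agent.P244.ST

noncomputable section

/-- the pointwise evolution identities used here -/
structure Idt (w f : Fn) (T : ℝ) : Prop where
  rho : ∀ t ∈ Ioo 0 T, ∀ x ∈ Ioo (-1 : ℝ) 1, DT w f (rho w f) t x = yy w f t x
  u : ∀ t ∈ Ioo 0 T, ∀ x ∈ Ioo (-1 : ℝ) 1, DT w f (uu w f) t x = VV w f t x
  P : ∀ t ∈ Ioo 0 T, ∀ x ∈ Ioo (-1 : ℝ) 1, DT w f (PP w f) t x = Lp w f (PP w f) t x +
    (78 * Real.cosh (uu w f t x) / rr w f t x ^ 2 - 40 * rs w f t x ^ 2 - 10 * PP w f t x ^ 2) *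
      PP w f t x - 156 * Real.sinh (uu w f t x) / rr w f t x ^ 2 * rs w f t x
  V : ∀ t ∈ Ioo 0 T, ∀ x ∈ Ioo (-1 : ℝ) 1, 10 * DT w f (VV w f) t x = 10 * Lp w f (VV w f) t x +
    10 * (78 * Real.cosh (uu w f t x) / rr w f t x ^ 2 - 20 * PP w f t x ^ 2 +
      2 * E0 w f t x) * VV w f t x +
    (-20 * rs w f t x * PP w f t x - 39 * Real.sinh (uu w f t x) / rr w f t x ^ 2) *
      (41 * E0 w f t x - RR w f t x)

/-- facts on the parameters -/
structure P6 (q : Par) : Prop where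
  rho0 : q.rho0 ≤ 25
  rho0' : 0 < q.rho0
  K1 : 0 ≤ M.K1 q
  CU : 0 < q.CU
  CP : 2 * q.CU ≤ q.CP
  CV : 2 * q.CP + 4 * q.CU ≤ q.CV
  N : 2000 ≤ q.N
  eps : 0 < q.eps
  small : M.K1 q * q.eps * q.N ^ (bb - 1) ≤ 1 / 1000

/-- pointwise data at a point of region III -/
structure Pt6 (q : Par) (w f : Fn) (t x : ℝ) : Prop where
  tau : 0 < tau t
  y : 625 * ST.tau t ≤ rr w f t x ^ 2
  Z : rr w f t x ^ 2 * rs w f t x ^ 2 ≤ 1.05
  ch : Real.cosh (uu w f t x) ≤ 1.001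
  E : |E0 w f t x| ≤ 1 / 100
  R : |RR w f t x| ≤ 1 / 100

lemma rr_pos (w f : Fn) (t x : ℝ) : 0 < rr w f t x := Real.exp_pos _

lemma pt6 {q : Par} (hq : P6 q) {w f : Fn} {t x : ℝ} (ht : t < 1) (hF : M.FO q w f t x)
    (hr : rr w f t x ≤ q.N) (hy : 25 < yv w f t x) : Pt6 q w f t x := by
  have hr0 := rr_pos w f t x
  have hτ : 0 < tau t := by unfold tau; linarith only [ht]
  have hxi0 : 0 ≤ M.xi q (rr w f t x) := (abs_nonneg _).trans hF.u_le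
  have hxi := hF.xi_le
  have hxi2 : M.xi q (rr w f t x) ^ 2 ≤ 1 / 10 ^ 12 := by nlinarith only [hxi0, hxi]
  have heta : q.eta ≤ 1 / 400 := by
    unfold Par.eta
    rw [div_le_div_iff₀ (by have := hq.N; positivity) (by norm_num)]
    nlinarith only [hq, hr, hr0, hq.N]
  refine ⟨hτ, ?_, ?_, ?_, ?_, ?_⟩
  · have hs : 0 < Real.sqrt (tau t) := Real.sqrt_pos.2 hτ
    have h1 : 25 * Real.sqrt (tau t) < rr w f t x := by
      rw [yv, lt_div_iff₀ hs] at hy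
      exact hy
    have h2 : Real.sqrt (tau t) ^ 2 = tau t := Real.sq_sqrt hτ.le
    linarith only [h2, mul_pos (sub_pos.2 hs) (sub_pos.2 h1), mul_pos (sub_pos.2 h1) (sub_pos.2 h1)]
  · have h1 := hF.Z_le
    unfold ZZ at h1
    linarith only [h1, hxi2]
  · refine m6_cosh_le ?_
    have := hF.u_le
    linarith only [hxi, this]
  · have h1 := hF.E0_le
    have h2 : M.xi q (rr w f t x) ^ 2 / rr w f t x ^ 2 ≤ 1 / 10 ^ 6 := by
      have e1 : M.xi q (rr w f t x) = M.K1 q * q.eps * rr w f t x ^ (bb - 1) * rr w f t x := by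
        unfold M.xi
        have : rr w f t x ^ bb = rr w f t x ^ (bb - 1) * rr w f t x := by
          nth_rewrite 3 [← Real.rpow_one (rr w f t x)]
          rw [← Real.rpow_add hr0]
          congr 1; ring
        rw [this]; ring
      have e2 : rr w f t x ^ (bb - 1) ≤ q.N ^ (bb - 1) :=
        Real.rpow_le_rpow hr0.le hr (by linarith only [m6_bb_bounds.1])
      have e3 : 0 ≤ M.K1 q * q.eps * rr w f t x ^ (bb - 1) := by
        have := hq.K1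
        have := hq.eps
        positivity
      have e4 : M.K1 q * q.eps * rr w f t x ^ (bb - 1) ≤ 1 / 1000 := by
        refine le_trans (mul_le_mul_of_nonneg_left e2 ?_) hq.small
        have := hq.K1
        have := hq.eps
        positivity
      rw [e1, mul_pow, mul_div_assoc, div_self (by positivity), mul_one]
      nlinarith only [hr0, hxi0, e1, e3, e4]
    have h3 : 3000 * M.xi q (rr w f t x) ^ 2 / rr w f t x ^ 2 =
        3000 * (M.xi q (rr w f t x) ^ 2 / rr w f t x ^ 2) := by ring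
    rw [h3] at h1
    linarith only [heta, h1, h2]
  · rw [abs_of_nonneg hF.R_nonneg]
    linarith only [hF, heta, hF.R_le]

lemma rpow_split {r : ℝ} (hr : 0 < r) (β : ℝ) : r ^ β = r ^ 2 * r ^ (β - 2) := by
  rw [← Real.rpow_natCast r 2, ← Real.rpow_add hr]
  congr 1
  push_cast
  ring

section

variable {q : Par} {w f : Fn} {T t x t₁ : ℝ}

lemma UB_bar : q.UB t (rr w f t x) = bar w f (q.CU * q.eps) 0 bb t x := by
  rw [bar_eq, Par.UB, zero_mul, Real.exp_zero, mul_one]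

lemma PB_bar : q.PB t (rr w f t x) = bar w f (q.CP * q.eps) 0 (bb - 1) t x := by
  rw [bar_eq, Par.PB, zero_mul, Real.exp_zero, mul_one]
  congr 4
  ring

lemma VB_bar : q.VB t (rr w f t x) = bar w f (q.CV * q.eps) 1 (bb - 2) t x := by
  rw [bar_eq, Par.VB, one_mul]
  congr 4
  ring

lemma close_u (h : ConfSol 20 w f T) (hT : T ≤ 1) (hid : Idt w f T) (hq : P6 q) (ht₁ : t₁ < T)
    (hb : ∀ t ∈ Icc 0 t₁, ∀ x ∈ Ico (0 : ℝ) 1, 25 ≤ yv w f t x →
      |uu w f t x| ≤ q.UB t (rr w f t x))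
    (ht : t ∈ Ioc 0 t₁) (hx : x ∈ Ico (0 : ℝ) 1) (hy : 25 < yv w f t x) (hp : Pt6 q w f t x) :
    |uu w f t x| < q.UB t (rr w f t x) := by
  by_contra hcon
  push Not at hcon
  have hx' : x ∈ Ioo (-1 : ℝ) 1 := ⟨by linarith only [hx, hx.1], hx.2⟩
  have htT : t ∈ Ioo 0 T := ⟨ht.1, lt_of_le_of_lt ht.2 ht₁⟩
  rw [UB_bar] at hcon
  obtain ⟨σ, hσ, h1, h2⟩ := touch_bar h hT (sm_uu h) (fun t ht x hx => by
    rw [par_uu h t (Ioo_subset_Ico_self ht) x hx, one_mul]) ht₁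
    (fun t ht x hx hy => by rw [← UB_bar]; exact hb t ht x hx hy) ht hx hy hcon
  rw [op_bar h (hid.rho t htT x hx') _ _ _ ⟨htT, hx'⟩, hid.u t htT x hx'] at h2
  have hr := rr_pos w f t x
  have ha : 0 < rr w f t x ^ (bb - 2) := Real.rpow_pos_of_pos hr _
  have hC : 0 < q.CU * q.eps := mul_pos hq.CU hq.eps
  rw [bar_eq, rpow_split hr bb, zero_mul, Real.exp_zero, mul_one] at h1
  rw [zero_mul, zero_mul, Real.exp_zero, mul_one, zero_add] at h2
  have hσle : ∀ a : ℝ, σ * a ≤ |a| := by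
    intro a
    rcases hσ with rfl | rfl
    · rw [one_mul]; exact le_abs_self a
    · rw [neg_one_mul]; exact neg_le_abs a
  have hσu : |uu w f t x| = σ * uu w f t x := by
    have hpos : 0 ≤ σ * uu w f t x := by
      rw [h1]
      have : 0 ≤ rr w f t x ^ 2 * rr w f t x ^ (bb - 2) - 300 * tau t * rr w f t x ^ (bb - 2) := by
        have h3 := hp.y
        have h4 := hp.tau
        have : 0 ≤ (rr w f t x ^ 2 - 300 * tau t) * rr w f t x ^ (bb - 2) :=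
          mul_nonneg (by linarith only [h3, h4]) ha.le
        linarith only [this]
      exact mul_nonneg hC.le this
    rcases hσ with rfl | rfl
    · rw [one_mul] at hpos ⊢; exact abs_of_nonneg hpos
    · rw [neg_one_mul] at hpos ⊢; exact abs_of_nonpos (by linarith only [hpos])
  have hS : |Real.sinh (uu w f t x)| ≤ q.CU * q.eps * (rr w f t x ^ 2 * rr w f t x ^ (bb - 2) -
      300 * tau t * rr w f t x ^ (bb - 2)) * Real.cosh (uu w f t x) := by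
    rw [← h1, ← hσu]
    exact m6_abs_sinh_le _
  refine m6_u_false m6_bb_bounds.1 m6_bb_bounds.2 (Real.one_le_cosh _) hp.ch hr hp.Z hp.tau.le hp.y
    ha hC hS (h2.trans ?_)
  have h5 : VV w f t x - Lp w f (uu w f) t x = 78 * Real.sinh (uu w f t x) / rr w f t x ^ 2 := by
    rw [VV]; ring
  rw [h5]
  have h6 : σ * (78 * Real.sinh (uu w f t x) / rr w f t x ^ 2) =
      78 * (σ * Real.sinh (uu w f t x)) / rr w f t x ^ 2 := by ring
  rw [h6]
  have := hσle (Real.sinh (uu w f t x))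
  gcongr

/-- bound of `sinh u` in region III -/
lemma sinh_bound (hq : P6 q) (hp : Pt6 q w f t x)
    (hu : |uu w f t x| ≤ q.UB t (rr w f t x)) :
    |Real.sinh (uu w f t x)| ≤ 1.001 * (q.CU * q.eps * rr w f t x ^ bb) := by
  have hr := rr_pos w f t x
  have ha : 0 < rr w f t x ^ (bb - 2) := Real.rpow_pos_of_pos hr _
  have hb : 0 < rr w f t x ^ bb := Real.rpow_pos_of_pos hr _
  have hC : 0 < q.CU * q.eps := mul_pos hq.CU hq.eps
  have h1 : q.UB t (rr w f t x) ≤ q.CU * q.eps * rr w f t x ^ bb := by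
    unfold Par.UB
    refine mul_le_mul_of_nonneg_left ?_ hC.le
    have := hp.tau
    have : 0 ≤ 300 * tau t * rr w f t x ^ (bb - 2) := by positivity
    linarith only [this]
  have h2 := m6_abs_sinh_le (uu w f t x)
  have h3 : |uu w f t x| * Real.cosh (uu w f t x) ≤ q.CU * q.eps * rr w f t x ^ bb * 1.001 :=
    mul_le_mul (hu.trans h1) hp.ch (by linarith only [Real.one_le_cosh (uu w f t x)]) (by positivity)
  linarith only [h3, h2]

/-- bound of `P` in region III -/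
lemma P_bound (hq : P6 q) (hp : Pt6 q w f t x)
    (hu : |PP w f t x| ≤ q.PB t (rr w f t x)) :
    |PP w f t x| ≤ q.CP * q.eps * rr w f t x ^ (bb - 1) := by
  have hr := rr_pos w f t x
  have ha : 0 < rr w f t x ^ (bb - 3) := Real.rpow_pos_of_pos hr _
  have hC : 0 < q.CP * q.eps := mul_pos (by linarith only [hq, hq.CP, hq.CU]) hq.eps
  refine hu.trans ?_
  unfold Par.PB
  refine mul_le_mul_of_nonneg_left ?_ hC.le
  have := hp.tau
  have : 0 ≤ 300 * tau t * rr w f t x ^ (bb - 3) := by positivity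
  linarith only [this]

lemma close_P (h : ConfSol 20 w f T) (hT : T ≤ 1) (hid : Idt w f T) (hq : P6 q) (ht₁ : t₁ < T)
    (hb : ∀ t ∈ Icc 0 t₁, ∀ x ∈ Ico (0 : ℝ) 1, 25 ≤ yv w f t x →
      |PP w f t x| ≤ q.PB t (rr w f t x))
    (ht : t ∈ Ioc 0 t₁) (hx : x ∈ Ico (0 : ℝ) 1) (hy : 25 < yv w f t x) (hp : Pt6 q w f t x)
    (hu : |uu w f t x| ≤ q.UB t (rr w f t x)) :
    |PP w f t x| < q.PB t (rr w f t x) := by
  by_contra hcon
  push Not at hcon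
  have hx' : x ∈ Ioo (-1 : ℝ) 1 := ⟨by linarith only [hx, hx.1], hx.2⟩
  have htT : t ∈ Ioo 0 T := ⟨ht.1, lt_of_le_of_lt ht.2 ht₁⟩
  rw [PB_bar] at hcon
  obtain ⟨σ, hσ, h1, h2⟩ := touch_bar h hT (sm_PP h) (fun t ht x hx => by
    rw [par_PP h t (Ioo_subset_Ico_self ht) x hx, neg_one_mul, abs_neg]) ht₁
    (fun t ht x hx hy => by rw [← PB_bar]; exact hb t ht x hx hy) ht hx hy hcon
  rw [op_bar h (hid.rho t htT x hx') _ _ _ ⟨htT, hx'⟩, hid.P t htT x hx'] at h2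
  have hr := rr_pos w f t x
  have ha : 0 < rr w f t x ^ (bb - 1 - 2) := Real.rpow_pos_of_pos hr _
  have hC : 0 < q.CP * q.eps := mul_pos (by linarith only [hq, hq.CP, hq.CU]) hq.eps
  have hCU : 0 < q.CU * q.eps := mul_pos hq.CU hq.eps
  rw [bar_eq, rpow_split hr (bb - 1), zero_mul, Real.exp_zero, mul_one] at h1
  rw [zero_mul, zero_mul, Real.exp_zero, mul_one, zero_add] at h2
  have hK0 : 0 ≤ q.CP * q.eps * (rr w f t x ^ 2 * rr w f t x ^ (bb - 1 - 2) -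
      300 * tau t * rr w f t x ^ (bb - 1 - 2)) := by
    have h3 := hp.y
    have h4 := hp.tau
    have : 0 ≤ (rr w f t x ^ 2 - 300 * tau t) * rr w f t x ^ (bb - 1 - 2) :=
      mul_nonneg (by linarith only [h3, h4]) ha.le
    exact mul_nonneg hC.le (by linarith only [this])
  have hsh : |Real.sinh (uu w f t x)| ≤
      1.001 * (q.CU * q.eps * (rr w f t x ^ 3 * rr w f t x ^ (bb - 1 - 2))) := by
    have e1 := sinh_bound hq hp hu
    have e2 : rr w f t x ^ bb = rr w f t x ^ 3 * rr w f t x ^ (bb - 1 - 2) := by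
      rw [← Real.rpow_natCast (rr w f t x) 3, ← Real.rpow_add hr]
      congr 1
      push_cast
      ring
    rwa [e2] at e1
  refine m6_P_false m6_bb_bounds.1 m6_bb_bounds.2 (Real.one_le_cosh _) hp.ch hr hp.Z hp.tau.le hp.y
    ha hC hCU.le (by linarith only [mul_nonneg (sub_nonneg.2 hq.CP) (le_of_lt (sub_pos.2 hq.eps))]) hsh le_rfl (h2.trans ?_)
  have h5 : σ * (Lp w f (PP w f) t x +
      (78 * Real.cosh (uu w f t x) / rr w f t x ^ 2 - 40 * rs w f t x ^ 2 - 10 * PP w f t x ^ 2) *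
        PP w f t x - 156 * Real.sinh (uu w f t x) / rr w f t x ^ 2 * rs w f t x -
        Lp w f (PP w f) t x) =
      78 * Real.cosh (uu w f t x) / rr w f t x ^ 2 * (σ * PP w f t x) -
      (40 * rs w f t x ^ 2 + 10 * PP w f t x ^ 2) * (σ * PP w f t x) +
      (-σ * Real.sinh (uu w f t x) * rs w f t x) * (156 / rr w f t x ^ 2) := by ring
  rw [h5, h1]
  have h6 : 0 ≤ (40 * rs w f t x ^ 2 + 10 * PP w f t x ^ 2) *
      (q.CP * q.eps * (rr w f t x ^ 2 * rr w f t x ^ (bb - 1 - 2) -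
      300 * tau t * rr w f t x ^ (bb - 1 - 2))) := mul_nonneg (by (clear * -; positivity)) hK0
  have h7 : -σ * Real.sinh (uu w f t x) * rs w f t x ≤
      |Real.sinh (uu w f t x)| * |rs w f t x| := by
    rw [← abs_mul]
    rcases hσ with rfl | rfl
    · have := neg_le_abs (Real.sinh (uu w f t x) * rs w f t x)
      linarith only [this]
    · have := le_abs_self (Real.sinh (uu w f t x) * rs w f t x)
      linarith only [this]
  have h8 : (-σ * Real.sinh (uu w f t x) * rs w f t x) * (156 / rr w f t x ^ 2) ≤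
      |Real.sinh (uu w f t x)| * |rs w f t x| * (156 / rr w f t x ^ 2) :=
    mul_le_mul_of_nonneg_right h7 (by positivity)
  have h9 : 156 * |Real.sinh (uu w f t x)| * |rs w f t x| / rr w f t x ^ 2 =
      |Real.sinh (uu w f t x)| * |rs w f t x| * (156 / rr w f t x ^ 2) := by ring
  rw [h9]
  linarith only [h8, h6]

lemma close_V (h : ConfSol 20 w f T) (hT : T ≤ 1) (hid : Idt w f T) (hq : P6 q) (ht₁ : t₁ < T)
    (hb : ∀ t ∈ Icc 0 t₁, ∀ x ∈ Ico (0 : ℝ) 1, 25 ≤ yv w f t x →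
      |VV w f t x| ≤ q.VB t (rr w f t x))
    (ht : t ∈ Ioc 0 t₁) (hx : x ∈ Ico (0 : ℝ) 1) (hy : 25 < yv w f t x) (hp : Pt6 q w f t x)
    (hu : |uu w f t x| ≤ q.UB t (rr w f t x)) (hP : |PP w f t x| ≤ q.PB t (rr w f t x)) :
    |VV w f t x| < q.VB t (rr w f t x) := by
  by_contra hcon
  push Not at hcon
  have hx' : x ∈ Ioo (-1 : ℝ) 1 := ⟨by linarith only [hx, hx.1], hx.2⟩
  have htT : t ∈ Ioo 0 T := ⟨ht.1, lt_of_le_of_lt ht.2 ht₁⟩
  rw [VB_bar] at hcon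
  obtain ⟨σ, hσ, h1, h2⟩ := touch_bar h hT (sm_VV h) (fun t ht x hx => by
    rw [par_VV h t (Ioo_subset_Ico_self ht) x hx, one_mul]) ht₁
    (fun t ht x hx hy => by rw [← VB_bar]; exact hb t ht x hx hy) ht hx hy hcon
  rw [op_bar h (hid.rho t htT x hx') _ _ _ ⟨htT, hx'⟩] at h2
  have hr := rr_pos w f t x
  obtain ⟨C, hCdef⟩ : ∃ C, C = q.CV * q.eps * Real.exp (1 * t) := ⟨_, rfl⟩
  have ha : 0 < rr w f t x ^ (bb - 2 - 2) := Real.rpow_pos_of_pos hr _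
  have hCP : 0 < q.CP := by linarith only [hq, hq.CP, hq.CU]
  have hCV : 0 < q.CV := by linarith only [hq, hCP, hq.CV, hq.CU]
  have hC : 0 < C := by
    rw [hCdef]; exact mul_pos (mul_pos hCV hq.eps) (Real.exp_pos _)
  have hCU' : 0 < q.CU * q.eps := mul_pos hq.CU hq.eps
  have hCP' : 0 < q.CP * q.eps := mul_pos hCP hq.eps
  have hbar : bar w f (q.CV * q.eps) 1 (bb - 2) t x =
      C * (rr w f t x ^ 2 * rr w f t x ^ (bb - 2 - 2) -
        300 * tau t * rr w f t x ^ (bb - 2 - 2)) := by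
    rw [bar_eq, rpow_split hr (bb - 2), hCdef]
  rw [hbar] at h1 h2
  rw [← hCdef, one_mul] at h2
  have hK0 : 0 ≤ C * (rr w f t x ^ 2 * rr w f t x ^ (bb - 2 - 2) -
      300 * tau t * rr w f t x ^ (bb - 2 - 2)) := by
    have h3 := hp.y
    have h4 := hp.tau
    have : 0 ≤ (rr w f t x ^ 2 - 300 * tau t) * rr w f t x ^ (bb - 2 - 2) :=
      mul_nonneg (by linarith only [h3, h4]) ha.le
    exact mul_nonneg hC.le (by linarith only [this])
  have hsh : |Real.sinh (uu w f t x)| ≤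
      1.001 * (q.CU * q.eps * (rr w f t x ^ 4 * rr w f t x ^ (bb - 2 - 2))) := by
    have e1 := sinh_bound hq hp hu
    have e2 : rr w f t x ^ bb = rr w f t x ^ 4 * rr w f t x ^ (bb - 2 - 2) := by
      rw [← Real.rpow_natCast (rr w f t x) 4, ← Real.rpow_add hr]
      congr 1
      push_cast
      ring
    rwa [e2] at e1
  have hPb : |PP w f t x| ≤ q.CP * q.eps * (rr w f t x ^ 3 * rr w f t x ^ (bb - 2 - 2)) := by
    have e1 := P_bound hq hp hP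
    have e2 : rr w f t x ^ (bb - 1) = rr w f t x ^ 3 * rr w f t x ^ (bb - 2 - 2) := by
      rw [← Real.rpow_natCast (rr w f t x) 3, ← Real.rpow_add hr]
      congr 1
      push_cast
      ring
    rwa [e2] at e1
  have hC2 : 2 * (q.CP * q.eps) + 4 * (q.CU * q.eps) ≤ C := by
    have e1 : 1 ≤ Real.exp (1 * t) := Real.one_le_exp (by linarith only [ht, ht.1])
    have e2 : 2 * (q.CP * q.eps) + 4 * (q.CU * q.eps) ≤ q.CV * q.eps := by
      have := mul_le_mul_of_nonneg_right hq.CV hq.eps.le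
      linarith only [this]
    have e3 : q.CV * q.eps ≤ C := by
      rw [hCdef]
      exact le_mul_of_one_le_right (mul_pos hCV hq.eps).le e1
    linarith only [e2, e3]
  refine m6_V_false m6_bb_bounds.1 m6_bb_bounds.2 (Real.one_le_cosh _) hp.ch hr hp.Z hp.tau.le hp.y
    ha hC hCU'.le hCP'.le hC2 hsh hPb hp.E hp.R le_rfl (h2.trans ?_)
  have hV := hid.V t htT x hx'
  have h5 : σ * (DT w f (VV w f) t x - Lp w f (VV w f) t x) =
      (78 * Real.cosh (uu w f t x) / rr w f t x ^ 2 + 2 * E0 w f t x) * (σ * VV w f t x) -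
      20 * PP w f t x ^ 2 * (σ * VV w f t x) +
      σ * ((-20 * rs w f t x * PP w f t x - 39 * Real.sinh (uu w f t x) / rr w f t x ^ 2) *
        ((41 * E0 w f t x - RR w f t x) / 10)) := by
    have : DT w f (VV w f) t x - Lp w f (VV w f) t x =
        (78 * Real.cosh (uu w f t x) / rr w f t x ^ 2 - 20 * PP w f t x ^ 2 +
          2 * E0 w f t x) * VV w f t x +
        (-20 * rs w f t x * PP w f t x - 39 * Real.sinh (uu w f t x) / rr w f t x ^ 2) *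
          ((41 * E0 w f t x - RR w f t x) / 10) := by linarith only [hV]
    rw [this]; ring
  rw [h5, h1]
  have h6 : 0 ≤ 20 * PP w f t x ^ 2 * (C * (rr w f t x ^ 2 * rr w f t x ^ (bb - 2 - 2) -
      300 * tau t * rr w f t x ^ (bb - 2 - 2))) := mul_nonneg (by (clear * -; positivity)) hK0
  have hσle : ∀ a : ℝ, σ * a ≤ |a| := by
    intro a
    rcases hσ with rfl | rfl
    · rw [one_mul]; exact le_abs_self a
    · rw [neg_one_mul]; exact neg_le_abs a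
  have h7 := hσle ((-20 * rs w f t x * PP w f t x -
    39 * Real.sinh (uu w f t x) / rr w f t x ^ 2) * ((41 * E0 w f t x - RR w f t x) / 10))
  have h8 : |(-20 * rs w f t x * PP w f t x - 39 * Real.sinh (uu w f t x) / rr w f t x ^ 2) *
      ((41 * E0 w f t x - RR w f t x) / 10)| ≤
      (20 * |rs w f t x| * |PP w f t x| + 39 * |Real.sinh (uu w f t x)| / rr w f t x ^ 2) *
        ((41 * |E0 w f t x| + |RR w f t x|) / 10) := by
    rw [abs_mul]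
    refine mul_le_mul ?_ ?_ (abs_nonneg _) (by (clear * - hr; positivity))
    · refine (abs_sub _ _).trans (le_of_eq ?_)
      rw [abs_mul, abs_mul, abs_div, abs_mul, abs_of_pos (pow_pos hr 2)]
      norm_num
    · rw [abs_div, abs_of_pos (show (0 : ℝ) < 10 by norm_num)]
      have := abs_sub (41 * E0 w f t x) (RR w f t x)
      rw [abs_mul, abs_of_pos (show (0 : ℝ) < 41 by norm_num)] at this
      linarith only [this]
  have h9 : (78 * Real.cosh (uu w f t x) / rr w f t x ^ 2 + 2 * E0 w f t x) *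
      (C * (rr w f t x ^ 2 * rr w f t x ^ (bb - 2 - 2) -
        300 * tau t * rr w f t x ^ (bb - 2 - 2))) ≤
      (78 * Real.cosh (uu w f t x) / rr w f t x ^ 2 + 2 * |E0 w f t x|) *
      (C * (rr w f t x ^ 2 * rr w f t x ^ (bb - 2 - 2) -
        300 * tau t * rr w f t x ^ (bb - 2 - 2))) :=
    mul_le_mul_of_nonneg_right (by linarith only [le_abs_self (E0 w f t x)]) hK0
  linarith only [h9, h8, h7, h6]

/-- closure of (b5) in region III -/
theorem m6_core {g : ℝ → ℝ} (hid : ∀ w f : Fn, ∀ T : ℝ, ConfSol 20 w f T → Idt w f T) (hq : P6 q)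
    (hi : M.Hist q g w f T t₁) : ∀ t ∈ Ioc 0 t₁, ∀ x ∈ Ico (0 : ℝ) 1, 25 < yv w f t x →
    |uu w f t x| < q.UB t (rr w f t x) ∧ |PP w f t x| < q.PB t (rr w f t x) ∧
      |VV w f t x| < q.VB t (rr w f t x) := by
  intro t ht x hx hy
  have htc : t ∈ Icc 0 t₁ := ⟨ht.1.le, ht.2⟩
  have ht1 : t < 1 := by
    have h1 := ht.2
    have h2 := hi.mem.2
    have h3 := hi.T_le
    linarith only [h1, h2, h3]
  have hp := pt6 hq ht1 (hi.fO t htc x hx (by linarith only [hq, hy, hq.rho0])) (hi.r_le t htc x hx) hy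
  have hI := hid w f T hi.sol
  have hb := (hi.boot.b5 t htc x hx).b5 hy.le
  exact ⟨close_u hi.sol hi.T_le hI hq hi.mem.2
      (fun t ht x hx hy => ((hi.boot.b5 t ht x hx).b5 hy).1) ht hx hy hp,
    close_P hi.sol hi.T_le hI hq hi.mem.2
      (fun t ht x hx hy => ((hi.boot.b5 t ht x hx).b5 hy).2.1) ht hx hy hp hb.1,
    close_V hi.sol hi.T_le hI hq hi.mem.2
      (fun t ht x hx hy => ((hi.boot.b5 t ht x hx).b5 hy).2.2) ht hx hy hp hb.1 hb.2.1⟩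

end

/-- the parameters -/
theorem ev_P6 : Ev P6 := by
  refine ⟨0, fun B hB => ?_⟩
  refine ⟨1, one_pos, fun rho0 h1 => ?_⟩
  refine ⟨0, fun BV h2 => ?_⟩
  refine ⟨0, fun MU h3 => ?_⟩
  refine ⟨0, fun MP h4 => ?_⟩
  refine ⟨0, fun MV h5 => ?_⟩
  refine ⟨1, fun CU h6 => ?_⟩
  refine ⟨2 * CU, fun CP h7 => ?_⟩
  refine ⟨2 * CP + 4 * CU, fun CV h8 => ?_⟩
  refine ⟨0, fun GR h9 => ?_⟩
  refine ⟨1, one_pos, fun sg h10 => ?_⟩
  refine ⟨1, one_pos, fun d0 h11 => ?_⟩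
  refine ⟨1, one_pos, fun rb h12 => ?_⟩
  refine ⟨2000, fun N h13 => ?_⟩
  have hρ : 0 < rho0 := h1.1
  have hCU : 0 < CU := lt_of_lt_of_le one_pos h6
  have hCP : 0 < CP := by linarith only [h6, h7, show 2 * CU ≤ CP from h7]
  have hCV : 0 < CV := by linarith only [h6, h7, h8, show 2 * CP + 4 * CU ≤ CV from h8]
  have hN : (2000 : ℝ) ≤ N := h13
  obtain ⟨K, hK⟩ : ∃ K, K = (MU + 25 * MP + 625 * MV + CU + CP + 3 * CV) / rho0 ^ 4 := ⟨_, rfl⟩
  have hK0 : 0 < K := by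
    rw [hK]
    have h3' : (0 : ℝ) ≤ MU := h3
    have h4' : (0 : ℝ) ≤ MP := h4
    have h5' : (0 : ℝ) ≤ MV := h5
    (clear * - h3 h4 h5 h6 hCP hCV hρ; positivity)
  have hNp : 0 < N ^ (bb - 1) := Real.rpow_pos_of_pos (by linarith only [h13]) _
  refine ⟨1 / (1000 * K * N ^ (bb - 1)), by positivity, fun eps h14 => ?_⟩
  have hM : M.K1 ⟨B, rho0, BV, MU, MP, MV, CU, CP, CV, GR, sg, d0, rb, N, eps⟩ = K := by
    rw [hK]; rfl
  refine ⟨le_trans h1.2 (by norm_num), hρ, by rw [hM]; exact hK0.le, hCU, h7, h8, hN, h14.1, ?_⟩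
  rw [hM]
  have h15 := h14.2
  rw [le_div_iff₀ (by positivity)] at h15
  show K * eps * N ^ (bb - 1) ≤ 1 / 1000
  have : K * eps * N ^ (bb - 1) = eps * (1000 * K * N ^ (bb - 1)) / 1000 := by ring
  rw [this]
  linarith only [h15]

/-- MODULE M6, conditional on the pointwise identities -/
theorem m6_of_idt (hid : ∀ w f : Fn, ∀ T : ℝ, ConfSol 20 w f T → Idt w f T) : M.M6Statement :=
  fun _ _ => by
    obtain ⟨B₀, h⟩ := ev_P6
    refine ⟨B₀, fun B hB => ?_⟩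
    obtain ⟨x, hx, h⟩ := h B hB
    refine ⟨x, hx, fun rho0 h1 => ?_⟩
    obtain ⟨x, h⟩ := h rho0 h1
    refine ⟨x, fun BV h1 => ?_⟩
    obtain ⟨x, h⟩ := h BV h1
    refine ⟨x, fun MU h1 => ?_⟩
    obtain ⟨x, h⟩ := h MU h1
    refine ⟨x, fun MP h1 => ?_⟩
    obtain ⟨x, h⟩ := h MP h1
    refine ⟨x, fun MV h1 => ?_⟩
    obtain ⟨x, h⟩ := h MV h1
    refine ⟨x, fun CU h1 => ?_⟩
    obtain ⟨x, h⟩ := h CU h1
    refine ⟨x, fun CP h1 => ?_⟩
    obtain ⟨x, h⟩ := h CP h1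
    refine ⟨x, fun CV h1 => ?_⟩
    obtain ⟨x, h⟩ := h CV h1
    refine ⟨x, fun GR h1 => ?_⟩
    obtain ⟨x, hx, h⟩ := h GR h1
    refine ⟨x, hx, fun sg h1 => ?_⟩
    obtain ⟨x, hx, h⟩ := h sg h1
    refine ⟨x, hx, fun d0 h1 => ?_⟩
    obtain ⟨x, hx, h⟩ := h d0 h1
    refine ⟨x, hx, fun rb h1 => ?_⟩
    obtain ⟨x, h⟩ := h rb h1
    refine ⟨x, fun N h1 => ?_⟩
    obtain ⟨x, hx, h⟩ := h N h1
    refine ⟨x, hx, fun eps h1 => ?_⟩
    intro w f T t₁ hi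
    exact m6_core hid (h eps h1) hi

end

end Vale.Agent.P244.ST.M6
end

section

/-!
# P244-ST, block M7a : the first Bernstein estimate on a parabolic window, abstract form
-/

open Set Filter Topology

namespace Vale.Agent.P244.ST.M7a

/-- `y = e^ρ / √(1-t)` -/
noncomputable def yv (t ρ : ℝ) : ℝ := Real.exp ρ / Real.sqrt (1 - t)

lemma yv_mem {y₀ y₁ t₁ : ℝ} (ht₁ : t₁ < 1) {q : ℝ × ℝ} (hq : q ∈ Win y₀ y₁ t₁) :
    y₀ ≤ yv q.1 q.2 ∧ yv q.1 q.2 ≤ y₁ := by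
  have hs : 0 < Real.sqrt (1 - q.1) := Real.sqrt_pos.2 (by linarith only [ht₁, hq, hq.1.2])
  exact ⟨(le_div_iff₀ hs).2 hq.2.1, (div_le_iff₀ hs).2 hq.2.2⟩

lemma yv_sq {t ρ : ℝ} (ht : t < 1) : Real.exp (-2 * ρ) = 1 / ((yv t ρ) ^ 2 * (1 - t)) := by
  have h1 : Real.sqrt (1 - t) ^ 2 = 1 - t := Real.sq_sqrt (by linarith only [ht])
  have h2 : (1 - t) ≠ 0 := by linarith only [ht]
  rw [yv, div_pow, h1, div_mul_cancel₀ _ h2, ← Real.exp_nat_mul, one_div, ← Real.exp_neg]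
  congr 1
  push_cast
  ring

lemma yv_hasDerivAt_rho (t ρ : ℝ) : HasDerivAt (fun ρ => yv t ρ) (yv t ρ) ρ := by
  unfold yv
  exact (Real.hasDerivAt_exp ρ).div_const _

lemma yv_hasDerivAt_t {t : ℝ} (ρ : ℝ) (ht : t < 1) :
    HasDerivAt (fun t => yv t ρ) (yv t ρ / (2 * (1 - t))) t := by
  unfold yv
  have h0 : 0 < 1 - t := by linarith only [ht]
  have hs : 0 < Real.sqrt (1 - t) := Real.sqrt_pos.2 h0
  have h1 : HasDerivAt (fun t : ℝ => 1 - t) (-1) t := by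
    simpa using (hasDerivAt_id t).const_sub 1
  have h2 := h1.sqrt h0.ne'
  have h3 := (hasDerivAt_const t (Real.exp ρ)).div h2 hs.ne'
  refine h3.congr_deriv ?_
  have h4 : Real.sqrt (1 - t) ^ 2 = 1 - t := Real.sq_sqrt h0.le
  rw [h4]
  field_simp
  ring_nf

/-- cut-off function -/
noncomputable def zt (y₀ y₁ y : ℝ) : ℝ := (y - y₀) * (y₁ - y)
/-- its first logarithmic derivative -/
noncomputable def zt1 (y₀ y₁ y : ℝ) : ℝ := y * (y₀ + y₁ - 2 * y)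
/-- its second logarithmic derivative -/
noncomputable def zt2 (y₀ y₁ y : ℝ) : ℝ := y * (y₀ + y₁ - 4 * y)

lemma zt_rho (y₀ y₁ t ρ : ℝ) :
    HasDerivAt (fun ρ => zt y₀ y₁ (yv t ρ)) (zt1 y₀ y₁ (yv t ρ)) ρ := by
  unfold zt zt1
  have h := yv_hasDerivAt_rho t ρ
  refine ((h.sub_const y₀).mul (h.const_sub y₁)).congr_deriv ?_
  ring

lemma zt1_rho (y₀ y₁ t ρ : ℝ) :
    HasDerivAt (fun ρ => zt1 y₀ y₁ (yv t ρ)) (zt2 y₀ y₁ (yv t ρ)) ρ := by
  unfold zt1 zt2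
  have h := yv_hasDerivAt_rho t ρ
  refine (h.mul ((h.const_mul 2).const_sub (y₀ + y₁))).congr_deriv ?_
  ring

lemma zt_t {t : ℝ} (y₀ y₁ ρ : ℝ) (ht : t < 1) :
    HasDerivAt (fun t => zt y₀ y₁ (yv t ρ)) (zt1 y₀ y₁ (yv t ρ) / (2 * (1 - t))) t := by
  unfold zt zt1
  have h := yv_hasDerivAt_t ρ ht
  refine ((h.sub_const y₀).mul (h.const_sub y₁)).congr_deriv ?_
  ring

lemma zt_bounds {y₀ y₁ y : ℝ} (hy₀ : 0 < y₀) (h0 : y₀ ≤ y) (h1 : y ≤ y₁) :
    |zt y₀ y₁ y| ≤ 1 + 4 * y₁ ^ 2 ∧ |zt1 y₀ y₁ y| ≤ 1 + 4 * y₁ ^ 2 ∧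
    |zt2 y₀ y₁ y| ≤ 1 + 4 * y₁ ^ 2 ∧ y ^ 2 ≤ 1 + 4 * y₁ ^ 2 := by
  have hy : 0 < y := by linarith only [hy₀, h0]
  have hy₁ : 0 < y₁ := by linarith only [hy₀, h0, h1]
  unfold zt zt1 zt2
  refine ⟨?_, ?_, ?_, ?_⟩
  · rw [abs_of_nonneg (mul_nonneg (by linarith only [h0]) (by linarith only [h1]))]
    nlinarith only [hy₀, h0, h1]
  · have : |y₀ + y₁ - 2 * y| ≤ y₁ := by rw [abs_le]; constructor <;> linarith only [hy₀, h1, h0]
    have h := abs_mul_le' (by rw [abs_of_pos hy]; exact h1 : |y| ≤ y₁) this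
    nlinarith only [h]
  · have : |y₀ + y₁ - 4 * y| ≤ 4 * y₁ := by rw [abs_le]; constructor <;> linarith only [hy₀, h0, h1]
    have h := abs_mul_le' (by rw [abs_of_pos hy]; exact h1 : |y| ≤ y₁) this
    nlinarith only [h]
  · nlinarith only [hy₀, h0, h1]

lemma pow_t {t : ℝ} (a : ℝ) (ht : t < 1) :
    HasDerivAt (fun t : ℝ => (1 - t) ^ (-a)) ((1 - t) ^ (-a) * (a / (1 - t))) t := by
  have h0 : 0 < 1 - t := by linarith only [ht]
  have h1 : HasDerivAt (fun t : ℝ => 1 - t) (-1) t := by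
    simpa using (hasDerivAt_id t).const_sub 1
  refine (h1.rpow_const (Or.inl h0.ne')).congr_deriv ?_
  rw [Real.rpow_sub_one h0.ne']
  field_simp

/-- FIRST BERNSTEIN ESTIMATE, abstract form. -/
theorem bern1_abs {m1 lam y₀ y₁ t₁ ε Bb Cc e0 e1 e2 D A1 B : ℝ} (hy₀ : 0 < y₀) (hy₁ : y₀ < y₁)
    (ht₁ : t₁ < 1) (hm1 : 0 ≤ m1) (hlam : 0 ≤ lam) (hε : 0 < ε) (he2 : 0 ≤ e2)
    (hDdef : D = 1 + 4 * y₁ ^ 2)
    (hA1 : 4 * ((2 * lam + 1) * D ^ 3 + (24 + 2 * Bb + 2 * Cc + 2 * e2) * D ^ 2) ≤ A1)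
    (hA2 : m1 * D ^ 2 ≤ A1)
    (hB : B = D ^ 2 * ((1298 + 8 * m1 + 4 * lam * D) * e0 ^ 2 + 18 * e1 ^ 2) + A1 * e0 ^ 2)
    {v w w1 w2 Z Zr ch c NL NLr : ℝ → ℝ → ℝ}
    (cv : ContinuousOn (fun q : ℝ × ℝ => v q.1 q.2) (Win y₀ y₁ t₁))
    (cw : ContinuousOn (fun q : ℝ × ℝ => w q.1 q.2) (Win y₀ y₁ t₁))
    (hv : ∀ q ∈ Win y₀ y₁ t₁, 0 < q.1 → HasDerivAt (v q.1) (w q.1 q.2) q.2)
    (hw : ∀ q ∈ Win y₀ y₁ t₁, 0 < q.1 → HasDerivAt (w q.1) (w1 q.1 q.2) q.2)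
    (hw1 : ∀ q ∈ Win y₀ y₁ t₁, 0 < q.1 → HasDerivAt (w1 q.1) (w2 q.1 q.2) q.2)
    (hvt : ∀ q ∈ Win y₀ y₁ t₁, 0 < q.1 → HasDerivAt (fun t => v t q.2)
      (Real.exp (-2 * q.2) * (Z q.1 q.2 * w1 q.1 q.2 + m1 * ch q.1 q.2 * w q.1 q.2 +
        2 * m1 * v q.1 q.2 + NL q.1 q.2)) q.1)
    (hwt : ∀ q ∈ Win y₀ y₁ t₁, 0 < q.1 → HasDerivAt (fun t => w t q.2)
      (Real.exp (-2 * q.2) * (Z q.1 q.2 * w2 q.1 q.2 +
        (Zr q.1 q.2 + m1 * ch q.1 q.2 - 2 * Z q.1 q.2) * w1 q.1 q.2 + c q.1 q.2 * w q.1 q.2 -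
        4 * m1 * v q.1 q.2 + NLr q.1 q.2)) q.1)
    (bZ1 : ∀ q ∈ Win y₀ y₁ t₁, 1 / 2 ≤ Z q.1 q.2) (bZ2 : ∀ q ∈ Win y₀ y₁ t₁, Z q.1 q.2 ≤ 2)
    (bZr : ∀ q ∈ Win y₀ y₁ t₁, |Zr q.1 q.2| ≤ 1)
    (bb : ∀ q ∈ Win y₀ y₁ t₁, |Zr q.1 q.2 + m1 * ch q.1 q.2 - 2 * Z q.1 q.2| ≤ Bb)
    (bc : ∀ q ∈ Win y₀ y₁ t₁, |c q.1 q.2| ≤ Cc)
    (bv : ∀ q ∈ Win y₀ y₁ t₁, |v q.1 q.2| ≤ e0 * (ε * (1 - q.1) ^ lam))
    (bNL : ∀ q ∈ Win y₀ y₁ t₁, |NL q.1 q.2| ≤ e1 * (ε * (1 - q.1) ^ lam))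
    (bNLr : ∀ q ∈ Win y₀ y₁ t₁, |NLr q.1 q.2| ≤ e1 * (ε * (1 - q.1) ^ lam) + e2 * |w q.1 q.2|)
    (b0 : ∀ q ∈ Win y₀ y₁ t₁, q.1 = 0 → |w q.1 q.2| ≤ e0 * ε) :
    ∀ q ∈ Win y₀ y₁ t₁, (zt y₀ y₁ (yv q.1 q.2)) ^ 2 * (w q.1 q.2) ^ 2 ≤
      B * (ε * (1 - q.1) ^ lam) ^ 2 := by
  have hy1 : 0 < y₁ := by linarith only [hy₀, hy₁]
  have hD : 1 ≤ D := by rw [hDdef]; linarith only [sq_nonneg y₁]
  -- positivity of `A1`
  have key : ∀ q ∈ Win y₀ y₁ t₁, (fun t ρ => ((zt y₀ y₁ (yv t ρ)) ^ 2 * (w t ρ) ^ 2 +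
      A1 * (v t ρ) ^ 2) * (1 - t) ^ (-(2 * lam))) q.1 q.2 ≤ B * ε ^ 2 := by
    have tpos : ∀ q ∈ Win y₀ y₁ t₁, 0 < 1 - q.1 := fun q hq => by linarith only [ht₁, hq, hq.1.2]
    have gA : ∀ q ∈ Win y₀ y₁ t₁, (1 - q.1) ^ (-(2 * lam)) * ((1 - q.1) ^ lam) ^ 2 = 1 := by
      intro q hq
      rw [← Real.rpow_natCast, ← Real.rpow_mul (tpos q hq).le, ← Real.rpow_add (tpos q hq)]
      norm_num
      rw [show -(2 * lam) + lam * 2 = 0 by ring, Real.rpow_zero]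
    by_cases hne : (Win y₀ y₁ t₁).Nonempty
    swap
    · intro q hq; exact absurd ⟨q, hq⟩ hne
    obtain ⟨qq, hqq⟩ := hne
    have hBb : 0 ≤ Bb := (abs_nonneg _).trans (bb qq hqq)
    have hCc : 0 ≤ Cc := (abs_nonneg _).trans (bc qq hqq)
    have hApos : 0 ≤ A1 := by
      have i1 : 0 ≤ Bb * D ^ 2 := by positivity
      have i2 : 0 ≤ Cc * D ^ 2 := by positivity
      have i3 : 0 ≤ e2 * D ^ 2 := by positivity
      have i4 : 0 ≤ lam * D ^ 3 := by positivity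
      have i5 : 0 ≤ D ^ 3 := by positivity
      have i6 : 0 ≤ D ^ 2 := by positivity
      linarith only [hA1, i1, i2, i3, i4, i5, i6]
    have hK : 0 ≤ 1298 + 8 * m1 + 4 * lam * D := by (clear * - hm1 hlam hD; positivity)
    -- the general passage from pointwise bounds to the bound of N
    have pass : ∀ q ∈ Win y₀ y₁ t₁, ∀ P : ℝ, P ≤ B * (ε * (1 - q.1) ^ lam) ^ 2 →
        P * (1 - q.1) ^ (-(2 * lam)) ≤ B * ε ^ 2 := by
      intro q hq P hP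
      have h1 : 0 ≤ (1 - q.1) ^ (-(2 * lam)) := (Real.rpow_pos_of_pos (tpos q hq) _).le
      have h2 := mul_le_mul_of_nonneg_right hP h1
      have h3 := gA q hq
      calc _ ≤ _ := h2
        _ = B * ε ^ 2 * ((1 - q.1) ^ (-(2 * lam)) * ((1 - q.1) ^ lam) ^ 2) := by ring
        _ = _ := by rw [h3, mul_one]
    have vsq : ∀ q ∈ Win y₀ y₁ t₁, A1 * (v q.1 q.2) ^ 2 ≤
        A1 * e0 ^ 2 * (ε * (1 - q.1) ^ lam) ^ 2 := by
      intro q hq
      have h1 := bv q hq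
      have h2 : (v q.1 q.2) ^ 2 ≤ (e0 * (ε * (1 - q.1) ^ lam)) ^ 2 := by
        rw [← sq_abs]; exact pow_le_pow_left₀ (abs_nonneg _) h1 2
      calc _ ≤ A1 * (e0 * (ε * (1 - q.1) ^ lam)) ^ 2 := mul_le_mul_of_nonneg_left h2 hApos
        _ = _ := by ring
    refine win_max (N := fun t ρ => ((zt y₀ y₁ (yv t ρ)) ^ 2 * (w t ρ) ^ 2 +
        A1 * (v t ρ) ^ 2) * (1 - t) ^ (-(2 * lam))) (N1 := fun t ρ => (2 * zt y₀ y₁ (yv t ρ) * zt1 y₀ y₁ (yv t ρ) * (w t ρ) ^ 2 +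
        2 * (zt y₀ y₁ (yv t ρ)) ^ 2 * (w t ρ * w1 t ρ) + 2 * A1 * (v t ρ * w t ρ)) *
        (1 - t) ^ (-(2 * lam)))
      (N2 := fun t ρ => ((2 * (zt1 y₀ y₁ (yv t ρ)) ^ 2 + 2 * zt y₀ y₁ (yv t ρ) *
        zt2 y₀ y₁ (yv t ρ)) * (w t ρ) ^ 2 + 8 * zt y₀ y₁ (yv t ρ) * zt1 y₀ y₁ (yv t ρ) *
        (w t ρ * w1 t ρ) + 2 * (zt y₀ y₁ (yv t ρ)) ^ 2 * ((w1 t ρ) ^ 2 + w t ρ * w2 t ρ) +
        2 * A1 * ((w t ρ) ^ 2 + v t ρ * w1 t ρ)) * (1 - t) ^ (-(2 * lam)))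
      (Nt := fun t ρ => (2 * zt y₀ y₁ (yv t ρ) * (zt1 y₀ y₁ (yv t ρ) / (2 * (1 - t))) *
        (w t ρ) ^ 2 + (zt y₀ y₁ (yv t ρ)) ^ 2 * (2 * w t ρ * (Real.exp (-2 * ρ) * (Z t ρ * w2 t ρ +
        (Zr t ρ + m1 * ch t ρ - 2 * Z t ρ) * w1 t ρ + c t ρ * w t ρ - 4 * m1 * v t ρ +
        NLr t ρ))) + A1 * (2 * v t ρ * (Real.exp (-2 * ρ) * (Z t ρ * w1 t ρ +
        m1 * ch t ρ * w t ρ + 2 * m1 * v t ρ + NL t ρ)))) * (1 - t) ^ (-(2 * lam)) +
        ((zt y₀ y₁ (yv t ρ)) ^ 2 * (w t ρ) ^ 2 + A1 * (v t ρ) ^ 2) *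
        ((1 - t) ^ (-(2 * lam)) * (2 * lam / (1 - t))))
      hy₀ hy1 ht₁ ?_ ?_ ?_ ?_ ?_ ?_
    · -- continuity
      have c1 : ContinuousOn (fun q : ℝ × ℝ => yv q.1 q.2) (Win y₀ y₁ t₁) := by
        unfold yv
        refine ContinuousOn.div (by fun_prop) (by fun_prop) fun q hq => ?_
        exact (Real.sqrt_pos.2 (tpos q hq)).ne'
      have c2 : ContinuousOn (fun q : ℝ × ℝ => zt y₀ y₁ (yv q.1 q.2)) (Win y₀ y₁ t₁) := by
        unfold zt
        exact (c1.sub continuousOn_const).mul (continuousOn_const.sub c1)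
      have c3 : ContinuousOn (fun q : ℝ × ℝ => (1 - q.1) ^ (-(2 * lam))) (Win y₀ y₁ t₁) := by
        refine ContinuousOn.rpow_const (by fun_prop) fun q hq => ?_
        exact Or.inl (tpos q hq).ne'
      exact (((c2.pow 2).mul (cw.pow 2)).add (continuousOn_const.mul (cv.pow 2))).mul c3
    · -- first derivative
      intro q hq hq0
      have d1 := zt_rho y₀ y₁ q.1 q.2
      have d2 := hw q hq hq0
      have d3 := hv q hq hq0
      have := ((((d1.pow 2).mul (d2.pow 2)).add ((d3.pow 2).const_mul A1)).mul_const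
        ((1 - q.1) ^ (-(2 * lam))))
      refine this.congr_deriv ?_
      simp only [Pi.pow_apply]
      push_cast
      ring
    · -- second derivative
      intro q hq hq0
      have d1 := zt_rho y₀ y₁ q.1 q.2
      have d1' := zt1_rho y₀ y₁ q.1 q.2
      have d2 := hw q hq hq0
      have d2' := hw1 q hq hq0
      have d3 := hv q hq hq0
      have e1' := ((d1.const_mul 2).mul d1').mul (d2.pow 2)
      have e2' := ((d1.pow 2).const_mul 2).mul (d2.mul d2')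
      have e3' := (d3.mul d2).const_mul (2 * A1)
      have := ((e1'.add e2').add e3').mul_const ((1 - q.1) ^ (-(2 * lam)))
      refine this.congr_deriv ?_
      simp only [Pi.pow_apply, Pi.mul_apply]
      push_cast
      ring
    · -- time derivative
      intro q hq hq0
      have ht' : q.1 < 1 := by linarith only [tpos, hq, tpos q hq]
      have d1 := zt_t y₀ y₁ q.2 ht'
      have d2 := hwt q hq hq0
      have d3 := hvt q hq hq0
      have d4 := pow_t (2 * lam) ht'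
      have := (((d1.pow 2).mul (d2.pow 2)).add ((d3.pow 2).const_mul A1)).mul d4
      refine this.congr_deriv ?_
      simp only [Pi.pow_apply, Pi.mul_apply, Pi.add_apply]
      push_cast
      ring
    · -- parabolic boundary
      intro q hq hbd
      refine pass q hq _ ?_
      have hBge : A1 * e0 ^ 2 ≤ B := by
        rw [hB]
        have : 0 ≤ D ^ 2 * ((1298 + 8 * m1 + 4 * lam * D) * e0 ^ 2 + 18 * e1 ^ 2) := by
          (clear * - hD hm1 hlam; positivity)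
        linarith only [this]
      have hvs := vsq q hq
      rcases hbd with h | h | h
      · have hw0 := b0 q hq h
        have hz := (zt_bounds hy₀ (yv_mem ht₁ hq).1 (yv_mem ht₁ hq).2).1
        rw [← hDdef] at hz
        have h1 : (1 - q.1) ^ lam = 1 := by rw [h]; simp
        rw [h1, mul_one] at hvs ⊢
        have h2 : (w q.1 q.2) ^ 2 ≤ (e0 * ε) ^ 2 := by
          rw [← sq_abs]; exact pow_le_pow_left₀ (abs_nonneg _) hw0 2
        have h3 : (zt y₀ y₁ (yv q.1 q.2)) ^ 2 ≤ D ^ 2 := by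
          rw [← sq_abs]; exact pow_le_pow_left₀ (abs_nonneg _) hz 2
        have h4 : (zt y₀ y₁ (yv q.1 q.2)) ^ 2 * (w q.1 q.2) ^ 2 ≤ D ^ 2 * (e0 * ε) ^ 2 :=
          mul_le_mul h3 h2 (sq_nonneg _) (sq_nonneg _)
        have h5 : D ^ 2 * (e0 * ε) ^ 2 ≤
            (D ^ 2 * ((1298 + 8 * m1 + 4 * lam * D) * e0 ^ 2 + 18 * e1 ^ 2)) * ε ^ 2 := by
          have : e0 ^ 2 ≤ (1298 + 8 * m1 + 4 * lam * D) * e0 ^ 2 + 18 * e1 ^ 2 := by
            have i1 : 0 ≤ m1 * e0 ^ 2 := by (clear * - hm1; positivity)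
            have i2 : 0 ≤ lam * D * e0 ^ 2 := by (clear * - hlam hD; positivity)
            linarith only [sq_nonneg e1, sq_nonneg e0, i2, i1]
          have h6 := mul_le_mul_of_nonneg_left this (by positivity : 0 ≤ D ^ 2 * ε ^ 2)
          calc D ^ 2 * (e0 * ε) ^ 2 = D ^ 2 * ε ^ 2 * e0 ^ 2 := by ring
            _ ≤ _ := h6
            _ = _ := by ring
        rw [hB]
        linarith only [hvs, h4, h5]
      · have hy : yv q.1 q.2 = y₀ := by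
          rw [yv, h, mul_div_cancel_right₀ _ (Real.sqrt_pos.2 (tpos q hq)).ne']
        have : zt y₀ y₁ (yv q.1 q.2) = 0 := by rw [hy]; unfold zt; ring
        rw [this]
        have h7 := mul_le_mul_of_nonneg_right hBge (sq_nonneg (ε * (1 - q.1) ^ lam))
        linarith only [hvs, h7]
      · have hy : yv q.1 q.2 = y₁ := by
          rw [yv, h, mul_div_cancel_right₀ _ (Real.sqrt_pos.2 (tpos q hq)).ne']
        have : zt y₀ y₁ (yv q.1 q.2) = 0 := by rw [hy]; unfold zt; ring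
        rw [this]
        have h7 := mul_le_mul_of_nonneg_right hBge (sq_nonneg (ε * (1 - q.1) ^ lam))
        linarith only [hvs, h7]
    · -- interior
      intro q hq hq0 h1 h2 h3
      have tq := tpos q hq
      have hg : 0 < (1 - q.1) ^ (-(2 * lam)) := Real.rpow_pos_of_pos tq _
      have yb := yv_mem ht₁ hq
      have zb := zt_bounds hy₀ yb.1 yb.2
      rw [← hDdef] at zb
      have hyp : 0 < yv q.1 q.2 := by linarith only [hy₀, yb, yb.1]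
      refine pass q hq _ ?_
      set A : ℝ := ε * (1 - q.1) ^ lam with hAdef
      have E1 := (mul_eq_zero.1 h1).resolve_right hg.ne'
      have E2 := nonpos_of_mul_nonpos_left h2 hg
      have E3 : 0 ≤ 2 * lam * (yv q.1 q.2) ^ 2 * ((zt y₀ y₁ (yv q.1 q.2)) ^ 2 * (w q.1 q.2) ^ 2 +
          A1 * (v q.1 q.2) ^ 2) + (yv q.1 q.2) ^ 2 * (zt y₀ y₁ (yv q.1 q.2)) *
          (zt1 y₀ y₁ (yv q.1 q.2)) * (w q.1 q.2) ^ 2 +
          2 * (zt y₀ y₁ (yv q.1 q.2)) ^ 2 * (w q.1 q.2) * (Z q.1 q.2 * w2 q.1 q.2 +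
          (Zr q.1 q.2 + m1 * ch q.1 q.2 - 2 * Z q.1 q.2) * w1 q.1 q.2 + c q.1 q.2 * w q.1 q.2 -
          4 * m1 * v q.1 q.2 + NLr q.1 q.2) +
          2 * A1 * v q.1 q.2 * (Z q.1 q.2 * w1 q.1 q.2 + m1 * ch q.1 q.2 * w q.1 q.2 +
          2 * m1 * v q.1 q.2 + NL q.1 q.2) := by
        simp only [yv_sq (ρ := q.2) (by linarith only [tq] : q.1 < 1)] at h3
        have hmul : 0 < (yv q.1 q.2) ^ 2 * (1 - q.1) := by (clear * - hyp tq; positivity)
        have h4 := mul_nonneg h3 hmul.le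
        refine nonneg_of_mul_nonneg_left (b := (1 - q.1) ^ (-(2 * lam))) ?_ hg
        refine h4.trans (le_of_eq ?_)
        field_simp
        ring
      have hwv := bern_pt hm1 hlam hD (sq_nonneg _) zb.2.2.2 zb.1 zb.2.1 zb.2.2.1 (bZ1 q hq)
        (bZ2 q hq) (bZr q hq) (bb q hq) (bc q hq) (bv q hq) (bNL q hq) (bNLr q hq) he2 hA1 hA2
        E1 E2 E3
      have h8 : (zt y₀ y₁ (yv q.1 q.2)) ^ 2 ≤ D ^ 2 := by
        rw [← sq_abs]; exact pow_le_pow_left₀ (abs_nonneg _) zb.1 2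
      have h9 : (zt y₀ y₁ (yv q.1 q.2)) ^ 2 * (w q.1 q.2) ^ 2 ≤ D ^ 2 *
          ((1298 + 8 * m1 + 4 * lam * D) * (e0 * A) ^ 2 + 18 * (e1 * A) ^ 2) :=
        mul_le_mul h8 hwv (sq_nonneg _) (sq_nonneg _)
      have h10 := vsq q hq
      rw [hB]
      calc _ ≤ D ^ 2 * ((1298 + 8 * m1 + 4 * lam * D) * (e0 * A) ^ 2 + 18 * (e1 * A) ^ 2) +
            A1 * e0 ^ 2 * A ^ 2 := add_le_add h9 h10
        _ = _ := by ring
  intro q hq
  have tq : 0 < 1 - q.1 := by linarith only [ht₁, hq, hq.1.2]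
  by_cases hne : (Win y₀ y₁ t₁).Nonempty
  swap
  · exact absurd ⟨q, hq⟩ hne
  have hBb : 0 ≤ Bb := (abs_nonneg _).trans (bb q hq)
  have hCc : 0 ≤ Cc := (abs_nonneg _).trans (bc q hq)
  have hApos : 0 ≤ A1 := by
    have i1 : 0 ≤ Bb * D ^ 2 := by positivity
    have i2 : 0 ≤ Cc * D ^ 2 := by positivity
    have i3 : 0 ≤ e2 * D ^ 2 := by (clear * - he2 hD; positivity)
    have i4 : 0 ≤ lam * D ^ 3 := by (clear * - hlam hD; positivity)
    have i5 : 0 ≤ D ^ 3 := by positivity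
    have i6 : 0 ≤ D ^ 2 := by positivity
    linarith only [i6, i5, i4, i3, i2, i1, hA1]
  have h := key q hq
  have hpos : 0 ≤ ((1 - q.1) ^ lam) ^ 2 := sq_nonneg _
  have h2 := mul_le_mul_of_nonneg_right h hpos
  have gA : (1 - q.1) ^ (-(2 * lam)) * ((1 - q.1) ^ lam) ^ 2 = 1 := by
    rw [← Real.rpow_natCast, ← Real.rpow_mul tq.le, ← Real.rpow_add tq]
    norm_num
    rw [show -(2 * lam) + lam * 2 = 0 by ring, Real.rpow_zero]
  have h3 : (zt y₀ y₁ (yv q.1 q.2)) ^ 2 * (w q.1 q.2) ^ 2 + A1 * (v q.1 q.2) ^ 2 ≤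
      B * (ε * (1 - q.1) ^ lam) ^ 2 := by
    calc _ = ((zt y₀ y₁ (yv q.1 q.2)) ^ 2 * (w q.1 q.2) ^ 2 + A1 * (v q.1 q.2) ^ 2) *
          ((1 - q.1) ^ (-(2 * lam)) * ((1 - q.1) ^ lam) ^ 2) := by rw [gA, mul_one]
      _ = ((zt y₀ y₁ (yv q.1 q.2)) ^ 2 * (w q.1 q.2) ^ 2 + A1 * (v q.1 q.2) ^ 2) *
          (1 - q.1) ^ (-(2 * lam)) * ((1 - q.1) ^ lam) ^ 2 := by ring
      _ ≤ _ := h2
      _ = _ := by ring
  have h4 : 0 ≤ A1 * (v q.1 q.2) ^ 2 := mul_nonneg hApos (sq_nonneg _)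
  linarith only [h3, h4]

end Vale.Agent.P244.ST.M7a
end

section

/-!
# P244-ST, block M7a : the first Bernstein estimate for the r-gauge package
-/

open Set Filter Topology
open scoped ContDiff

namespace Vale.Agent.P244.ST.M7a

open RG

/-! ### elementary inequalities -/

lemma cosh_sub_one_le {x : ℝ} (hx : |x| ≤ 1) : |Real.cosh x - 1| ≤ x ^ 2 := by
  have h1 : |Real.exp x - 1 - x| ≤ x ^ 2 := Real.abs_exp_sub_one_sub_id_le hx
  have h2 : |Real.exp (-x) - 1 - -x| ≤ (-x) ^ 2 :=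
    Real.abs_exp_sub_one_sub_id_le (by rwa [abs_neg])
  rw [Real.cosh_eq]
  rw [abs_le] at *
  constructor <;> nlinarith only [h1, h2, h1.1, h1.2, h2.1, h2.2]

lemma sinh_sub_le {x : ℝ} (hx : |x| ≤ 1) : |Real.sinh x - x| ≤ x ^ 2 := by
  have h1 : |Real.exp x - 1 - x| ≤ x ^ 2 := Real.abs_exp_sub_one_sub_id_le hx
  have h2 : |Real.exp (-x) - 1 - -x| ≤ (-x) ^ 2 :=
    Real.abs_exp_sub_one_sub_id_le (by rwa [abs_neg])
  rw [Real.sinh_eq]
  rw [abs_le] at *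
  constructor <;> nlinarith only [h1, h2, h1.1, h1.2, h2.1, h2.2]

/-- A solution `F 0` of the linear equation, with `F (j+1) = ∂_ρ (F j)`. -/
structure LinSol (m1 : ℝ) (F : ℕ → ℝ → ℝ → ℝ) (t₁ : ℝ) : Prop where
  cont : ∀ j, ContinuousOn (fun q : ℝ × ℝ => F j q.1 q.2) (Icc 0 t₁ ×ˢ univ)
  d : ∀ j, ∀ t ∈ Icc 0 t₁, ∀ ρ, HasDerivAt (F j t) (F (j + 1) t ρ) ρ
  dt0 : ∀ t ∈ Icc 0 t₁, ∀ ρ, HasDerivAt (fun t => F 0 t ρ)
    (Real.exp (-2 * ρ) * (F 2 t ρ + m1 * F 1 t ρ + 2 * m1 * F 0 t ρ)) t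
  dt1 : ∀ t ∈ Icc 0 t₁, ∀ ρ, HasDerivAt (fun t => F 1 t ρ)
    (Real.exp (-2 * ρ) * (F 3 t ρ + m1 * F 2 t ρ + 2 * m1 * F 1 t ρ -
      2 * (F 2 t ρ + m1 * F 1 t ρ + 2 * m1 * F 0 t ρ))) t

lemma scm {m1 x B : ℝ} (hm1 : 0 ≤ m1) (hx : |x| ≤ B) : |m1 * x| ≤ m1 * B := by
  rw [abs_mul, abs_of_nonneg hm1]
  exact mul_le_mul_of_nonneg_left hx hm1

/-- pointwise bounds, `U` part -/
lemma U_bounds {U h : ℝ} (hh1 : h ≤ 1) (bU : |U| ≤ h) :
    |Real.cosh U - 1| ≤ h ∧ |Real.sinh U - U| ≤ h * |U| ∧ |Real.sinh U| ≤ 2 * h := by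
  have h0 : 0 ≤ h := (abs_nonneg _).trans bU
  have hU1' : |U| ≤ 1 := bU.trans hh1
  have hU2 : U ^ 2 ≤ h * |U| := by
    rw [← sq_abs, sq]; exact mul_le_mul_of_nonneg_right bU (abs_nonneg _)
  have hUh : h * |U| ≤ h * 1 := mul_le_mul_of_nonneg_left hU1' h0
  have ch := cosh_sub_one_le hU1'
  have sh := sinh_sub_le hU1'
  have sh1 : |Real.sinh U - U| ≤ h * |U| := sh.trans hU2
  refine ⟨by linarith only [hU2, hUh, ch], sh1, ?_⟩
  have := abs_add_le (Real.sinh U - U) U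
  rw [sub_add_cancel] at this
  linarith only [bU, hU2, hUh, sh, this]

/-- pointwise bounds, `Z` part -/
lemma Z_bounds {m1 m c U1 Z Zr R2 h : ℝ} (hm1 : 1 ≤ m1) (hm : 1 ≤ m)
    (hh : h ≤ 1 / (2 * m1 + 4))
    (hZr : Zr = m1 * (c - Z) - Z * U1 ^ 2 / 4 - R2 / m)
    (ch2 : |c - 1| ≤ h) (bU1 : |U1| ≤ h) (bZ : |Z - 1| ≤ h) (bR : |R2| ≤ h) :
    1 / 2 ≤ Z ∧ Z ≤ 2 ∧ |Zr| ≤ (2 * m1 + 2) * h ∧ |Zr| ≤ 1 ∧ |Zr + m1 * c - 2 * Z| ≤
      2 * m1 + 5 := by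
  have hm1' : 0 ≤ m1 := by linarith only [hm1]
  have h0 : 0 ≤ h := (abs_nonneg _).trans bU1
  have hh' : h * (2 * m1 + 4) ≤ 1 := by
    rwa [le_div_iff₀ (by linarith only [hm1])] at hh
  have hm1h : h * 1 ≤ h * m1 := mul_le_mul_of_nonneg_left hm1 h0
  have hh1 : h ≤ 1 := by linarith only [hh', hm1h]
  have hh6 : 6 * h ≤ 1 := by linarith only [hh', hm1h]
  have hhh : h * h ≤ h * 1 := mul_le_mul_of_nonneg_left hh1 h0
  have Z1 : 1 / 2 ≤ Z := by linarith only [bZ, hh', hm1h, (abs_le.1 bZ).1]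
  have Z2 : Z ≤ 2 := by linarith only [bZ, hh', hm1h, (abs_le.1 bZ).2]
  have aZ : |Z| ≤ 2 := by rw [abs_of_nonneg (by linarith only [Z1])]; exact Z2
  have U1sq : |U1 ^ 2| ≤ h := by
    rw [sq]
    exact (abs_mul_le' bU1 bU1).trans (by linarith only [hhh])
  have a1 : |m1 * (c - Z)| ≤ m1 * (2 * h) := by
    refine scm hm1' ?_
    have := abs_sub (c - 1) (Z - 1)
    rw [sub_sub_sub_cancel_right] at this
    linarith only [ch2, bZ, this]
  have a2 : |Z * U1 ^ 2| ≤ 2 * h := abs_mul_le' aZ U1sq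
  have a3 : |R2 / m| ≤ h := by
    rw [abs_div, abs_of_pos (by linarith only [hm] : (0:ℝ) < m), div_le_iff₀ (by linarith only [hm])]
    have : h * 1 ≤ h * m := mul_le_mul_of_nonneg_left hm h0
    linarith only [bR, this]
  have Zr1 : |Zr| ≤ (2 * m1 + 2) * h := by
    rw [hZr]
    rw [abs_le] at a1 a2 a3 ⊢
    constructor <;> linarith only [h0, a1, a2, a3, a1.1, a1.2, a2.1, a2.2, a3.1, a3.2]
  have Zr2 : |Zr| ≤ 1 := Zr1.trans (by linarith only [h0, hh'])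
  refine ⟨Z1, Z2, Zr1, Zr2, ?_⟩
  have a4 : |m1 * (c - 1)| ≤ m1 * 1 := scm hm1' (ch2.trans hh1)
  rw [abs_le] at Zr2 a4 ⊢
  constructor <;> linarith only [hm1, Z2, Zr2, a4, Z1, Zr2.1, Zr2.2, a4.1, a4.2]

lemma c_bound {m1 U U1 h : ℝ} (hm1 : 0 ≤ m1) (hh1 : h ≤ 1) (bU : |U| ≤ h) (bU1 : |U1| ≤ h) :
    |m1 * Real.sinh U * U1 + 2 * m1 - 2 * m1 * Real.cosh U| ≤ 4 * m1 := by
  obtain ⟨ch2, -, sh2⟩ := U_bounds hh1 bU
  have h0 : 0 ≤ h := (abs_nonneg _).trans bU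
  have nl6 : |Real.sinh U * U1| ≤ 2 := by
    refine (abs_mul_le' sh2 bU1).trans ?_
    have : h * h ≤ 1 * 1 := mul_le_mul hh1 hh1 h0 zero_le_one
    linarith only [this]
  have a1 := scm hm1 nl6
  have a2 := scm hm1 (ch2.trans hh1)
  rw [show m1 * Real.sinh U * U1 + 2 * m1 - 2 * m1 * Real.cosh U =
    m1 * (Real.sinh U * U1) - 2 * (m1 * (Real.cosh U - 1)) by ring]
  rw [abs_le] at a1 a2 ⊢
  constructor <;> linarith only [a1, a2, a1.1, a1.2, a2.1, a2.2]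

lemma NL_bound0 {m1 U Z F0 F1 F2 v h CF A : ℝ} (hm1 : 0 ≤ m1) (hh1 : h ≤ 1)
    (hv : v = U - F0) (bU : |U| ≤ h) (bZ : |Z - 1| ≤ h)
    (bF0 : |F0| ≤ CF * A) (bF1 : |F1| ≤ CF * A) (bF2 : |F2| ≤ CF * A) (bv : |v| ≤ A) :
    |(Z - 1) * F2 + m1 * (Real.cosh U - 1) * F1 + 2 * m1 * (Real.sinh U - U)| ≤
      (CF * (3 * m1 + 1) + 2 * m1) * h * A := by
  obtain ⟨ch2, sh1, -⟩ := U_bounds hh1 bU
  have h0 : 0 ≤ h := (abs_nonneg _).trans bU
  have aU : |U| ≤ (1 + CF) * A := by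
    have : U = v + F0 := by rw [hv]; ring
    rw [this]
    exact (abs_add_le _ _).trans (by linarith only [bF0, bv])
  have nl1 : |(Z - 1) * F2| ≤ h * (CF * A) := abs_mul_le' bZ bF2
  have nl2 : |(Real.cosh U - 1) * F1| ≤ h * (CF * A) := abs_mul_le' ch2 bF1
  have nl3 : |Real.sinh U - U| ≤ h * ((1 + CF) * A) :=
    sh1.trans (mul_le_mul_of_nonneg_left aU h0)
  have b2 := scm hm1 nl2
  have b3 := scm hm1 nl3
  rw [show (Z - 1) * F2 + m1 * (Real.cosh U - 1) * F1 + 2 * m1 * (Real.sinh U - U) =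
    (Z - 1) * F2 + m1 * ((Real.cosh U - 1) * F1) + 2 * (m1 * (Real.sinh U - U)) by ring]
  rw [abs_le] at nl1 b2 b3 ⊢
  constructor <;> linarith only [nl1, b2, b3, nl1.1, nl1.2, b2.1, b2.2, b3.1, b3.2]

lemma NL_bound1 {m1 U U1 Z Zr F1 F2 F3 w h CF A : ℝ} (hm1 : 0 ≤ m1) (hh1 : h ≤ 1)
    (hw : w = U1 - F1) (bU : |U| ≤ h) (bU1 : |U1| ≤ h) (bZ : |Z - 1| ≤ h)
    (Zr1 : |Zr| ≤ (2 * m1 + 2) * h)
    (bF1 : |F1| ≤ CF * A) (bF2 : |F2| ≤ CF * A) (bF3 : |F3| ≤ CF * A) :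
    |Zr * F2 + (Z - 1) * F3 + m1 * Real.sinh U * U1 * F1 + m1 * (Real.cosh U - 1) * F2 +
      2 * m1 * (Real.cosh U - 1) * U1| ≤ CF * (7 * m1 + 3) * h * A + 2 * m1 * |w| := by
  obtain ⟨ch2, -, sh2⟩ := U_bounds hh1 bU
  have h0 : 0 ≤ h := (abs_nonneg _).trans bU
  have aU1 : |U1| ≤ |w| + CF * A := by
    have : U1 = w + F1 := by rw [hw]; ring
    rw [this]
    exact (abs_add_le _ _).trans (by linarith only [bF1])
  have nl4 : |Zr * F2| ≤ (2 * m1 + 2) * h * (CF * A) := abs_mul_le' Zr1 bF2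
  have nl5 : |(Z - 1) * F3| ≤ h * (CF * A) := abs_mul_le' bZ bF3
  have nl6 : |Real.sinh U * U1| ≤ 2 * h := by
    refine (abs_mul_le' sh2 bU1).trans ?_
    have : h * h ≤ h * 1 := mul_le_mul_of_nonneg_left hh1 h0
    linarith only [this]
  have nl7 : |Real.sinh U * U1 * F1| ≤ 2 * h * (CF * A) := abs_mul_le' nl6 bF1
  have nl8 : |(Real.cosh U - 1) * F2| ≤ h * (CF * A) := abs_mul_le' ch2 bF2
  have nl9 : |(Real.cosh U - 1) * U1| ≤ h * (|w| + CF * A) := abs_mul_le' ch2 aU1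
  have b3 := scm hm1 nl7
  have b4 := scm hm1 nl8
  have b5 := scm hm1 nl9
  have i4 : m1 * (h * |w|) ≤ m1 * |w| := by
    refine mul_le_mul_of_nonneg_left ?_ hm1
    calc h * |w| ≤ 1 * |w| := mul_le_mul_of_nonneg_right hh1 (abs_nonneg _)
      _ = |w| := one_mul _
  rw [show (Zr * F2 + (Z - 1) * F3 + m1 * Real.sinh U * U1 * F1 +
      m1 * (Real.cosh U - 1) * F2 + 2 * m1 * (Real.cosh U - 1) * U1) =
      Zr * F2 + (Z - 1) * F3 + m1 * (Real.sinh U * U1 * F1) +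
      m1 * ((Real.cosh U - 1) * F2) + 2 * (m1 * ((Real.cosh U - 1) * U1)) by ring]
  rw [abs_le] at nl4 nl5 b3 b4 b5 ⊢
  constructor <;> linarith only [nl4, nl5, b3, b4, b5, i4, nl4.1, nl4.2, nl5.1, nl5.2, b3.1, b3.2, b4.1, b4.2, b5.1, b5.2]

/-- pointwise bounds of the nonlinear terms -/
lemma NL_bounds {m1 U U1 Z Zr F0 F1 F2 F3 v w h CF A : ℝ} (hm1 : 0 ≤ m1) (hh1 : h ≤ 1)
    (hCF : 0 ≤ CF) (hA : 0 ≤ A) (hv : v = U - F0) (hw : w = U1 - F1)
    (bU : |U| ≤ h) (bU1 : |U1| ≤ h) (bZ : |Z - 1| ≤ h) (Zr1 : |Zr| ≤ (2 * m1 + 2) * h)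
    (bF0 : |F0| ≤ CF * A) (bF1 : |F1| ≤ CF * A) (bF2 : |F2| ≤ CF * A) (bF3 : |F3| ≤ CF * A)
    (bv : |v| ≤ A) :
    |(Z - 1) * F2 + m1 * (Real.cosh U - 1) * F1 + 2 * m1 * (Real.sinh U - U)| ≤
      (CF * (13 * m1 + 5) + 4 * m1) * h * A ∧
    |(Zr * F2 + (Z - 1) * F3 + m1 * Real.sinh U * U1 * F1 + m1 * (Real.cosh U - 1) * F2 +
      2 * m1 * (Real.cosh U - 1) * U1) - 2 * ((Z - 1) * F2 + m1 * (Real.cosh U - 1) * F1 +
      2 * m1 * (Real.sinh U - U))| ≤ (CF * (13 * m1 + 5) + 4 * m1) * h * A + 2 * m1 * |w| := by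
  have h0 : 0 ≤ h := (abs_nonneg _).trans bU
  have n0 := NL_bound0 hm1 hh1 hv bU bZ bF0 bF1 bF2 bv
  have n1 := NL_bound1 hm1 hh1 hw bU bU1 bZ Zr1 bF1 bF2 bF3
  have i1 : 0 ≤ CF * h * A := by positivity
  have i2 : 0 ≤ m1 * (CF * h * A) := by positivity
  have i3 : 0 ≤ m1 * (h * A) := by positivity
  refine ⟨n0.trans ?_, (abs_sub _ _).trans ?_⟩
  · linarith only [i1, i2, i3]
  · rw [abs_mul, abs_two]
    linarith only [n0, n1]

/-- time derivative of `U1` -/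
lemma RSol.dt1 {p : ℕ} {w f : ℝ → ℝ → ℝ} {T : ℝ} {X U U1 U2 Z R : ℝ → ℝ → ℝ}
    (hR : RSol p w f T X U U1 U2 Z R) {q : ℝ × ℝ} (hq : q ∈ reg p w f (Ioo 0 T)) :
    HasDerivAt (fun t => U1 t q.2)
      (Real.exp (-2 * q.2) * ((((2 * (p : ℝ) - 1) * (Real.cosh (U q.1 q.2) - Z q.1 q.2) -
        Z q.1 q.2 * (U1 q.1 q.2) ^ 2 / 4 - Real.exp (2 * q.2) * R q.1 q.2 / (2 * p)) * U2 q.1 q.2 +
        Z q.1 q.2 * deriv (U2 q.1) q.2 + (2 * (p : ℝ) - 1) * (Real.sinh (U q.1 q.2) *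
        U1 q.1 q.2 ^ 2 + Real.cosh (U q.1 q.2) * U2 q.1 q.2) +
        2 * (2 * (p : ℝ) - 1) * (Real.cosh (U q.1 q.2) * U1 q.1 q.2)) -
        2 * (Z q.1 q.2 * U2 q.1 q.2 + (2 * (p : ℝ) - 1) * Real.cosh (U q.1 q.2) * U1 q.1 q.2 +
        2 * (2 * (p : ℝ) - 1) * Real.sinh (U q.1 q.2)))) q.1 := by
  have hsub : reg p w f (Ioo 0 T) ⊆ reg p w f (Ico 0 T) := fun q hq => ⟨Ioo_subset_Ico_self hq.1, hq.2⟩
  have hq' := hsub hq
  refine mixed_deriv hR.isOpen_reg hR.smooth_U (G1 := U1)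
    (Gt := fun t ρ => Real.exp (-2 * ρ) * (Z t ρ * U2 t ρ +
      (2 * (p : ℝ) - 1) * Real.cosh (U t ρ) * U1 t ρ + 2 * (2 * (p : ℝ) - 1) * Real.sinh (U t ρ)))
    (fun q hq => hR.d1 q (hsub hq)) (fun q hq => hR.dt q hq) hq ?_
  have dU := hR.d1 q hq'
  have dU1 := hR.d2 q hq'
  have dZ := hR.dZ q hq'
  have dU2 := exists_deriv_rho hR.isOpen_reg hR.smooth_U2 q hq
  have de : HasDerivAt (fun ρ : ℝ => Real.exp (-2 * ρ)) (-2 * Real.exp (-2 * q.2)) q.2 := by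
    have h1 : HasDerivAt (fun ρ : ℝ => -2 * ρ) (-2) q.2 := by
      simpa using (hasDerivAt_id q.2).const_mul (-2)
    refine h1.exp.congr_deriv ?_
    ring
  have h1 := ((dZ.mul dU2).add ((dU.cosh.const_mul (2 * (p : ℝ) - 1)).mul dU1)).add
    (dU.sinh.const_mul (2 * (2 * (p : ℝ) - 1)))
  refine (de.mul h1).congr_deriv ?_
  simp only [Pi.add_apply, Pi.mul_apply]
  ring

/-- FIRST BERNSTEIN ESTIMATE (r-gauge). -/
theorem bern1 {p : ℕ} (hp : 2 ≤ p) {y₀ y₁ lam CF : ℝ} (hy₀ : 0 < y₀) (hy₁ : y₀ < y₁)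
    (hlam : 0 ≤ lam) (hCF : 0 ≤ CF) :
    ∃ C h₀ : ℝ, 0 < C ∧ 0 < h₀ ∧ ∀ (w f : ℝ → ℝ → ℝ) (T : ℝ) (X U U1 U2 Z R : ℝ → ℝ → ℝ),
      RSol p w f T X U U1 U2 Z R → ∀ (F : ℕ → ℝ → ℝ → ℝ) (t₁ ε δ h : ℝ), t₁ < 1 → t₁ < T →
      LinSol (2 * (p : ℝ) - 1) F t₁ → 0 < ε → δ ≤ 1 → h ≤ h₀ →
      Win y₀ y₁ t₁ ⊆ reg p w f (Ico 0 T) →
      (∀ q ∈ Win y₀ y₁ t₁, ∀ j ≤ 3, |F j q.1 q.2| ≤ CF * (ε * (1 - q.1) ^ lam)) →
      (∀ q ∈ Win y₀ y₁ t₁, |U q.1 q.2| ≤ h ∧ |U1 q.1 q.2| ≤ h ∧ |Z q.1 q.2 - 1| ≤ h ∧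
        |Real.exp (2 * q.2) * R q.1 q.2| ≤ h) →
      (∀ q ∈ Win y₀ y₁ t₁, |U q.1 q.2 - F 0 q.1 q.2| ≤ δ * (ε * (1 - q.1) ^ lam)) →
      (∀ q ∈ Win y₀ y₁ t₁, q.1 = 0 → |U1 q.1 q.2 - F 1 q.1 q.2| ≤ δ * ε) →
      ∀ q ∈ Win (2 * y₀) (y₁ / 2) t₁,
        |U1 q.1 q.2 - F 1 q.1 q.2| ≤ C * (δ + h) * (ε * (1 - q.1) ^ lam) := by
  have hp' : (2 : ℝ) ≤ p := by exact_mod_cast hp
  set m1 : ℝ := 2 * (p : ℝ) - 1 with hm1def
  have hm1 : 1 ≤ m1 := by rw [hm1def]; linarith only [hp']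
  have hm1' : 0 ≤ m1 := by linarith only [hp']
  set D : ℝ := 1 + 4 * y₁ ^ 2 with hD
  set A1 : ℝ := max (4 * ((2 * lam + 1) * D ^ 3 + (24 + 2 * (2 * m1 + 5) + 2 * (4 * m1) +
    2 * (2 * m1)) * D ^ 2)) (m1 * D ^ 2) with hA1def
  set C5 : ℝ := CF * (13 * m1 + 5) + 4 * m1 with hC5
  have hDpos : 0 < D := by positivity
  have hA1pos : 0 ≤ A1 := le_max_of_le_right (by positivity)
  have hC5pos : 0 ≤ C5 := by positivity
  set K : ℝ := D ^ 2 * ((1298 + 8 * m1 + 4 * lam * D) + 18 * C5 ^ 2) + A1 with hK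
  have hKpos : 0 ≤ K := by (clear * - hm1 hlam hCF; positivity)
  have hy1 : 0 < y₁ := by linarith only [hy₀, hy₁]
  refine ⟨Real.sqrt K / (y₀ * y₁ / 2) + 1, 1 / (2 * m1 + 4), by (clear * - hy1 hm1 hlam hCF hy₀; positivity), by positivity, ?_⟩
  intro w f T X U U1 U2 Z R hR F t₁ ε δ h ht₁ htT hF hε hδ hh hsub bF bnd bv b0 q hq
  have hq' : q ∈ Win y₀ y₁ t₁ := by
    refine ⟨hq.1, le_trans ?_ hq.2.1, hq.2.2.trans ?_⟩
    · have := Real.sqrt_nonneg (1 - q.1)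
      linarith only [mul_nonneg (le_of_lt (sub_pos.2 hy₀)) (sub_nonneg.2 this)]
    · have := Real.sqrt_nonneg (1 - q.1)
      linarith only [mul_nonneg (le_of_lt (sub_pos.2 hy₁)) (sub_nonneg.2 this), mul_nonneg (le_of_lt (sub_pos.2 hy₀)) (sub_nonneg.2 this)]
  have h0 : 0 ≤ h := (abs_nonneg _).trans (bnd q hq').1
  have hh1 : h ≤ 1 := hh.trans (by rw [div_le_one (by linarith only [hp'])]; linarith only [hp'])
  have tpos : ∀ q ∈ Win y₀ y₁ t₁, 0 < 1 - q.1 := fun q hq => by linarith only [ht₁, hq, hq.1.2]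
  have Apos : ∀ q ∈ Win y₀ y₁ t₁, 0 < ε * (1 - q.1) ^ lam := fun q hq =>
    mul_pos hε (Real.rpow_pos_of_pos (tpos q hq) _)
  have hδ0 : 0 ≤ δ := by
    have h1 := (abs_nonneg _).trans (bv q hq')
    exact nonneg_of_mul_nonneg_left h1 (Apos q hq')
  have hIoo : ∀ q ∈ Win y₀ y₁ t₁, 0 < q.1 → q ∈ reg p w f (Ioo 0 T) := fun q hq h =>
    ⟨⟨h, lt_of_le_of_lt hq.1.2 htT⟩, (hsub hq).2⟩
  have hWprod : Win y₀ y₁ t₁ ⊆ Icc 0 t₁ ×ˢ univ := fun q hq => ⟨hq.1, mem_univ _⟩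
  -- abbreviations
  set Zr : ℝ → ℝ → ℝ := fun t ρ => m1 * (Real.cosh (U t ρ) - Z t ρ) -
    Z t ρ * (U1 t ρ) ^ 2 / 4 - Real.exp (2 * ρ) * R t ρ / (2 * p) with hZrdef
  set NL : ℝ → ℝ → ℝ := fun t ρ => (Z t ρ - 1) * F 2 t ρ + m1 * (Real.cosh (U t ρ) - 1) * F 1 t ρ +
    2 * m1 * (Real.sinh (U t ρ) - U t ρ) with hNLdef
  set NL1 : ℝ → ℝ → ℝ := fun t ρ => Zr t ρ * F 2 t ρ + (Z t ρ - 1) * F 3 t ρ +
    m1 * Real.sinh (U t ρ) * U1 t ρ * F 1 t ρ + m1 * (Real.cosh (U t ρ) - 1) * F 2 t ρ +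
    2 * m1 * (Real.cosh (U t ρ) - 1) * U1 t ρ with hNL1def
  have hZb : ∀ q ∈ Win y₀ y₁ t₁, 1 / 2 ≤ Z q.1 q.2 ∧ Z q.1 q.2 ≤ 2 ∧
      |Zr q.1 q.2| ≤ (2 * m1 + 2) * h ∧ |Zr q.1 q.2| ≤ 1 ∧
      |Zr q.1 q.2 + m1 * Real.cosh (U q.1 q.2) - 2 * Z q.1 q.2| ≤ 2 * m1 + 5 := by
    intro q hq
    obtain ⟨bU, bU1, bZ, bR⟩ := bnd q hq
    exact Z_bounds hm1 (by linarith only [hp'] : (1:ℝ) ≤ 2 * p) hh rfl (U_bounds hh1 bU).1 bU1 bZ bR
  have hNLb : ∀ q ∈ Win y₀ y₁ t₁, |NL q.1 q.2| ≤ C5 * h * (ε * (1 - q.1) ^ lam) ∧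
      |NL1 q.1 q.2 - 2 * NL q.1 q.2| ≤ C5 * h * (ε * (1 - q.1) ^ lam) +
        2 * m1 * |U1 q.1 q.2 - F 1 q.1 q.2| := by
    intro q hq
    obtain ⟨bU, bU1, bZ, bR⟩ := bnd q hq
    have hA := (Apos q hq).le
    exact NL_bounds hm1' hh1 hCF hA rfl rfl bU bU1 bZ (hZb q hq).2.2.1 (bF q hq 0 (by norm_num))
      (bF q hq 1 (by norm_num)) (bF q hq 2 (by norm_num)) (bF q hq 3 le_rfl)
      ((bv q hq).trans (by linarith only [mul_nonneg (sub_nonneg.2 hδ) (sub_nonneg.2 hA)]))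
  have main := bern1_abs (m1 := m1) (lam := lam) (y₀ := y₀) (y₁ := y₁) (t₁ := t₁) (ε := ε)
    (Bb := 2 * m1 + 5) (Cc := 4 * m1) (e0 := δ) (e1 := C5 * h) (e2 := 2 * m1) (D := D) (A1 := A1)
    (B := D ^ 2 * ((1298 + 8 * m1 + 4 * lam * D) * δ ^ 2 + 18 * (C5 * h) ^ 2) + A1 * δ ^ 2)
    hy₀ hy₁ ht₁ hm1' hlam hε (by positivity) rfl (le_max_left _ _) (le_max_right _ _) rfl
    (v := fun t ρ => U t ρ - F 0 t ρ) (w := fun t ρ => U1 t ρ - F 1 t ρ)
    (w1 := fun t ρ => U2 t ρ - F 2 t ρ) (w2 := fun t ρ => deriv (U2 t) ρ - F 3 t ρ)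
    (Z := Z) (Zr := Zr) (ch := fun t ρ => Real.cosh (U t ρ))
    (c := fun t ρ => m1 * Real.sinh (U t ρ) * U1 t ρ + 2 * m1 - 2 * m1 * Real.cosh (U t ρ))
    (NL := NL) (NLr := fun t ρ => NL1 t ρ - 2 * NL t ρ)
    ((hR.cont_U.mono hsub).sub ((hF.cont 0).mono hWprod))
    ((hR.cont_U1.mono hsub).sub ((hF.cont 1).mono hWprod))
    (fun q hq _ => (hR.d1 q (hsub hq)).sub (hF.d 0 q.1 hq.1 q.2))
    (fun q hq _ => (hR.d2 q (hsub hq)).sub (hF.d 1 q.1 hq.1 q.2))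
    (fun q hq h => (exists_deriv_rho hR.isOpen_reg hR.smooth_U2 q (hIoo q hq h)).sub
      (hF.d 2 q.1 hq.1 q.2))
    (fun q hq h => ((hR.dt q (hIoo q hq h)).sub (hF.dt0 q.1 hq.1 q.2)).congr_deriv (by
      simp only [hNLdef]
      ring))
    (fun q hq h => ((RSol.dt1 hR (hIoo q hq h)).sub (hF.dt1 q.1 hq.1 q.2)).congr_deriv (by
      simp only [hNLdef, hNL1def, hZrdef]
      ring))
    (fun q hq => (hZb q hq).1) (fun q hq => (hZb q hq).2.1) (fun q hq => (hZb q hq).2.2.2.1)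
    (fun q hq => (hZb q hq).2.2.2.2)
    (fun q hq => c_bound hm1' hh1 (bnd q hq).1 (bnd q hq).2.1)
    bv (fun q hq => (hNLb q hq).1) (fun q hq => (hNLb q hq).2) b0 q hq'
  -- conclusion
  set A : ℝ := ε * (1 - q.1) ^ lam with hAdef
  have hApos : 0 < A := Apos q hq'
  set W : ℝ := U1 q.1 q.2 - F 1 q.1 q.2 with hW
  have yb := yv_mem ht₁ hq
  have hz : y₀ * y₁ / 2 ≤ zt y₀ y₁ (yv q.1 q.2) := by
    unfold zt
    have h1 : y₀ ≤ yv q.1 q.2 - y₀ := by linarith only [yb, yb.1]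
    have h2 : y₁ / 2 ≤ y₁ - yv q.1 q.2 := by linarith only [yb, yb.2]
    calc y₀ * y₁ / 2 = y₀ * (y₁ / 2) := by ring
      _ ≤ _ := mul_le_mul h1 h2 (by positivity) (by linarith only [hy₀, yb])
  have hz0 : 0 < y₀ * y₁ / 2 := by positivity
  have hB : D ^ 2 * ((1298 + 8 * m1 + 4 * lam * D) * δ ^ 2 + 18 * (C5 * h) ^ 2) + A1 * δ ^ 2 ≤
      K * (δ + h) ^ 2 := by
    have i1 : δ ^ 2 ≤ (δ + h) ^ 2 := pow_le_pow_left₀ hδ0 (by linarith only [h0]) 2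
    have i2 : h ^ 2 ≤ (δ + h) ^ 2 := pow_le_pow_left₀ h0 (by linarith only [hδ0]) 2
    have j1 := mul_le_mul_of_nonneg_left i1
      (by (clear * - hy1 hm1 hlam; positivity) : 0 ≤ D ^ 2 * (1298 + 8 * m1 + 4 * lam * D) + A1)
    have j2 := mul_le_mul_of_nonneg_left i2 (by (clear * - hy1 hCF hm1; positivity) : 0 ≤ D ^ 2 * 18 * C5 ^ 2)
    calc _ = (D ^ 2 * (1298 + 8 * m1 + 4 * lam * D) + A1) * δ ^ 2 +
          D ^ 2 * 18 * C5 ^ 2 * h ^ 2 := by ring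
      _ ≤ _ := add_le_add j1 j2
      _ = _ := by rw [hK]; ring
  have hsq : (y₀ * y₁ / 2) ^ 2 * W ^ 2 ≤ (Real.sqrt K * (δ + h) * A) ^ 2 := by
    have k1 : (y₀ * y₁ / 2) ^ 2 * W ^ 2 ≤ (zt y₀ y₁ (yv q.1 q.2)) ^ 2 * W ^ 2 :=
      mul_le_mul_of_nonneg_right (pow_le_pow_left₀ hz0.le hz 2) (sq_nonneg _)
    have k2 := mul_le_mul_of_nonneg_right hB (sq_nonneg A)
    calc _ ≤ _ := k1
      _ ≤ _ := main
      _ ≤ _ := k2
      _ = (Real.sqrt K * (δ + h) * A) ^ 2 := by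
        have := Real.sq_sqrt hKpos
        calc K * (δ + h) ^ 2 * A ^ 2 = (Real.sqrt K) ^ 2 * (δ + h) ^ 2 * A ^ 2 := by rw [this]
          _ = _ := by ring
  have habs : (y₀ * y₁ / 2) * |W| ≤ Real.sqrt K * (δ + h) * A := by
    refine abs_le_of_sq_le_sq' ?_ (by (clear * - hy1 hm1 hlam hCF hδ0 h0 hApos; positivity)) |>.2
    rw [mul_pow, sq_abs]
    exact hsq
  have hfin : |W| ≤ Real.sqrt K / (y₀ * y₁ / 2) * (δ + h) * A := by
    rw [mul_comm] at habs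
    have := (le_div_iff₀ hz0).2 habs
    calc _ ≤ _ := this
      _ = _ := by ring
  have hpos : 0 ≤ (δ + h) * A := by (clear * - hδ0 h0 hApos; positivity)
  calc |W| ≤ Real.sqrt K / (y₀ * y₁ / 2) * (δ + h) * A := hfin
    _ ≤ Real.sqrt K / (y₀ * y₁ / 2) * (δ + h) * A + (δ + h) * A := by linarith only [hpos]
    _ = _ := by ring

end Vale.Agent.P244.ST.M7a
end
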